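import Crest.Agent.N334.AC.P.Num
import Crest.Agent.N334.AC.M6.Key

/-! # S0520 part P: consequences of the invariant (helper21)
`tw_of`: `ct_decay` (AC/CT) for the blocks on `opn f.wr`; `ker`: `M6.LB.key` with `Led.cap`;
`core`: resolvent identity with `shield`, `dwl` nearby, `far3` beyond. -/

set_option autoImplicit false

open Finset Complex
open scoped Matrix.Norms.L2Operator Matrix

namespace Crest.Agent.N334.AC.P

variable {d M : ℕ} [NeZero M] {c : Cx d M} {e : Ep} {g : Sg} {f : Ref d M}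

namespace DerH

lemma C30 (h : c.OK) : c.C ≤ c.C ^ 30 := le_self_pow₀ h.C1 (by norm_num)

lemma C3 (h : c.OK) : c.C ^ 3 ≤ c.C ^ 30 := pow_le_pow_right₀ h.C1 (by norm_num)

lemma e'0 (L : Led c e g) : 0 ≤ g.e' := by
  have h1 := L.e_inc
  have h2 := L.e0
  have h3 : 0 ≤ (e.P : ℝ) ^ 3 * g.z := mul_nonneg (by positivity) L.z0
  linarith

lemma Ce' (L : Led c e g) : 100 * (c.C * g.e') ≤ 1 := by
  have h1 := L.e'_small
  have h2 := mul_le_mul_of_nonneg_right (C30 L.ok) (e'0 L)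
  have h3 : 0 ≤ c.C ^ 30 * g.e' := mul_nonneg (by have := L.ok.C1; positivity) (e'0 L)
  nlinarith

lemma e'1 (L : Led c e g) : 100 * g.e' ≤ 1 := by
  have h1 := Ce' L
  have h2 := mul_le_mul_of_nonneg_right L.ok.C1 (e'0 L)
  linarith

lemma C3γ (h : c.OK) : 100 * (c.C ^ 3 * c.γ) ≤ 1 := by
  have h1 := h.γ_le
  have h2 := mul_le_mul_of_nonneg_right (C3 h) h.γ0.le
  have h3 : 0 ≤ c.C ^ 30 * c.γ := mul_nonneg (by have := h.C1; positivity) h.γ0.le
  nlinarith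

lemma γ1 (h : c.OK) : 100 * c.γ ≤ 1 := by
  have h1 := C3γ h
  have h2 := mul_le_mul_of_nonneg_right (one_le_pow₀ (n := 3) h.C1) h.γ0.le
  linarith

lemma Cσ (h : c.OK) : 100 * (c.C * c.σ) ≤ 1 := by
  have h1 := h.σ_le
  have h2 := mul_le_mul_of_nonneg_right (C30 h) h.σ0.le
  have h3 : 0 ≤ c.C ^ 30 * c.σ := mul_nonneg (by have := h.C1; positivity) h.σ0.le
  nlinarith

lemma σ1 (h : c.OK) : 100 * c.σ ≤ 1 := by
  have h1 := Cσ h
  have h2 := mul_le_mul_of_nonneg_right h.C1 h.σ0.le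
  linarith

omit [NeZero M] in
lemma gam_abs {w : Tor d M → ℂ} {x : Tor d M} {a : ℝ} (h : ‖w x - c.w0‖ ≤ a) :
    |gam w x - c.γ| ≤ a := by
  have h1 := Complex.abs_im_le_norm (w x - c.w0)
  have e1 : gam w x - c.γ = -(w x - c.w0).im := by simp [gam, Cx.γ]; ring
  rw [e1, abs_neg]
  exact h1.trans h

lemma sub0 {s : St d M} (hf : RefOK c e f) (hb : Bas c e f s) : opn s.w ⊆ opn f.wr := by
  intro x hx
  by_cases h : x ∈ f.ord0
  · exact hf.opn0 h
  · rw [mem_opn] at hx ⊢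
    rwa [gam, ← hb.off x h]

lemma δ_zero {s : St d M} (hb : Bas c e f s) {x : Tor d M} (hx : x ∉ f.ord0) :
    (s.w - f.wr) x = 0 := by
  rw [Pi.sub_apply, hb.off x hx, sub_self]

lemma δ_le (L : Led c e g) (hf : RefOK c e f) {s : St d M} (hb : Bas c e f s)
    (hn : ∀ x, gam s.w x ≠ 0 → ‖s.w x - c.w0‖ ≤ g.e' * c.γ) (x : Tor d M) :
    ‖(s.w - f.wr) x‖ ≤ 1 := by
  by_cases h : x ∈ f.ord0
  swap
  · rw [δ_zero hb h, norm_zero]; exact zero_le_one
  have h1 := hf.near x (mem_opn.1 (hf.opn0 h))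
  have h2 := γ1 L.ok
  have h3 := L.ok.γ0
  have h4 : ‖s.w x - c.w0‖ ≤ 1 / 2 := by
    by_cases h0 : gam s.w x = 0
    · obtain ⟨h5, h6⟩ := hb.cls x h0
      have h7 := (hb.rng x).2
      have h8 := L.ok.v_le x (k := (s.S x).1) (by omega)
      have h9 := norm_sub_le (s.w x) c.w0
      have h10 := L.ok.init.w_le
      rw [h6, Complex.norm_real, Real.norm_eq_abs] at h9
      rw [h6]
      have := σ1 L.ok
      have := Cσ L.ok
      have := L.ok.σ0
      nlinarith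
    · have h5 := hn x h0
      have := e'1 L
      nlinarith
  have e1 : (s.w - f.wr) x = (s.w x - c.w0) - (f.wr x - c.w0) := by simp
  rw [e1]
  have := norm_sub_le (s.w x - c.w0) (f.wr x - c.w0)
  linarith


lemma D'_le (L : Led c e g) : D' e g ≤ e.Bg := by
  refine le_trans ?_ L.B_P
  have h1 := L.D1
  have h2 : (1 : ℝ) ≤ e.P := le_trans (by norm_num) L.P_ge
  have h3 : (e.P : ℝ) ^ 3 ≤ (e.P : ℝ) ^ 7 := pow_le_pow_right₀ h2 (by norm_num)
  unfold D'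
  gcongr

end DerH

open DerH

theorem tw_of (L : Led c e g) (hf : RefOK c e f) {s : St d M} (hb : Bas c e f s)
    (hn : ∀ x, gam s.w x ≠ 0 → ‖s.w x - c.w0‖ ≤ g.e' * c.γ)
    (hK : ‖cmp (c.G s.w) (opn f.wr)‖ ≤ (e.P : ℝ) ^ 4 * D' e g) :
    TW e.ϑ e.Bg (cmp (c.G s.w) (opn f.wr)) ∧ ∀ a ∈ opn f.wr, ∀ b ∈ opn f.wr,
      ‖c.G s.w a b‖ ≤ e.Bg * Real.exp (-e.ϑ * tdist a b) := by
  have hγ := L.ok.γ0
  have hγ1 := γ1 L.ok
  have hϑ := L.ϑ0
  have hθ : 0 < e.θ0 := by linarith [L.ϑ1]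
  have hA0 := L.A00
  set K := (e.P : ℝ) ^ 4 * D' e g with hKd
  have hK0 : 0 ≤ K := (norm_nonneg _).trans hK
  set S := e.A0 * (2 * e.ϑ / e.θ0) * (12 * d / e.θ0) ^ d with hS
  have hS0 : 0 ≤ S := by positivity
  have hS1 : 4 * (S * (1 + K)) ≤ 1 := by
    refine le_trans (le_of_eq ?_) L.ct
    rw [hS]; ring
  have hres := mask_resolvent (hf.adm.resolvent hb.adm) (opn f.wr)
    fun i hi => δ_zero hb fun h => hi (hf.opn0 h)
  have hA : ‖cmp (Gm c.A f.wr) (opn f.wr)‖ ≤ 1 / (c.γ / 2) :=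
    hf.adm.norm_cmp (by positivity) fun x hx => by
      have := abs_le.1 (gam_abs (hf.near x (mem_opn.1 hx)))
      linarith [this.1]
  have hdec : Dec (mask (opn f.wr) (opn f.wr) (Gm c.A f.wr)) e.A0 e.θ0 := fun a b => by
    rw [mask_apply]
    split_ifs with h
    · exact hf.dec a h.1 b h.2
    · rw [norm_zero]; positivity
  obtain ⟨h1, h2⟩ := ct_decay (s := 1) (B := K) (A := 1 / (c.γ / 2)) (S := S) (lam := e.ϑ) hres
    zero_le_one hK0 (by positivity) (δ_le L hf hb hn) ((bd_iff_norm hK0).2 hK)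
    ((bd_iff_norm (by positivity)).2 hA) hdec hθ L.θ1 hϑ.le L.ϑ1 le_rfl (by nlinarith)
  have hB : 2 * (1 + 1 * K) * (1 / (c.γ / 2) + S) ≤ e.Bg := by
    refine le_trans ?_ L.B_K
    have h3 : S ≤ 1 / c.γ := by
      rw [le_div_iff₀ hγ]
      nlinarith [mul_nonneg hS0 hK0]
    have h4 : 0 < 1 / c.γ := by positivity
    have e1 : 1 / (c.γ / 2) = 2 * (1 / c.γ) := by field_simp
    have e2 : 8 * (1 + K) / c.γ = 8 * (1 + K) * (1 / c.γ) := by field_simp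
    rw [e1, e2]
    nlinarith [mul_nonneg hK0 h4.le, mul_le_mul_of_nonneg_left h3 (by positivity : 0 ≤ 1 + K)]
  have hB0 : 0 ≤ 2 * (1 + 1 * K) * (1 / (c.γ / 2) + S) := by positivity
  refine ⟨fun φ hφ => ?_, fun a ha b hb' => ?_⟩
  · have h3 := (bd_iff_norm hB0).1 (h1 (fun x => e.ϑ * φ x) fun a b => by
      rw [← mul_sub, abs_mul, abs_of_pos hϑ]
      exact mul_le_mul_of_nonneg_left (hφ a b) hϑ.le)
    refine le_trans (le_of_eq ?_) (h3.trans hB)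
    congr 1
    ext a b
    simp only [wt, tw_apply, Cx.G, mul_sub]
    rfl
  · have h3 := h2 a b
    rw [mask_apply, if_pos ⟨ha, hb'⟩] at h3
    exact h3.trans (mul_le_mul_of_nonneg_right hB (Real.exp_nonneg _))

namespace DerH

lemma shield (L : Led c e g) (hf : RefOK c e f) {s : St d M} (hb : Bas c e f s)
    (hn : ∀ x, gam s.w x ≠ 0 → ‖s.w x - c.w0‖ ≤ g.e' * c.γ) {y x : Tor d M} (hy : y ∈ s.ord)
    (hD : ∑ z ∈ opn f.wr, ‖c.G s.w z y‖ ^ 2 ≤ e.Bg) (hx : x ∈ opn f.wr) (hT : x ∉ f.T)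
    (ha : x ∉ absb d M) : ‖c.G s.w x y‖ ^ 2 ≤ 4 * (e.Bg * e.τ) := by
  have h1 := hf.shield x hx hT ha
  have hτ := L.τ0
  have hB : (1 : ℝ) ≤ e.Bg := le_trans (by norm_num) L.B_ge
  have h2 : ‖c.G f.wr x y‖ ^ 2 ≤ e.τ :=
    (single_le_sum (f := fun y => ‖c.G f.wr x y‖ ^ 2) (fun _ _ => sq_nonneg _) (hb.sub hy)).trans h1
  have e1 : c.G s.w x y = c.G f.wr x y -
      ∑ z ∈ f.ord0, c.G f.wr x z * (s.w - f.wr) z * c.G s.w z y := by
    have h3 := congrFun (congrFun (hf.adm.resolvent hb.adm) x) y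
    rw [Matrix.sub_apply, Matrix.mul_apply] at h3
    simp only [Matrix.mul_diagonal] at h3
    rw [Cx.G, Cx.G, h3]
    congr 1
    refine (sum_subset (subset_univ _) fun z _ hz => ?_).symm
    rw [δ_zero hb hz, mul_zero, zero_mul]
  have h3 : ‖∑ z ∈ f.ord0, c.G f.wr x z * (s.w - f.wr) z * c.G s.w z y‖ ^ 2 ≤
      1 ^ 2 * ((∑ z ∈ f.ord0, ‖c.G f.wr x z‖ ^ 2) * ∑ z ∈ f.ord0, ‖c.G s.w z y‖ ^ 2) :=
    Bs.norm_sum_sq_le _ (fun _ _ => sq_nonneg _) (fun _ _ => sq_nonneg _) fun z _ => by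
      rw [norm_mul, norm_mul, mul_pow, mul_pow]
      have h4 := pow_le_pow_left₀ (norm_nonneg _) (δ_le L hf hb hn z) 2
      have h5 : 0 ≤ ‖c.G f.wr x z‖ ^ 2 * ‖c.G s.w z y‖ ^ 2 := by positivity
      nlinarith [mul_le_mul_of_nonneg_right h4 h5]
  have h4 : ∑ z ∈ f.ord0, ‖c.G s.w z y‖ ^ 2 ≤ e.Bg :=
    (sum_le_sum_of_subset_of_nonneg hf.opn0 fun _ _ _ => sq_nonneg _).trans hD
  have h5 : (∑ z ∈ f.ord0, ‖c.G f.wr x z‖ ^ 2) * ∑ z ∈ f.ord0, ‖c.G s.w z y‖ ^ 2 ≤ e.τ * e.Bg :=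
    mul_le_mul h1 h4 (sum_nonneg fun _ _ => sq_nonneg _) hτ
  rw [e1]
  generalize ∑ z ∈ f.ord0, c.G f.wr x z * (s.w - f.wr) z * c.G s.w z y = u at h3
  have h6 := pow_le_pow_left₀ (norm_nonneg _) (norm_sub_le (c.G f.wr x y) u) 2
  nlinarith [sq_nonneg (‖c.G f.wr x y‖ - ‖u‖), mul_le_mul_of_nonneg_right hB hτ]

lemma core (L : Led c e g) (hf : RefOK c e f) {s : St d M} (hb : Bas c e f s)
    (hn : ∀ x, gam s.w x ≠ 0 → ‖s.w x - c.w0‖ ≤ g.e' * c.γ) {y : Tor d M} (hy : y ∈ s.ord)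
    (hD : ∑ z ∈ opn f.wr, ‖c.G s.w z y‖ ^ 2 ≤ e.Bg)
    (hdec : ∀ a ∈ opn f.wr, ∀ b ∈ opn f.wr, ‖c.G s.w a b‖ ≤ e.Bg * Real.exp (-e.ϑ * tdist a b)) :
    e.Bg * ∑ x ∈ (opn s.w \ f.T) \ absb d M, ‖c.G s.w y x‖ ^ 2 ≤ 1 := by
  have hB := L.B_ge
  have hB1 : (1 : ℝ) ≤ e.Bg := le_trans (by norm_num) hB
  have hτ := L.τ0
  have hy' : y ∈ opn f.wr := hf.opn0 (hb.sub hy)
  set U := (opn s.w \ f.T) \ absb d M with hU
  have hmem : ∀ x ∈ U, x ∈ opn f.wr ∧ x ∉ f.T ∧ x ∉ absb d M := fun x hx => by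
    rw [hU, mem_sdiff, mem_sdiff] at hx
    exact ⟨sub0 hf hb hx.1.1, hx.1.2, hx.2⟩
  rw [← sum_filter_add_sum_filter_not U fun x => tdist x y ≤ e.ρ]
  have h1 : ∑ x ∈ U.filter fun x => tdist x y ≤ e.ρ, ‖c.G s.w y x‖ ^ 2 ≤
      e.Bg * (4 * (e.Bg * e.τ)) := by
    have h2 := sum_le_card_nsmul (U.filter fun x => tdist x y ≤ e.ρ)
      (fun x => ‖c.G s.w y x‖ ^ 2) (4 * (e.Bg * e.τ)) fun x hx => by
        obtain ⟨h3, h4, h5⟩ := hmem x (mem_filter.1 hx).1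
        rw [Cx.G, hb.adm.G_sym]
        exact shield L hf hb hn hy hD h3 h4 h5
    rw [nsmul_eq_mul] at h2
    refine h2.trans (mul_le_mul_of_nonneg_right ?_ (by positivity))
    have h3 : ((U.filter fun x => tdist x y ≤ e.ρ).card : ℝ) ≤ (tball y (10 * e.ρ)).card := by
      exact_mod_cast card_le_card fun x hx => mem_tball.2 (by
        have := (mem_filter.1 hx).2
        omega)
    rw [card_tball] at h3
    exact h3.trans L.B_vol
  have h2 : ∑ x ∈ U.filter fun x => ¬ tdist x y ≤ e.ρ, ‖c.G s.w y x‖ ^ 2 ≤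
      e.Bg ^ 2 * ∑ x ∈ univ.filter (fun x => e.ρ < tdist x y), Real.exp (-e.ϑ * tdist x y) := by
    rw [mul_sum]
    refine le_trans (sum_le_sum fun x hx => ?_) (sum_le_sum_of_subset_of_nonneg
      (fun x hx => mem_filter.2 ⟨mem_univ _, not_le.1 (mem_filter.1 hx).2⟩)
      fun _ _ _ => by positivity)
    have h3 := hdec y hy' x (hmem x (mem_filter.1 hx).1).1
    rw [tdist_comm] at h3
    have h4 := pow_le_pow_left₀ (norm_nonneg _) h3 2
    have h5 : Real.exp (-e.ϑ * tdist x y) ≤ 1 := Real.exp_le_one_iff.2 (by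
      have := L.ϑ0
      have : (0 : ℝ) ≤ tdist x y := by positivity
      nlinarith)
    have h6 := Real.exp_nonneg (-e.ϑ * tdist x y)
    refine h4.trans ?_
    rw [mul_pow]
    exact mul_le_mul_of_nonneg_left (by nlinarith) (sq_nonneg _)
  have h3 := L.far3 y
  have h4 := L.τ_le
  generalize ∑ x ∈ univ.filter (fun x => e.ρ < tdist x y), Real.exp (-e.ϑ * tdist x y) = Z
    at h2 h3
  have hZ : 0 ≤ e.Bg ^ 2 * Z := (sum_nonneg fun _ _ => sq_nonneg _).trans h2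
  have h5 : 8 * (e.Bg ^ 3 * e.τ) ≤ e.Bg ^ 5 * e.τ := by
    have : 8 ≤ e.Bg ^ 2 := by nlinarith
    nlinarith [mul_le_mul_of_nonneg_right this (by positivity : 0 ≤ e.Bg ^ 3 * e.τ)]
  have h6 : 2 * (e.Bg * (e.Bg ^ 2 * Z)) ≤ e.Bg ^ 30 * Z := by
    have h7 : 2 * e.Bg ≤ e.Bg ^ 28 :=
      le_trans (by nlinarith) (pow_le_pow_right₀ hB1 (by norm_num : 2 ≤ 28))
    nlinarith [mul_le_mul_of_nonneg_right h7 hZ]
  have h7 := mul_le_mul_of_nonneg_left (add_le_add h1 h2) (by positivity : 0 ≤ e.Bg)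
  nlinarith

lemma ker (L : Led c e g) (hf : RefOK c e f) {t : Th} (ht : ThLe e g t) {s : St d M}
    (h : Inv c e f t s) (u : Tor d M → ℝ) (hu : ∀ x, 0 ≤ u x) :
    c.γ * ∑ a ∈ s.ord, ∑ b ∈ s.ord.erase a, ‖c.G s.w a b‖ ^ 2 * (u a * u b) ≤
      20 * c.C ^ 2 * (g.e' * ∑ a ∈ s.ord, u a ^ 2 + g.F * (∑ a ∈ s.ord, u a) ^ 2) := by
  have hγ := L.ok.γ0
  have hC := L.ok.C1
  have he0 := e'0 L
  have he1 := e'1 L
  have hCe := Ce' L
  have hF := L.F0
  have hμ1 := L.ok.μ_lo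
  have hμ2 := L.ok.μ_hi
  have hμ : 0 < c.μ := by nlinarith
  have hg : ∀ x ∈ s.ord, |gam s.w x - c.γ| ≤ g.e' * c.γ := fun x hx =>
    gam_abs ((h.near x (h.bas.opn x hx)).trans (mul_le_mul_of_nonneg_right ht.e_le hγ.le))
  have hlb : M6.LB c.E0 c.A s.w g.e' := M6.LB.mono h.lb (fun ψ => En_nn _ ψ) ht.e_le
  have key := hlb.key (δ := 3 * (c.C * g.e')) h.bas.adm (by linarith) hμ
    (L.cap s.ord (h.sep.mono ht.R Subset.rfl)) (by linarith) hF
    (l := fun x => if x ∈ s.ord then u x else 0) fun x hx => by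
      have hx' : x ∈ s.ord := by by_contra h0; exact hx (if_neg h0)
      have hT := hf.sub (h.bas.sub hx')
      refine ⟨hx', disjoint_left.1 hf.dT hT, h.bas.opn x hx', ?_⟩
      rw [h.bas.adm.mu_eq]
      have h1 := (abs_le.1 (hg x hx')).2
      have h2 := h.bas.adm.diss x
      have h3 := (h.diag x hT (h.bas.opn x hx')).trans ht.e_le
      have h4 := (abs_le.1 ((Complex.abs_im_le_norm _).trans h3)).2
      rw [Complex.sub_im] at h4
      have h5 : (Gm c.A s.w x x).im - gam s.w x * ‖Gm c.A s.w x x‖ ^ 2 ≤ (c.G0 0 0).im + g.e' := by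
        have : 0 ≤ gam s.w x * ‖Gm c.A s.w x x‖ ^ 2 := by positivity
        have e1 : Gm c.A s.w x x = c.G s.w x x := rfl
        rw [e1] at this ⊢
        linarith
      have h6 : 0 ≤ (c.G0 0 0).im := by
        have : c.μ = c.γ * (c.G0 0 0).im := rfl
        nlinarith
      have h7 := mul_le_mul_of_nonneg_left h5 h2
      have h8 := mul_le_mul_of_nonneg_right (show gam s.w x ≤ (1 + g.e') * c.γ by linarith)
        (add_nonneg h6 he0)
      have e2 : (1 + g.e') * c.γ * ((c.G0 0 0).im + g.e') = (1 + g.e') * (c.μ + g.e' * c.γ) := by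
        rw [Cx.μ]; ring
      have h9 := mul_le_mul_of_nonneg_left hμ1 he0
      have h10 : (1 + g.e') * (c.μ + g.e' * c.γ) ≤ (1 + g.e') * (c.μ + g.e' * (c.C * c.μ)) := by
        gcongr
      have h11 : g.e' ≤ c.C * g.e' := le_mul_of_one_le_left he0 hC
      have h12 : (1 + g.e') * (1 + c.C * g.e') ≤ 1 + 3 * (c.C * g.e') := by nlinarith
      nlinarith [mul_le_mul_of_nonneg_right h12 hμ.le]
  have e1 : ∑ x, (if x ∈ s.ord then u x else 0) ^ 2 = ∑ a ∈ s.ord, u a ^ 2 := by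
    simp [sum_ite_mem]
  have e2 : ∑ x, |if x ∈ s.ord then u x else 0| = ∑ a ∈ s.ord, u a := by
    rw [← univ_inter s.ord, ← sum_ite_mem, univ_inter]
    refine sum_congr rfl fun x _ => ?_
    split_ifs
    · exact abs_of_nonneg (hu x)
    · exact abs_zero
  rw [e1, e2] at key
  have hl : ∀ x, 0 ≤ if x ∈ s.ord then u x else 0 := fun x => by
    split_ifs
    · exact hu x
    · exact le_rfl
  have h1 : (9 / 10 * c.γ) ^ 2 * ∑ a ∈ s.ord, ∑ b ∈ s.ord.erase a,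
      ‖c.G s.w a b‖ ^ 2 * (u a * u b) ≤ ∑ x, ∑ z ∈ univ.erase x, ‖Km c.A s.w x z‖ ^ 2 *
        ((if x ∈ s.ord then u x else 0) * if z ∈ s.ord then u z else 0) := by
    rw [mul_sum]
    refine le_trans (sum_le_sum fun a ha => ?_) (sum_le_sum_of_subset_of_nonneg (subset_univ _)
      fun x _ _ => sum_nonneg fun z _ => mul_nonneg (sq_nonneg _) (mul_nonneg (hl x) (hl z)))
    rw [mul_sum]
    refine le_trans (sum_le_sum fun b hb => ?_) (sum_le_sum_of_subset_of_nonneg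
      (erase_subset_erase a (subset_univ s.ord))
      fun z _ _ => mul_nonneg (sq_nonneg _) (mul_nonneg (hl a) (hl z)))
    have hb' := mem_of_mem_erase hb
    rw [if_pos ha, if_pos hb', h.bas.adm.K_sq, ← mul_assoc]
    refine mul_le_mul_of_nonneg_right (mul_le_mul_of_nonneg_right ?_ (sq_nonneg _))
      (mul_nonneg (hu a) (hu b))
    have h2 := (abs_le.1 (hg a ha)).1
    have h3 := (abs_le.1 (hg b hb')).1
    rw [sq]
    exact mul_le_mul (by nlinarith) (by nlinarith) (by positivity) (h.bas.adm.diss a)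
  have hX : 0 ≤ ∑ a ∈ s.ord, u a ^ 2 := sum_nonneg fun _ _ => sq_nonneg _
  have hY := sq_nonneg (∑ a ∈ s.ord, u a)
  generalize ∑ a ∈ s.ord, u a ^ 2 = X at *
  generalize (∑ a ∈ s.ord, u a) ^ 2 = Y at *
  have h2 := h1.trans key
  generalize ∑ a ∈ s.ord, ∑ b ∈ s.ord.erase a, ‖c.G s.w a b‖ ^ 2 * (u a * u b) = Z at *
  have h3 : (1 + g.e') / (1 - g.e') - 1 + 3 * (c.C * g.e') ≤ 6 * (c.C * g.e') := by
    have : (1 + g.e') / (1 - g.e') ≤ 1 + 3 * g.e' := by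
      rw [div_le_iff₀ (by linarith)]; nlinarith
    nlinarith [le_mul_of_one_le_left he0 hC]
  have h4 : g.F / (1 - g.e') ≤ 6 * (c.C * g.F) := by
    rw [div_le_iff₀ (by linarith)]
    nlinarith [le_mul_of_one_le_left hF hC, mul_le_mul_of_nonneg_left he1 (mul_nonneg (by linarith : 0 ≤ c.C) hF)]
  have h5 : ((1 + g.e') / (1 - g.e') - 1 + 3 * (c.C * g.e')) * X + g.F / (1 - g.e') * Y ≤
      6 * c.C * (g.e' * X + g.F * Y) := by
    nlinarith [mul_le_mul_of_nonneg_right h3 hX, mul_le_mul_of_nonneg_right h4 hY]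
  have hW : 0 ≤ g.e' * X + g.F * Y := by positivity
  generalize g.e' * X + g.F * Y = W at *
  have h6 : (9 / 10 * c.γ) ^ 2 * Z ≤ c.C * c.γ * (6 * c.C * W) :=
    h2.trans ((mul_le_mul_of_nonneg_left h5 hμ.le).trans
      (mul_le_mul_of_nonneg_right hμ2 (by positivity)))
  refine le_of_mul_le_mul_left ?_ hγ
  nlinarith [mul_nonneg hγ.le (mul_nonneg (sq_nonneg c.C) hW)]

end DerH

theorem der (L : Led c e g) (hf : RefOK c e f) {t : Th} (ht : ThLe e g t) {s : St d M}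
    (h : Inv c e f t s) : Der c e g f s := by
  have hγ := L.ok.γ0
  have hC := L.ok.C1
  have he0 := e'0 L
  have he1 := e'1 L
  have hn : ∀ x, gam s.w x ≠ 0 → ‖s.w x - c.w0‖ ≤ g.e' * c.γ := fun x hx =>
    (h.near x hx).trans (mul_le_mul_of_nonneg_right ht.e_le hγ.le)
  have hle : ∀ x, gam s.w x ≤ 11 / 10 * c.γ := fun x => by
    by_cases hx : gam s.w x = 0
    · rw [hx]; positivity
    · have := (abs_le.1 (gam_abs (hn x hx))).2
      nlinarith
  have hw : ∀ x, gam s.w x ≠ 0 → ‖s.w x‖ ≤ 2 * c.C * c.σ ^ 2 := fun x hx => by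
    have h1 := norm_add_le (s.w x - c.w0) c.w0
    rw [sub_add_cancel] at h1
    have h2 := hn x hx
    have h3 := L.ok.init.w_le
    have h4 := L.ok.γ_hi
    nlinarith
  have hg : ∀ b ∈ f.T, gam s.w b ≠ 0 → ‖c.G s.w b b‖ ≤ 2 * c.C := fun b hb hb' => by
    have h1 := norm_add_le (c.G s.w b b - c.G0 0 0) (c.G0 0 0)
    rw [sub_add_cancel] at h1
    have h2 := (h.diag b hb hb').trans ht.e_le
    have h3 := L.ok.G0_le 0 0
    linarith
  have hT : ∀ a ∈ s.ord, a ∈ f.T := fun a ha => hf.sub (h.bas.sub ha)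
  have hs : Sml (2 * c.C) c.σ c.N := L.ok.sml (by linarith) (by linarith)
  obtain ⟨htw, hdec⟩ := tw_of L hf h.bas hn (h.nrm.trans ht.K)
  refine ⟨fun x hx => ?_, hle, hw, sub0 hf h.bas, hg, fun a ha b hb hb' => ?_, fun a ha => ?_,
    fun y hy k hk => hs.den (hg y (hT y hy) (h.bas.opn y hy)) (hw y (h.bas.opn y hy))
      (L.ok.v_le y hk), fun y hy k hk => ?_, htw, hdec, DerH.ker L hf ht h, fun y hy =>
      DerH.core L hf h.bas hn hy ((h.dwl y hy).trans (ht.D.trans (D'_le L))) hdec⟩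
  · have := (abs_le.1 (gam_abs (hn x hx))).1
    nlinarith
  · by_cases hab : a = b
    · rw [hab]; exact hg b hb hb'
    · have h1 := norm_add_le (c.G s.w a b - c.G0 a b) (c.G0 a b)
      rw [sub_add_cancel] at h1
      have h2 := (h.pair a ha b hb hb' hab).trans (ht.X.trans L.X'_le)
      have h3 := L.ok.G0_le a b
      linarith
  · have h1 := h.bas.adm.ward_diag a
    rw [← add_sum_erase _ _ (mem_univ a)] at h1
    have h2 := (h.diag a (hT a ha) (h.bas.opn a ha)).trans ht.e_le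
    have h3 := (abs_le.1 ((Complex.abs_im_le_norm _).trans h2)).1
    rw [Complex.sub_im] at h3
    have h4 : 1 / c.C ≤ (c.G0 0 0).im := L.ok.init.im_lo
    have h5 := pow_le_pow_left₀ (norm_nonneg _) (hg a (hT a ha) (h.bas.opn a ha)) 2
    have h6 : gam s.w a * ‖c.G s.w a a‖ ^ 2 ≤ 11 / 10 * c.γ * (2 * c.C) ^ 2 :=
      mul_le_mul (hle a) h5 (sq_nonneg _) (by positivity)
    have h7 : g.e' ≤ 1 / (4 * c.C) := by
      rw [le_div_iff₀ (by positivity)]; nlinarith [Ce' L]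
    have h8 : 11 / 10 * c.γ * (2 * c.C) ^ 2 ≤ 1 / (4 * c.C) := by
      rw [le_div_iff₀ (by positivity)]; nlinarith [C3γ L.ok]
    have e1 : 1 / c.C = 4 * (1 / (4 * c.C)) := by field_simp
    have h9 : 0 < 1 / (4 * c.C) := by positivity
    simp only [Cx.G] at h3 h6 ⊢
    linarith
  · have h1 := hs.tau_le (hg y (hT y hy) (h.bas.opn y hy)) (hw y (h.bas.opn y hy))
      (L.ok.v_le y hk)
    have h2 := pow_le_pow_left₀ (norm_nonneg _) h1 2
    have h3 := L.ok.γ_lo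
    rw [Cx.τ]
    nlinarith

end Crest.Agent.N334.AC.P
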