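import Crest.Agent.N334.AC.P.Defs

/-! # S0520 part P: numerical toolkit (helper50; proofs helper52)
All from `Led`. `κ = (100 d C)^(10 d) ≥ 10^60 C^30` and `κ ≥ (100 d)^(5 d) 10^30 C^15`. -/

set_option autoImplicit false
set_option linter.unusedSectionVars false

open Finset Complex
open scoped Matrix.Norms.L2Operator Matrix

namespace Crest.Agent.N334.AC.P

variable {d M : ℕ} [NeZero M] {c : Cx d M} {e : Ep} {g : Sg} {f : Ref d M}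

lemma Cx.OK.κ1 (h : c.OK) : 10 ^ 60 * c.C ^ 30 ≤ c.κ := by
  have hd : (3 : ℝ) ≤ d := by exact_mod_cast h.hd
  have hC := h.C1
  calc 10 ^ 60 * c.C ^ 30 = (100 * c.C) ^ 30 := by ring
    _ ≤ (100 * d * c.C) ^ 30 := pow_le_pow_left₀ (by positivity) (by nlinarith) _
    _ ≤ _ := pow_le_pow_right₀ (by nlinarith) (by have := h.hd; omega)
lemma Cx.OK.κ2 (h : c.OK) : (100 * d : ℝ) ^ (5 * d) * (10 ^ 30 * c.C ^ 15) ≤ c.κ := by
  have hd : (3 : ℝ) ≤ d := by exact_mod_cast h.hd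
  have hC := h.C1
  rw [Cx.κ, show 10 * d = 5 * d + 5 * d by ring, pow_add]
  refine mul_le_mul (pow_le_pow_left₀ (by positivity) (by nlinarith) _) ?_ (by positivity)
    (by positivity)
  calc 10 ^ 30 * c.C ^ 15 = (100 * c.C) ^ 15 := by ring
    _ ≤ (100 * d * c.C) ^ 15 := pow_le_pow_left₀ (by positivity) (by nlinarith) _
    _ ≤ _ := pow_le_pow_right₀ (by nlinarith) (by have := h.hd; omega)
lemma Cx.OK.γ_lo (h : c.OK) : c.σ ^ 2 ≤ c.C * c.γ := by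
  have := h.init.gam_lo
  rwa [div_le_iff₀' (by linarith [h.C1])] at this
lemma Cx.OK.γ_hi (h : c.OK) : c.γ ≤ c.C * c.σ ^ 2 := by
  exact ((neg_le_abs _).trans (abs_im_le_norm _)).trans h.init.w_le
lemma Cx.OK.γ0 (h : c.OK) : 0 < c.γ := by
  exact (div_pos (pow_pos h.σ0 2) (by linarith [h.C1])).trans_le h.init.gam_lo
lemma Cx.OK.σ_le (h : c.OK) : 10 ^ 60 * c.C ^ 30 * c.σ ≤ 1 := by
  exact (mul_le_mul_of_nonneg_right h.κ1 h.σ0.le).trans h.σ1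
lemma Cx.OK.γ_le (h : c.OK) : 10 ^ 60 * c.C ^ 30 * c.γ ≤ 1 := by
  have hC := h.C1
  have h1 : c.C * c.σ ≤ 1 := by
    refine le_trans (mul_le_mul_of_nonneg_right ?_ h.σ0.le) h.σ_le
    nlinarith [le_self_pow₀ hC (by norm_num : 30 ≠ 0)]
  have h2 : c.γ ≤ c.σ := h.γ_hi.trans (by nlinarith [h.σ0])
  exact (mul_le_mul_of_nonneg_left h2 (by positivity)).trans h.σ_le
lemma Cx.OK.sml (h : c.OK) {C' : ℝ} (h1 : 1 ≤ C') (h2 : C' ≤ 100 * c.C) : Sml C' c.σ c.N := by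
  have hC := h.C1
  refine ⟨h1, h.σ0, le_trans (mul_le_mul_of_nonneg_right ?_ h.σ0.le) h.σ_le, h.N1⟩
  have h3 := pow_le_pow_left₀ (by linarith) h2 3
  have h4 : c.C ^ 3 ≤ c.C ^ 30 := pow_le_pow_right₀ hC (by norm_num)
  have h5 : 0 ≤ c.C ^ 3 := by positivity
  rw [mul_pow] at h3
  linarith
lemma Cx.OK.N0 (h : c.OK) : 0 < c.N := by
  exact (h.sml le_rfl (by linarith [h.C1])).N_pos
lemma Cx.OK.v_le (h : c.OK) (x : Tor d M) {k : ℕ} (hk : k < c.N) : |c.v x k| ≤ c.σ := by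
  exact abs_val_le h.σ0.le (h.r01 x) hk
lemma Cx.OK.μ_lo (h : c.OK) : c.γ ≤ c.C * c.μ := by
  have h1 := h.init.im_lo
  rw [div_le_iff₀' (by linarith [h.C1])] at h1
  rw [Cx.μ, mul_left_comm]
  exact le_mul_of_one_le_right h.γ0.le h1
lemma Cx.OK.μ_hi (h : c.OK) : c.μ ≤ c.C * c.γ := by
  rw [Cx.μ, mul_comm]
  exact mul_le_mul_of_nonneg_right ((im_le_norm _).trans (h.init.sup 0 0)) h.γ0.le
lemma Cx.OK.G0_diag (h : c.OK) (x : Tor d M) : c.G0 x x = c.G0 0 0 := by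
  have := h.init.transl x x
  rwa [sub_self] at this
lemma Cx.OK.G0_le (h : c.OK) (x y : Tor d M) : ‖c.G0 x y‖ ≤ c.C := by
  exact h.init.sup x y
lemma dt_pos : 0 < dt d M := by
  exact one_div_pos.2 (Nat.cast_pos.2 Fintype.card_pos)
lemma Cx.OK.dt_le (h : c.OK) : dt d M ≤ 1 / 100 := by
  exact one_div_le_one_div_of_le (by norm_num) (by exact_mod_cast h.card)
lemma mem_opn {w : Tor d M → ℂ} {x : Tor d M} : x ∈ opn w ↔ gam w x ≠ 0 := by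
  simp [opn]
lemma mem_nbhd {B : Finset (Tor d M)} {R : ℕ} {x : Tor d M} :
    x ∈ nbhd B R ↔ ∃ b ∈ B, tdist x b ≤ R := by
  simp [nbhd]
lemma nbhd_union (B B' : Finset (Tor d M)) (R : ℕ) : nbhd (B ∪ B') R = nbhd B R ∪ nbhd B' R := by
  ext x
  simp only [mem_nbhd, mem_union, or_and_right, exists_or]
lemma nbhd_mono' {B B' : Finset (Tor d M)} {R R' : ℕ} (h : B ⊆ B') (h' : R ≤ R') :
    nbhd B R ⊆ nbhd B' R' := by
  intro x hx
  obtain ⟨b, hb, hx⟩ := mem_nbhd.1 hx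
  exact mem_nbhd.2 ⟨b, h hb, hx.trans h'⟩
lemma next_t (s : CS d M) (ω : Option (Tor d M × ℕ)) : (s.next c ω).t = s.t + dt d M := by
  rcases ω with _ | ⟨y, k⟩ <;> simp only [CS.t, CS.next] <;> push_cast <;> ring
lemma frz_t (s : CS d M) (R : ℕ) (F : Finset (Tor d M)) : (s.frz R F).t = s.t := by
  rfl
lemma t_nonneg (s : CS d M) : 0 ≤ s.t := by
  exact mul_nonneg (Nat.cast_nonneg _) dt_pos.le
lemma run_t {s : CS d M} (h : s.run e) : s.t + dt d M ≤ e.P := by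
  have h1 : (s.n : ℝ) + 1 ≤ e.P * Fintype.card (Tor d M) := by exact_mod_cast h
  have h2 : (0 : ℝ) < Fintype.card (Tor d M) := Nat.cast_pos.2 Fintype.card_pos
  rw [CS.t, ← add_one_mul, dt, mul_one_div, div_le_iff₀ h2]
  exact h1
lemma Num.P_one (h : Led c e g) : (1 : ℝ) ≤ e.P :=
  le_trans (by nlinarith [one_le_pow₀ (n := 30) h.ok.C1]) (h.ok.κ1.trans h.P_lo)
lemma one_le_bt (h : Led c e g) {t : ℝ} (ht : 0 ≤ t) : 1 ≤ bt e t := by
  exact le_min (Real.one_le_exp (by linarith)) (one_le_pow₀ (Num.P_one h))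
lemma bt_le (t : ℝ) : bt e t ≤ (e.P : ℝ) ^ 2 := by
  exact min_le_right _ _
lemma bt_zero (h : Led c e g) : bt e 0 = 1 := by
  rw [bt, zero_div, Real.exp_zero, min_eq_left (one_le_pow₀ (Num.P_one h))]

namespace Num

lemma Q_one (h : Led c e g) : (1 : ℝ) ≤ e.Q :=
  (one_le_pow₀ (P_one h)).trans (show (e.P : ℝ) ^ 6 ≤ e.Q by exact_mod_cast h.Q_lo)
lemma P_ge' (h : Led c e g) : (10 : ℝ) ^ 60 ≤ e.P :=
  le_trans (le_mul_of_one_le_right (by norm_num) (one_le_pow₀ h.ok.C1)) (h.ok.κ1.trans h.P_lo)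
lemma D_le (h : Led c e g) : 3 * g.D ≤ D' e g := by
  have := le_self_pow₀ (P_one h) (by norm_num : 3 ≠ 0)
  exact mul_le_mul_of_nonneg_right (by nlinarith [Q_one h, P_ge' h]) (by linarith [h.D1])
lemma γ_one (h : Led c e g) : c.γ ≤ 1 :=
  le_trans (le_mul_of_one_le_left h.ok.γ0.le (by nlinarith [one_le_pow₀ (n := 30) h.ok.C1]))
    h.ok.γ_le
lemma P_B (h : Led c e g) (h1 : (e.P : ℝ) ^ 7 * e.Q * g.D ≤ e.Bg) : (e.P : ℝ) ≤ e.Bg :=
  (((le_self_pow₀ (P_one h) (by norm_num : 7 ≠ 0)).trans (le_mul_of_one_le_right (by positivity)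
    (Q_one h))).trans (le_mul_of_one_le_right (by positivity) h.D1)).trans h1
lemma base (h : Led c e g) (h1 : e.ϑ ≤ 1 / 4) (h2 : 2 ≤ e.ρ) :
    100 * (e.ρ : ℝ) ≤ 100 * d * c.C * e.ρ / e.ϑ ∧ 100 * d / e.ϑ ≤ 100 * d * c.C * e.ρ / e.ϑ := by
  have hd : (3 : ℝ) ≤ d := by exact_mod_cast h.ok.hd
  have h3 : (2 : ℝ) ≤ e.ρ := by exact_mod_cast h2
  have h4 : 1 ≤ d * c.C := by nlinarith [h.ok.C1]
  have h5 : 1 ≤ c.C * e.ρ := by nlinarith [h.ok.C1]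
  exact ⟨by rw [le_div_iff₀ h.ϑ0]; nlinarith [h.ϑ0],
    div_le_div_of_nonneg_right (by nlinarith) h.ϑ0.le⟩
lemma tail (h : Led c e g) (h1 : e.ϑ ≤ 1 / 4) (h2 : (100 * d / e.ϑ) ^ (2 * d) ≤ e.Bg)
    (h3 : (10 : ℝ) ^ 60 ≤ e.Bg) :
    e.Bg ^ 30 * (Real.exp (-e.ϑ * e.ρ / 2) * (6 * d / e.ϑ) ^ d) ≤ 1 := by
  have hd : (3 : ℝ) ≤ d := by exact_mod_cast h.ok.hd
  have h0 := h.ϑ0
  have h4 : (6 * d / e.ϑ) ^ d ≤ e.Bg ^ 10 :=
    (((pow_le_pow_left₀ (by positivity) (div_le_div_of_nonneg_right (by linarith) h0.le) _).trans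
      (pow_le_pow_right₀ (by rw [le_div_iff₀ h0]; linarith) (by omega))).trans h2).trans
      (le_self_pow₀ (by linarith) (by norm_num))
  have h5 : Real.exp (-e.ϑ * e.ρ / 2) ≤ Real.exp (-e.ϑ * e.ρ / 4) :=
    Real.exp_le_exp.2 (by nlinarith [e.ρ.cast_nonneg (α := ℝ)])
  refine le_trans (mul_le_mul_of_nonneg_left (mul_le_mul h5 h4 (by positivity)
    (Real.exp_pos _).le) (by positivity)) (le_of_eq_of_le (by ring) h.tail)

end Num

namespace Led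

variable (h : Led c e g)
include h

lemma P1 : 10 ^ 60 * c.C ^ 30 ≤ (e.P : ℝ) := by
  exact h.ok.κ1.trans h.P_lo
lemma P2 : (100 * d : ℝ) ^ (5 * d) * (10 ^ 30 * c.C ^ 15) ≤ (e.P : ℝ) := by
  exact h.ok.κ2.trans h.P_lo
lemma P_ge : (10 : ℝ) ^ 60 ≤ e.P := by
  exact le_trans (le_mul_of_one_le_right (by norm_num) (one_le_pow₀ h.ok.C1)) h.P1
lemma Q_ge : (e.P : ℝ) ^ 6 ≤ e.Q := by
  exact_mod_cast h.Q_lo
lemma q_le : e.q ≤ (e.P : ℝ) ^ 4 := by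
  refine (abs_le_of_sq_le_sq' ?_ (by positivity)).2
  rw [h.q_sq, ← pow_mul]
  exact h.q_hi.trans (pow_le_pow_right₀ (Num.P_one h) (by norm_num))
lemma x_pos : 0 < g.x := by
  exact h.x0.trans_le h.x_le
lemma x_le2 : g.x ≤ 2 * g.x' := by
  refine le_of_pow_le_pow_left₀ (n := 4) (by norm_num) (by linarith [h.x0]) (h.x_ge.trans ?_)
  nlinarith [pow_pos h.x0 4]
lemma x_small : (e.P : ℝ) ^ 21 * g.x ≤ 1 := by
  refine le_trans (mul_le_mul_of_nonneg_right ?_ h.x_pos.le) h.main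
  rw [show 21 = 15 + 6 by rfl, pow_add]
  exact mul_le_mul_of_nonneg_left h.Q_ge (by positivity)
lemma x_le_z : g.x ≤ g.z := by
  have h1 : g.x ≤ 1 := (le_mul_of_one_le_left h.x_pos.le (one_le_pow₀ (Num.P_one h))).trans h.x_small
  have h2 : g.x ≤ (e.P : ℝ) ^ 3 * g.x := le_mul_of_one_le_left h.x_pos.le (one_le_pow₀ (Num.P_one h))
  refine abs_le_of_sq_le_sq' ?_ h.z0 |>.2
  nlinarith [h.X0, h.X_inc, h.X_z, h.x_pos]
lemma z_small : (e.P : ℝ) ^ 3 * g.z ≤ g.e' := by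
  linarith [h.e0, h.e_inc]
lemma e'_small : 10 ^ 60 * c.C ^ 30 * g.e' ≤ 1 := by
  exact (mul_le_mul_of_nonneg_right h.ok.κ1 (le_trans (mul_nonneg (by positivity) h.z0)
    h.z_small)).trans h.e_hi
lemma e_x_le : g.e + g.x + (e.P : ℝ) ^ 3 * g.z / 2 ≤ g.e' := by
  have h1 : (2 : ℝ) ≤ (e.P : ℝ) ^ 3 :=
    le_trans (by linarith [h.P_ge]) (le_self_pow₀ (Num.P_one h) (by norm_num))
  nlinarith [h.e_inc, h.x_le_z, h.z0]
lemma X'_le : g.X' ≤ g.e' := by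
  have h1 : g.z ≤ g.e' := (le_mul_of_one_le_left h.z0 (one_le_pow₀ (Num.P_one h))).trans h.z_small
  have h2 : g.e' ≤ 1 := le_trans (le_mul_of_one_le_left (h.z0.trans h1)
    (by nlinarith [one_le_pow₀ (n := 30) h.ok.C1])) h.e'_small
  nlinarith [h.X_z, h.z0]
lemma φ_pos : 0 < e.φ := by
  have := Num.P_one h
  have := Num.Q_one h
  unfold Ep.φ; positivity
lemma Be_φ : Be e g * e.φ = (e.P : ℝ) ^ 2 * g.x ^ 2 := by
  have := Num.P_one h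
  have := Num.Q_one h
  unfold Ep.φ Be; field_simp
lemma Bw_φ : Bw e g * e.φ = 6 * g.D := by
  have := Num.P_one h
  have := Num.Q_one h
  unfold Ep.φ Bw; field_simp
lemma nu_le : (e.P : ℝ) ^ 7 * nu e g ≤ g.x := by
  calc _ = (e.P : ℝ) ^ 15 * e.Q * g.x * g.x := by unfold nu; ring
    _ ≤ _ := mul_le_of_le_one_left h.x_pos.le h.main
lemma nu_h : (e.P : ℝ) ^ 2 * nu e g ^ 2 ≤ g.x' ^ 2 / e.q := by
  have hx := h.x_pos
  have h1 : ((e.P : ℝ) ^ 15 * e.Q * g.x) ^ 2 ≤ 1 := pow_le_one₀ (by positivity) h.main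
  have h2 : (4 : ℝ) ≤ (e.P : ℝ) ^ 8 :=
    le_trans (by linarith [h.P_ge]) (le_self_pow₀ (Num.P_one h) (by norm_num))
  have h3 : g.x ^ 2 ≤ 4 * g.x' ^ 2 := by nlinarith [h.x_le2]
  have h4 : 4 * ((e.P : ℝ) ^ 22 * e.Q ^ 2 * g.x ^ 2) ≤ 1 :=
    (mul_le_mul_of_nonneg_right h2 (by positivity)).trans (le_of_eq_of_le (by ring) h1)
  rw [le_div_iff₀ h.q0]
  calc _ ≤ (e.P : ℝ) ^ 2 * nu e g ^ 2 * (e.P : ℝ) ^ 4 :=
        mul_le_mul_of_nonneg_left h.q_le (by positivity)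
    _ = (e.P : ℝ) ^ 22 * e.Q ^ 2 * g.x ^ 2 * g.x ^ 2 := by unfold nu; ring
    _ ≤ _ := by nlinarith [sq_nonneg g.x', sq_nonneg g.x]
lemma γh : c.γ * (g.x ^ 2 / e.q) ^ 2 = g.x ^ 4 / e.Q := by
  have := Num.Q_one h
  have := h.ok.γ0
  rw [div_pow, h.q_sq]; field_simp
lemma le0 : ThLe e g (th0 e g) := by
  have h1 := Num.D_le h
  have h2 := h.D1
  exact ⟨le_rfl, show g.e ≤ _ by nlinarith [h.e_inc, mul_nonneg (pow_nonneg e.P.cast_nonneg 3) h.z0],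
    show g.X ≤ _ by nlinarith [h.X_inc, mul_nonneg (pow_nonneg e.P.cast_nonneg 3) h.x_pos.le],
    show g.D ≤ _ by linarith, mul_le_mul_of_nonneg_left (by linarith) (by positivity)⟩
lemma le1 : ThLe e g (th1 e g) := by
  have h1 := Num.D_le h
  have h2 := h.D1
  have h3 : g.x ≤ (e.P : ℝ) ^ 3 * g.x := le_mul_of_one_le_left h.x_pos.le (one_le_pow₀ (Num.P_one h))
  refine ⟨le_rfl, show g.e + g.x ≤ _ by
      nlinarith [h.e_x_le, mul_nonneg (pow_nonneg e.P.cast_nonneg 3) h.z0],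
    show g.X + g.x ≤ _ by linarith [h.X_inc], h1, show 2 * (_ * g.D) ≤ _ from ?_⟩
  rw [mul_left_comm]
  exact mul_le_mul_of_nonneg_left (by linarith) (by positivity)
lemma le2 : ThLe e g (th2 e g) := by
  exact ⟨le_rfl, le_rfl, le_rfl, le_rfl, le_rfl⟩
lemma ϑ_le : e.ϑ ≤ 1 / 4 := by
  linarith [h.ϑ1, h.θ1]
lemma ρ_pos : 2 ≤ e.ρ := by
  have := h.R1
  have := h.Rρ
  omega
lemma B_P : (e.P : ℝ) ^ 7 * e.Q * g.D ≤ e.Bg := by
  have h1 := h.B_K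
  have h2 := Num.γ_one h
  have h3 : 0 ≤ (e.P : ℝ) ^ 4 * D' e g := mul_nonneg (by positivity) (by linarith [Num.D_le h, h.D1])
  have h4 : 8 * (1 + (e.P : ℝ) ^ 4 * D' e g) ≤ 8 * (1 + (e.P : ℝ) ^ 4 * D' e g) / c.γ :=
    le_div_self (by linarith) h.ok.γ0 h2
  calc _ = (e.P : ℝ) ^ 4 * D' e g := by unfold D'; ring
    _ ≤ _ := by linarith
lemma B_ge : (10 : ℝ) ^ 60 ≤ e.Bg := by
  exact h.P_ge.trans (Num.P_B h h.B_P)
lemma B_γ : 1 ≤ e.Bg * c.γ := by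
  have h1 := h.B_K
  have h3 : 0 ≤ (e.P : ℝ) ^ 4 * D' e g := mul_nonneg (by positivity) (by linarith [Num.D_le h, h.D1])
  rw [div_le_iff₀ h.ok.γ0] at h1
  linarith
lemma B_x' : 1 ≤ e.Bg * g.x := by
  exact h.B_x.trans (mul_le_mul_of_nonneg_left h.x_le (by linarith [h.B_ge]))
lemma B_C : 10 ^ 60 * c.C ^ 30 ≤ e.Bg := by
  exact h.P1.trans (Num.P_B h h.B_P)
lemma B_vol : vol d M (10 * e.ρ) ≤ e.Bg := by
  have h1 := Num.base h h.ϑ_le h.ρ_pos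
  have h2 : (2 : ℝ) ≤ e.ρ := by exact_mod_cast h.ρ_pos
  refine (vol_le _).trans (le_trans ?_ h.B_ρ)
  push_cast
  exact (pow_le_pow_left₀ (by positivity) (by linarith [h1.1]) _).trans
    (pow_le_pow_right₀ (by linarith [h1.1]) (by omega))
lemma B_ϑ : (100 * d / e.ϑ) ^ (2 * d) ≤ e.Bg := by
  have h1 := Num.base h h.ϑ_le h.ρ_pos
  have h2 : (2 : ℝ) ≤ e.ρ := by exact_mod_cast h.ρ_pos
  have := h.ϑ0
  exact ((pow_le_pow_left₀ (by positivity) h1.2 _).trans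
    (pow_le_pow_right₀ (by linarith [h1.1]) (by omega))).trans h.B_ρ
lemma mult_vol : 100 * (e.P : ℝ) ^ 3 * e.Q * vol d M (10 * e.ρ) ≤ Real.exp (e.P / 8) := by
  have h2 : (2 : ℝ) ≤ e.ρ := by exact_mod_cast h.ρ_pos
  have h3 : (441 : ℝ) ≤ 100 * (e.P : ℝ) ^ 3 * e.Q := by
    have := le_self_pow₀ (Num.P_one h) (by norm_num : 3 ≠ 0)
    nlinarith [Num.Q_one h, h.P_ge]
  refine le_trans ?_ h.mult
  obtain ⟨n, rfl⟩ : ∃ n, d = n + 1 := ⟨d - 1, by have := h.ok.hd; omega⟩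
  have hn : 2 ≤ n := by have := h.ok.hd; omega
  generalize 100 * (e.P : ℝ) ^ 3 * e.Q = a at *
  have h4 : vol (n + 1) M (10 * e.ρ) ≤ a ^ n * (e.ρ : ℝ) ^ (n + 1) := by
    refine (vol_le _).trans ((pow_le_pow_left₀ (by positivity)
      (show _ ≤ 21 * (e.ρ : ℝ) by push_cast; linarith) _).trans ?_)
    rw [mul_pow]
    refine mul_le_mul_of_nonneg_right (le_trans ?_ (pow_le_pow_left₀ (by norm_num) h3 n))
      (by positivity)
    rw [show (441 : ℝ) = 21 ^ 2 by norm_num, ← pow_mul]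
    exact pow_le_pow_right₀ (by norm_num) (by omega)
  refine (mul_le_mul_of_nonneg_left h4 (by linarith)).trans (le_of_eq ?_)
  rw [mul_pow, pow_succ' a]; ring
lemma G0_dec (x y : Tor d M) : ‖c.G0 x y‖ ≤ e.Bg * Real.exp (-e.ϑ * tdist x y) := by
  refine (h.ok.init.decay x y).trans (mul_le_mul ?_ (Real.exp_le_exp.2 ?_) (Real.exp_pos _).le
    (by linarith [h.B_ge]))
  · rw [div_le_iff₀ (pow_pos h.ok.σ0 2)]; exact h.B_σ
  · exact mul_le_mul_of_nonneg_right (neg_le_neg h.ϑG) (Nat.cast_nonneg _)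
/-- a far entry is negligible -/
lemma far1 {D : ℕ} (hD : e.ρ ≤ D) : e.Bg ^ 40 * Real.exp (-e.ϑ * D) ≤ 1 := by
  have h1 : (e.ρ : ℝ) ≤ D := Nat.cast_le.2 hD
  refine le_trans (mul_le_mul_of_nonneg_left (Real.exp_le_exp.2 ?_) (by positivity)) h.tail
  nlinarith [h.ϑ0, e.ρ.cast_nonneg (α := ℝ)]
lemma far2 {x y : Tor d M} (hD : e.ρ ≤ tdist y x) :
    e.Bg ^ 30 * Real.exp (-e.ϑ * tdist y x) ≤ tl e x y := by
  have h1 : (e.ρ : ℝ) ≤ tdist y x := Nat.cast_le.2 hD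
  have h0 := h.ϑ0
  have hd : (3 : ℝ) ≤ d := by exact_mod_cast h.ok.hd
  have h2 : Real.exp (-(e.ϑ / 2) * tdist y x) ≤ Real.exp (-e.ϑ * e.ρ / 2) :=
    Real.exp_le_exp.2 (by nlinarith)
  have h3 := Num.tail h h.ϑ_le h.B_ϑ h.B_ge
  have hB : 0 ≤ e.Bg ^ 30 := by positivity
  rw [tl, le_div_iff₀ (by positivity),
    show -e.ϑ * tdist y x = -(e.ϑ / 2) * tdist y x + -(e.ϑ / 2) * tdist y x by ring, Real.exp_add]
  calc _ = e.Bg ^ 30 * (Real.exp (-(e.ϑ / 2) * tdist y x) * (6 * d / e.ϑ) ^ d) *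
        Real.exp (-(e.ϑ / 2) * tdist y x) := by ring
    _ ≤ _ := mul_le_of_le_one_left (Real.exp_pos _).le (le_trans (mul_le_mul_of_nonneg_left
        (mul_le_mul_of_nonneg_right h2 (by positivity)) hB) h3)
lemma far3 (p : Tor d M) : e.Bg ^ 30 * ∑ x ∈ univ.filter (fun x => e.ρ < tdist x p),
    Real.exp (-e.ϑ * tdist x p) ≤ 1 := by
  exact (mul_le_mul_of_nonneg_left (sum_exp_tail_le h.ϑ0 (by linarith [h.ϑ_le]) p e.ρ)
    (by positivity)).trans (Num.tail h h.ϑ_le h.B_ϑ h.B_ge)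
lemma tl_nonneg (x y : Tor d M) : 0 ≤ tl e x y := by
  have := h.ϑ0
  unfold tl; positivity
lemma sum_tl (x : Tor d M) : ∑ y, tl e x y ≤ 1 := by
  have h0 := h.ϑ0
  have hd : (3 : ℝ) ≤ d := by exact_mod_cast h.ok.hd
  simp only [tl]
  rw [← sum_div, div_le_one (by positivity)]
  refine (sum_exp_le (half_pos h0) (by linarith [h.ϑ_le]) x).trans (le_of_eq ?_)
  congr 1; field_simp; ring

end Led

end Crest.Agent.N334.AC.P
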