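import Crest.Agent.N334.AC.F.Wit_Mg
import Crest.Agent.N334.AC.L.Tau
import Crest.Agent.N334.AC.M6.Defs
import Crest.Agent.N334.AC.P.Num
import Crest.Agent.N334.AC.M6.Key
import Crest.Agent.N334.AC.P.Der
import Crest.Agent.N334.AC.P.Eng

-- ▼ part N334/AC/P/RelA
section

/-!
# Row 334, S0520 (helper12): the release, pure part (plan, consequences, cells)
-/

set_option autoImplicit false
set_option maxHeartbeats 400000
set_option linter.unusedSectionVars false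

open Finset Complex
open scoped Matrix.Norms.L2Operator Matrix

namespace Crest.Agent.N334.AC.RelA

variable {d M : ℕ} [NeZero M]

theorem mem_nbhd {B : Finset (Tor d M)} {R : ℕ} {x : Tor d M} :
    x ∈ nbhd B R ↔ ∃ b ∈ B, tdist x b ≤ R := by simp [nbhd]

theorem subset_nbhd (B : Finset (Tor d M)) (R : ℕ) : B ⊆ nbhd B R := fun x hx =>
  mem_nbhd.2 ⟨x, hx, by rw [tdist_self]; exact Nat.zero_le _⟩

/-- plan of a release: `B c` = frozen ports of the cluster `c` and its leverage set -/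
structure Plan (K : Matrix (Tor d M) (Tor d M) ℂ) (Ord Fr Cs : Finset (Tor d M))
    (B : Tor d M → Finset (Tor d M)) (ε ζ : ℝ) (n Dm R : ℕ) : Prop where
  sub : ∀ c ∈ Cs, B c ⊆ Fr ∪ Ord
  card : ∀ c ∈ Cs, (B c).card ≤ n
  diam : ∀ c ∈ Cs, B c ⊆ tball c Dm
  sep : Sep (10 * R) Cs
  iso : ∀ c ∈ Cs, ∀ c' ∈ Cs, c ≠ c' → ∀ x ∈ B c, ∀ x' ∈ B c', 4 * R < tdist x x'
  fr : ∀ c ∈ Cs, ∀ a ∈ nbhd (B c) R, a ∈ Fr → a ∈ B c
  lev : ∀ c ∈ Cs, ∀ a ∈ Ord, a ∉ B c → LevD K (B c) ε ζ a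

variable {A K : Matrix (Tor d M) (Tor d M) ℂ} {w : Tor d M → ℂ} {O Ord Fr Cs Cs' : Finset (Tor d M)}
  {B : Tor d M → Finset (Tor d M)} {v : Tor d M → ℝ} {ε ζ θ θ' Ag η g K1 tn : ℝ} {n Dm R : ℕ}

theorem K_le (h : Adm A w) (hO : ∀ x, gam w x ≠ 0 → x ∈ O) (h1 : ∀ x, gam w x ≤ 1)
    (tw : TW θ Ag (cmp (Gm A w) O)) (a b : Tor d M) :
    ‖Km A w a b‖ ≤ Ag * Real.exp (-θ * tdist a b) := by
  have h2 := tw.entry a b
  have h3 := h.diss a
  have h4 := h.diss b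
  refine le_trans ((pow_le_pow_iff_left₀ (norm_nonneg _) (norm_nonneg _) two_ne_zero).1 ?_) h2
  rw [h.K_sq, cmp]
  split_ifs with e
  · exact mul_le_of_le_one_left (by positivity) (mul_le_one₀ (h1 a) h4 (h1 b))
  · rcases not_and_or.1 e with e | e
    · simp [not_not.1 (mt (hO a) e)]
    · simp [not_not.1 (mt (hO b) e)]

/-- existence of a plan -/
theorem exists_plan (h : Adm A w) (ρ : Rad) (k : ℕ) {P Q : Finset (Tor d M)} {s s' J n0 : ℕ}
    {e μ1 : ℝ} (hR : 2 * ρ.r k + 1 ≤ 10 * R) (hRc : 20 * ρ.m (k + 1) * R + 2 * s ≤ ρ.Rc (k + 1))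
    (hQ : ∀ p ∈ P, Crowded ρ k P p → p ∈ Q) (hd : Disjoint Fr Ord)
    (hFr : ∀ x ∈ Fr, (∃ p ∈ P, tdist x p ≤ s) ∨ ∃ q ∈ Q, tdist x q ≤ 3 * R)
    (hs : s + J * s' ≤ 3 * R)
    (hDm : 20 * ρ.m (k + 1) * R + (s + J * s') ≤ Dm)
    (hn0 : ρ.m (k + 1) * vol d M (2 * ρ.r k + s) ≤ n0) (hn : n0 + J ≤ n)
    (hε : 0 < ε) (hε1 : ε ≤ 1 / 2) (hζ : 0 < ζ) (hζ1 : 2 * ζ ^ 2 ≤ ε) (he : 0 ≤ e) (hμ : 0 < μ1)
    (hmu : ∀ a ∈ Ord, μ1 ≤ mu (Km A w) a)
    (hent : ∀ a ∈ Ord, ∀ a' ∈ Ord, a ≠ a' → ‖Km A w a a'‖ ≤ e)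
    (hJ : 20 * n0 * Real.log (2 / ζ) < ε * J) (hJe : 40 * J * e ≤ ε * μ1) (hθ : 0 ≤ θ)
    (hdec : ∀ a b, ‖Km A w a b‖ ≤ Ag * Real.exp (-θ * tdist a b))
    (hD : (Ag * Real.exp (-θ * s')) ^ 2 * n ≤ ε * ζ ^ 2 * μ1) :
    ∃ Cs ⊆ P \ Q, ∃ B, Plan (Km A w) Ord Fr Cs B ε ζ n Dm R ∧
      (∀ c ∈ Cs, B c ⊆ nbhd P (s + J * s')) ∧
      ∀ x ∈ Fr, (∃ c ∈ Cs, x ∈ B c) ∨ ∃ q ∈ Q, tdist x q ≤ Dm + 10 * R := by
  obtain ⟨Cs, cl, h1, h2, h3, h4, h5⟩ := exists_clusters ρ k R P Q hR (by omega) hQ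
  have hAg : 0 ≤ Ag := by simpa [tdist_self] using (norm_nonneg _).trans (hdec 0 0)
  have hlog : 0 ≤ Real.log (2 / ζ) := Real.log_nonneg (by rw [le_div_iff₀ hζ]; nlinarith)
  have key : ∀ c ∈ Cs, ∃ Z ⊆ Ord, (Fr ∩ nbhd (cl c) s ∪ Z).card ≤ n ∧
      Z ⊆ nbhd (cl c) (s + J * s') ∧
      ∀ a ∈ Ord \ Z, LevD (Km A w) (Fr ∩ nbhd (cl c) s ∪ Z) ε ζ a := by
    intro c hc
    obtain ⟨a1, a2, a3, a4⟩ := h1 c hc
    have hc0 : ((Fr ∩ nbhd (cl c) s).card : ℝ) ≤ n0 := by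
      refine le_trans (Nat.cast_le.2 (card_le_card fun x hx => ?_)) ((card_near_le ρ k P
        (mt (hQ c (a2 a1)) a4) (s := s) (D := 20 * ρ.m (k + 1) * R + s) (by omega)).trans hn0)
      obtain ⟨p, hp, hx⟩ := mem_nbhd.1 (mem_inter.1 hx).2
      have := tdist_triangle x p c
      have := mem_tball.1 (a3 hp)
      exact mem_filter.2 ⟨mem_univ _, by omega, p, a2 hp, hx⟩
    have hc1 : (Fr ∩ nbhd (cl c) s).card ≤ n0 := by exact_mod_cast hc0
    obtain ⟨Z, z1, z2, z3, z4⟩ := h.leverage (B := Fr ∩ nbhd (cl c) s) (Cand := Ord)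
      (hd.mono_left inter_subset_left) hε hε1 hζ hζ1 he hμ hmu hent
      (lt_of_le_of_lt (by gcongr) hJ) hJe (D := fun x => (cl c).inf' ⟨c, a1⟩ (tdist x)) (D0 := s)
      (s := s') (fun b hb => (inf'_le_iff _).2 (mem_nbhd.1 (mem_inter.1 hb).2)) (by
        intro a _ b _ hab
        obtain ⟨p, hp, e1⟩ := exists_mem_eq_inf' ⟨c, a1⟩ (tdist b)
        have e2 := inf'_le (tdist a) hp
        have e3 := tdist_triangle a b p
        have e4 : (s' : ℝ) ≤ tdist a b := by exact_mod_cast (by omega : s' ≤ tdist a b)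
        refine le_trans (mul_le_mul (pow_le_pow_left₀ (norm_nonneg _) ((hdec a b).trans ?_) 2)
          ?_ (by positivity) (sq_nonneg _)) hD
        · exact mul_le_mul_of_nonneg_left (Real.exp_le_exp.2 (by nlinarith)) hAg
        · exact_mod_cast (by omega : (Fr ∩ nbhd (cl c) s).card + J ≤ n))
    exact ⟨Z, z1, (card_union_le _ _).trans (by omega),
      fun z hz => mem_nbhd.2 ((inf'_le_iff _).1 (z3 z hz)), z4⟩
  choose! Z z1 z2 z3 z4 using key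
  have near : ∀ c ∈ Cs, ∀ x ∈ Fr ∩ nbhd (cl c) s ∪ Z c, ∃ p ∈ cl c, tdist x p ≤ s + J * s' := by
    intro c hc x hx
    rcases mem_union.1 hx with hx | hx
    · exact (mem_nbhd.1 (mem_inter.1 hx).2).imp fun p hp => ⟨hp.1, by omega⟩
    · exact mem_nbhd.1 (z3 c hc hx)
  have far : ∀ c ∈ Cs, ∀ c' ∈ Cs, c ≠ c' → ∀ p ∈ cl c, ∀ p' ∈ cl c', 10 * R < tdist p p' :=
    fun c hc c' hc' e p hp p' hp' => h2 c hc p hp p' ((h1 c' hc').2.1 hp')
      fun hh => disjoint_left.1 (h4 c hc c' hc' e) hh hp'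
  refine ⟨Cs, fun c hc => mem_sdiff.2 ⟨(h1 c hc).2.1 (h1 c hc).1, (h1 c hc).2.2.2⟩,
    fun c => Fr ∩ nbhd (cl c) s ∪ Z c, ⟨fun c hc => union_subset_union inter_subset_left (z1 c hc),
      z2, fun c hc x hx => ?_,
      fun c hc c' hc' e => (far c hc c' hc' e c (h1 c hc).1 c' (h1 c' hc').1).le,
      fun c hc c' hc' e x hx x' hx' => ?_, fun c hc a ha hF => ?_, fun c hc a ha ha' =>
      z4 c hc a (mem_sdiff.2 ⟨ha, fun hh => ha' (mem_union_right _ hh)⟩)⟩,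
    fun c hc x hx => mem_nbhd.2 ((near c hc x hx).imp fun p hp => ⟨(h1 c hc).2.1 hp.1, hp.2⟩),
    fun x hx => ?_⟩
  · obtain ⟨p, hp, e⟩ := near c hc x hx
    have := mem_tball.1 ((h1 c hc).2.2.1 hp)
    have := tdist_triangle x p c
    exact mem_tball.2 (by omega)
  · obtain ⟨p, hp, e1⟩ := near c hc x hx
    obtain ⟨p', hp', e2⟩ := near c' hc' x' hx'
    have := far c hc c' hc' e p hp p' hp'
    have := tdist_triangle p x p'
    have := tdist_triangle x x' p'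
    have := tdist_comm p x
    omega
  · obtain ⟨b, hb, e1⟩ := mem_nbhd.1 ha
    obtain ⟨p, hp, e2⟩ := near c hc b hb
    have e4 : ∀ q, tdist a q ≤ 3 * R → tdist p q ≤ 10 * R := fun q e3 => by
      have := tdist_triangle p b q
      have := tdist_triangle b a q
      have := tdist_comm p b
      have := tdist_comm a b
      omega
    rcases hFr a hF with ⟨q, hq, e3⟩ | ⟨q, hq, e3⟩
    · refine mem_union_left _ (mem_inter.2 ⟨hF, mem_nbhd.2 ⟨q, ?_, e3⟩⟩)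
      by_contra hh
      exact (h2 c hc p hp q hq hh).not_ge (e4 q (by omega))
    · exact absurd (e4 q e3) (h3 c hc p hp q hq).not_ge
  · rcases hFr x hx with ⟨p, hp, e⟩ | ⟨p, hp, e⟩
    · rcases h5 p hp with ⟨c, hc, hp⟩ | ⟨q, hq, e'⟩
      · exact Or.inl ⟨c, hc, mem_union_left _ (mem_inter.2 ⟨hx, mem_nbhd.2 ⟨p, hp, e⟩⟩)⟩
      · have := tdist_triangle x p q
        exact Or.inr ⟨q, hq, by omega⟩
    · exact Or.inr ⟨p, hp, by omega⟩


theorem Plan.mono (h : Plan K Ord Fr Cs B ε ζ n Dm R) (hs : Cs' ⊆ Cs) :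
    Plan K Ord Fr Cs' B ε ζ n Dm R :=
  ⟨fun c hc => h.sub c (hs hc), fun c hc => h.card c (hs hc), fun c hc => h.diam c (hs hc),
    h.sep.mono le_rfl hs, fun c hc c' hc' => h.iso c (hs hc) c' (hs hc'),
    fun c hc => h.fr c (hs hc), fun c hc => h.lev c (hs hc)⟩

/-- a port of another cluster is outside the neighbourhood -/
theorem Plan.not_near (h : Plan K Ord Fr Cs B ε ζ n Dm R) {c c' x : Tor d M} (hc : c ∈ Cs)
    (hc' : c' ∈ Cs) (e : c ≠ c') (hx : x ∈ B c) : x ∉ nbhd (B c') R := fun hh => by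
  obtain ⟨b, hb, e1⟩ := mem_nbhd.1 hh
  have := h.iso c hc c' hc' e x hx b hb
  omega

/-- unreleased frozen ports (old ones and those of rejected clusters) are far from the release -/
theorem Plan.frozen_far (h : Plan K Ord Fr Cs B ε ζ n Dm R) (hs : Cs' ⊆ Cs) {x : Tor d M}
    (hx : x ∈ Fr ∪ Cs.biUnion B) (hx' : x ∉ Cs'.biUnion B) {c : Tor d M} (hc : c ∈ Cs') :
    x ∉ nbhd (B c) R := fun hh => by
  rcases mem_union.1 hx with hx | hx
  · exact hx' (mem_biUnion.2 ⟨c, hc, h.fr c (hs hc) x hh hx⟩)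
  · obtain ⟨c', hc', hx⟩ := mem_biUnion.1 hx
    exact h.not_near hc' (hs hc) (by rintro rfl; exact hx' (mem_biUnion.2 ⟨_, hc, hx⟩)) hx hh

section Cons

theorem gam_same {U : Finset (Tor d M)} {a : Tor d M} (h : a ∉ U) : gam (wCl w U v) a = gam w a := by
  simp [gam, wCl, h]

theorem gam_closed {U : Finset (Tor d M)} {a : Tor d M} (h : a ∈ U) : gam (wCl w U v) a = 0 := by
  simp [gam, wCl, h]

theorem dK_sq (h : Adm A w) {U : Finset (Tor d M)} {a b : Tor d M} (ha : a ∉ U) (hb : b ∉ U) :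
    ‖Km A (wCl w U v) a b - Km A w a b‖ ^ 2
      = gam w a * gam w b * ‖Gm A (wCl w U v) a b - Gm A w a b‖ ^ 2 := by
  rw [Km, Km, gam_same ha, gam_same hb, ← sub_mul, ← mul_sub, norm_mul, norm_mul, mul_pow, mul_pow,
    Complex.norm_real, Complex.norm_real, Real.norm_eq_abs, Real.norm_eq_abs, sq_abs, sq_abs,
    Real.sq_sqrt (h.diss a), Real.sq_sqrt (h.diss b)]
  ring

variable (h : Rel A w O Cs B v θ θ' Ag η g K1 tn Dm R)
include h

theorem tn_ge : Ag ^ 2 * Real.exp (-θ * R) ≤ tn := by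
  have h1 := Rel1.budget h
  have h2 := Rel1.one_le_K1 h
  have h3 : 1 ≤ ((12 * d / θ) ^ d) ^ 2 :=
    one_le_pow₀ (one_le_pow₀ (by linarith [Rel1.two_le_S h]))
  have h4 := h.Ag1
  have h5 : Real.exp (-θ * R) ≤ Real.exp (-θ * R / 2) :=
    Real.exp_le_exp.2 (by nlinarith [Rel1.θ_pos h, R.cast_nonneg (α := ℝ)])
  have h6 : Ag ^ 2 ≤ Ag ^ 3 * K1 ^ 2 * ((12 * d / θ) ^ d) ^ 2 :=
    ((pow_le_pow_right₀ h4 (by norm_num)).trans
      (le_mul_of_one_le_right (by positivity) (one_le_pow₀ h2))).trans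
      (le_mul_of_one_le_right (by positivity) h3)
  have h7 := mul_le_mul h6 h5 (Real.exp_pos _).le (by positivity)
  nlinarith [mul_nonneg (sq_nonneg Ag) (Real.exp_pos (-θ * R)).le]

theorem tn_nonneg : 0 ≤ tn := le_trans (by positivity) (tn_ge h)

theorem dK_far {a b : Tor d M} (ha : a ∉ Cs.biUnion B) (hb : b ∉ Cs.biUnion B)
    (hab : ¬ ∃ c ∈ Cs, a ∈ nbhd (B c) R ∧ b ∈ nbhd (B c) R) :
    ‖Km A (wCl w (Cs.biUnion B) v) a b - Km A w a b‖ ^ 2
      ≤ tn ^ 2 * Real.exp (-θ' * tdist a b) := by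
  rw [dK_sq h.adm ha hb]
  by_cases e1 : gam w a = 0
  · rw [e1, zero_mul, zero_mul]; positivity
  by_cases e2 : gam w b = 0
  · rw [e2, mul_zero, zero_mul]; positivity
  refine (mul_le_of_le_one_left (by positivity)
    (mul_le_one₀ (h.gam_le a) (h.adm.diss b) (h.gam_le b))).trans
    ((pow_le_pow_left₀ (norm_nonneg _) (h.far (h.ports a e1) (h.ports b e2) hab) 2).trans ?_)
  rw [mul_pow]
  exact mul_le_mul_of_nonneg_left (pow_le_of_le_one (Real.exp_pos _).le (Real.exp_le_one_iff.2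
    (by nlinarith [h.θ0, (tdist a b).cast_nonneg (α := ℝ)])) two_ne_zero) (sq_nonneg _)

/-- rows of all surviving ordinary ports -/
theorem row_le (hp : Plan (Km A w) Ord Fr Cs B ε ζ n Dm R) (hε : tn ≤ ε) (hζ : 0 ≤ ζ)
    (hζ1 : 6 * ζ ≤ η * g) (ht : tn * (3 * d / θ') ^ d ≤ 24) {a : Tor d M} (ha : a ∈ Ord)
    (ha' : a ∉ Cs.biUnion B) :
    ∑ b ∈ univ \ Cs.biUnion B, ‖Km A (wCl w (Cs.biUnion B) v) a b - Km A w a b‖ ^ 2 ≤ 24 * ε := by
  by_cases e : ∃ c ∈ Cs, a ∈ nbhd (B c) R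
  · obtain ⟨c, hc, e⟩ := e
    have : a ∉ B c := fun hh => ha' (mem_biUnion.2 ⟨c, hc, hh⟩)
    exact h.row hε hζ hζ1 hc e this (hp.lev c hc a ha this)
  have h0 := tn_nonneg h
  refine (sum_le_sum fun b hb => dK_far h ha' (mem_sdiff.1 hb).2
    fun ⟨c, hc, hh⟩ => e ⟨c, hc, hh.1⟩).trans ?_
  simp only [tdist_comm a]
  rw [← mul_sum]
  refine (mul_le_mul_of_nonneg_left ((sum_le_sum_of_subset_of_nonneg (subset_univ _)
    fun _ _ _ => (Real.exp_pos _).le).trans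
    (sum_exp_le h.θ0 (by linarith [h.θ0, h.θ1, h.θ2]) a)) (sq_nonneg _)).trans ?_
  nlinarith [mul_le_mul_of_nonneg_left ht h0]

/-- the release seen by the forms -/
theorem relH (hp : Plan (Km A w) Ord Fr Cs B ε ζ n Dm R) (hε : tn ≤ ε) (hζ : 0 ≤ ζ)
    (hζ1 : 6 * ζ ≤ η * g) (hO : ∀ x, gam w x ≠ 0 → x ∈ absb d M ∨ x ∈ Fr ∪ Ord)
    (hab : Disjoint (Fr ∪ Ord) (absb d M)) {L k : ℕ} (hL : Dm + R ≤ L) (hR : 1 ≤ R)
    (hk : L < k * (10 * R)) :
    M6.RelH A w (wCl w (Cs.biUnion B) v) Cs B (fun c => nbhd (B c) R) Ord L (24 * ε) (18 * n + 1)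
      tn θ' ((2 * k + 1) ^ d) := by
  have h0 := tn_nonneg h
  have hζ2 : ζ ^ 2 ≤ 1 := pow_le_one₀ hζ (by nlinarith [h.η0, h.η1, h.g0, h.g1])
  refine ⟨h.adm, h.exists_T.1, fun a => gam_same, fun a => gam_closed, fun a ha => ?_,
    fun a ha => ?_, fun c _ => subset_nbhd _ _, fun c hc a ha => ?_, fun c hc c' hc' e => ?_,
    fun p => ?_, fun c hc a h1 h2 h3 h4 => ?_, fun c hc => (h.mass hc).trans ?_, fun c hc => ?_,
    fun a b ha hb hab => (dK_far h ha hb hab).trans ?_, fun c hc b hb a ha => ?_,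
    by linarith, h0⟩
  · obtain ⟨c, hc, ha⟩ := mem_biUnion.1 ha
    exact (h.g0.trans_le (h.gam_ge c hc a ha)).ne'
  · obtain ⟨c, hc, ha⟩ := mem_biUnion.1 ha
    exact disjoint_left.1 hab (hp.sub c hc ha)
  · obtain ⟨b, hb, e⟩ := mem_nbhd.1 ha
    have := mem_tball.1 (h.diam c hc hb)
    have := tdist_triangle a b c
    exact mem_tball.2 (by omega)
  · refine disjoint_left.2 fun a h1 h2 => ?_
    obtain ⟨b, hb, e1⟩ := mem_nbhd.1 h1
    obtain ⟨b', hb', e2⟩ := mem_nbhd.1 h2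
    have := h.iso c hc c' hc' e b hb b' hb'
    have := tdist_triangle b a b'
    have := tdist_comm a b
    omega
  · have := card_sep_le hp.sep (by omega) hk p
    rw [show (Cs.filter fun c => p ∈ tball c L) = Cs ∩ tball p L by
      ext c; simp [mem_tball, tdist_comm]]
    exact_mod_cast this
  · have ha : a ∈ Ord := ((mem_union.1 ((hO a h4).resolve_left h3)).resolve_left
      fun hh => h2 (hp.fr c hc a h1 hh))
    have hl := hp.lev c hc a ha h2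
    exact ⟨ha, h.row hε hζ hζ1 hc h1 h2 hl,
      (h.adm.lev_mass (h0.trans hε) hζ2 hl).trans (by linarith)⟩
  · have : ((B c).card : ℝ) ≤ n := Nat.cast_le.2 (hp.card c hc)
    linarith
  · have : ((B c).card : ℝ) ≤ n := Nat.cast_le.2 (hp.card c hc)
    linarith [n.cast_nonneg (α := ℝ)]
  · exact mul_le_mul_of_nonneg_right (by nlinarith [h.tn1]) (Real.exp_pos _).le
  · have e : (R : ℝ) ≤ tdist a b :=
      Nat.cast_le.2 (not_le.1 fun hh => ha (mem_nbhd.2 ⟨b, hb, hh⟩)).le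
    refine (pow_le_pow_left₀ (norm_nonneg _) (K_le h.adm h.ports h.gam_le h.tw a b) 2).trans
      (le_trans ?_ (mul_le_mul_of_nonneg_right (tn_ge h) (Real.exp_pos _).le))
    rw [mul_pow, mul_assoc, ← Real.exp_add, ← Real.exp_nat_mul]
    refine mul_le_mul_of_nonneg_left (Real.exp_le_exp.2 ?_) (sq_nonneg _)
    push_cast
    nlinarith [h.θ0, h.θ1, (tdist a b).cast_nonneg (α := ℝ)]

/-- change of an entry of `G` from the row bound -/
theorem dG_le {a b : Tor d M} {e : ℝ} (ha : a ∉ Cs.biUnion B) (hb : b ∉ Cs.biUnion B)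
    (ga : g ≤ gam w a) (gb : g ≤ gam w b) (he : 0 ≤ e)
    (hr : ∑ b ∈ univ \ Cs.biUnion B, ‖Km A (wCl w (Cs.biUnion B) v) a b - Km A w a b‖ ^ 2
      ≤ (g * e) ^ 2) : ‖Gm A (wCl w (Cs.biUnion B) v) a b - Gm A w a b‖ ≤ e := by
  have h1 := (single_le_sum (f := fun b => ‖Km A (wCl w (Cs.biUnion B) v) a b - Km A w a b‖ ^ 2)
    (fun _ _ => by positivity) (mem_sdiff.2 ⟨mem_univ b, hb⟩)).trans hr
  have h2 := h.g0
  rw [dK_sq h.adm ha hb, mul_pow] at h1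
  refine (pow_le_pow_iff_left₀ (norm_nonneg _) he two_ne_zero).1
    (le_of_mul_le_mul_left (le_trans ?_ h1) (by positivity))
  exact mul_le_mul_of_nonneg_right (by nlinarith) (sq_nonneg _)

/-- entries between an unreleased frozen port and any port -/
theorem G_frozen {a b : Tor d M} (ha : a ∈ O) (hb : b ∈ O) (hf : ∀ c ∈ Cs, a ∉ nbhd (B c) R) :
    ‖Gm A (wCl w (Cs.biUnion B) v) a b‖
      ≤ Ag * Real.exp (-θ * tdist a b) + tn * Real.exp (-θ' * tdist a b) := by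
  have h1 := h.tw.entry a b
  rw [cmp, if_pos ⟨ha, hb⟩] at h1
  exact (norm_le_norm_add_norm_sub' _ (Gm A w a b)).trans
    (add_le_add h1 (h.far ha hb fun ⟨c, hc, hh⟩ => hf c hc hh.1))


end Cons

/-- fourth powers after a small change of a row -/
theorem sum_four_le {ι : Type} (S : Finset ι) (x y : ι → ℂ) {e : ℝ}
    (h : ∑ b ∈ S, ‖y b - x b‖ ^ 2 ≤ e) :
    ∑ b ∈ S, ‖y b‖ ^ 4 ≤ 8 * ∑ b ∈ S, ‖x b‖ ^ 4 + 8 * e ^ 2 := by
  have h1 : ∀ b, ‖y b‖ ^ 4 ≤ 8 * ‖x b‖ ^ 4 + 8 * (‖y b - x b‖ ^ 2) ^ 2 := fun b => by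
    have := pow_le_pow_left₀ (norm_nonneg _) (norm_le_norm_add_norm_sub' (y b) (x b)) 4
    have h2 := add_pow_le (norm_nonneg (x b)) (norm_nonneg (y b - x b)) 4
    norm_num at h2
    linarith
  refine (sum_le_sum fun b _ => h1 b).trans ?_
  rw [sum_add_distrib, ← mul_sum, ← mul_sum]
  have h3 := (sum_sq_le_sq_sum_of_nonneg (s := S) (f := fun b => ‖y b - x b‖ ^ 2)
    fun _ _ => by positivity).trans (pow_le_pow_left₀ (by positivity) h 2)
  linarith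

/-! ### the random steps -/

section Cells

variable {Λ : Type} [Fintype Λ] [DecidableEq Λ]


open Classical in
/-- the Wegner monitor of one cluster -/
theorem weg_locB {A : Matrix Λ Λ ℂ} {w : Λ → ℂ} (h : Adm A w) {B U : Finset Λ} (hB : B ⊆ U)
    {a : Λ → ℝ} {s φ : ℝ} {m : Λ → ℕ} {m0 : ℕ} (hm : ∀ x, 0 < m x) (hs : 0 < s) (h0 : 0 < m0)
    (hm0 : ∀ x ∈ B, m0 ≤ m x) (hφ : 160 * B.card / m0 ≤ φ) :
    LocB m U φ fun ξ => if 4 * s * ∑ x ∈ B,
      (Gm A (wEta w B (fun z => a z + ξ z * s) (4 * s)) x x).im ≤ 1 / 4 then 0 else 1 := by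
  refine ⟨fun ξ => 4 * (4 * s * ∑ x ∈ B,
    (Gm A (wEta w B (fun z => a z + ξ z * s) (4 * s)) x x).im), fun ξ ξ' e => ?_, fun ξ _ => ?_, ?_⟩
  · have : wEta w B (fun z => a z + ξ z * s) (4 * s) = wEta w B (fun z => a z + ξ' z * s) (4 * s) :=
      funext fun x => by
        by_cases hx : x ∈ B
        · simp only [wEta, e x (hB hx)]
        · simp only [wEta, hx, if_false]
    simp only [this]
  · beta_reduce
    split_ifs with e
    · exact ⟨le_rfl, mul_nonneg (by norm_num) (mul_nonneg (by positivity)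
        (sum_nonneg fun x _ => (h.eta _ (by positivity)).im_nonneg x))⟩
    · exact ⟨zero_le_one, by linarith [not_le.1 e]⟩
  · rw [avgP_mul]
    refine (mul_le_mul_of_nonneg_left (h.weg_avg hm hs (by linarith)) (by norm_num)).trans
      (le_trans ?_ hφ)
    rw [mul_sum]
    refine (sum_le_card_nsmul _ _ (160 / (m0 : ℝ)) fun x hx => ?_).trans (le_of_eq ?_)
    · have : (0 : ℝ) < m x := Nat.cast_pos.2 (hm x)
      rw [show 4 * (10 * (4 * s) / (m x * s)) = 160 / m x by field_simp; norm_num]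
      exact div_le_div_of_nonneg_left (by norm_num) (Nat.cast_pos.2 h0) (Nat.cast_le.2 (hm0 x hx))
    · rw [nsmul_eq_mul]
      ring

end Cells

end Crest.Agent.N334.AC.RelA
end

-- ▼ part N334/AC/P/RelN
section

/-! # S0520 part P (helper12): numerics of the release -/

set_option autoImplicit false
set_option maxHeartbeats 400000
set_option linter.unusedSectionVars false

open Finset Complex

namespace Crest.Agent.N334.AC.P.RN

variable {d M : ℕ} [NeZero M] {c : Cx d M} {e : Ep} {g : Sg} {ρ : Rad} {u : Rp} {e2 : Ep} {g2 : Sg}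

/-- `m R` -/
def mR (ρ : Rad) (u : Rp) : ℕ := ρ.m (u.k + 1) * u.R
/-- length of the new cells -/
noncomputable def cl (c : Cx d M) (e2 : Ep) : ℝ := (2 ^ e2.a : ℕ) * (2 * c.σ / c.N)
noncomputable def tn (e : Ep) : ℝ := e.Bg ^ 10 * Real.exp (-e.ϑ * e.ρ)
noncomputable def th (ρ : Rad) (u : Rp) : ℝ := 1 / (21 * mR ρ u : ℕ)
noncomputable def ze (e : Ep) : ℝ := 1 / e.Bg ^ 2

variable (L : LedR c ρ e g u e2 g2)
include L

theorem ρR : 3 * e.ρ ≤ u.R := by have := L.R_ge; omega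
theorem R6 : 6 ≤ u.R := by have := ρR L; have := L.led.ρ_pos; omega
theorem R_mR : u.R ≤ mR ρ u := Nat.le_mul_of_pos_left _ L.m1
theorem mR6 : (6 : ℝ) ≤ mR ρ u := by exact_mod_cast (R6 L).trans (R_mR L)
theorem B0 : 0 < e.Bg := lt_of_lt_of_le (by norm_num) L.led.B_ge
theorem B1 : 1 ≤ e.Bg := le_trans (by norm_num) L.led.B_ge
theorem d3 : (3 : ℝ) ≤ d := by exact_mod_cast L.led.ok.hd
theorem C1 : 1 ≤ c.C := L.led.ok.C1
theorem γ0 : 0 < c.γ := L.led.ok.γ0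
theorem Cγ : 1000 * c.C ^ 2 * c.γ ≤ 1 := by
  refine le_trans (mul_le_mul_of_nonneg_right ?_ (γ0 L).le) L.led.ok.γ_le
  exact mul_le_mul (by norm_num) (pow_le_pow_right₀ (C1 L) (by norm_num)) (by positivity)
    (by norm_num)
theorem γ1 : 1000 * c.γ ≤ 1 := by
  nlinarith [Cγ L, mul_le_mul_of_nonneg_right (one_le_pow₀ (n := 2) (C1 L)) (γ0 L).le]
theorem PC : 1000 * c.C ≤ e.P := le_trans
  (mul_le_mul (by norm_num) (le_self_pow₀ (C1 L) (by norm_num)) (by linarith [C1 L]) (by norm_num))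
  L.led.P1
theorem P3 : (1000 : ℝ) ≤ e.P := by linarith [PC L, C1 L]

theorem powB {y : ℝ} {j : ℕ} (h0 : 0 ≤ y) (hy : y * e.ϑ ≤ 100 * d * mR ρ u) (hj : j ≤ 2 * d + 6) :
    y ^ j ≤ e.Bg := by
  have h1 := L.led.ϑ0
  have h2 := L.B_R
  rw [mul_assoc, ← Nat.cast_mul, ← mR] at h2
  refine (pow_le_pow_left₀ h0 ((le_div_iff₀ h1).2 hy) j).trans
    ((pow_le_pow_right₀ ((one_le_div h1).2 ?_) hj).trans h2)
  nlinarith [L.led.ϑ_le, d3 L, mR6 L]

theorem powB' {y : ℝ} {j : ℕ} (h0 : 0 ≤ y) (hy : y ≤ 100 * d * mR ρ u) (hj : j ≤ 2 * d + 6) :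
    y ^ j ≤ e.Bg :=
  powB L h0 (le_trans (mul_le_of_le_one_right h0 (by linarith [L.led.ϑ_le])) hy) hj

theorem J_le : (u.J : ℝ) ≤ e.Bg := by
  have h1 : u.J ≤ mR ρ u := by
    have := L.R_ge
    have := R_mR L
    have := Nat.le_mul_of_pos_right u.J (show 0 < e.ρ by have := L.led.ρ_pos; omega)
    omega
  have h2 : (u.J : ℝ) ≤ mR ρ u := by exact_mod_cast h1
  simpa using powB' L (j := 1) (Nat.cast_nonneg u.J) (by nlinarith [d3 L, mR6 L]) (by omega)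

theorem ε0 : 0 < u.ε := (mul_pos_iff_of_pos_left (B0 L)).1 (one_pos.trans_le L.ε0)
theorem x20 : 0 < g2.x := by linarith [L.x2, L.led.x_pos]
theorem x24 : g2.x ^ 4 ≤ g2.x ^ 2 := pow_le_pow_of_le_one (x20 L).le L.x21 (by norm_num)
theorem x22 : g2.x ^ 2 ≤ 1 := pow_le_one₀ (x20 L).le L.x21
theorem ε_γ : 1000 * u.ε ≤ c.γ ^ 2 * g2.x ^ 4 :=
  (mul_le_mul_of_nonneg_right (P3 L) (ε0 L).le).trans L.ε_x
theorem ε_x : 1000 * u.ε ≤ g2.x ^ 4 := (ε_γ L).trans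
  (mul_le_of_le_one_left (by positivity) (pow_le_one₀ (γ0 L).le (by linarith [γ1 L, γ0 L])))
theorem ε1 : u.ε ≤ 1 / 2 := by linarith [ε_x L, x24 L, x22 L]
theorem logB : 1 ≤ Real.log e.Bg := by
  rw [Real.le_log_iff_exp_le (B0 L)]
  linarith [Real.exp_one_lt_d9, L.led.B_ge]

theorem n0_le {n0 : ℕ} (h : (n0 : ℝ) = ρ.m (u.k + 1) * vol d M (2 * ρ.r u.k + e.s)) :
    n0 ≤ u.J := by
  have h1 := L.J_lo
  rw [← h] at h1
  have : (n0 : ℝ) ≤ u.J := by
    nlinarith [mul_le_mul_of_nonneg_left (logB L) (n0.cast_nonneg (α := ℝ)),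
      mul_le_mul_of_nonneg_right (ε1 L) (u.J.cast_nonneg (α := ℝ)), n0.cast_nonneg (α := ℝ)]
  exact_mod_cast this

theorem J1 : (1 : ℝ) ≤ u.J := by
  have h1 := L.J_lo
  have h2 := zero_le_one.trans (one_le_vol (d := d) (M := M) (2 * ρ.r u.k + e.s))
  have h3 := zero_le_one.trans (logB L)
  exact Nat.one_le_cast.2 (Nat.cast_pos.1 ((mul_pos_iff_of_pos_left (ε0 L)).1
    (lt_of_le_of_lt (by positivity) h1)))

theorem ze0 : 0 < ze e := by have := B0 L; unfold ze; positivity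
theorem ze1 : 2 * ze e ^ 2 ≤ u.ε := by
  have h0 := B0 L
  refine le_of_mul_le_mul_left (le_trans ?_ L.ε0) h0
  rw [ze, show e.Bg * (2 * (1 / e.Bg ^ 2) ^ 2) = 2 / e.Bg ^ 3 by field_simp,
    div_le_one (by positivity)]
  exact le_trans (by linarith [L.led.B_ge]) (le_self_pow₀ (B1 L) (by norm_num))

theorem hJ {n0 : ℕ} (h : (n0 : ℝ) = ρ.m (u.k + 1) * vol d M (2 * ρ.r u.k + e.s)) :
    20 * n0 * Real.log (2 / ze e) < u.ε * u.J := by
  have h1 := L.J_lo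
  have h0 := B0 L
  rw [← h] at h1
  have h2 : Real.log (2 / ze e) ≤ 3 * Real.log e.Bg := by
    rw [ze, div_div_eq_mul_div, div_one, Real.log_mul two_ne_zero (by positivity), Real.log_pow]
    have := Real.log_le_log two_pos (show 2 ≤ e.Bg by linarith [L.led.B_ge])
    push_cast
    linarith
  nlinarith [mul_le_mul_of_nonneg_left h2 (n0.cast_nonneg (α := ℝ))]

theorem sqh : e.P * u.J * √(g.x ^ 2 / e.q) ≤ u.ε := by
  have := L.led.q0
  refine (pow_le_pow_iff_left₀ (by positivity) (ε0 L).le two_ne_zero).1 ?_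
  rw [mul_pow, mul_pow, Real.sq_sqrt (by positivity)]
  exact L.J_hi

theorem sqh' : √(g.x ^ 2 / e.q) ≤ g2.x ^ 2 := by
  have h1 := mul_le_mul_of_nonneg_right (one_le_mul_of_one_le_of_one_le
    (show (1 : ℝ) ≤ e.P by linarith [P3 L]) (J1 L)) (Real.sqrt_nonneg (g.x ^ 2 / e.q))
  linarith [sqh L, ε_x L, x24 L, ε0 L]

theorem hJe : 40 * u.J * (11 / 10 * c.γ * √(g.x ^ 2 / e.q)) ≤ u.ε * (c.γ / (5 * c.C)) := by
  have h0 := C1 L
  have h1 := mul_le_mul_of_nonneg_right (PC L)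
    (mul_nonneg (u.J.cast_nonneg (α := ℝ)) (Real.sqrt_nonneg (g.x ^ 2 / e.q)))
  rw [← mul_div_assoc, le_div_iff₀ (by positivity)]
  have h2 : 220 * c.C * (u.J * √(g.x ^ 2 / e.q)) ≤ u.ε := by
    nlinarith [sqh L, mul_nonneg (zero_le_one.trans h0)
      (mul_nonneg (u.J.cast_nonneg (α := ℝ)) (Real.sqrt_nonneg (g.x ^ 2 / e.q)))]
  nlinarith [mul_le_mul_of_nonneg_right h2 (γ0 L).le]

theorem CB : 1000 * c.C ≤ e.Bg := le_trans
  (mul_le_mul (by norm_num) (le_self_pow₀ (C1 L) (by norm_num)) (by linarith [C1 L]) (by norm_num))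
  L.led.B_C

theorem tn0 : 0 < tn e := by have := B0 L; unfold tn; positivity
theorem tn_le : e.Bg ^ 30 * tn e ≤ 1 := by
  rw [tn, ← mul_assoc, ← pow_add]
  exact L.led.far1 le_rfl
theorem tn_pow {j : ℕ} (hj : j < 30) : 1000 * (e.Bg ^ j * tn e) ≤ 1 := by
  refine le_trans ?_ (tn_le L)
  rw [← mul_assoc]
  refine mul_le_mul_of_nonneg_right (le_trans ?_ (pow_le_pow_right₀ (B1 L) hj)) (tn0 L).le
  rw [pow_succ']
  exact mul_le_mul_of_nonneg_right (by linarith [L.led.B_ge]) (pow_pos (B0 L) _).le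
theorem tn_ε : 1000 * (e.Bg ^ 3 * tn e) ≤ u.ε := by
  refine le_of_mul_le_mul_left (le_trans ?_ L.ε0) (B0 L)
  linarith [tn_pow L (j := 4) (by norm_num)]
theorem tn_ε' : tn e ≤ u.ε := by
  nlinarith [tn_ε L, mul_le_mul_of_nonneg_right (one_le_pow₀ (n := 3) (B1 L)) (tn0 L).le, tn0 L]

theorem hD : (e.Bg * Real.exp (-e.ϑ * e.ρ)) ^ 2 * (2 * u.J : ℕ)
    ≤ u.ε * ze e ^ 2 * (c.γ / (5 * c.C)) := by
  have h0 := B0 L
  have h1 := C1 L
  have h2 : Real.exp (-e.ϑ * e.ρ) ^ 2 ≤ Real.exp (-e.ϑ * e.ρ) :=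
    pow_le_of_le_one (Real.exp_pos _).le (Real.exp_le_one_iff.2
      (by nlinarith [L.led.ϑ0, e.ρ.cast_nonneg (α := ℝ)])) two_ne_zero
  have h3 : 1 / e.Bg ≤ u.ε := by rw [div_le_iff₀' h0]; exact L.ε0
  have h4 : 1 / e.Bg / e.Bg ≤ c.γ / (5 * c.C) :=
    div_le_div₀ (γ0 L).le (by rw [div_le_iff₀' h0]; exact L.led.B_γ) (by positivity)
      (by linarith [CB L])
  calc _ ≤ e.Bg ^ 2 * Real.exp (-e.ϑ * e.ρ) * (2 * e.Bg) := by
        rw [mul_pow]
        push_cast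
        gcongr
        exact J_le L
    _ = 2 * tn e * (1 / e.Bg ^ 7) := by rw [tn]; field_simp
    _ ≤ 1 / e.Bg ^ 7 := mul_le_of_le_one_left (by positivity)
        (by linarith [tn_pow L (j := 0) (by norm_num), tn0 L])
    _ = 1 / e.Bg * ze e ^ 2 * (1 / e.Bg / e.Bg) := by rw [ze]; field_simp
    _ ≤ _ := by gcongr; exact mul_nonneg (ε0 L).le (sq_nonneg _)

theorem cl0 : 0 < cl c e2 := by
  have := L.led.ok.σ0
  have : (0 : ℝ) < c.N := Nat.cast_pos.2 L.led.ok.N0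
  unfold cl; positivity
theorem σ1 : 1000 * c.C * c.σ ≤ 1 := by
  refine le_trans (mul_le_mul_of_nonneg_right ?_ L.led.ok.σ0.le) L.led.ok.σ_le
  exact mul_le_mul (by norm_num) (le_self_pow₀ (C1 L) (by norm_num)) (by linarith [C1 L])
    (by norm_num)
theorem cl1 : 4 * cl c e2 ≤ 1 := by
  obtain ⟨W, h1, h2⟩ := L.N_eq
  have h3 : ((2 ^ e2.a : ℕ) : ℝ) ≤ c.N :=
    Nat.cast_le.2 (h2 ▸ Nat.pow_le_pow_right (by norm_num) (by have := L.a2; omega))
  have h4 : (0 : ℝ) < c.N := Nat.cast_pos.2 L.led.ok.N0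
  have h5 := L.led.ok.σ0
  have : cl c e2 ≤ 2 * c.σ := by
    rw [cl, ← mul_div_assoc, div_le_iff₀ h4]
    nlinarith
  nlinarith [σ1 L, C1 L]
theorem B_cl : 2 ≤ e.Bg * cl c e2 := by
  have h4 : (0 : ℝ) < c.N := Nat.cast_pos.2 L.led.ok.N0
  rw [cl, ← mul_div_assoc, ← mul_div_assoc, le_div_iff₀ h4]
  push_cast
  linarith [L.B_η]
theorem K1_le : 23 / (4 * cl c e2) ≤ 3 * e.Bg := by
  rw [div_le_iff₀ (by linarith [cl0 L])]
  linarith [B_cl L]
theorem th0 : 0 < th ρ u := by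
  have := mR6 L
  rw [th]; push_cast; positivity
theorem th_mul : th ρ u * (21 * mR ρ u : ℕ) = 1 :=
  one_div_mul_cancel (by have := mR6 L; push_cast; positivity)
theorem ϑρ : 4 ≤ e.ϑ * e.ρ := by
  have h1 := L.led.far1 le_rfl
  rw [← Real.exp_log (B0 L), ← Real.exp_nat_mul, ← Real.exp_add, Real.exp_le_one_iff] at h1
  push_cast at h1
  linarith [logB L]
theorem th1 : 4 * th ρ u ≤ e.ϑ := by
  have h1 : (e.ρ : ℝ) ≤ (21 * mR ρ u : ℕ) := by
    exact_mod_cast (by have := ρR L; have := R_mR L; omega : e.ρ ≤ 21 * mR ρ u)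
  have := mR6 L
  rw [th, mul_one_div, div_le_iff₀ (by push_cast; positivity)]
  exact (ϑρ L).trans (mul_le_mul_of_nonneg_left h1 L.led.ϑ0.le)
theorem hK1 : Real.exp (2 * th ρ u * (21 * mR ρ u : ℕ)) * (3 / (4 * cl c e2))
    ≤ 23 / (4 * cl c e2) := by
  rw [mul_assoc, th_mul L, mul_one, ← mul_div_assoc]
  refine div_le_div_of_nonneg_right ?_ (by linarith [cl0 L])
  have := pow_le_pow_left₀ (Real.exp_pos _).le Real.exp_one_lt_d9.le 2
  rw [← Real.exp_nat_mul] at this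
  norm_num at this ⊢
  linarith

theorem htn : 40 * vol d M (21 * mR ρ u + u.R) * e.Bg ^ 3 * (23 / (4 * cl c e2)) ^ 2 *
    (12 * d / e.ϑ) ^ (2 * d) / (9 / 10 * c.γ) ^ 2 * Real.exp (-e.ϑ * u.R / 2) ≤ tn e := by
  have h0 := B0 L
  have hϑ := L.led.ϑ0
  have hγ := γ0 L
  have hc := cl0 L
  have h1 : vol d M (21 * mR ρ u + u.R) ≤ e.Bg := (vol_le _).trans (powB' L (by positivity) (by
    have : (u.R : ℝ) ≤ mR ρ u := Nat.cast_le.2 (R_mR L)
    push_cast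
    nlinarith [d3 L, mR6 L]) (by omega))
  have h2 : (12 * d / e.ϑ) ^ (2 * d) ≤ e.Bg := powB L (by positivity)
    (by rw [div_mul_cancel₀ _ hϑ.ne']; nlinarith [d3 L, mR6 L]) (by omega)
  have h3 : 1 / (9 / 10 * c.γ) ≤ 2 * e.Bg := by
    rw [div_le_iff₀ (by positivity)]
    linarith [L.led.B_γ]
  have h4 : (3 * e.ρ : ℝ) ≤ u.R := by exact_mod_cast ρR L
  rw [div_eq_mul_one_div _ (_ ^ 2), ← one_div_pow]
  calc _ ≤ 40 * e.Bg * e.Bg ^ 3 * (3 * e.Bg) ^ 2 * e.Bg * (2 * e.Bg) ^ 2 *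
        Real.exp (-e.ϑ * e.ρ) := by
        gcongr
        · exact K1_le L
        · nlinarith [e.ρ.cast_nonneg (α := ℝ)]
    _ = 1440 * e.Bg ^ 9 * Real.exp (-e.ϑ * e.ρ) := by ring
    _ ≤ e.Bg * e.Bg ^ 9 * Real.exp (-e.ϑ * e.ρ) := by gcongr; linarith [L.led.B_ge]
    _ = _ := by rw [tn]; ring

theorem ze6 : 6 * ze e ≤ 4 * cl c e2 * (9 / 10 * c.γ) := by
  have h0 := B0 L
  rw [ze, mul_one_div, div_le_iff₀ (by positivity)]
  nlinarith [mul_le_mul (B_cl L) L.led.B_γ zero_le_one (by linarith [B_cl L])]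

theorem th_pow {a : ℝ} {j : ℕ} (h0 : 0 ≤ a) (ha : a ≤ 3 * d) (hj : j ≤ 2 * d + 6) :
    (a / th ρ u) ^ j ≤ e.Bg := by
  refine powB' L (div_nonneg h0 (th0 L).le) ?_ hj
  rw [th, div_div_eq_mul_div, div_one]
  push_cast
  nlinarith [mul_le_mul_of_nonneg_right ha (Nat.cast_nonneg (α := ℝ) (mR ρ u)), d3 L, mR6 L]

theorem ht : tn e * (3 * d / th ρ u) ^ d ≤ 24 := by
  have := mul_le_mul_of_nonneg_left (th_pow L (j := d) (by positivity) le_rfl (by omega)) (tn0 L).le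
  linarith [tn_pow L (j := 1) (by norm_num)]

theorem weg : 160 * (2 * u.J : ℕ) / (2 ^ e.P : ℕ) ≤ Real.exp (-(e.P : ℝ) / 3) := by
  have h1 : Real.exp (e.P * (3 / 5)) ≤ (2 ^ e.P : ℕ) := by
    rw [Real.exp_nat_mul]
    push_cast
    refine pow_le_pow_left₀ (Real.exp_pos _).le ?_ _
    rw [← Real.le_log_iff_exp_le two_pos]
    linarith [Real.log_two_gt_d9]
  have h2 : (320 : ℝ) ≤ Real.exp (e.P / 10) := by
    linarith [Real.add_one_le_exp ((e.P : ℝ) / 10), L.led.P_ge]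
  rw [div_le_iff₀ (by positivity)]
  refine le_trans ?_ (mul_le_mul_of_nonneg_left h1 (Real.exp_pos _).le)
  push_cast
  calc 160 * (2 * u.J : ℝ) = 320 * u.J := by ring
    _ ≤ Real.exp (e.P / 10) * Real.exp (e.P / 8) := by gcongr; exact L.J_P
    _ ≤ _ := by
      rw [← Real.exp_add, ← Real.exp_add, Real.exp_le_exp]
      linarith [e.P.cast_nonneg (α := ℝ)]

theorem zr7 : 100 * ((7 * ρ.m (u.k + 1) : ℝ) ^ d * (u.ε + g.F * u.J)) ≤ c.γ ^ 2 * u.zr ^ 2 := by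
  refine le_trans ?_ L.zr
  rw [← mul_assoc]
  refine mul_le_mul_of_nonneg_right ?_
    (add_nonneg (ε0 L).le (mul_nonneg L.led.F0 (Nat.cast_nonneg _)))
  have h1 : (100 : ℝ) ≤ 10 ^ d :=
    le_trans (by norm_num) (pow_le_pow_right₀ (by norm_num) L.led.ok.hd)
  refine (mul_le_mul_of_nonneg_right h1 (by positivity)).trans ?_
  rw [← mul_pow]
  exact pow_le_pow_left₀ (by positivity) (by linarith [(ρ.m (u.k + 1)).cast_nonneg (α := ℝ)]) _
theorem zr_ε : 100 * u.ε ≤ c.γ ^ 2 * u.zr ^ 2 := by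
  have h1 : (1 : ℝ) ≤ ρ.m (u.k + 1) := by exact_mod_cast L.m1
  have h2 := mul_nonneg L.led.F0 (u.J.cast_nonneg (α := ℝ))
  have := mul_le_mul_of_nonneg_right (one_le_pow₀ (n := d)
    (show (1 : ℝ) ≤ 7 * ρ.m (u.k + 1) by linarith)) (add_nonneg (ε0 L).le h2)
  linarith [zr7 L]
theorem zr_ε' : 100 * u.ε ≤ u.zr ^ 2 := (zr_ε L).trans
  (mul_le_of_le_one_left (by positivity) (pow_le_one₀ (γ0 L).le (by linarith [γ1 L, γ0 L])))
theorem zr0 : 0 < u.zr :=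
  L.zr0.lt_of_ne fun h => by have := zr_ε' L; rw [← h] at this; linarith [ε0 L]
theorem e2_le : 1000 * g2.e ≤ 1 := by
  have h1 := L.led.ok.κ1
  have h2 := one_le_pow₀ (n := 30) (C1 L)
  have h3 : 0 ≤ g2.e := by nlinarith [L.e_inc, L.led.e0, P3 L, zr0 L]
  exact le_trans (mul_le_mul_of_nonneg_right (by linarith) h3) L.e2_hi
theorem e_inc {a : ℝ} (ha : a ≤ 1000 * c.C) : g.e + a * u.zr ≤ g2.e :=
  le_trans (add_le_add_right (mul_le_mul_of_nonneg_right (ha.trans (PC L)) L.zr0) _) L.e_inc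
theorem e_le : g.e ≤ g2.e := by simpa using e_inc L (a := 0) (by linarith [C1 L])
theorem zr1 : u.zr ≤ 1 := by
  linarith [e_inc L (a := 1) (by linarith [C1 L]), L.led.e0, e2_le L]

theorem poin_le : (c.C / th ρ u) ^ (d + 3) / c.σ ^ 2 ≤ e.Bg ^ 3 := by
  have h0 := B0 L
  have hσ := L.led.ok.σ0
  have hC := C1 L
  have h1 : c.C ^ (d + 3) ≤ e.Bg := by
    have a1 : (2 : ℝ) ≤ e.ρ := by exact_mod_cast L.led.ρ_pos
    have a2 : c.C ≤ 100 * d * c.C * e.ρ / e.ϑ := by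
      rw [le_div_iff₀ L.led.ϑ0]
      nlinarith [L.led.ϑ_le, mul_le_mul (d3 L) a1 (by norm_num) (by positivity)]
    exact ((pow_le_pow_right₀ hC (by omega)).trans
      (pow_le_pow_left₀ (by positivity) a2 (2 * d + 6))).trans L.led.B_ρ
  have h2 := th_pow L (a := 1) (j := d + 3) zero_le_one (by linarith [d3 L]) (by omega)
  have h3 : 1 / c.σ ^ 2 ≤ e.Bg := by
    rw [div_le_iff₀ (by positivity)]
    exact hC.trans L.led.B_σ
  have h4 := th0 L
  rw [div_eq_mul_one_div c.C, mul_pow, div_eq_mul_one_div _ (c.σ ^ 2), pow_three']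
  gcongr

theorem shield : 2 * e.Bg ^ 2 * Real.exp (-e.ϑ * e.ρ) * (3 * d / e.ϑ) ^ d
    + 2 * tn e ^ 2 * (3 * d / th ρ u) ^ d ≤ e2.τ := by
  have h0 := B0 L
  have hϑ := L.led.ϑ0
  have h1 : (3 * d / e.ϑ) ^ d ≤ e.Bg := powB L (by positivity)
    (by rw [div_mul_cancel₀ _ hϑ.ne']; nlinarith [d3 L, mR6 L]) (by omega)
  have h2 : 2 * tn e ^ 2 * (3 * d / th ρ u) ^ d ≤ 48 * tn e := by
    nlinarith [mul_le_mul_of_nonneg_left (ht L) (tn0 L).le]
  have h3 : e.Bg ^ 3 ≤ e.Bg ^ 10 := pow_le_pow_right₀ (B1 L) (by norm_num)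
  have h4 : 50 * e.Bg ^ 10 ≤ e.Bg ^ 30 := by
    refine le_trans ?_ (pow_le_pow_right₀ (B1 L) (show 10 + 1 ≤ 30 by norm_num))
    rw [pow_succ' _ 10]
    exact mul_le_mul_of_nonneg_right (by linarith [L.led.B_ge]) (by positivity)
  have h5 : Real.exp (-e.ϑ * e.ρ) ≤ Real.exp (-e.ϑ * e.ρ / 2) :=
    Real.exp_le_exp.2 (by linarith [ϑρ L])
  have h6 := Real.exp_pos (-e.ϑ * e.ρ)
  refine le_trans ?_ ((mul_le_mul h4 h5 h6.le (by positivity)).trans L.τ2)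
  have h7 : tn e = e.Bg ^ 10 * Real.exp (-e.ϑ * e.ρ) := rfl
  nlinarith [mul_le_mul_of_nonneg_left h1 (show 0 ≤ 2 * e.Bg ^ 2 * Real.exp (-e.ϑ * e.ρ) by
    positivity), mul_le_mul_of_nonneg_right h3 h6.le]

theorem dec {x t : ℝ} (ht : 0 ≤ t) (h1 : x ≤ 1 / (9 / 10 * c.γ))
    (h2 : x ≤ (e.Bg + 2 * e.Bg ^ 2 * (23 / (4 * cl c e2))) * Real.exp (-th ρ u * t)) :
    x ≤ e2.A0 * Real.exp (-e2.θ0 * t) := by
  have h0 := B0 L
  have hγ := γ0 L
  have hl := logB L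
  have a1 : 1 ≤ 2 / c.γ := by rw [one_le_div hγ]; linarith [γ1 L]
  have a2 : e.Bg + 2 * e.Bg ^ 2 * (23 / (4 * cl c e2)) ≤ 2 / c.γ * Real.exp (4 * Real.log e.Bg) := by
    rw [show 4 * Real.log e.Bg = Real.log (e.Bg ^ 4) by rw [Real.log_pow]; norm_num,
      Real.exp_log (by positivity)]
    refine le_trans ?_ (le_mul_of_one_le_left (by positivity) a1)
    have b1 := mul_le_mul_of_nonneg_left (K1_le L) (show 0 ≤ 2 * e.Bg ^ 2 by positivity)
    have b2 : e.Bg ≤ e.Bg ^ 3 := le_self_pow₀ (B1 L) (by norm_num)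
    nlinarith [mul_le_mul_of_nonneg_right L.led.B_ge (show 0 ≤ e.Bg ^ 3 by positivity)]
  refine (min_decay (by positivity) (by linarith) a2 (h1.trans ?_) h2).trans
    (mul_le_mul ?_ (Real.exp_le_exp.2 (mul_le_mul_of_nonneg_right (neg_le_neg ?_) ht))
      (Real.exp_pos _).le ?_)
  · rw [div_le_div_iff₀ (by positivity) hγ]
    linarith
  · rw [← mul_div_assoc, div_le_iff₀' hγ]
    linarith [Real.exp_one_lt_d9, L.A2]
  · have b1 := L.θ2
    have b2 := mR6 L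
    rw [mul_assoc 100, ← Nat.cast_mul, ← mR] at b1
    rw [le_div_iff₀ (by positivity), th, le_div_iff₀ (by push_cast; positivity)]
    push_cast
    nlinarith [mul_nonneg L.θ20 (show 0 ≤ mR ρ u * Real.log e.Bg by positivity)]
  · exact ((mul_pos_iff_of_pos_left hγ).1 (lt_of_lt_of_le (by norm_num) L.A2)).le

end Crest.Agent.N334.AC.P.RN
end

-- ▼ part N334/AC/M6/Rel
section

/-!
# Row 334, S0520 (helper73): the form bounds through a release
-/

set_option autoImplicit false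

open Matrix Finset

namespace Crest.Agent.N334.AC.M6

variable {d M : ℕ} [NeZero M] {E0 : (Tor d M → ℝ) → ℝ} {A : Matrix (Tor d M) (Tor d M) ℂ}
  {w w' : Tor d M → ℂ} {Cs S : Finset (Tor d M)} {B N : Tor d M → Finset (Tor d M)} {L : ℕ}
  {e1 n1 tl θ ov ε μ a F σ C P t : ℝ} {χ : Tor d M → Tor d M → ℝ}
  {cp : Tor d M → (Tor d M → ℝ) →ₗ[ℝ] ℝ}

/-- error constant of a release; `P` = constant of `poin2` at rate `θ` -/
noncomputable def relC (C μ a F e1 n1 tl ov P : ℝ) : ℝ := 4 * ov * C * (a * e1 + F * n1) / μ + 2 * tl * P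

namespace Rl

theorem exists_mean {ι : Type} [Fintype ι] {ω : ι → ℝ} (h0 : ∀ a, 0 ≤ ω a) (f : ι → ℝ) :
    ∃ m, ∀ c, ∑ a, ω a * (f a - m) ^ 2 ≤ ∑ a, ω a * (f a - c) ^ 2 := by
  rcases (sum_nonneg fun a (_ : a ∈ univ) => h0 a).eq_or_lt with h | h
  · have := (sum_eq_zero_iff_of_nonneg fun a _ => h0 a).1 h.symm
    exact ⟨0, fun c => by simp [this _ (mem_univ _)]⟩
  refine ⟨(∑ a, ω a * f a) / ∑ a, ω a, fun c => ?_⟩
  set m := (∑ a, ω a * f a) / ∑ a, ω a with hm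
  have h1 : ∑ a, ω a * (f a - m) = 0 := by
    simp only [mul_sub, sum_sub_distrib, ← sum_mul]
    rw [hm, mul_div_cancel₀ _ h.ne', sub_self]
  have h2 : ∀ a, ω a * (f a - c) ^ 2 = ω a * (f a - m) ^ 2 + ω a * (m - c) ^ 2 +
      2 * (m - c) * (ω a * (f a - m)) := fun a => by ring
  simp only [h2, sum_add_distrib, ← mul_sum, ← sum_mul, h1]
  nlinarith [mul_nonneg h.le (sq_nonneg (m - c))]

/-- local weight of the cluster `c` -/
noncomputable def om (A : Matrix (Tor d M) (Tor d M) ℂ) (w w' : Tor d M → ℂ) (Cs : Finset (Tor d M))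
    (B N : Tor d M → Finset (Tor d M)) (c a : Tor d M) : ℝ :=
  if a ∈ N c \ B c then ∑ b ∈ univ \ Cs.biUnion B, ‖Km A w' a b - Km A w a b‖ ^ 2 +
    ∑ b ∈ B c, ‖Km A w a b‖ ^ 2 else 0

theorem om_nonneg (c a : Tor d M) : 0 ≤ om A w w' Cs B N c a := by
  unfold om; split_ifs <;> positivity

theorem Km_zero {w : Tor d M → ℂ} {a : Tor d M} (ha : gam w a = 0) (b : Tor d M) :
    Km A w a b = 0 ∧ Km A w b a = 0 := by simp [Km, ha]

theorem not_mem (h : RelH A w w' Cs B N S L e1 n1 tl θ ov) {c a : Tor d M} (hc : c ∈ Cs)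
    (ha : a ∈ N c \ B c) : a ∉ Cs.biUnion B := by
  rw [mem_sdiff] at ha
  simp only [mem_biUnion, not_exists, not_and]
  intro c' hc' h'
  by_cases e : c = c'
  · exact ha.2 (e ▸ h')
  · exact disjoint_left.1 (h.disj c hc c' hc' e) ha.1 (h.sub c' hc' h')

theorem om_ne (h : RelH A w w' Cs B N S L e1 n1 tl θ ov) {c a : Tor d M} (hc : c ∈ Cs)
    (ha : om A w w' Cs B N c a ≠ 0) : a ∈ N c \ B c ∧ gam w a ≠ 0 := by
  by_cases h1 : a ∈ N c \ B c
  · refine ⟨h1, fun e => ha ?_⟩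
    have e' : gam w' a = 0 := (h.same a (not_mem h hc h1)).trans e
    simp [om, (Km_zero e _).1, (Km_zero e' _).1]
  · simp only [om, h1, if_false, ne_eq, not_true_eq_false] at ha

theorem sum_om_le (h : RelH A w w' Cs B N S L e1 n1 tl θ ov) {c : Tor d M} (hc : c ∈ Cs) :
    ∑ a, om A w w' Cs B N c a ≤ 2 * n1 := by
  simp only [om, sum_ite_mem, univ_inter, sum_add_distrib]
  have h1 := h.mass c hc
  have h2 : ∑ a ∈ N c \ B c, ∑ b ∈ B c, ‖Km A w a b‖ ^ 2 ≤ (B c).card := by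
    rw [sum_comm, card_eq_sum_ones]
    push_cast
    refine sum_le_sum fun b _ => ?_
    have := nsq_Kbar h.adm (Pi.single b 1)
    rw [nsq_single] at this
    simp only [nsq, Pi.single_apply, mul_ite, mul_one, mul_zero, sum_ite_eq', mem_univ, if_true,
      RCLike.norm_conj, norm_one, one_pow] at this
    exact (sum_le_sum_of_subset_of_nonneg (subset_univ _) fun _ _ _ => by positivity).trans this
  have := h.card c hc
  linarith

/-- admissible centring constants -/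
def Ctr (A : Matrix (Tor d M) (Tor d M) ℂ) (w w' : Tor d M → ℂ) (Cs : Finset (Tor d M))
    (B N : Tor d M → Finset (Tor d M)) (f cc : Tor d M → ℝ) : Prop :=
  ∀ c ∈ Cs, ((∃ x ∈ absb d M, x ∈ N c) ∧ cc c = 0) ∨ ((∀ x ∈ N c, x ∉ absb d M) ∧
    ∀ x, ∑ a, om A w w' Cs B N c a * (f a - cc c) ^ 2 ≤ ∑ a, om A w w' Cs B N c a * (f a - x) ^ 2)

theorem exists_ctr (f : Tor d M → ℝ) : ∃ cc, Ctr A w w' Cs B N f cc := by
  have : ∀ c, ∃ m : ℝ, ((∃ x ∈ absb d M, x ∈ N c) ∧ m = 0) ∨ ((∀ x ∈ N c, x ∉ absb d M) ∧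
      ∀ x, ∑ a, om A w w' Cs B N c a * (f a - m) ^ 2 ≤
        ∑ a, om A w w' Cs B N c a * (f a - x) ^ 2) := fun c => by
    by_cases hx : ∃ x ∈ absb d M, x ∈ N c
    · exact ⟨0, Or.inl ⟨hx, rfl⟩⟩
    · obtain ⟨m, hm⟩ := exists_mean (om_nonneg (A := A) (w := w) (w' := w') (Cs := Cs) (B := B)
        (N := N) c) f
      exact ⟨m, Or.inr ⟨fun x h1 h2 => hx ⟨x, h2, h1⟩, hm⟩⟩
  choose cc hcc using this
  exact ⟨cc, fun c _ => hcc c⟩

theorem cap_weight (hμ : 0 < μ) (hC : Cap E0 μ S a F) (ha : 0 ≤ a) (hF : 0 ≤ F) (hE : ∀ ψ, 0 ≤ E0 ψ)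
    {ω φ : Tor d M → ℝ} (h0 : ∀ x, 0 ≤ ω x) {e n : ℝ} (he0 : 0 ≤ e) (he : ∀ x, ω x ≠ 0 → x ∈ S ∧ ω x ≤ e)
    (hn : ∑ x, ω x ≤ n) (hφ : Van φ) : ∑ x, ω x * φ x ^ 2 ≤ (a * e + F * n) / μ * E0 φ := by
  have h1 := hC (fun x => ω x * φ x) φ (fun x hx => by
    by_cases e : ω x = 0
    · simp [e]
    · exact absurd (he x e).1 hx) hφ
  set W := ∑ x, ω x * φ x ^ 2 with hW
  have hW0 : 0 ≤ W := sum_nonneg fun x _ => mul_nonneg (h0 x) (sq_nonneg _)
  have hn0 : 0 ≤ n := (sum_nonneg fun x _ => h0 x).trans hn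
  have e1 : ∑ x, ω x * φ x * φ x = W := sum_congr rfl fun x _ => by ring
  have h2 : ∑ x, (ω x * φ x) ^ 2 ≤ e * W := by
    rw [hW, mul_sum]
    refine sum_le_sum fun x _ => ?_
    by_cases e' : ω x = 0
    · simp [e']
    · have := mul_le_mul_of_nonneg_right (he x e').2 (mul_nonneg (h0 x) (sq_nonneg (φ x)))
      nlinarith
  have h3 : (∑ x, |ω x * φ x|) ^ 2 ≤ n * W := by
    refine (sum_sq_le_sum_mul_sum_of_sq_le_mul univ (f := ω) (g := fun x => ω x * φ x ^ 2)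
      (fun x _ => h0 x) (fun x _ => mul_nonneg (h0 x) (sq_nonneg _))
      fun x _ => le_of_eq (by rw [sq_abs]; ring)).trans (by gcongr)
  have hE' := hE φ
  have h4 : μ * W ^ 2 ≤ (a * (e * W) + F * (n * W)) * E0 φ := by
    rw [e1] at h1; exact h1.trans (by gcongr)
  rw [div_mul_eq_mul_div, le_div_iff₀ hμ]
  rcases hW0.eq_or_lt with h5 | h5
  · rw [← h5, zero_mul]; positivity
  · refine le_of_mul_le_mul_right ?_ h5
    nlinarith

theorem cluster (h : RelH A w w' Cs B N S L e1 n1 tl θ ov) (hE : ∀ ψ, 0 ≤ E0 ψ)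
    (hcut : Cut E0 σ C L χ cp) (hμ : 0 < μ) (hC : Cap E0 μ S a F) (ha : 0 ≤ a) (hF : 0 ≤ F)
    (hn1 : 0 ≤ n1) {ψ cc : Tor d M → ℝ} (hψ : Van ψ) (hcc : Ctr A w w' Cs B N ψ cc) :
    ∑ c ∈ Cs, ∑ x, om A w w' Cs B N c x * (ψ x - cc c) ^ 2 ≤
      2 * ov * C * (a * e1 + F * n1) / μ * E0 ψ := by
  set φ : Tor d M → Tor d M → ℝ := fun p x => χ p x * (ψ x - cp p ψ) with hφ
  have hv : ∀ p, Van (φ p) := fun p x hx => by
    by_cases e : tdist x p ≤ 3 * L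
    · simp [hφ, hψ x hx, hcut.van p ψ hψ ⟨x, hx, e⟩]
    · simp [hφ, hcut.zero p x (not_le.1 e)]
  have he := h.e0
  set Λ := (a * (2 * e1) + F * (2 * n1)) / μ with hΛ
  have h1 : ∀ c ∈ Cs, ∀ p ∈ tball c L,
      ∑ x, om A w w' Cs B N c x * (ψ x - cc c) ^ 2 ≤ Λ * E0 (φ p) := by
    intro c hc p hp
    have hd : ∀ x ∈ N c, tdist x p ≤ 2 * L := fun x hx => by
      have h1 := mem_tball.1 (h.ball c hc hx)
      have h2 := mem_tball.1 hp
      have h3 := tdist_triangle x c p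
      rw [tdist_comm c p] at h3
      omega
    refine le_trans ?_ (cap_weight hμ hC ha hF hE
      (ω := fun x => if x ∈ absb d M then 0 else om A w w' Cs B N c x)
      (fun x => by split_ifs; exacts [le_rfl, om_nonneg c x]) (by positivity) (fun x hx => ?_)
      ((sum_le_sum fun x _ => by split_ifs; exacts [om_nonneg c x, le_rfl]).trans (sum_om_le h hc))
      (hv p))
    · have e : ∀ x, om A w w' Cs B N c x * (ψ x - cp p ψ) ^ 2 = om A w w' Cs B N c x * φ p x ^ 2 := by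
        intro x
        by_cases e : om A w w' Cs B N c x = 0
        · simp [e]
        · simp [hφ, hcut.one p x (hd x (mem_sdiff.1 (om_ne h hc e).1).1)]
      rcases hcc c hc with ⟨⟨x, hx, hx'⟩, h0⟩ | ⟨h0, h2⟩
      · have h2 := hcut.van p ψ hψ ⟨x, hx, (hd x hx').trans (by omega)⟩
        refine le_of_eq (sum_congr rfl fun x _ => ?_)
        rw [h0, ← h2, e]
        split_ifs with hx
        · simp [hv p x hx]
        · rfl
      · refine (h2 (cp p ψ)).trans (le_of_eq (sum_congr rfl fun x _ => ?_))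
        rw [e]
        split_ifs with hx
        · simp [hv p x hx]
        · rfl
    · by_cases hx' : x ∈ absb d M
      · simp [hx'] at hx
      rw [if_neg hx'] at hx ⊢
      obtain ⟨h2, h3⟩ := om_ne h hc hx
      obtain ⟨h4, h5, h6⟩ := h.row c hc x (mem_sdiff.1 h2).1 (mem_sdiff.1 h2).2 hx' h3
      refine ⟨h4, ?_⟩
      rw [om, if_pos h2]; linarith
  have hvol := one_le_vol (d := d) (M := M) L
  have hΛ0 : 0 ≤ Λ := by positivity
  refine le_of_mul_le_mul_left ?_ (show 0 < vol d M L by linarith)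
  calc _ = ∑ c ∈ Cs, ∑ p ∈ tball c L, ∑ x, om A w w' Cs B N c x * (ψ x - cc c) ^ 2 := by
        rw [mul_sum]
        exact sum_congr rfl fun c _ => by rw [sum_const, nsmul_eq_mul, card_tball]
    _ ≤ ∑ c ∈ Cs, ∑ p ∈ tball c L, Λ * E0 (φ p) := sum_le_sum fun c hc => sum_le_sum (h1 c hc)
    _ = ∑ p, ((Cs.filter fun c => p ∈ tball c L).card : ℝ) * (Λ * E0 (φ p)) := by
        have : ∀ c, ∑ p ∈ tball c L, Λ * E0 (φ p) =
            ∑ p, if p ∈ tball c L then Λ * E0 (φ p) else 0 := fun c => by simp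
        simp only [this]
        rw [sum_comm]
        exact sum_congr rfl fun p _ => by rw [← sum_filter, sum_const, nsmul_eq_mul]
    _ ≤ ∑ p, ov * (Λ * E0 (φ p)) := sum_le_sum fun p _ => by
        have := hE (φ p); gcongr; exact h.ovl p
    _ ≤ ov * (Λ * (C * vol d M L * E0 ψ)) := by
        have : 0 ≤ ov := (Nat.cast_nonneg _).trans (h.ovl 0)
        rw [← mul_sum, ← mul_sum]; gcongr; exact hcut.ims ψ
    _ = _ := by rw [hΛ]; ring

/-- energy restricted to the complement of `T` -/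
noncomputable def er (X : Matrix (Tor d M) (Tor d M) ℂ) (T : Finset (Tor d M)) (f : Tor d M → ℝ) : ℝ :=
  ∑ a ∈ univ \ T, ∑ b ∈ univ \ T, ‖X a b‖ ^ 2 * (f a - f b) ^ 2

theorem er_eq (X : Matrix (Tor d M) (Tor d M) ℂ) (T : Finset (Tor d M)) (f : Tor d M → ℝ) :
    er X T f = ∑ a, ∑ b, if a ∉ T ∧ b ∉ T then ‖X a b‖ ^ 2 * (f a - f b) ^ 2 else 0 := by
  have e : univ \ T = univ.filter fun a => a ∉ T := by ext; simp
  simp only [er, e, sum_filter, ite_and]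
  exact sum_congr rfl fun a _ => by split_ifs <;> simp

theorem En'_eq (h : RelH A w w' Cs B N S L e1 n1 tl θ ov) (f : Tor d M → ℝ) :
    2 * En (Km A w') f = er (Km A w') (Cs.biUnion B) f := by
  rw [er_eq, En, ← mul_assoc, show (2 : ℝ) * (1 / 2) = 1 by norm_num, one_mul]
  refine sum_congr rfl fun a _ => sum_congr rfl fun b _ => ?_
  split_ifs with hab
  · rfl
  · rcases not_and_or.1 hab with e | e
    · simp [(Km_zero (h.closed a (not_not.1 e)) b).1]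
    · simp [(Km_zero (h.closed b (not_not.1 e)) a).2]

theorem er_le_En (X : Matrix (Tor d M) (Tor d M) ℂ) (T : Finset (Tor d M)) (f : Tor d M → ℝ) :
    er X T f ≤ 2 * En X f := by
  rw [er_eq, En, ← mul_assoc, show (2 : ℝ) * (1 / 2) = 1 by norm_num, one_mul]
  refine sum_le_sum fun a _ => sum_le_sum fun b _ => ?_
  split_ifs
  · exact le_rfl
  · positivity

theorem er_add_le (X Y : Matrix (Tor d M) (Tor d M) ℂ) (T : Finset (Tor d M)) (f : Tor d M → ℝ)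
    (ht : 0 < t) : er Y T f ≤ (1 + t) * er X T f + (1 + 1 / t) * er (Y - X) T f ∧
      (1 - t) * er X T f - 1 / t * er (Y - X) T f ≤ er Y T f := by
  have h1 : ∀ x y : ℂ, ‖y‖ ^ 2 ≤ (1 + t) * ‖x‖ ^ 2 + (1 + 1 / t) * ‖y - x‖ ^ 2 ∧
      (1 - t) * ‖x‖ ^ 2 - 1 / t * ‖y - x‖ ^ 2 ≤ ‖y‖ ^ 2 := by
    intro x y
    have h2 : 2 * (‖x‖ * ‖y - x‖) ≤ t * ‖x‖ ^ 2 + 1 / t * ‖y - x‖ ^ 2 := by
      have : 0 ≤ 1 / t * (t * ‖x‖ - ‖y - x‖) ^ 2 := by positivity
      have e : 1 / t * (t * ‖x‖ - ‖y - x‖) ^ 2 =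
          t * ‖x‖ ^ 2 + 1 / t * ‖y - x‖ ^ 2 - 2 * (‖x‖ * ‖y - x‖) := by field_simp; ring
      linarith
    have h3 : ‖y‖ ≤ ‖x‖ + ‖y - x‖ := norm_le_norm_add_norm_sub' _ _
    have h4 : |‖x‖ - ‖y - x‖| ≤ ‖y‖ := by
      simpa [norm_sub_rev x y] using abs_norm_sub_norm_le x (-(y - x))
    have h5 := pow_le_pow_left₀ (norm_nonneg _) h3 2
    have h6 := pow_le_pow_left₀ (abs_nonneg _) h4 2
    rw [sq_abs] at h6
    constructor <;> nlinarith [sq_nonneg ‖y - x‖]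
  simp only [er, mul_sum, ← sum_add_distrib, ← sum_sub_distrib, Matrix.sub_apply]
  refine ⟨sum_le_sum fun a _ => sum_le_sum fun b _ => ?_,
    sum_le_sum fun a _ => sum_le_sum fun b _ => ?_⟩
  · nlinarith [mul_le_mul_of_nonneg_right (h1 (X a b) (Y a b)).1 (sq_nonneg (f a - f b))]
  · nlinarith [mul_le_mul_of_nonneg_right (h1 (X a b) (Y a b)).2 (sq_nonneg (f a - f b))]

theorem er_D_le (h : RelH A w w' Cs B N S L e1 n1 tl θ ov) (ψ cc : Tor d M → ℝ) :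
    er (Km A w' - Km A w) (Cs.biUnion B) ψ ≤
      tl * ∑ a, ∑ b, Real.exp (-θ * tdist a b) * (ψ a - ψ b) ^ 2 +
        4 * ∑ c ∈ Cs, ∑ x, om A w w' Cs B N c x * (ψ x - cc c) ^ 2 := by
  set G : Tor d M → Tor d M → ℝ := fun a b => ∑ c ∈ Cs, if a ∈ N c \ B c ∧ b ∉ Cs.biUnion B then
    ‖Km A w' a b - Km A w a b‖ ^ 2 * (ψ a - cc c) ^ 2 else 0 with hG
  have hG0 : ∀ a b, 0 ≤ G a b := fun a b => sum_nonneg fun c _ => by split_ifs <;> positivity
  have htl := h.tl0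
  have h1 : ∀ a b, (if a ∉ Cs.biUnion B ∧ b ∉ Cs.biUnion B then
      ‖(Km A w' - Km A w) a b‖ ^ 2 * (ψ a - ψ b) ^ 2 else 0) ≤
      tl * (Real.exp (-θ * tdist a b) * (ψ a - ψ b) ^ 2) + 2 * G a b + 2 * G b a := by
    intro a b
    have := hG0 a b
    have := hG0 b a
    split_ifs with hab
    swap
    · positivity
    rw [Matrix.sub_apply]
    by_cases hc : ∃ c ∈ Cs, a ∈ N c ∧ b ∈ N c
    · obtain ⟨c, hc, ha, hb⟩ := hc
      have k : ∀ a b, a ∈ N c → a ∉ Cs.biUnion B → b ∉ Cs.biUnion B →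
          ‖Km A w' a b - Km A w a b‖ ^ 2 * (ψ a - cc c) ^ 2 ≤ G a b := fun a b ha ha' hb' => by
        refine le_trans (le_of_eq ?_) (single_le_sum (fun c _ => by split_ifs <;> positivity) hc)
        rw [if_pos ⟨mem_sdiff.2 ⟨ha, fun e => ha' (mem_biUnion.2 ⟨c, hc, e⟩)⟩, hb'⟩]
      have h2 := k a b ha hab.1 hab.2
      have h3 := k b a hb hab.2 hab.1
      rw [Km_comm h.adm b a, Km_comm h.adm' b a] at h3
      have h4 : 0 ≤ tl * (Real.exp (-θ * tdist a b) * (ψ a - ψ b) ^ 2) := by positivity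
      nlinarith [mul_nonneg (sq_nonneg ‖Km A w' a b - Km A w a b‖)
        (sq_nonneg (ψ a - cc c + (ψ b - cc c)))]
    · nlinarith [mul_le_mul_of_nonneg_right (h.far a b hab.1 hab.2 hc) (sq_nonneg (ψ a - ψ b))]
  have h2 : ∑ a, ∑ b, G a b ≤ ∑ c ∈ Cs, ∑ x, om A w w' Cs B N c x * (ψ x - cc c) ^ 2 := by
    simp only [hG]
    rw [sum_congr rfl fun a _ => sum_comm, sum_comm]
    refine sum_le_sum fun c _ => sum_le_sum fun a _ => ?_
    by_cases ha : a ∈ N c \ B c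
    · have e : univ \ Cs.biUnion B = univ.filter fun a => a ∉ Cs.biUnion B := by ext; simp
      simp only [om, ha, true_and, if_true, ← sum_filter, ← sum_mul, ← e]
      gcongr
      exact le_add_of_nonneg_right (by positivity)
    · simp only [om, ha, false_and, if_false, sum_const_zero, zero_mul, le_refl]
  rw [er_eq]
  refine (sum_le_sum fun a _ => sum_le_sum fun b _ => h1 a b).trans ?_
  simp only [sum_add_distrib, ← mul_sum]
  rw [sum_comm (f := fun a b => G b a)]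
  linarith

theorem En_le_er (h : RelH A w w' Cs B N S L e1 n1 tl θ ov) {ψ cc : Tor d M → ℝ}
    (hψ : ∀ c ∈ Cs, ∀ b ∈ B c, ψ b = cc c) : 2 * En (Km A w) ψ ≤ er (Km A w) (Cs.biUnion B) ψ +
      tl * ∑ a, ∑ b, Real.exp (-θ * tdist a b) * (ψ a - ψ b) ^ 2 +
        2 * ∑ c ∈ Cs, ∑ x, om A w w' Cs B N c x * (ψ x - cc c) ^ 2 := by
  set G : Tor d M → Tor d M → ℝ := fun a b => ∑ c ∈ Cs, if a ∈ N c \ B c ∧ b ∈ B c then
    ‖Km A w a b‖ ^ 2 * (ψ a - cc c) ^ 2 else 0 with hG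
  have hG0 : ∀ a b, 0 ≤ G a b := fun a b => sum_nonneg fun c _ => by split_ifs <;> positivity
  have htl := h.tl0
  have k : ∀ a, ∀ b ∈ Cs.biUnion B, ‖Km A w a b‖ ^ 2 * (ψ a - ψ b) ^ 2 ≤
      tl * (Real.exp (-θ * tdist a b) * (ψ a - ψ b) ^ 2) + G a b := by
    intro a b hb
    obtain ⟨c, hc, hb⟩ := mem_biUnion.1 hb
    have := hG0 a b
    have h4 : 0 ≤ tl * (Real.exp (-θ * tdist a b) * (ψ a - ψ b) ^ 2) := by positivity
    by_cases ha : a ∈ N c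
    · by_cases ha' : a ∈ B c
      · rw [hψ c hc a ha', hψ c hc b hb]; simpa using this
      · refine le_trans ?_ (le_add_of_nonneg_left h4)
        refine le_trans (le_of_eq ?_) (single_le_sum (fun c _ => by split_ifs <;> positivity) hc)
        rw [if_pos ⟨mem_sdiff.2 ⟨ha, ha'⟩, hb⟩, hψ c hc b hb]
    · nlinarith [mul_le_mul_of_nonneg_right (h.far' c hc b hb a ha) (sq_nonneg (ψ a - ψ b))]
  have h1 : ∀ a b, ‖Km A w a b‖ ^ 2 * (ψ a - ψ b) ^ 2 ≤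
      (if a ∉ Cs.biUnion B ∧ b ∉ Cs.biUnion B then ‖Km A w a b‖ ^ 2 * (ψ a - ψ b) ^ 2 else 0) +
      tl * (Real.exp (-θ * tdist a b) * (ψ a - ψ b) ^ 2) + G a b + G b a := by
    intro a b
    have := hG0 a b
    have := hG0 b a
    have h4 : 0 ≤ tl * (Real.exp (-θ * tdist a b) * (ψ a - ψ b) ^ 2) := by positivity
    split_ifs with hab
    · linarith
    rcases not_and_or.1 hab with e | e
    · have := k b a (not_not.1 e)
      rw [Km_comm h.adm b a, tdist_comm b a, ← neg_sub (ψ a), neg_sq] at this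
      linarith
    · have := k a b (not_not.1 e)
      linarith
  have h2 : ∑ a, ∑ b, G a b ≤ ∑ c ∈ Cs, ∑ x, om A w w' Cs B N c x * (ψ x - cc c) ^ 2 := by
    simp only [hG]
    rw [sum_congr rfl fun a _ => sum_comm, sum_comm]
    refine sum_le_sum fun c _ => sum_le_sum fun a _ => ?_
    by_cases ha : a ∈ N c \ B c
    · simp only [om, ha, true_and, if_true, sum_ite_mem, univ_inter, ← sum_mul]
      gcongr
      exact le_add_of_nonneg_left (by positivity)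
    · simp only [om, ha, false_and, if_false, sum_const_zero, zero_mul, le_refl]
  rw [er_eq, En, ← mul_assoc, show (2 : ℝ) * (1 / 2) = 1 by norm_num, one_mul]
  refine (sum_le_sum fun a _ => sum_le_sum fun b _ => h1 a b).trans ?_
  simp only [sum_add_distrib, ← mul_sum]
  rw [sum_comm (f := fun a b => G b a)]
  linarith

end Rl

open Rl

theorem RelH.LB (h : RelH A w w' Cs B N S L e1 n1 tl θ ov) (hL : LB E0 A w ε) (hE : ∀ ψ, 0 ≤ E0 ψ)
    (hε : 0 ≤ ε) (hcut : Cut E0 σ C L χ cp) (hμ : 0 < μ) (hC : Cap E0 μ S a F) (ha : 0 ≤ a) (hF : 0 ≤ F)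
    (hn1 : 0 ≤ n1) (hP : ∀ ψ : Tor d M → ℝ, ∑ a, ∑ b, Real.exp (-θ * tdist a b) * (ψ a - ψ b) ^ 2 ≤ P * E0 ψ)
    (ht : 0 < t) (ht1 : t ≤ 1) : LB E0 A w' (ε + t + 2 * relC C μ a F e1 n1 tl ov P / t) := by
  intro f hf
  obtain ⟨cc, hcc⟩ := exists_ctr (A := A) (w := w) (w' := w') (Cs := Cs) (B := B) (N := N) f
  have hex : ∃ g : Tor d M → ℝ, (∀ c ∈ Cs, ∀ b ∈ B c, g b = cc c) ∧
      ∀ a, a ∉ Cs.biUnion B → g a = f a := by
    refine ⟨fun a => if ha : ∃ c ∈ Cs, a ∈ B c then cc ha.choose else f a, fun c hc b hb => ?_,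
      fun a ha => dif_neg fun e => ha (mem_biUnion.2 e)⟩
    have ha : ∃ c ∈ Cs, b ∈ B c := ⟨c, hc, hb⟩
    simp only [dif_pos ha]
    by_contra e
    exact disjoint_left.1 (h.disj _ ha.choose_spec.1 c hc fun e' => e (by rw [e']))
      (h.sub _ ha.choose_spec.1 ha.choose_spec.2) (h.sub c hc hb)
  obtain ⟨g, hg1, hg2⟩ := hex
  obtain ⟨ψ, hψ, hψg, hle⟩ := hL g fun x hx => by
    rw [hg2 x fun e => h.core x e hx, hf x hx]
  have hp : ∀ a, gam w' a ≠ 0 → ψ a = f a := fun a ha => by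
    have h1 : a ∉ Cs.biUnion B := fun e => ha (h.closed a e)
    rw [hψg a (h.same a h1 ▸ ha), hg2 a h1]
  have hcc' : Ctr A w w' Cs B N ψ cc := fun c hc => by
    have e : ∀ x, ∑ a, om A w w' Cs B N c a * (ψ a - x) ^ 2 =
        ∑ a, om A w w' Cs B N c a * (f a - x) ^ 2 := fun x => sum_congr rfl fun a _ => by
      by_cases e : om A w w' Cs B N c a = 0
      · simp [e]
      · obtain ⟨h1, h2⟩ := om_ne h hc e
        rw [hψg a h2, hg2 a (not_mem h hc h1)]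
    simp only [e]
    exact hcc c hc
  refine ⟨ψ, hψ, hp, ?_⟩
  rw [En_congr (f := f) (g := ψ) fun x hx => (hp x hx).symm]
  rw [En_congr (f := g) (g := ψ) fun x hx => (hψg x hx).symm] at hle
  have h1 := cluster h hE hcut hμ hC ha hF hn1 hψ hcc'
  have h2 := En_le_er h (ψ := ψ) (cc := cc) fun c hc b hb => by
    rw [hψg b (h.port b (mem_biUnion.2 ⟨c, hc, hb⟩)), hg1 c hc b hb]
  have h3 := er_D_le h ψ cc
  have h4 := (er_add_le (Km A w) (Km A w') (Cs.biUnion B) ψ ht).2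
  have h5 := mul_le_mul_of_nonneg_left (hP ψ) h.tl0
  rw [← En'_eq h] at h4
  set X := ∑ c ∈ Cs, ∑ x, om A w w' Cs B N c x * (ψ x - cc c) ^ 2
  set Y := tl * ∑ a, ∑ b, Real.exp (-θ * tdist a b) * (ψ a - ψ b) ^ 2
  have hX : 0 ≤ X := sum_nonneg fun c _ => sum_nonneg fun x _ =>
    mul_nonneg (om_nonneg c x) (sq_nonneg _)
  have hY : 0 ≤ Y := by have := h.tl0; positivity
  have h6 : 4 * X + 4 * Y ≤ 2 * relC C μ a F e1 n1 tl ov P * E0 ψ := by
    have : 2 * relC C μ a F e1 n1 tl ov P * E0 ψ =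
      4 * (2 * ov * C * (a * e1 + F * n1) / μ * E0 ψ) + 4 * (tl * (P * E0 ψ)) := by unfold relC; ring
    linarith
  have h7 : 1 ≤ 1 / t := by rw [le_div_iff₀ ht]; linarith
  have h8 := mul_le_mul_of_nonneg_left h6 (zero_le_one.trans h7)
  have h9 := mul_le_mul_of_nonneg_left h3 (zero_le_one.trans h7)
  have h10 := mul_le_mul_of_nonneg_left (show 2 * ((1 - ε) * E0 ψ) - Y - 2 * X ≤
    er (Km A w) (Cs.biUnion B) ψ by linarith) (sub_nonneg.2 ht1)
  have h11 := mul_le_mul_of_nonneg_right h7 hX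
  have h12 := mul_le_mul_of_nonneg_right h7 hY
  have e : (1 - (ε + t + 2 * relC C μ a F e1 n1 tl ov P / t)) * E0 ψ =
      (1 - ε - t) * E0 ψ - 1 / t * (2 * relC C μ a F e1 n1 tl ov P * E0 ψ) := by ring
  rw [e]
  nlinarith [mul_nonneg (mul_nonneg hε ht.le) (hE ψ), mul_nonneg ht.le hX, mul_nonneg ht.le hY]

theorem RelH.UB (h : RelH A w w' Cs B N S L e1 n1 tl θ ov) (hU : UB E0 A w ε) (hE : ∀ ψ, 0 ≤ E0 ψ)
    (hε : ε ≤ 1) (hcut : Cut E0 σ C L χ cp) (hμ : 0 < μ) (hC : Cap E0 μ S a F) (ha : 0 ≤ a) (hF : 0 ≤ F)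
    (hn1 : 0 ≤ n1) (hP : ∀ ψ : Tor d M → ℝ, ∑ a, ∑ b, Real.exp (-θ * tdist a b) * (ψ a - ψ b) ^ 2 ≤ P * E0 ψ)
    (ht : 0 < t) (ht1 : t ≤ 1) : UB E0 A w' (ε + 2 * t + 2 * relC C μ a F e1 n1 tl ov P / t) := by
  intro ψ hψ
  obtain ⟨cc, hcc⟩ := exists_ctr (A := A) (w := w) (w' := w') (Cs := Cs) (B := B) (N := N) ψ
  have h1 := cluster h hE hcut hμ hC ha hF hn1 hψ hcc
  have h2 := (er_le_En (Km A w) (Cs.biUnion B) ψ).trans
    (mul_le_mul_of_nonneg_left (hU ψ hψ) zero_le_two)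
  have h3 := er_D_le h ψ cc
  have h4 := (er_add_le (Km A w) (Km A w') (Cs.biUnion B) ψ ht).1
  have h5 := mul_le_mul_of_nonneg_left (hP ψ) h.tl0
  rw [← En'_eq h] at h4
  set X := ∑ c ∈ Cs, ∑ x, om A w w' Cs B N c x * (ψ x - cc c) ^ 2
  set Y := tl * ∑ a, ∑ b, Real.exp (-θ * tdist a b) * (ψ a - ψ b) ^ 2
  have hX : 0 ≤ X := sum_nonneg fun c _ => sum_nonneg fun x _ =>
    mul_nonneg (om_nonneg c x) (sq_nonneg _)
  have hY : 0 ≤ Y := by have := h.tl0; positivity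
  have h6 : 4 * X + 4 * Y ≤ 2 * relC C μ a F e1 n1 tl ov P * E0 ψ := by
    have : 2 * relC C μ a F e1 n1 tl ov P * E0 ψ =
      4 * (2 * ov * C * (a * e1 + F * n1) / μ * E0 ψ) + 4 * (tl * (P * E0 ψ)) := by unfold relC; ring
    linarith
  have h7 : 1 ≤ 1 / t := by rw [le_div_iff₀ ht]; linarith
  have h8 := mul_le_mul_of_nonneg_left h6 (zero_le_one.trans h7)
  have h9 := mul_le_mul_of_nonneg_left h3 (show 0 ≤ 1 + 1 / t by positivity)
  have h10 := mul_le_mul_of_nonneg_left h2 (show 0 ≤ 1 + t by positivity)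
  have h11 := mul_le_mul_of_nonneg_right h7 hX
  have h12 := mul_le_mul_of_nonneg_right h7 hY
  have e : (1 + (ε + 2 * t + 2 * relC C μ a F e1 n1 tl ov P / t)) * E0 ψ =
      (1 + ε + 2 * t) * E0 ψ + 1 / t * (2 * relC C μ a F e1 n1 tl ov P * E0 ψ) := by ring
  rw [e]
  nlinarith [mul_nonneg (mul_nonneg (sub_nonneg.2 hε) ht.le) (hE ψ),
    mul_nonneg (zero_le_one.trans h7) hY]

end Crest.Agent.N334.AC.M6
end

-- ▼ part N334/AC/P/RelB
section

/-! # S0520 part P (helper12): the release, deterministic part -/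

set_option autoImplicit false
set_option maxHeartbeats 400000
set_option linter.unusedSectionVars false

open Finset Complex
open scoped Matrix.Norms.L2Operator Matrix

namespace Crest.Agent.N334.AC.P.RB

open RN RelA

variable {d M : ℕ} [NeZero M] {c : Cx d M} {e : Ep} {g : Sg} {f : Ref d M} {ρ : Rad} {u : Rp}
  {e2 : Ep} {g2 : Sg} {s : St d M} {Cs Cs' : Finset (Tor d M)} {B : Tor d M → Finset (Tor d M)}
  {v : Tor d M → ℝ}

/-- frozen ports -/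
noncomputable def Fr (s : St d M) : Finset (Tor d M) := (opn s.w \ s.ord) \ absb d M

theorem mem_Fr {x : Tor d M} : x ∈ Fr s ↔ gam s.w x ≠ 0 ∧ x ∉ s.ord ∧ x ∉ absb d M := by
  simp only [Fr, mem_sdiff, mem_opn, and_assoc]

abbrev Pl (c : Cx d M) (e : Ep) (ρ : Rad) (u : Rp) (s : St d M) (Cs : Finset (Tor d M))
    (B : Tor d M → Finset (Tor d M)) : Prop :=
  Plan (Km c.A s.w) s.ord (Fr s) Cs B u.ε (ze e) (2 * u.J) (21 * mR ρ u) u.R

abbrev Rl (c : Cx d M) (e : Ep) (f : Ref d M) (ρ : Rad) (u : Rp) (e2 : Ep) (s : St d M)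
    (Cs : Finset (Tor d M)) (B : Tor d M → Finset (Tor d M)) (v : Tor d M → ℝ) : Prop :=
  Rel c.A s.w (opn f.wr) Cs B v e.ϑ (th ρ u) e.Bg (4 * cl c e2) (9 / 10 * c.γ)
    (23 / (4 * cl c e2)) (tn e) (21 * mR ρ u) u.R

variable (L : LedR c ρ e g u e2 g2) (hf : RefOK c e f) (h : Inv c e f (th0 e g) s)
include L hf h

theorem D : Der c e g f s := der L.led hf L.led.le0 h
theorem ordT {x : Tor d M} (hx : x ∈ s.ord) : x ∈ f.T := hf.sub (h.bas.sub hx)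
theorem ord_abs {x : Tor d M} (hx : x ∈ s.ord) : x ∉ absb d M :=
  disjoint_left.1 hf.dT (ordT L hf h hx)
theorem ports (x : Tor d M) (hx : gam s.w x ≠ 0) : x ∈ opn f.wr := (D L hf h).sub0 (mem_opn.2 hx)
theorem gam1 (x : Tor d M) : gam s.w x ≤ 1 := ((D L hf h).gam_le x).trans (by linarith [γ1 L, γ0 L])
theorem Pl.opn (hp : Pl c e ρ u s Cs B) {p x : Tor d M} (hc : p ∈ Cs) (hx : x ∈ B p) :
    gam s.w x ≠ 0 ∧ x ∉ absb d M := by
  rcases mem_union.1 (hp.sub p hc hx) with a | a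
  exacts [⟨(mem_Fr.1 a).1, (mem_Fr.1 a).2.2⟩, ⟨h.bas.opn x a, ord_abs L hf h a⟩]

theorem plan (hQ : ∀ p ∈ f.P, Crowded ρ u.k f.P p → p ∈ s.PS) :
    ∃ Cs ⊆ f.P \ s.PS, ∃ B, Pl c e ρ u s Cs B ∧ (∀ p ∈ Cs, B p ⊆ nbhd f.P u.R) ∧
      ∀ x ∈ Fr s, (∃ p ∈ Cs, x ∈ B p) ∨ x ∈ nbhd s.PS (31 * mR ρ u) := by
  have D := D L hf h
  have a1 := L.R_ge
  have a2 := R_mR L
  have a3 := L.Rc
  have hγ := γ0 L
  have hC := C1 L
  have hn : ((ρ.m (u.k + 1) * (tball (0 : Tor d M) (2 * ρ.r u.k + e.s)).card : ℕ) : ℝ)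
      = ρ.m (u.k + 1) * vol d M (2 * ρ.r u.k + e.s) := by rw [Nat.cast_mul, vol]
  rw [mul_assoc] at a3
  have key := exists_plan (Fr := Fr s) (Ord := s.ord) (P := f.P) (Q := s.PS)
    h.bas.adm ρ u.k (s := e.s) (s' := e.ρ) (J := u.J) (Dm := 21 * mR ρ u) (n := 2 * u.J) L.R_lo
    (by rw [mul_assoc]; unfold mR at a2; omega) hQ
    (disjoint_left.2 fun x hx => (mem_Fr.1 hx).2.1) (fun x hx => ?_) (by omega)
    (by rw [mul_assoc]; unfold mR at a2 ⊢; omega) hn.ge (by have := n0_le L hn; omega)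
    (ε0 L) (ε1 L) (ze0 L) (ze1 L) (by positivity) (by positivity) (fun a ha => ?_)
    (fun a ha b hb hab => ?_) (hJ L hn) (hJe L) L.led.ϑ0.le
    (K_le h.bas.adm (ports L hf h) (gam1 L hf h) D.tw) (hD L)
  · obtain ⟨Cs, h1, B, h2, h3, h4⟩ := key
    exact ⟨Cs, h1, B, h2, fun p hp => (h3 p hp).trans (nbhd_mono' Subset.rfl (by omega)),
      fun x hx => (h4 x hx).imp_right fun ⟨q, hq, a⟩ => mem_nbhd.2 ⟨q, hq, by omega⟩⟩
  · obtain ⟨b1, b2, b3⟩ := mem_Fr.1 hx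
    by_cases a : x ∈ f.ord0
    · exact Or.inr ((mem_nbhd.1 (h.bas.g2 x a b1 b2)).imp fun q hq => ⟨hq.1, by omega⟩)
    · exact Or.inl (mem_nbhd.1 (hf.cov x (ports L hf h x b1) a b3))
  · have b1 := mul_le_mul (D.gam_ge a (h.bas.opn a ha)) (D.iota a ha) (by positivity)
      (h.bas.adm.diss a)
    simp only [mu, h.bas.adm.K_sq, mul_assoc, ← mul_sum]
    refine le_trans ?_ b1
    rw [mul_one_div, div_le_div_iff₀ (by positivity) (by positivity)]
    nlinarith [mul_pos hγ (zero_lt_one.trans_le hC)]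
  · have b1 := L.led.q0
    refine (pow_le_pow_iff_left₀ (norm_nonneg _) (by positivity) two_ne_zero).1 ?_
    rw [h.bas.adm.K_sq, mul_pow, Real.sq_sqrt (by positivity), sq (_ * _)]
    exact mul_le_mul (mul_le_mul (D.gam_le a) (D.gam_le b) (h.bas.adm.diss b) (by positivity))
      (h.ent a ha b hb hab) (by positivity) (by positivity)

theorem rel (hp : Pl c e ρ u s Cs B) (hv : ∀ x, |v x| ≤ c.σ)
    (good : ∀ p ∈ Cs, Adm c.A (wCl s.w (B p) v) ∧
      ‖cmp (Gm c.A (wCl s.w (B p) v)) (B p)‖ ≤ 2 / (4 * cl c e2)) : Rl c e f ρ u e2 s Cs B v := by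
  have D := D L hf h
  refine ⟨h.bas.adm, by have := L.led.ok.hd; omega, ports L hf h, gam1 L hf h, D.tw, RN.th0 L, RN.th1 L,
    by linarith [L.led.ϑ_le], B1 L, by linarith [cl0 L], cl1 L, by linarith [γ0 L],
    by linarith [γ1 L], fun p hc x hx => D.gam_ge x (hp.opn L hf h hc hx).1, hp.diam, hp.iso,
    fun p hc x hx => (norm_sub_le _ _).trans ?_, good, hK1 L, htn L,
    by linarith [tn_pow L (j := 0) (by norm_num), tn0 L]⟩
  rw [Complex.norm_real, Real.norm_eq_abs]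
  have a1 := L.led.ok.σ0
  have a2 : 1000 * c.σ ≤ 1 := by nlinarith [σ1 L, C1 L]
  nlinarith [hv x, D.w_le x (hp.opn L hf h hc hx).1, σ1 L]

variable (hp : Pl c e ρ u s Cs B) (hr : Rl c e f ρ u e2 s Cs B v)
include hp hr

theorem row {a : Tor d M} (ha : a ∈ s.ord \ Cs.biUnion B) : ∑ b ∈ univ \ Cs.biUnion B,
    ‖Km c.A (wCl s.w (Cs.biUnion B) v) a b - Km c.A s.w a b‖ ^ 2 ≤ 24 * u.ε :=
  row_le hr hp (tn_ε' L) (ze0 L).le (ze6 L) (ht L) (mem_sdiff.1 ha).1 (mem_sdiff.1 ha).2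

theorem dG {a b : Tor d M} (ha : a ∈ s.ord \ Cs.biUnion B) (hb : b ∈ s.ord \ Cs.biUnion B) {t : ℝ}
    (ht : 0 ≤ t) (h1 : 100 * u.ε ≤ c.γ ^ 2 * t ^ 2) :
    ‖c.G (wCl s.w (Cs.biUnion B) v) a b - c.G s.w a b‖ ≤ t :=
  dG_le hr (mem_sdiff.1 ha).2 (mem_sdiff.1 hb).2
    ((D L hf h).gam_ge a (h.bas.opn a (mem_sdiff.1 ha).1))
    ((D L hf h).gam_ge b (h.bas.opn b (mem_sdiff.1 hb).1)) ht
    ((row L hf h hp hr ha).trans (by nlinarith [ε0 L]))

theorem dGx {a b : Tor d M} (ha : a ∈ s.ord \ Cs.biUnion B) (hb : b ∈ s.ord \ Cs.biUnion B) :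
    ‖c.G (wCl s.w (Cs.biUnion B) v) a b - c.G s.w a b‖ ≤ g2.x ^ 2 :=
  dG L hf h hp hr ha hb (sq_nonneg _) (by linarith [ε_γ L, ε0 L])

theorem rowG {a : Tor d M} (ha : a ∈ s.ord \ Cs.biUnion B) {S : Finset (Tor d M)}
    (hS : S ⊆ s.ord \ Cs.biUnion B) :
    c.γ ^ 2 * ∑ b ∈ S, ‖c.G (wCl s.w (Cs.biUnion B) v) a b - c.G s.w a b‖ ^ 2 ≤ 30 * u.ε := by
  have D := D L hf h
  have hγ := γ0 L
  have h1 := (sum_le_sum_of_subset_of_nonneg (hS.trans (sdiff_subset_sdiff (subset_univ _)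
    Subset.rfl)) fun _ _ _ => by positivity).trans (row L hf h hp hr ha)
  have h2 : (9 / 10 * c.γ) * (9 / 10 * c.γ) *
      ∑ b ∈ S, ‖c.G (wCl s.w (Cs.biUnion B) v) a b - c.G s.w a b‖ ^ 2 ≤ 24 * u.ε := by
    rw [mul_sum]
    refine le_trans (sum_le_sum fun b hb => ?_) h1
    rw [dK_sq h.bas.adm (mem_sdiff.1 ha).2 (mem_sdiff.1 (hS hb)).2]
    exact mul_le_mul_of_nonneg_right (mul_le_mul (D.gam_ge a (h.bas.opn a (mem_sdiff.1 ha).1))
      (D.gam_ge b (h.bas.opn b (mem_sdiff.1 (hS hb)).1)) (by positivity) (h.bas.adm.diss a))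
      (by positivity)
  linarith [ε0 L]

theorem ent {a b : Tor d M} (ha : a ∈ s.ord \ Cs.biUnion B) (hb : b ∈ s.ord \ Cs.biUnion B)
    (hab : a ≠ b) : ‖c.G (wCl s.w (Cs.biUnion B) v) a b‖ ≤ 2 * g2.x ^ 2 := by
  have h1 := (Real.le_sqrt_of_sq_le (h.ent a (mem_sdiff.1 ha).1 b (mem_sdiff.1 hb).1 hab)).trans
    (sqh' L)
  linarith [norm_le_norm_add_norm_sub' (c.G (wCl s.w (Cs.biUnion B) v) a b) (c.G s.w a b),
    dGx L hf h hp hr ha hb]

theorem diag3 {a : Tor d M} (ha : a ∈ s.ord \ Cs.biUnion B) :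
    ‖c.G (wCl s.w (Cs.biUnion B) v) a a‖ ≤ 3 * c.C := by
  have h1 := mem_sdiff.1 ha
  linarith [norm_le_norm_add_norm_sub' (c.G (wCl s.w (Cs.biUnion B) v) a a) (c.G s.w a a),
    dGx L hf h hp hr ha ha, (D L hf h).g_le a (ordT L hf h h1.1) (h.bas.opn a h1.1), x22 L, C1 L]

theorem opn' {x : Tor d M} (hx : gam (wCl s.w (Cs.biUnion B) v) x ≠ 0) :
    x ∉ Cs.biUnion B ∧ gam s.w x ≠ 0 := by
  have : x ∉ Cs.biUnion B := fun a => hx (gam_closed a)
  exact ⟨this, gam_same (v := v) this ▸ hx⟩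

theorem gam' {x : Tor d M} (hx : x ∈ opn (wCl s.w (Cs.biUnion B) v)) :
    9 / 10 * c.γ ≤ gam (wCl s.w (Cs.biUnion B) v) x := by
  obtain ⟨a, b⟩ := opn' L hf h hp hr (mem_opn.1 hx)
  rw [gam_same a]
  exact (D L hf h).gam_ge x b

omit hf h hp hr in
theorem col {w : Tor d M → ℂ} (hw : Adm c.A w) {S : Finset (Tor d M)}
    (hS : ∀ x ∈ S, 9 / 10 * c.γ ≤ gam w x) {a : Tor d M} (ha : ‖c.G w a a‖ ≤ 3 * c.C) :
    c.γ * ∑ x ∈ S, ‖c.G w x a‖ ^ 2 ≤ 4 * c.C := by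
  have h1 := (hw.ward_col a).trans_le ((Complex.im_le_norm _).trans ha)
  have h2 : 9 / 10 * c.γ * ∑ x ∈ S, ‖c.G w x a‖ ^ 2 ≤ 3 * c.C := by
    rw [mul_sum]
    exact ((sum_le_sum fun x hx => mul_le_mul_of_nonneg_right (hS x hx) (by positivity)).trans
      (sum_le_sum_of_subset_of_nonneg (subset_univ S) fun x _ _ =>
        mul_nonneg (hw.diss x) (by positivity))).trans h1
  linarith [C1 L]

theorem four {a : Tor d M} (ha : a ∈ s.ord \ Cs.biUnion B) {S : Finset (Tor d M)}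
    (hS : S ⊆ s.ord \ Cs.biUnion B) :
    c.γ * ∑ b ∈ S.erase a, ‖c.G (wCl s.w (Cs.biUnion B) v) a b‖ ^ 4 ≤ g2.x ^ 4 := by
  have hγ := γ0 L
  have h1 := rowG L hf h hp hr ha ((erase_subset a S).trans hS)
  have h2 : ∑ b ∈ S.erase a, ‖c.G (wCl s.w (Cs.biUnion B) v) a b - c.G s.w a b‖ ^ 2
      ≤ g2.x ^ 4 / 10 :=
    le_of_mul_le_mul_left (by linarith [ε_γ L, ε0 L]) (show 0 < c.γ ^ 2 by positivity)
  have h3 := mul_le_mul_of_nonneg_left (sum_four_le _ _ _ h2) hγ.le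
  have h4 : c.γ * ∑ b ∈ S.erase a, ‖c.G s.w a b‖ ^ 4 ≤ g.x ^ 4 :=
    (mul_le_mul_of_nonneg_left (sum_le_sum_of_subset_of_nonneg
      (erase_subset_erase a (hS.trans sdiff_subset)) fun _ _ _ => by positivity) hγ.le).trans
      (h.four a (mem_sdiff.1 ha).1)
  have h5 := pow_le_pow_left₀ (by linarith [L.led.x_pos]) L.x2 4
  have h6 : (g2.x ^ 4) ^ 2 ≤ g2.x ^ 4 :=
    pow_le_of_le_one (by positivity) ((x24 L).trans (x22 L)) two_ne_zero
  nlinarith [mul_le_mul (show c.γ ≤ 1 by linarith [γ1 L]) h6 (by positivity) zero_le_one]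

theorem bias {a : Tor d M} (ha : a ∈ s.ord \ Cs.biUnion B) :
    ‖c.b (wCl s.w (Cs.biUnion B) v) a‖ ≤ (e2.P : ℝ) ^ 6 * e2.Q * g2.x ^ 2 * c.γ := by
  have D := D L hf h
  have h1 := mem_sdiff.1 ha
  have hC := C1 L
  have hγ := γ0 L
  have h2 := h.bas.opn a h1.1
  have h3 := (L.led.ok.sml (C' := 3 * c.C) (by linarith) (by linarith)).beta_lip (L.led.ok.r01 a)
    ((D.g_le a (ordT L hf h h1.1) h2).trans (by linarith)) (diag3 L hf h hp hr ha)
    ((D.w_le a h2).trans (by nlinarith [sq_nonneg c.σ]))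
  have h4 : c.b (wCl s.w (Cs.biUnion B) v) a = beta c.σ c.N (c.r a)
      (c.G (wCl s.w (Cs.biUnion B) v) a a) (s.w a) := by rw [Cx.b, wCl, if_neg h1.2]
  have h5 : ‖c.b s.w a‖ ≤ (e.P : ℝ) ^ 6 * e.Q * g.x ^ 2 * c.γ := h.bias a h1.1
  have h6 : (e.P : ℝ) ^ 6 * e.Q ≤ (e2.P : ℝ) ^ 6 * e2.Q := by
    have := L.P2
    have := L.Q2
    gcongr
  have h7 : 1000 * c.C ≤ (e.P : ℝ) ^ 6 * e.Q := by
    have a1 : (1 : ℝ) ≤ e.P := by linarith [P3 L]
    exact ((PC L).trans (le_self_pow₀ a1 (by norm_num))).trans (le_mul_of_one_le_right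
      (by positivity) ((one_le_pow₀ a1).trans L.led.Q_ge))
  have h8 := pow_le_pow_left₀ (by linarith [L.led.x_pos]) L.x2 2
  have h9 := mul_le_mul L.led.ok.γ_lo (dGx L hf h hp hr ha ha) (norm_nonneg _) (by positivity)
  have h10 := mul_le_mul h6 h8 (by positivity) (by positivity)
  have h11 := mul_le_mul_of_nonneg_right (h7.trans h6) (sq_nonneg g2.x)
  rw [h4]
  refine (norm_le_norm_add_norm_sub' _ (c.b s.w a)).trans ((add_le_add h5 h3).trans ?_)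
  nlinarith [mul_le_mul_of_nonneg_right h10 hγ.le, mul_le_mul_of_nonneg_right h11 hγ.le,
    mul_nonneg (sq_nonneg c.σ) (norm_nonneg (c.G (wCl s.w (Cs.biUnion B) v) a a - c.G s.w a a)),
    mul_nonneg (mul_nonneg (zero_le_one.trans hC) hγ.le) (sq_nonneg g2.x)]

theorem had {S : Finset (Tor d M)} (hS : S ⊆ s.ord \ Cs.biUnion B) :
    c.γ * ‖cmp (Matrix.hadamard (c.G (wCl s.w (Cs.biUnion B) v))
      (c.G (wCl s.w (Cs.biUnion B) v))) S‖ ≤ g2.e := by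
  have D := D L hf h
  have hC := C1 L
  have hγ := γ0 L
  have hz := zr0 L
  have hA := hr.exists_T.1
  obtain ⟨G', e1⟩ : ∃ G', G' = c.G (wCl s.w (Cs.biUnion B) v) := ⟨_, rfl⟩
  obtain ⟨G, e2⟩ : ∃ G, G = c.G s.w := ⟨_, rfl⟩
  have s1 : ∀ a b, G' a b = G' b a := e1 ▸ hA.G_sym
  have s2 : ∀ a b, G a b = G b a := e2 ▸ h.bas.adm.G_sym
  have h1 : ∀ a, ∑ b, ‖cmp (G'.hadamard G' - G.hadamard G) S a b‖ ≤ 10 * c.C * u.zr / c.γ := by
    intro a
    by_cases ha : a ∈ S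
    · have b1 := rowG L hf h hp hr (hS ha) hS
      have b2 := col L hA (S := S) (fun x hx => gam' L hf h hp hr (mem_opn.2 (by
        rw [gam_same (mem_sdiff.1 (hS hx)).2]; exact h.bas.opn x (mem_sdiff.1 (hS hx)).1)))
        (diag3 L hf h hp hr (hS ha))
      have b3 := col L h.bas.adm (S := S)
        (fun x hx => D.gam_ge x (h.bas.opn x (mem_sdiff.1 (hS hx)).1))
        ((D.g_le a (ordT L hf h (mem_sdiff.1 (hS ha)).1)
          (h.bas.opn a (mem_sdiff.1 (hS ha)).1)).trans (by linarith))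
      rw [← e1] at b1 b2
      rw [← e2] at b1 b3
      have b4 : u.zr * ∑ b, ‖cmp (G'.hadamard G' - G.hadamard G) S a b‖ ≤ ∑ b ∈ S,
          (‖G' a b - G a b‖ ^ 2 + u.zr ^ 2 * ‖G' b a‖ ^ 2 + u.zr ^ 2 * ‖G b a‖ ^ 2) := by
        rw [← sum_subset (subset_univ S) fun b _ hb => by simp [cmp, hb], mul_sum]
        refine sum_le_sum fun b hb => ?_
        rw [cmp, if_pos ⟨ha, hb⟩, Matrix.sub_apply, Matrix.hadamard_apply, Matrix.hadamard_apply,
          ← sq, ← sq, sq_sub_sq, norm_mul, s1 b a, s2 b a]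
        have c1 := mul_le_mul_of_nonneg_right (norm_add_le (G' a b) (G a b))
          (mul_nonneg hz.le (norm_nonneg (G' a b - G a b)))
        nlinarith [sq_nonneg (‖G' a b - G a b‖ - u.zr * ‖G' a b‖),
          sq_nonneg (‖G' a b - G a b‖ - u.zr * ‖G a b‖), mul_nonneg (sq_nonneg u.zr)
          (sq_nonneg ‖G a b‖), mul_nonneg (sq_nonneg u.zr) (sq_nonneg ‖G' a b‖)]
      rw [sum_add_distrib, sum_add_distrib, ← mul_sum, ← mul_sum] at b4
      have b5 : ∑ b ∈ S, ‖G' a b - G a b‖ ^ 2 ≤ u.zr ^ 2 :=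
        le_of_mul_le_mul_left (by linarith [zr_ε L, ε0 L]) (show 0 < c.γ ^ 2 by positivity)
      rw [le_div_iff₀' hγ]
      refine le_of_mul_le_mul_left ?_ hz
      have b6 := mul_le_mul_of_nonneg_left b4 hγ.le
      have b7 := mul_le_mul (show c.γ ≤ c.C by linarith [γ1 L]) b5 (by positivity) (by positivity)
      nlinarith [mul_le_mul_of_nonneg_left b2 (sq_nonneg u.zr),
        mul_le_mul_of_nonneg_left b3 (sq_nonneg u.zr),
        mul_nonneg (zero_le_one.trans hC) (sq_nonneg u.zr)]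
    · simp only [cmp, ha, false_and, if_false, norm_zero, sum_const_zero]
      positivity
  have h2 := norm_le_schur (by positivity) h1 fun b => le_trans (le_of_eq (sum_congr rfl
    fun a _ => by simp only [cmp, Matrix.sub_apply, Matrix.hadamard_apply, s1 a b, s2 a b,
      and_comm])) (h1 b)
  have h3 : cmp (G'.hadamard G') S
      = cmp (G.hadamard G) S + cmp (G'.hadamard G' - G.hadamard G) S := by
    ext a b
    simp only [cmp, Matrix.add_apply, Matrix.sub_apply]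
    split_ifs <;> simp
  have h4 : c.γ * ‖cmp (G.hadamard G) S‖ ≤ g.e := e2 ▸
    (mul_le_mul_of_nonneg_left (norm_cmp_mono _ (hS.trans sdiff_subset)) hγ.le).trans h.had
  rw [le_div_iff₀' hγ] at h2
  rw [← e1, h3]
  refine (mul_le_mul_of_nonneg_left (norm_add_le _ _) hγ.le).trans ?_
  linarith [e_inc L (a := 10 * c.C) (by linarith)]

theorem forms : c.UB (wCl s.w (Cs.biUnion B) v) g2.e ∧ c.LB (wCl s.w (Cs.biUnion B) v) g2.e := by
  have a1 := R6 L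
  have a2 := R_mR L
  have hC := C1 L
  have hγ := γ0 L
  have hz := zr0 L
  have hm : (1 : ℝ) ≤ ρ.m (u.k + 1) := by exact_mod_cast L.m1
  have H := relH hr hp (tn_ε' L) (ze0 L).le (ze6 L) (fun x hx => by
      by_cases b1 : x ∈ absb d M
      · exact Or.inl b1
      by_cases b2 : x ∈ s.ord
      · exact Or.inr (mem_union_right _ b2)
      · exact Or.inr (mem_union_left _ (mem_Fr.2 ⟨hx, b2, b1⟩)))
    (disjoint_left.2 fun x hx => (mem_union.1 hx).elim (fun a => (mem_Fr.1 a).2.2)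
      (ord_abs L hf h)) (L := 22 * mR ρ u) (k := 3 * ρ.m (u.k + 1)) (by omega) (by omega)
    (by rw [show 3 * ρ.m (u.k + 1) * (10 * u.R) = 30 * mR ρ u by unfold mR; ring]; omega)
  obtain ⟨χ, cp, hcut⟩ := L.led.ok.init.cut (22 * mR ρ u) (L.led.ρσ.trans
    (mul_le_mul_of_nonneg_left (Nat.cast_le.2 (by have := ρR L; omega)) (sq_nonneg _)))
  have hμ : 0 < c.μ := (mul_pos_iff_of_pos_left (by linarith)).1 (hγ.trans_le L.led.ok.μ_lo)
  have hE : ∀ ψ, 0 ≤ c.E0 ψ := En_nn _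
  have he' : g.e' ≤ 1 := by
    nlinarith [L.led.e'_small, one_le_pow₀ (n := 30) hC]
  have he0 : 0 ≤ g.e' := by
    linarith [L.led.X'_le, L.led.X_inc, L.led.X0,
      mul_nonneg (pow_nonneg (Nat.cast_nonneg (α := ℝ) e.P) 3) L.led.x_pos.le]
  have hP := L.led.ok.init.poin2 (th ρ u) (RN.th0 L) (by linarith [RN.th1 L, L.led.ϑ_le])
  have hF := L.led.F0
  have hr : M6.relC c.C c.μ (1 + g.e') g.F (24 * u.ε) (18 * (2 * u.J : ℕ) + 1) (tn e)
      ((2 * (3 * ρ.m (u.k + 1) : ℕ) + 1) ^ d) ((c.C / th ρ u) ^ (d + 3) / c.σ ^ 2)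
      ≤ u.zr * u.zr := by
    have b1 : ((2 * (3 * ρ.m (u.k + 1) : ℕ) + 1 : ℝ)) ^ d ≤ (7 * ρ.m (u.k + 1) : ℝ) ^ d :=
      pow_le_pow_left₀ (by positivity) (by push_cast; linarith) d
    have b2 : (1 + g.e') * (24 * u.ε) + g.F * (18 * (2 * u.J : ℕ) + 1)
        ≤ 48 * (u.ε + g.F * u.J) := by
      push_cast
      nlinarith [mul_le_mul_of_nonneg_right he' (ε0 L).le, mul_le_mul_of_nonneg_left (J1 L) hF]
    have b3 := mul_le_mul b1 b2 (by have := ε0 L; positivity) (by positivity)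
    have b4 := mul_le_mul_of_nonneg_left (poin_le L) (tn0 L).le
    have b5 : 4 * (2 * (3 * ρ.m (u.k + 1) : ℕ) + 1) ^ d * c.C * ((1 + g.e') * (24 * u.ε)
        + g.F * (18 * (2 * u.J : ℕ) + 1)) / c.μ ≤ u.zr ^ 2 / 2 := by
      rw [div_le_iff₀ hμ]
      refine le_of_mul_le_mul_left ?_ (zero_lt_one.trans_le hC)
      have c1 := mul_le_mul_of_nonneg_left (show (2 * (3 * ρ.m (u.k + 1) : ℕ) + 1 : ℝ) ^ d *
        ((1 + g.e') * (24 * u.ε) + g.F * (18 * (2 * u.J : ℕ) + 1)) ≤ c.γ ^ 2 * u.zr ^ 2 by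
          nlinarith [zr7 L, mul_nonneg (sq_nonneg c.γ) (sq_nonneg u.zr)]) (sq_nonneg c.C)
      have c2 := mul_le_mul_of_nonneg_right (Cγ L) (mul_nonneg hγ.le (sq_nonneg u.zr))
      nlinarith [mul_le_mul_of_nonneg_right L.led.ok.μ_lo (sq_nonneg u.zr),
        mul_nonneg hγ.le (sq_nonneg u.zr)]
    unfold M6.relC
    nlinarith [tn_ε L, zr_ε' L, ε0 L]
  rw [← div_le_iff₀ hz] at hr
  have hcap := L.led.cap s.ord h.sep
  have ht : (th0 e g).e = g.e := rfl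
  exact ⟨(H.UB h.ub hE ((e_le L).trans (by linarith [e2_le L])) hcut hμ hcap (by linarith) hF
      (by positivity) hP hz (zr1 L)).mono hE (by
        rw [mul_div_assoc]; linarith [e_inc L (a := 4) (by linarith)]),
    (H.LB h.lb hE L.led.e0 hcut hμ hcap (by linarith) hF (by positivity) hP hz (zr1 L)).mono hE
      (by rw [mul_div_assoc]; linarith [e_inc L (a := 4) (by linarith)])⟩

omit hr in
/-- the state after the release -/
theorem after (hs : Cs' ⊆ Cs) (hr : Rl c e f ρ u e2 s Cs' B v)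
    (cov : ∀ x ∈ Fr s, (∃ p ∈ Cs, x ∈ B p) ∨ x ∈ nbhd s.PS (31 * mR ρ u)) {P' : Finset (Tor d M)}
    (hP1 : s.PS ⊆ P') (hP2 : ∀ p ∈ Cs, p ∉ Cs' → p ∈ P') {S2 : Tor d M → ℕ × ℕ}
    (rng : ∀ x, 0 < (S2 x).2 ∧ (S2 x).1 + (S2 x).2 ≤ c.N)
    (hU : ∀ x ∈ Cs'.biUnion B, (S2 x).2 = 1 ∧ v x = c.v x (S2 x).1)
    (hU0 : ∀ x ∈ Cs.biUnion B, x ∉ Cs'.biUnion B → (S2 x).2 = 2 ^ e2.a)
    (hoff : ∀ x, x ∉ Cs.biUnion B → S2 x = s.S x) {f2 : Ref d M}
    (e0 : f2 = ⟨wCl s.w (Cs'.biUnion B) v, (s.ord \ Cs'.biUnion B) \ nbhd P' e2.s,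
      s.ord \ Cs'.biUnion B, P'⟩) :
    RefOK c e2 f2 ∧ Inv c e2 f2 (th0 e2 g2) ⟨f2.wr, S2, f2.ord0, ∅⟩ := by
  subst e0
  have D := D L hf h
  have hp' := hp.mono hs
  have hA := hr.exists_T.1
  have hγ := γ0 L
  have hC := C1 L
  have a1 : 40 * mR ρ u ≤ e2.s := by have := L.s2; rwa [mul_assoc] at this
  have nearB : ∀ x ∈ Cs.biUnion B, x ∉ Cs'.biUnion B → x ∈ nbhd P' (31 * mR ρ u) := by
    intro x hx hx'
    obtain ⟨p, b1, b2⟩ := mem_biUnion.1 hx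
    have := mem_tball.1 (hp.diam p b1 b2)
    exact mem_nbhd.2 ⟨p, hP2 p b1 fun b => hx' (mem_biUnion.2 ⟨p, b, b2⟩), by omega⟩
  have nearF : ∀ x ∈ Fr s, x ∉ Cs'.biUnion B → x ∈ nbhd P' (31 * mR ρ u) := fun x hx hx' =>
    (cov x hx).elim (fun b => nearB x (mem_biUnion.2 b) hx') fun b => nbhd_mono' hP1 le_rfl b
  have isF : ∀ x ∈ opn (wCl s.w (Cs'.biUnion B) v), x ∉ s.ord \ Cs'.biUnion B → x ∉ absb d M →
      x ∈ Fr s ∧ x ∉ Cs'.biUnion B := fun x b1 b2 b3 => by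
    obtain ⟨b4, b5⟩ := opn' L hf h hp' hr (mem_opn.1 b1)
    exact ⟨mem_Fr.2 ⟨b5, fun b => b2 (mem_sdiff.2 ⟨b, b4⟩), b3⟩, b4⟩
  have opT : ∀ x ∈ s.ord \ Cs'.biUnion B, gam (wCl s.w (Cs'.biUnion B) v) x ≠ 0 := fun x hx => by
    rw [gam_same (mem_sdiff.1 hx).2]
    exact h.bas.opn x (mem_sdiff.1 hx).1
  have near : ∀ x, gam (wCl s.w (Cs'.biUnion B) v) x ≠ 0 →
      ‖wCl s.w (Cs'.biUnion B) v x - c.w0‖ ≤ g2.e * c.γ := fun x hx => by
    obtain ⟨b1, b2⟩ := opn' L hf h hp' hr hx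
    rw [wCl, if_neg b1]
    exact (h.near x b2).trans (mul_le_mul_of_nonneg_right (e_le L) hγ.le)
  have opO : ∀ x ∈ opn (wCl s.w (Cs'.biUnion B) v), x ∈ opn f.wr := fun x hx =>
    ports L hf h x (opn' L hf h hp' hr (mem_opn.1 hx)).2
  have nrm := hA.norm_cmp (by positivity : 0 < 9 / 10 * c.γ) fun x => gam' L hf h hp' hr
  have sO : (s.ord \ Cs'.biUnion B) \ nbhd P' e2.s ⊆ s.ord \ Cs'.biUnion B := sdiff_subset
  have hD2 : 1000 * c.C ≤ c.γ * g2.D := (PC L).trans L.D2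
  refine ⟨⟨hA, fun x hx => (near x hx).trans (by nlinarith [e2_le L]), sO,
    fun x hx => mem_opn.2 (opT x (sO hx)),
    disjoint_left.2 fun x hx => ord_abs L hf h (mem_sdiff.1 hx).1,
    h.sep.mono L.Rt2.le sdiff_subset, fun a ha b hb => dec L (Nat.cast_nonneg _) ?_
      (hr.ref (opO a ha) (opO b hb)), fun x b1 b2 b3 => ?_, fun x b1 b2 b3 => ?_⟩,
    ⟨⟨hA, fun x hx => ?_, rng, fun x hx => ?_, fun x hx => ?_, fun x hx => ?_, fun _ _ => rfl,
      Subset.rfl, fun x hx => opT x (sO hx), fun x b1 _ b2 => absurd b1 b2, by simp [nbhd]⟩,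
    h.sep.mono L.R2.le (sO.trans sdiff_subset), near, fun a ha b hb hab => ?_,
    fun a ha => four L hf h hp' hr (sO ha) sO, fun a ha b hb _ hab => ?_, fun b hb _ => ?_,
    fun a ha => bias L hf h hp' hr (sO ha), (forms L hf h hp' hr).1, (forms L hf h hp' hr).2,
    had L hf h hp' hr sO, nrm.trans ?_, fun a ha => ?_⟩⟩
  · have := (norm_entry_le _ a b).trans nrm
    rwa [cmp, if_pos ⟨ha, hb⟩] at this
  · obtain ⟨b4, b5⟩ := isF x b1 b2 b3
    obtain ⟨p, b6, b7⟩ := mem_nbhd.1 (nearF x b4 b5)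
    have hϑ := L.led.ϑ0
    have hθ := RN.th0 L
    refine le_trans ?_ (shield L)
    calc _ ≤ ∑ y ∈ (s.ord \ Cs'.biUnion B) \ nbhd P' e2.s,
          (2 * e.Bg ^ 2 * Real.exp (-e.ϑ * e.ρ) * Real.exp (-e.ϑ * tdist y x)
            + 2 * tn e ^ 2 * Real.exp (-th ρ u * tdist y x)) := sum_le_sum fun y hy => ?_
      _ ≤ _ := by
        rw [sum_add_distrib, ← mul_sum, ← mul_sum]
        gcongr
        · exact (sum_le_sum_of_subset_of_nonneg (subset_univ _) fun _ _ _ =>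
            (Real.exp_pos _).le).trans (sum_exp_le hϑ (by linarith [L.led.ϑ_le]) x)
        · exact (sum_le_sum_of_subset_of_nonneg (subset_univ _) fun _ _ _ =>
            (Real.exp_pos _).le).trans (sum_exp_le hθ (by linarith [L.led.ϑ_le, RN.th1 L]) x)
    have c1 := pow_le_pow_left₀ (norm_nonneg _) (G_frozen hr (opO x b1)
      (opO y (mem_opn.2 (opT y (sO hy)))) fun p hc =>
        hp.frozen_far hs (mem_union_left _ b4) b5 hc) 2
    have c2 : (e.ρ : ℝ) ≤ tdist y x := by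
      have := not_le.1 fun b => (mem_sdiff.1 hy).2 (mem_nbhd.2 ⟨p, b6, b⟩)
      have := tdist_triangle y x p
      have := ρR L
      have := R_mR L
      exact_mod_cast (by omega : e.ρ ≤ tdist y x)
    rw [tdist_comm x] at c1
    have c3 : Real.exp (-e.ϑ * tdist y x) ≤ Real.exp (-e.ϑ * e.ρ) :=
      Real.exp_le_exp.2 (by nlinarith)
    have c4 : Real.exp (-th ρ u * tdist y x) ≤ 1 :=
      Real.exp_le_one_iff.2 (by nlinarith [(tdist y x).cast_nonneg (α := ℝ)])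
    refine c1.trans ?_
    nlinarith [sq_nonneg (e.Bg * Real.exp (-e.ϑ * tdist y x) - tn e * Real.exp (-th ρ u * tdist y x)),
      mul_le_mul_of_nonneg_left c3 (mul_nonneg (sq_nonneg e.Bg) (Real.exp_pos (-e.ϑ * tdist y x)).le),
      mul_le_mul_of_nonneg_left c4
        (mul_nonneg (sq_nonneg (tn e)) (Real.exp_pos (-th ρ u * tdist y x)).le)]
  · by_cases b4 : x ∈ s.ord \ Cs'.biUnion B
    · exact not_not.1 fun b => b2 (mem_sdiff.2 ⟨b4, b⟩)
    · exact nbhd_mono' Subset.rfl (by omega) (nearF x (isF x b1 b4 b3).1 (isF x b1 b4 b3).2)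
  · refine (if_neg fun b => ?_).trans (h.bas.abs x hx)
    obtain ⟨p, b1, b2⟩ := mem_biUnion.1 b
    exact (Pl.opn L hf h hp' b1 b2).2 hx
  · by_cases b : x ∈ Cs'.biUnion B
    · exact ⟨(hU x b).1, (if_pos b).trans (congrArg _ (hU x b).2)⟩
    · have b1 : gam s.w x = 0 := (gam_same b).symm.trans hx
      have b2 := hoff x fun b3 => by
        obtain ⟨p, b4, b5⟩ := mem_biUnion.1 b3
        exact (hp.opn L hf h b4 b5).1 b1
      show (S2 x).2 = 1 ∧ wCl s.w (Cs'.biUnion B) v x = c.v x (S2 x).1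
      rw [b2]
      exact ⟨(h.bas.cls x b1).1, (if_neg b).trans (h.bas.cls x b1).2⟩
  · obtain ⟨b1, b2⟩ := opn' L hf h hp' hr hx
    by_cases b : x ∈ Cs.biUnion B
    · exact ⟨_, le_rfl, hU0 x b b1⟩
    · obtain ⟨a, b3, b4⟩ := h.bas.len x b2
      exact ⟨a, by have := L.a2; omega, (congrArg _ (hoff x b)).trans b4⟩
  · have b1 := mem_sdiff.1 (sO hx)
    exact (hoff x fun b => (mem_sdiff.1 hx).2
      (nbhd_mono' Subset.rfl (by omega) (nearB x b b1.2))).trans (h.bas.full x b1.1)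
  · refine (pow_le_pow_left₀ (norm_nonneg _) (ent L hf h hp' hr (sO ha) (sO hb) hab) 2).trans
      ((le_div_iff₀ L.q2).2 ?_)
    nlinarith [mul_le_mul_of_nonneg_right L.x2q (sq_nonneg g2.x), sq_nonneg g2.x]
  · have b1 : (g.R : ℝ) ≤ tdist a b :=
      Nat.cast_le.2 (h.sep a (mem_sdiff.1 (sO ha)).1 b (mem_sdiff.1 hb).1 hab)
    have b2 := L.led.ok.σ0
    have b3 : ‖c.G0 a b‖ ≤ g2.x ^ 2 := ((L.led.ok.init.decay a b).trans
      (mul_le_mul_of_nonneg_left (Real.exp_le_exp.2 (mul_le_mul_of_nonpos_left b1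
        (neg_nonpos.2 (by positivity)))) (by positivity))).trans L.G0x
    exact (norm_sub_le _ _).trans
      ((add_le_add (ent L hf h hp' hr (sO ha) hb hab) b3).trans (le_trans (by linarith) L.X2))
  · have b1 := mem_sdiff.1 hb
    refine (norm_sub_le_norm_sub_add_norm_sub _ (c.G s.w b b) _).trans ((add_le_add
      (dG L hf h hp' hr hb hb L.zr0 (zr_ε L))
      (h.diag b (ordT L hf h b1.1) (h.bas.opn b b1.1))).trans ?_)
    have := e_inc L (a := 1) (by linarith)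
    show u.zr + g.e ≤ g2.e
    linarith
  · have b1 : (1 : ℝ) ≤ (e2.P : ℝ) ^ 4 :=
      one_le_pow₀ (le_trans (by linarith [P3 L]) (Nat.cast_le.2 L.P2))
    have b2 : 1 / (9 / 10 * c.γ) ≤ g2.D := by
      rw [div_le_iff₀ (by positivity)]
      linarith
    exact b2.trans (le_mul_of_one_le_left (le_trans (by positivity) b2) b1)
  · exact le_of_mul_le_mul_left ((col L hA (fun x => gam' L hf h hp' hr)
      (diag3 L hf h hp' hr (sO ha))).trans (le_trans (by linarith) hD2)) hγ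

end Crest.Agent.N334.AC.P.RB
end

-- ▼ part N334/AC/P/Rel
section

/-! # S0520 part P: the release (leaf; fill the sorries, keep the statements)
`exists_clusters ρ k R f.P s.PS`; `B0 c` = open, non-absorbing, `∉ ord`, within `e.s` of `cl c` (`card_near_le`);
`Adm.leverage` (`Cand = ord`, `D` = distance to `cl c`, step `ρ`, `ζ = 1/Bg²`), `T c = B0 c ∪ Z c ⊆ nbhd (cl c) R`.
`Game.cut` 1: cells of `⋃ T c` to length `2^e2.a`, `η = 8σ 2^e2.a/N`, potential `4η∑Im` at `c` (`weg_avg`), failed `c` become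
seeds: `P' = s.PS ∪ failed`. `Game.cut` 2: accepted `T c` to single digits (constant potentials). `Rel` with `θ = ϑ`,
`θ' = 1/(21 m R)`, `Dm = 21 m R`, `g = 0.9γ`, `K1 = 23/η`. New reference: `wr = w'`, `T' = ord \ ⋃ accepted`,
`ord0' = ord' = T' \ nbhd P' e2.s`, `PS' = ∅`. Rows by `Rel.row` or `Rel.far`, forms by `M6.RelH`, decay by `min_decay`,
shield: a core port is within `31 m R` of `P'`, outside every `nbhd (T c) R`, so `Rel.far` + `Der.dec`. -/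

set_option autoImplicit false

open Finset Complex
open scoped Matrix.Norms.L2Operator Matrix

namespace Crest.Agent.N334.AC.P

variable {d M : ℕ} [NeZero M] {c : Cx d M} {e : Ep} {g : Sg} {f : Ref d M}

open RN RB in
theorem release {ρ : Rad} {u : Rp} {e2 : Ep} {g2 : Sg} (L : LedR c ρ e g u e2 g2) (hf : RefOK c e f)
    {s : St d M} (h : Inv c e f (th0 e g) s) (hQ : ∀ p ∈ f.P, Crowded ρ u.k f.P p → p ∈ s.PS)
    {W : (Tor d M → ℕ × ℕ) → (Tor d M → ℝ) → Prop} (G : Game c.N (ρ.r (u.k + 1)) W) {β : ℝ}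
    (hβ : 0 ≤ β) (post : ∀ (f2 : Ref d M) (s2 : St d M), RefOK c e2 f2 → Inv c e2 f2 (th0 e2 g2) s2 →
      s2.PS = ∅ → s.PS ⊆ f2.P → (∀ x ∈ s.ord, x ∈ s2.ord ∨ x ∈ nbhd f2.P e2.s ∨ x ∈ nbhd f.P u.R) →
      W s2.S (sd f2.P β)) :
    W s.S (sd s.PS (β + Real.exp (-(e.P : ℝ) / 3))) := by
  classical
  obtain ⟨Cs, -, B, hp, hBn, cov⟩ := plan L hf h hQ
  have hop : ∀ x ∈ Cs.biUnion B, ∃ a, (s.S x).2 = 2 ^ (a + e.P) * 2 ^ e2.a := fun x hx => by
    obtain ⟨p, b1, b2⟩ := mem_biUnion.1 hx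
    obtain ⟨a, b3, b4⟩ := h.bas.len x (Pl.opn L hf h hp b1 b2).1
    exact ⟨a - e.a, by rw [b4, ← pow_add]; congr 1; have := L.a2; omega⟩
  choose! a ha using hop
  obtain ⟨m, em⟩ : ∃ m : Tor d M → ℕ,
    ∀ x, m x = if x ∈ Cs.biUnion B then 2 ^ (a x + e.P) else 1 := ⟨_, fun _ => rfl⟩
  obtain ⟨l, el⟩ : ∃ l : Tor d M → ℕ,
    ∀ x, l x = if x ∈ Cs.biUnion B then 2 ^ e2.a else (s.S x).2 := ⟨_, fun _ => rfl⟩
  obtain ⟨gd, eg⟩ : ∃ gd : (Tor d M → ℕ) → Tor d M → Prop, ∀ ξ p, gd ξ p ↔ 4 * cl c e2 * ∑ x ∈ B p,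
    (Gm c.A (wEta s.w (B p) (fun z => c.v z (s.S z).1 + ξ z * cl c e2) (4 * cl c e2)) x x).im
      ≤ 1 / 4 := ⟨_, fun _ _ => Iff.rfl⟩
  have hm : ∀ x, 0 < m x := fun x => by rw [em]; split_ifs <;> positivity
  have hl : ∀ x, 0 < l x := fun x => by
    rw [el]; split_ifs; exacts [by positivity, (h.bas.rng x).1]
  have hS : ∀ x, (s.S x).2 = m x * l x := fun x => by
    rw [em, el]; split_ifs with b; exacts [ha x b, (one_mul _).symm]
  have hE := Real.exp_pos (-(e.P : ℝ) / 3)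
  refine G.cut (π' := fun ξ => sd (s.PS ∪ Cs.filter fun p => ¬ gd ξ p) β) m l hm hl hS
    (fun p => ?_) fun ξ hξ => ?_
  · obtain ⟨C, -, c2⟩ := exists_clsB m hm
    rw [← c2]
    by_cases b1 : p ∈ s.PS
    · simp only [sd, mem_union, b1, true_or, if_true]
      exact C.const _ 1 zero_le_one
    by_cases b2 : p ∈ Cs
    · have b3 := RelA.weg_locB h.bas.adm (B := B p) (U := tball p (ρ.r (u.k + 1)))
        (a := fun z => c.v z (s.S z).1) (m0 := 2 ^ e.P) ((hp.diam p b2).trans (tball_mono p (by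
          have := L.Rc; have := ρ.le u.k; unfold mR; rw [mul_assoc] at *; omega))) hm (cl0 L)
        (by positivity) (fun x hx => by
          rw [em, if_pos (mem_biUnion.2 ⟨p, b2, hx⟩)]
          exact Nat.pow_le_pow_right (by norm_num) (by omega))
        (le_trans (by gcongr; exact hp.card p b2) (weg L))
      rw [← c2] at b3
      refine C.le (C.add (C.const _ β hβ) b3) (by rw [sd, if_neg b1]) fun ξ _ => ?_
      simp only [sd, mem_union, mem_filter, b1, b2, false_or, true_and, ← eg]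
      by_cases b : gd ξ p <;> simp [b, hβ]
    · simp only [sd, mem_union, mem_filter, b1, b2, false_and, or_self, if_false]
      exact C.le (C.const _ β hβ) (by linarith) fun _ _ => ⟨hβ, le_rfl⟩
  obtain ⟨Cs', e1⟩ : ∃ Cs', Cs' = Cs.filter (gd ξ) := ⟨_, rfl⟩
  have hs : Cs' ⊆ Cs := e1 ▸ filter_subset _ _
  have hU : Cs'.biUnion B ⊆ Cs.biUnion B := biUnion_subset_biUnion_of_subset_left B hs
  obtain ⟨m2, em2⟩ : ∃ m2 : Tor d M → ℕ,
    ∀ x, m2 x = if x ∈ Cs'.biUnion B then 2 ^ e2.a else 1 := ⟨_, fun _ => rfl⟩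
  obtain ⟨l2, el2⟩ : ∃ l2 : Tor d M → ℕ,
    ∀ x, l2 x = if x ∈ Cs'.biUnion B then 1 else l x := ⟨_, fun _ => rfl⟩
  have hm2 : ∀ x, 0 < m2 x := fun x => by rw [em2]; split_ifs <;> positivity
  have hl2 : ∀ x, 0 < l2 x := fun x => by rw [el2]; split_ifs; exacts [one_pos, hl x]
  have hS2 : ∀ x, l x = m2 x * l2 x := fun x => by
    rw [em2, el2]; split_ifs with b
    exacts [by rw [el, if_pos (hU b), mul_one], (one_mul _).symm]
  refine G.cut (π' := fun _ => sd (s.PS ∪ Cs.filter fun p => ¬ gd ξ p) β) m2 l2 hm2 hl2 hS2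
    (fun p => ?_) fun ζ hζ => ?_
  · obtain ⟨C, -, c2⟩ := exists_clsB m2 hm2
    rw [← c2]
    exact C.const _ _ (by unfold sd; split_ifs; exacts [zero_le_one, hβ])
  have rng : ∀ x, 0 < l2 x ∧ (s.S x).1 + ξ x * l x + ζ x * l2 x + l2 x ≤ c.N := fun x => by
    have a1 := Nat.mul_le_mul_right (l x) (hξ x)
    have a2 := Nat.mul_le_mul_right (l2 x) (hζ x)
    rw [Nat.succ_mul, ← hS x] at a1
    rw [Nat.succ_mul, ← hS2 x] at a2
    exact ⟨hl2 x, by have := (h.bas.rng x).2; omega⟩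
  have hr := rel L hf h (hp.mono hs) (v := fun x => c.v x ((s.S x).1 + ξ x * l x + ζ x * l2 x))
    (fun x => L.led.ok.v_le x (by have := rng x; omega)) fun p hc => by
      rw [e1, mem_filter, eg] at hc
      refine h.bas.adm.weg_good (by linarith [cl0 L]) hc.2 fun x hx => ?_
      have b1 : x ∈ Cs'.biUnion B := mem_biUnion.2 ⟨p, e1 ▸ mem_filter.2 ⟨hc.1, (eg _ _).2 hc.2⟩, hx⟩
      have b2 : (ζ x : ℝ) ≤ (2 ^ e2.a : ℕ) := Nat.cast_le.2 (by
        have := hζ x; rw [em2, if_pos b1] at this; exact this.le)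
      have b3 : 0 ≤ 2 * c.σ / c.N := by have := L.led.ok.σ0; positivity
      simp only [Cx.v, val_add]
      rw [el2, if_pos b1, el, if_pos (hU b1), mul_one, Nat.cast_mul, mul_assoc (ξ x : ℝ), ← cl,
        add_sub_cancel_left, abs_of_nonneg (by positivity), mul_div_cancel_left₀ _ four_ne_zero]
      exact mul_le_mul_of_nonneg_right b2 b3
  obtain ⟨r1, r2⟩ := after L hf h hp hs hr cov (P' := s.PS ∪ Cs.filter fun p => ¬ gd ξ p)
    subset_union_left (fun p b1 b2 => mem_union_right _ (mem_filter.2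
      ⟨b1, fun b => b2 (e1 ▸ mem_filter.2 ⟨b1, b⟩)⟩))
    (S2 := fun x => ((s.S x).1 + ξ x * l x + ζ x * l2 x, l2 x)) rng
    (fun x hx => ⟨by rw [el2, if_pos hx], rfl⟩)
    (fun x b1 b2 => by rw [el2, if_neg b2, el, if_pos b1]) (fun x hx => by
      have b1 := hξ x
      have b2 := hζ x
      have b3 : x ∉ Cs'.biUnion B := fun b => hx (hU b)
      rw [em, if_neg hx, Nat.lt_one_iff] at b1
      rw [em2, if_neg b3, Nat.lt_one_iff] at b2
      simp only [b1, b2, zero_mul, add_zero, el2, el, if_neg hx, if_neg b3]) rfl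
  refine post _ _ r1 r2 rfl subset_union_left fun x hx => ?_
  by_cases b1 : x ∈ Cs'.biUnion B
  · obtain ⟨p, b2, b3⟩ := mem_biUnion.1 b1
    exact Or.inr (Or.inr (hBn p (hs b2) b3))
  · exact (em' _).imp (fun b => mem_sdiff.2 ⟨mem_sdiff.2 ⟨hx, b1⟩, b⟩) Or.inl

end Crest.Agent.N334.AC.P
end

-- ▼ part N334/AC/P/Ends

/-! # S0520 part P: start and end (leaf; fill the sorries, keep the statements)
`init0`: fields of `Init` (`four`, `bias` with `Sml.beta_approx`, `rr`, Ward, `Adm.norm_cmp`).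
`final`: `ord = {x}` (`Sep.subsingleton`), every other core site is closed (`cov`, `g2`), so `s.w = wObs v w0 x (s.w x)` for every
digit field in the cells; `M6.LB.final`; `cavg_eq_zero`. -/

set_option autoImplicit false

open Finset Complex
open scoped Matrix.Norms.L2Operator Matrix

namespace Crest.Agent.N334.AC.P

variable {d M : ℕ} [NeZero M] {c : Cx d M} {e : Ep} {g : Sg} {f : Ref d M}

namespace Ends

lemma sep_one (S : Finset (Tor d M)) : Sep 1 S := fun _ _ _ _ hxy =>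
  Nat.one_le_iff_ne_zero.2 fun h => hxy (tdist_eq_zero.1 h)

lemma not_mem_nbhd (R : ℕ) (x : Tor d M) : x ∉ nbhd (∅ : Finset (Tor d M)) R := fun h => by
  obtain ⟨b, hb, -⟩ := mem_nbhd.1 h
  exact notMem_empty b hb

lemma C_pow (h : c.OK) {k : ℕ} (hk : k ≤ 30) : 100 * c.C ^ k ≤ 10 ^ 60 * c.C ^ 30 := by
  have h1 := h.C1
  exact mul_le_mul (by norm_num) (pow_le_pow_right₀ h1 hk) (by positivity) (by positivity)

lemma σ_le_one (h : c.OK) : c.σ ≤ 1 := by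
  have h1 := h.σ_le
  have h2 := C_pow h (Nat.zero_le 30)
  have h3 := h.σ0
  nlinarith

lemma γ_small (h : c.OK) : 100 * c.γ ≤ 1 := by
  have h1 := h.γ_le
  have h2 := C_pow h (Nat.zero_le 30)
  have h3 := h.γ0
  nlinarith

lemma γC (h : c.OK) : c.γ * (c.C / c.σ) ≤ c.C ^ 2 * c.σ := by
  have h1 := h.C1
  have h2 := h.σ0
  calc c.γ * (c.C / c.σ) ≤ c.C * c.σ ^ 2 * (c.C / c.σ) :=
        mul_le_mul_of_nonneg_right h.γ_hi (by positivity)
    _ = _ := by field_simp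

lemma refOK (L : Led0 c e g) : RefOK c e (ref0 c) where
  adm := L.led.ok.init.adm
  near _ _ := by
    have := L.led.ok.γ0
    change ‖c.w0 - c.w0‖ ≤ _
    rw [sub_self, norm_zero]
    positivity
  sub := Subset.rfl
  opn0 _ _ := mem_opn.2 L.led.ok.γ0.ne'
  dT := disjoint_compl_left
  sepT := L.Rt1 ▸ sep_one _
  dec a _ b _ := by
    refine (L.led.ok.init.decay a b).trans (mul_le_mul L.A_lo (Real.exp_le_exp.2 ?_)
      (Real.exp_pos _).le L.led.A00)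
    exact mul_le_mul_of_nonneg_right (neg_le_neg L.θ0_le) (Nat.cast_nonneg _)
  shield _ _ h1 h2 := absurd (mem_compl.2 h2) h1
  cov _ _ h1 h2 := absurd (mem_compl.2 h2) h1

lemma bas0 (L : Led0 c e g) : Bas c e (ref0 c) (st0 c) where
  adm := L.led.ok.init.adm
  abs _ _ := rfl
  rng _ := ⟨L.led.ok.N0, (zero_add _).le⟩
  cls _ h := absurd h L.led.ok.γ0.ne'
  len _ _ := L.N_eq
  full _ _ := rfl
  off _ _ := rfl
  sub := Subset.rfl
  opn _ _ := L.led.ok.γ0.ne'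
  g2 _ h1 _ h2 := absurd h1 h2
  g3 := disjoint_right.2 fun x hx => absurd hx (not_mem_nbhd _ x)

lemma bias0 (L : Led0 c e g) (a : Tor d M) :
    ‖c.b (fun _ => c.w0) a‖ ≤ (e.P : ℝ) ^ 6 * e.Q * g.x ^ 2 * c.γ := by
  have ok := L.led.ok
  have hC := ok.C1
  have hσ := ok.σ0
  have hγ := ok.γ0
  have h1 := (ok.sml hC (by linarith)).beta_approx (ok.r01 a) (ok.G0_le a a) ok.init.w_le
  have h2 : ‖c.w0 + (c.σ ^ 2 / 3 : ℝ) * c.G0 a a‖ ≤ c.C * c.σ ^ 3 := by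
    rw [ok.G0_diag]
    exact ok.init.bias
  have h3 : ‖c.b (fun _ => c.w0) a‖ ≤ 10 * c.C ^ 2 * c.σ ^ 3 + c.C * c.σ ^ 3 := by
    have e1 : c.b (fun _ => c.w0) a = (beta c.σ c.N (c.r a) (c.G0 a a) c.w0 + c.w0 +
        (c.σ ^ 2 / 3 : ℝ) * c.G0 a a) - (c.w0 + (c.σ ^ 2 / 3 : ℝ) * c.G0 a a) := by
      change beta c.σ c.N (c.r a) (c.G0 a a) c.w0 = _
      ring
    rw [e1]
    exact (norm_sub_le _ _).trans (add_le_add h1 h2)
  have h4 : c.C * c.σ ≤ g.x ^ 2 := by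
    refine (pow_le_pow_iff_left₀ (by positivity) (by positivity) two_ne_zero).1 ?_
    have h5 := σ_le_one ok
    calc (c.C * c.σ) ^ 2 = c.C ^ 2 * c.σ * c.σ := by ring
      _ ≤ c.C ^ 2 * c.σ := mul_le_of_le_one_right (by positivity) h5
      _ ≤ g.x ^ 4 := L.θ_lo
      _ = _ := by ring
  have hP := L.led.P_ge
  have hP1 : (1 : ℝ) ≤ e.P := le_trans (by norm_num) hP
  have h5 : 100 * c.C ^ 2 ≤ (e.P : ℝ) ^ 6 * e.Q := by
    have h6 : (1 : ℝ) ≤ e.Q := (one_le_pow₀ hP1).trans L.led.Q_ge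
    calc 100 * c.C ^ 2 ≤ e.P := (C_pow ok (by norm_num)).trans L.led.P1
      _ ≤ (e.P : ℝ) ^ 6 := le_self_pow₀ hP1 (by norm_num)
      _ ≤ _ := le_mul_of_one_le_right (by positivity) h6
  have h6 : c.C * c.σ ^ 3 ≤ c.C ^ 2 * c.σ ^ 3 :=
    mul_le_mul_of_nonneg_right (le_self_pow₀ hC two_ne_zero) (by positivity)
  have h7 : c.C ^ 2 * c.σ ^ 3 ≤ c.C ^ 2 * (c.C * c.σ) * c.γ := by
    calc c.C ^ 2 * c.σ ^ 3 = c.C ^ 2 * c.σ * c.σ ^ 2 := by ring
      _ ≤ c.C ^ 2 * c.σ * (c.C * c.γ) := mul_le_mul_of_nonneg_left ok.γ_lo (by positivity)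
      _ = _ := by ring
  have h8 : 100 * c.C ^ 2 * (c.C * c.σ) * c.γ ≤ (e.P : ℝ) ^ 6 * e.Q * g.x ^ 2 * c.γ := by
    gcongr
  have h9 : 0 ≤ c.C ^ 2 * c.σ ^ 3 := by positivity
  nlinarith

end Ends

theorem init0 (L : Led0 c e g) : RefOK c e (ref0 c) ∧ Inv c e (ref0 c) (th0 e g) (st0 c) := by
  have ok := L.led.ok
  have hC := ok.C1
  have hσ := ok.σ0
  have hγ := ok.γ0
  have adm : Adm c.A fun _ => c.w0 := ok.init.adm
  have hE : ∀ ψ, 0 ≤ c.E0 ψ := fun ψ => En_nn _ ψ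
  have hD : 0 ≤ g.D := zero_le_one.trans L.led.D1
  refine ⟨Ends.refOK L, Ends.bas0 L, ?_, fun _ _ => ?_, fun a _ b _ _ => ?_, fun a _ => ?_,
    fun a _ b _ _ _ => ?_, fun b _ _ => ?_, fun a _ => Ends.bias0 L a,
    (M6.UB.init _ _).mono hE L.led.e0, (M6.LB.init _ _).mono hE L.led.e0, ?_, ?_, fun a _ => ?_⟩
  · change Sep g.R _
    rw [L.R1]
    exact Ends.sep_one _
  · change ‖c.w0 - c.w0‖ ≤ g.e * c.γ
    rw [sub_self, norm_zero]
    exact mul_nonneg L.led.e0 hγ.le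
  · exact (pow_le_pow_left₀ (norm_nonneg _) (ok.G0_le a b) 2).trans L.h_lo
  · change c.γ * ∑ b ∈ _, ‖c.G0 a b‖ ^ 4 ≤ g.x ^ 4
    refine le_trans (mul_le_mul_of_nonneg_left ?_ hγ.le) ((Ends.γC ok).trans L.θ_lo)
    refine le_trans ?_ (M6.Ky.four ok.init a)
    refine (sum_le_sum_of_subset_of_nonneg (subset_univ _) fun _ _ _ => by positivity).trans
      (le_of_eq (sum_congr rfl fun b _ => ?_))
    exact congrArg (fun z : ℂ => ‖z‖ ^ 4) (adm.G_comm a b)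
  · change ‖c.G0 a b - c.G0 a b‖ ≤ g.X
    rw [sub_self, norm_zero]
    exact L.led.X0
  · change ‖c.G0 b b - c.G0 0 0‖ ≤ g.e
    rw [ok.G0_diag b, sub_self, norm_zero]
    exact L.led.e0
  · refine (mul_le_mul_of_nonneg_left ((norm_cmp_le _ _).trans ok.init.rr) hγ.le).trans
      ((Ends.γC ok).trans (le_trans ?_ L.e_lo))
    refine mul_le_mul_of_nonneg_right (le_trans ?_ ok.κ1) hσ.le
    have := Ends.C_pow ok (by norm_num : 2 ≤ 30)
    nlinarith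
  · refine (adm.norm_cmp hγ fun _ _ => le_rfl).trans ?_
    change _ ≤ (e.P : ℝ) ^ 4 * g.D
    have hP1 : (1 : ℝ) ≤ e.P := le_trans (by norm_num) L.led.P_ge
    refine le_trans ?_ (le_mul_of_one_le_left hD (one_le_pow₀ hP1))
    rw [div_le_iff₀' hγ]
    exact hC.trans L.D_lo
  · change ∑ x ∈ _, ‖c.G0 x a‖ ^ 2 ≤ g.D
    refine le_of_mul_le_mul_left (le_trans ?_ L.D_lo) hγ
    refine le_trans ?_ (((adm.ward_diag a).le.trans (im_le_norm _)).trans (ok.G0_le a a))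
    rw [mul_sum]
    refine (sum_le_sum_of_subset_of_nonneg (subset_univ _) fun _ _ _ => by positivity).trans
      (le_of_eq (sum_congr rfl fun b _ => ?_))
    exact congrArg (fun z : ℂ => c.γ * ‖z‖ ^ 2) (adm.G_comm b a)

theorem final (L : Led c e g) (hf : RefOK c e f) {s : St d M} (h : Inv c e f (th0 e g) s)
    (hP : f.P = ∅) (hPS : s.PS = ∅) (hM : M < 2 * g.R) {x : Tor d M} (hx : x ∈ s.ord) {R0 : ℕ}
    (hR : x ∈ tball (0 : Tor d M) R0) :
    badFrac c.σ c.E c.w0 (c.σ ^ 2 / (10 * c.C ^ 2)) R0 c.N c.r (fun z => cel (s.S z)) = 0 := by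
  have ok := L.ok
  have hC := ok.C1
  have hσ := ok.σ0
  have hγ := ok.γ0
  have hb := h.bas
  have hxa : x ∉ absb d M := disjoint_left.1 hf.dT (hf.sub (hb.sub hx))
  have hcl : ∀ z, z ≠ x → gam s.w z ≠ 0 → z ∈ absb d M := by
    intro z hz h0
    by_contra hza
    by_cases h1 : z ∈ f.ord0
    · refine Ends.not_mem_nbhd (3 * e.ρ) z (hPS ▸ hb.g2 z h1 h0 fun h2 => hz ?_)
      exact h.sep.subsingleton hM h2 hx
    · refine Ends.not_mem_nbhd e.s z (hP ▸ hf.cov z (mem_opn.2 ?_) h1 hza)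
      rwa [gam, ← hb.off z h1]
  have he' : 100 * g.e' ≤ 1 := by
    have h1 := L.e'_small
    have h2 := Ends.C_pow ok (Nat.zero_le 30)
    have h3 := L.le0.e_le
    have h4 : 0 ≤ g.e' := L.e0.trans h3
    nlinarith
  have he : g.e ≤ g.e' := L.le0.e_le
  have he0 := L.e0
  have hγ1 := Ends.γ_small ok
  have hn : ‖s.w x - c.w0‖ ≤ g.e * c.γ := h.near x (hb.opn x hx)
  have hn2 : g.e * c.γ ≤ c.γ / 100 := by nlinarith
  have hκ : c.σ ^ 2 / (10 * c.C ^ 2) ≤ c.μ / 10 := by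
    rw [div_le_div_iff₀ (by positivity) (by norm_num)]
    have h1 := mul_le_mul_of_nonneg_left ok.μ_lo (zero_le_one.trans hC)
    have h2 := ok.γ_lo
    nlinarith
  have hμ : 0 ≤ c.μ := by
    have : 0 ≤ c.σ ^ 2 / (10 * c.C ^ 2) := by positivity
    linarith
  have hF : g.F ≤ 1 := by
    have hP1 : (1 : ℝ) ≤ e.P := le_trans (by norm_num) L.P_ge
    have h1 : g.x ≤ 1 :=
      (le_mul_of_one_le_left L.x_pos.le (one_le_pow₀ hP1)).trans L.x_small
    have h2 : g.x ^ 4 ≤ 1 := pow_le_one₀ L.x_pos.le h1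
    have h3 : g.F ≤ (e.P : ℝ) ^ 6 * g.F := le_mul_of_one_le_left L.F0 (one_le_pow₀ hP1)
    have h4 := L.F_le
    nlinarith
  have hF0 := L.F0
  have hlb := M6.LB.final (S := {x}) h.lb hb.adm (show g.e ≤ 1 by linarith)
    (L.cap {x} fun a ha b hb' hab => absurd ((mem_singleton.1 ha).trans (mem_singleton.1 hb').symm)
      hab) (by linarith) (mem_singleton_self x) hxa (hb.opn x hx) hcl
  rw [badFrac, sum_eq_zero, zero_div]
  intro ω hω
  have hw : wObs (fun z => val c.σ c.N (c.r z) (ω z)) c.w0 x (s.w x) = s.w := by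
    funext z
    rw [wObs]
    split_ifs with h1 h2
    · exact (hb.abs z h1).symm
    · rw [h2]
    · obtain ⟨h3, h4⟩ := hb.cls z (by_contra fun h0 => h1 (hcl z h2 h0))
      have h5 := Fintype.mem_piFinset.1 hω z
      rw [cel, h3, mem_Ico] at h5
      rw [h4, show ω z = (s.S z).1 by omega]
      rfl
  refine if_pos ⟨x, hR, hxa, s.w x, ?_, ?_, ?_, ?_⟩
  · have h1 : ‖s.w x‖ ≤ ‖s.w x - c.w0‖ + ‖c.w0‖ := by simpa using norm_add_le (s.w x - c.w0) c.w0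
    have h2 := ok.init.w_le
    have h3 := ok.σ_le
    have h4 := Ends.C_pow ok (by norm_num : 1 ≤ 30)
    have h5 := Ends.σ_le_one ok
    have h6 : 100 * c.C * c.σ ≤ 1 := by
      rw [pow_one] at h4
      exact (mul_le_mul_of_nonneg_right h4 hσ.le).trans h3
    have h7 : c.C * c.σ ^ 2 ≤ c.C * c.σ := by
      rw [sq, ← mul_assoc]
      exact mul_le_of_le_one_right (by positivity) h5
    linarith
  · have h1 := (abs_le.1 ((abs_im_le_norm _).trans hn)).2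
    rw [sub_im] at h1
    have h2 : c.γ = -c.w0.im := rfl
    have h3 : c.σ ^ 2 / (10 * c.C ^ 2) ≤ c.γ / 10 := by
      rw [div_le_div_iff₀ (by positivity) (by norm_num)]
      have h4 := ok.γ_lo
      have h5 := mul_le_mul_of_nonneg_right (le_self_pow₀ hC two_ne_zero) hγ.le
      nlinarith
    linarith
  · rw [hw]
    exact hb.adm.inv
  · rw [hw]
    refine hκ.trans (le_trans ?_ hlb)
    change _ ≤ c.μ * (1 - g.e) / (1 + g.e' + g.F)
    rw [div_le_div_iff₀ (by norm_num) (by linarith), mul_assoc]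
    exact mul_le_mul_of_nonneg_left (by linarith) hμ

end Crest.Agent.N334.AC.P
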