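import Crest.Agent.N334.AC.F.Mon
import Crest.Agent.N334.AC.Geo
import Crest.Agent.N334.AC.P.Der
import Crest.Agent.N334.AC.P.Eng
import Crest.Agent.N334.AC.P.Gen
import Crest.Agent.N334.AC.P.One

-- ▼ part N334/AC/P/SelA0
section

/-! # S0520 part P: tails of linear and quadratic functions of independent marks (helper36) -/

set_option autoImplicit false

open Finset Function

namespace Crest.Agent.N334.AC.SelA

variable {Λ : Type} [Fintype Λ] [DecidableEq Λ]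

/-- indicator of the mark -/
noncomputable def io (ξ : Λ → ℕ) (k : Λ) : ℝ := if ξ k = 0 then 1 else 0

omit [Fintype Λ] [DecidableEq Λ] in
lemma io0 (ξ : Λ → ℕ) (k : Λ) : 0 ≤ io ξ k := ite_nonneg zero_le_one le_rfl

omit [Fintype Λ] [DecidableEq Λ] in
lemma io1 (ξ : Λ → ℕ) (k : Λ) : io ξ k ≤ 1 := ite_le_one le_rfl zero_le_one

omit [Fintype Λ] in
lemma io_upd (ξ : Λ → ℕ) (x : Λ) (v : ℕ) (k : Λ) :
    |io (update ξ x v) k - io ξ k| ≤ if k = x then 1 else 0 := by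
  split_ifs with h
  · rw [abs_le]
    constructor <;> linarith [io0 ξ k, io1 ξ k, io0 (update ξ x v) k, io1 (update ξ x v) k]
  · rw [io, io, update_of_ne h, sub_self, abs_zero]

omit [Fintype Λ] in
lemma io_upd2 (ξ : Λ → ℕ) (x : Λ) (v : ℕ) (b k : Λ) :
    |io (update ξ x v) b * io (update ξ x v) k - io ξ b * io ξ k|
      ≤ (if b = x then 1 else 0) + if k = x then 1 else 0 := by
  have e : io (update ξ x v) b * io (update ξ x v) k - io ξ b * io ξ k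
      = (io (update ξ x v) b - io ξ b) * io (update ξ x v) k
        + (io (update ξ x v) k - io ξ k) * io ξ b := by ring
  rw [e]
  refine (abs_add_le _ _).trans (add_le_add ?_ ?_) <;>
    rw [abs_mul, abs_of_nonneg (io0 _ _)] <;>
    exact (mul_le_of_le_one_right (abs_nonneg _) (io1 _ _)).trans (io_upd ξ x v _)

lemma locB_imp {m : Λ → ℕ} {U : Finset Λ} {φ : ℝ} {p q : (Λ → ℕ) → Prop} {_ : DecidablePred p}
    {_ : DecidablePred q} (h : LocB m U φ fun ξ => if p ξ then 1 else 0) (h' : ∀ ξ, q ξ → p ξ) :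
    LocB m U φ fun ξ => if q ξ then 1 else 0 := by
  obtain ⟨g, h1, h2, h3⟩ := h
  refine ⟨g, h1, fun ξ hξ => ⟨ite_nonneg zero_le_one le_rfl, le_trans ?_ (h2 ξ hξ).2⟩, h3⟩
  by_cases hq : q ξ
  · simp only [if_pos hq, if_pos (h' ξ hq), le_rfl]
  · simp only [if_neg hq]
    exact ite_nonneg zero_le_one le_rfl

omit [DecidableEq Λ] in
lemma sum_sq_le (U : Finset Λ) {c : Λ → ℝ} {μ S : ℝ} (h0 : ∀ k, 0 ≤ c k) (hμ0 : 0 ≤ μ)
    (hμ : ∀ k, c k ≤ μ) (hS : ∑ k, c k ≤ S) : ∑ k ∈ U, c k ^ 2 ≤ μ * S := by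
  refine le_trans ?_ (mul_le_mul_of_nonneg_left hS hμ0)
  rw [mul_sum]
  refine (sum_le_univ_sum_of_nonneg fun k => sq_nonneg _).trans (sum_le_sum fun k _ => ?_)
  rw [sq]
  exact mul_le_mul_of_nonneg_right (hμ k) (h0 k)

variable {n : ℕ} {U : Finset Λ} {μ S K t Z : ℝ}

/-- upper tail of a linear function -/
lemma lin_tail (hn : 0 < n) {w : Λ → ℝ} (h0 : ∀ k, 0 ≤ w k) (hU : ∀ k, k ∉ U → w k = 0)
    (hμ0 : 0 ≤ μ) (hμ : ∀ k, w k ≤ μ) (hS : ∑ k, w k ≤ S) (ht : 0 < t) (hZ : 0 < Z)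
    (h2 : Z * (μ * S) ≤ t ^ 2) :
    LocB (fun _ => n) U (Real.exp (-Z)) fun ξ =>
      if S / n + t ≤ ∑ k, w k * io ξ k then 1 else 0 := by
  refine locB_imp (locB_tail (m := fun _ => n) (f := fun ξ => ∑ k, w k * io ξ k) (c := w)
    (fun _ => hn) ht hZ (fun ξ ξ' h => sum_congr rfl fun k _ => ?_) (fun ξ x v => ?_)
    ((mul_le_mul_of_nonneg_left (sum_sq_le U h0 hμ0 hμ hS) hZ.le).trans h2)) fun ξ h => ?_
  · by_cases hk : k ∈ U
    · rw [io, io, h k hk]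
    · rw [hU k hk, zero_mul, zero_mul]
  · rw [← sum_sub_distrib]
    refine (abs_sum_le_sum_abs _ _).trans ((sum_le_sum
      (g := fun k => w k * if k = x then 1 else 0) fun k _ => ?_).trans (by simp))
    rw [← mul_sub, abs_mul, abs_of_nonneg (h0 k)]
    exact mul_le_mul_of_nonneg_left (io_upd ξ x v k) (h0 k)
  · refine le_trans (add_le_add ?_ le_rfl) h
    simp only [avgP_sum, avgP_mul, io, avgP_ind (m := fun _ : Λ => n) fun _ => hn]
    rw [← sum_mul, mul_one_div]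
    exact div_le_div_of_nonneg_right hS (Nat.cast_nonneg n)


end Crest.Agent.N334.AC.SelA
end

-- ▼ part N334/AC/P/SelA
section

/-! # S0520 part P (helper27): the selection of survivors, pure combinatorics (leaf).
Mark of `b` = `ξ b = 0`, `ξ b` uniform in `range n0`. `A b k = 1[tdist k b < 2s] + 16 π_bk²/h'² · 1[tdist ≤ L]` for
`k ≠ b` in `El`; `∑_k A b k ≤ K`, `∑_b A b k ≤ K` (`card_sep_le` with `k = 2`, symmetry of `π`).
`1[b ∈ sel] ≥ ξ_b (1 - ∑_k A b k ξ_k)` for `b ∈ El`. `loc1`: `W = ∑_{b ∈ El ∩ tball a L, b ≠ a} m a b ξ_b (1 - ∑ A ξ)` depends on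
`tball a (2L)`, `avgP W ≥ (3/4) n0⁻¹ ∑_{El ∩ tball a L} m` (`avgP_ind`, `avgP_ind₂`, `4K ≤ n0`); at most one forced point lies within
`2L` of `a`, so at most `K+1` points of `Ord ∩ tball a L` are not eligible (Markov for `π x b > h'/4`), each of mass `≤ c h`;
bounded differences `c_k = m a k (1+K) + ∑_b m a b A b k ≤ c h (2K+1)`, `∑ c_k ≤ Mt (2K+1)`; `locB_tail` for `-W`.
`loc2`: `f = ∑_{k ∈ El ∩ tball x L} ξ_k π_xk²`, mean `≤ Θ/n0`, differences `π² ≤ h'²/16`. -/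

set_option autoImplicit false
set_option linter.unusedSectionVars false

open Finset

namespace Crest.Agent.N334.AC

variable {d M : ℕ} [NeZero M]

open Classical in
/-- eligible ports -/
noncomputable def elig (Ord X : Finset (Tor d M)) (π : Tor d M → Tor d M → ℝ) (s : ℕ) (h' : ℝ) :
    Finset (Tor d M) := (Ord \ X).filter fun b => ∀ x ∈ X, 2 * s ≤ tdist b x ∧ π x b ≤ h' / 4

open Classical in
/-- survivors -/
noncomputable def sel (Ord X : Finset (Tor d M)) (π : Tor d M → Tor d M → ℝ) (s L : ℕ) (h' : ℝ)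
    (ξ : Tor d M → ℕ) : Finset (Tor d M) :=
  X ∪ (elig Ord X π s h').filter fun b => ξ b = 0 ∧
    (∀ k ∈ elig Ord X π s h', k ≠ b → tdist k b < 2 * s → ξ k ≠ 0) ∧
    ∑ k ∈ ((elig Ord X π s h').erase b).filter (fun k => tdist k b ≤ L ∧ ξ k = 0), π b k ^ 2 ≤ h' ^ 2 / 16

/-- hypotheses of the selection -/
structure SelH (Ord X : Finset (Tor d M)) (π : Tor d M → Tor d M → ℝ) (s L n0 : ℕ)
    (h h' Θ K tl : ℝ) : Prop where
  XO : X ⊆ Ord
  sepO : Sep s Ord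
  s1 : 1 ≤ s
  sL : 2 * s ≤ L
  sepX : Sep (4 * L + 1) X
  π0 : ∀ a b, 0 ≤ π a b
  symm : ∀ a b, π a b = π b a
  ent : ∀ a ∈ Ord, ∀ b ∈ Ord, a ≠ b → π a b ≤ h
  two : ∀ a ∈ Ord, ∑ b ∈ Ord.erase a, π a b ^ 2 ≤ Θ
  far : ∀ a ∈ Ord, ∑ b ∈ Ord.filter (fun b => L < tdist b a), π a b ≤ tl
  tl1 : tl ≤ 1
  tlh : tl ≤ h' / 4
  hh : 0 ≤ h
  h0 : 0 < h'
  hK : 5 ^ d + 16 * Θ / h' ^ 2 ≤ K
  hn : 4 * K ≤ n0

variable {Ord X : Finset (Tor d M)} {π : Tor d M → Tor d M → ℝ} {s L n0 : ℕ} {h h' Θ K tl : ℝ}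

lemma SelH.Θ0 (H : SelH Ord X π s L n0 h h' Θ K tl) {a : Tor d M} (ha : a ∈ Ord) : 0 ≤ Θ :=
  (sum_nonneg fun _ _ => sq_nonneg _).trans (H.two a ha)
lemma SelH.tl0 (H : SelH Ord X π s L n0 h h' Θ K tl) {a : Tor d M} (ha : a ∈ Ord) : 0 ≤ tl :=
  (sum_nonneg fun _ _ => H.π0 _ _).trans (H.far a ha)
lemma SelH.K_pos (H : SelH Ord X π s L n0 h h' Θ K tl) (hΘ : 0 ≤ Θ) : 0 < K :=
  lt_of_lt_of_le (by positivity) H.hK
lemma SelH.n0_pos (H : SelH Ord X π s L n0 h h' Θ K tl) (hΘ : 0 ≤ Θ) : 0 < n0 := by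
  have := H.K_pos hΘ
  exact_mod_cast (show (0 : ℝ) < n0 by linarith [H.hn])

namespace SelA

lemma mem_elig {b : Tor d M} : b ∈ elig Ord X π s h' ↔
    (b ∈ Ord ∧ b ∉ X) ∧ ∀ x ∈ X, 2 * s ≤ tdist b x ∧ π x b ≤ h' / 4 := by
  simp only [elig, mem_filter, mem_sdiff]

lemma mem_sel {ξ : Tor d M → ℕ} {b : Tor d M} : b ∈ sel Ord X π s L h' ξ ↔ b ∈ X ∨
    b ∈ elig Ord X π s h' ∧ ξ b = 0 ∧
    (∀ k ∈ elig Ord X π s h', k ≠ b → tdist k b < 2 * s → ξ k ≠ 0) ∧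
    ∑ k ∈ ((elig Ord X π s h').erase b).filter (fun k => tdist k b ≤ L ∧ ξ k = 0), π b k ^ 2
      ≤ h' ^ 2 / 16 := by
  simp only [sel, mem_union, mem_filter]

lemma far_one (H : SelH Ord X π s L n0 h h' Θ K tl) {a b : Tor d M} (ha : a ∈ Ord) (hb : b ∈ Ord)
    (hL : L < tdist b a) : π a b ≤ tl :=
  (single_le_sum (fun k _ => H.π0 a k) (mem_filter.2 ⟨hb, hL⟩)).trans (H.far a ha)

/-- split of a sum of squares into the near and the far part -/
lemma far_sq (H : SelH Ord X π s L n0 h h' Θ K tl) {a : Tor d M} (ha : a ∈ Ord)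
    {S : Finset (Tor d M)} (hS : S ⊆ Ord) :
    ∑ k ∈ S, π a k ^ 2 ≤ ∑ k ∈ S.filter (fun k => tdist k a ≤ L), π a k ^ 2 + tl := by
  rw [← sum_filter_add_sum_filter_not S fun k => tdist k a ≤ L]
  refine add_le_add le_rfl (le_trans ?_ (H.far a ha))
  refine le_trans (sum_le_sum fun k hk => ?_) (sum_le_sum_of_subset_of_nonneg
    (fun k hk => mem_filter.2 ⟨hS (mem_filter.1 hk).1, not_le.1 (mem_filter.1 hk).2⟩)
    fun k _ _ => H.π0 a k)
  rw [sq]
  exact mul_le_of_le_one_right (H.π0 a k)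
    ((far_one H ha (hS (mem_filter.1 hk).1) (not_le.1 (mem_filter.1 hk).2)).trans H.tl1)

lemma X_eq (H : SelH Ord X π s L n0 h h' Θ K tl) {x y a : Tor d M} (hx : x ∈ X) (hy : y ∈ X)
    (h1 : tdist x a ≤ 2 * L) (h2 : tdist y a ≤ 2 * L) : x = y := by
  by_contra hne
  have a1 := H.sepX x hx y hy hne
  have a2 := tdist_triangle x a y
  rw [tdist_comm a y] at a2
  omega

/-- conflict weights -/
noncomputable def A0 (π : Tor d M → Tor d M → ℝ) (s L : ℕ) (h' : ℝ) (b k : Tor d M) : ℝ :=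
  (if tdist k b < 2 * s then 1 else 0) + if tdist k b ≤ L then 16 * π b k ^ 2 / h' ^ 2 else 0

lemma A0_nonneg (b k : Tor d M) : 0 ≤ A0 π s L h' b k :=
  add_nonneg (ite_nonneg zero_le_one le_rfl) (ite_nonneg (by positivity) le_rfl)

lemma sum_A0 (H : SelH Ord X π s L n0 h h' Θ K tl) {b : Tor d M} (hb : b ∈ Ord) :
    ∑ k ∈ Ord.erase b, A0 π s L h' b k ≤ K := by
  have s1 := H.s1
  refine le_trans ?_ H.hK
  simp only [A0, sum_add_distrib]
  refine add_le_add ?_ ?_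
  · rw [sum_boole]
    exact_mod_cast (card_le_card fun k hk => mem_inter.2 ⟨mem_of_mem_erase (mem_filter.1 hk).1,
      mem_tball.2 (Nat.le_sub_one_of_lt (mem_filter.1 hk).2)⟩).trans
      (card_sep_le (k := 2) H.sepO s1 (by omega) b)
  · refine (sum_le_sum (g := fun k => 16 * π b k ^ 2 / h' ^ 2) fun k _ =>
      ite_le_sup _ _ _ |>.trans (sup_le le_rfl (by positivity))).trans ?_
    rw [← sum_div, ← mul_sum]
    gcongr
    exact H.two b hb

open Classical in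
/-- conflict weights between eligible ports -/
noncomputable def A1 (Ord X : Finset (Tor d M)) (π : Tor d M → Tor d M → ℝ) (s L : ℕ) (h' : ℝ)
    (b k : Tor d M) : ℝ :=
  if b ∈ elig Ord X π s h' ∧ k ∈ (elig Ord X π s h').erase b then A0 π s L h' b k else 0

lemma A1_nonneg (b k : Tor d M) : 0 ≤ A1 Ord X π s L h' b k := ite_nonneg (A0_nonneg b k) le_rfl

lemma A1_symm (H : SelH Ord X π s L n0 h h' Θ K tl) (b k : Tor d M) :
    A1 Ord X π s L h' b k = A1 Ord X π s L h' k b := by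
  simp only [A1, A0, mem_erase, H.symm b k, tdist_comm b k]
  exact if_congr ⟨fun h => ⟨h.2.2, h.2.1.symm, h.1⟩, fun h => ⟨h.2.2, h.2.1.symm, h.1⟩⟩ rfl rfl

lemma sum_A1 {b : Tor d M} (hb : b ∈ elig Ord X π s h') (f : Tor d M → ℝ) :
    ∑ k, A1 Ord X π s L h' b k * f k
      = ∑ k ∈ (elig Ord X π s h').erase b, A0 π s L h' b k * f k := by
  simp only [A1, hb, true_and, ite_mul, zero_mul, sum_ite_mem, univ_inter]

lemma sum_A1_le (H : SelH Ord X π s L n0 h h' Θ K tl) (hK : 0 ≤ K) (b : Tor d M) :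
    ∑ k, A1 Ord X π s L h' b k ≤ K := by
  by_cases hb : b ∈ elig Ord X π s h'
  · have := sum_A1 (L := L) hb fun _ => 1
    simp only [mul_one] at this
    exact this.trans_le ((sum_le_sum_of_subset_of_nonneg
      (erase_subset_erase b fun k hk => (mem_elig.1 hk).1.1) fun k _ _ => A0_nonneg b k).trans
      (sum_A0 H (mem_elig.1 hb).1.1))
  · simpa only [A1, hb, false_and, if_false, sum_const_zero] using hK

/-- a marked eligible port without conflict survives -/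
lemma one_le_conf (H : SelH Ord X π s L n0 h h' Θ K tl) {ξ : Tor d M → ℕ} {b : Tor d M}
    (hb : b ∈ elig Ord X π s h') (h0 : ξ b = 0) (hs : b ∉ sel Ord X π s L h' ξ) :
    1 ≤ ∑ k, A1 Ord X π s L h' b k * io ξ k := by
  have hp := H.h0
  rw [sum_A1 hb]
  by_cases h1 : ∀ k ∈ elig Ord X π s h', k ≠ b → tdist k b < 2 * s → ξ k ≠ 0
  · have h2 := not_le.1 fun h2 => hs (mem_sel.2 (Or.inr ⟨hb, h0, h1, h2⟩))
    rw [div_lt_iff₀ (by norm_num), ← one_lt_div (by positivity), sum_mul, sum_div, sum_filter] at h2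
    refine h2.le.trans (sum_le_sum fun k _ => ?_)
    split_ifs with hk
    · rw [io, if_pos hk.2, mul_one, A0, if_pos hk.1, mul_comm]
      exact le_add_of_nonneg_left (ite_nonneg zero_le_one le_rfl)
    · exact mul_nonneg (A0_nonneg b k) (io0 ξ k)
  · push Not at h1
    obtain ⟨k, k1, k2, k3, k4⟩ := h1
    refine le_trans ?_ (single_le_sum (fun k _ => mul_nonneg (A0_nonneg b k) (io0 ξ k))
      (mem_erase.2 ⟨k2, k1⟩))
    rw [io, if_pos k4, mul_one, A0, if_pos k3]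
    exact le_add_of_nonneg_right (ite_nonneg (by positivity) le_rfl)

/-- a port that is not eligible is in conflict with a forced point -/
lemma not_elig (H : SelH Ord X π s L n0 h h' Θ K tl) {b : Tor d M} (hb : b ∈ Ord)
    (h1 : b ∉ elig Ord X π s h') :
    ∃ x ∈ X, tdist b x ≤ L ∧ (b ≠ x → 1 ≤ A0 π s L h' x b) := by
  by_cases hX : b ∈ X
  · exact ⟨b, hX, by rw [tdist_self]; exact Nat.zero_le _, fun h => (h rfl).elim⟩
  have hp := H.h0
  have h2 : ¬∀ x ∈ X, 2 * s ≤ tdist b x ∧ π x b ≤ h' / 4 := fun h => h1 (mem_elig.2 ⟨⟨hb, hX⟩, h⟩)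
  push Not at h2
  obtain ⟨x, hx, h3⟩ := h2
  by_cases h4 : tdist b x < 2 * s
  · refine ⟨x, hx, h4.le.trans H.sL, fun _ => ?_⟩
    rw [A0, if_pos h4]
    exact le_add_of_nonneg_right (ite_nonneg (by positivity) le_rfl)
  · have h5 := h3 (not_lt.1 h4)
    have h6 : tdist b x ≤ L := not_lt.1 fun h => by linarith [far_one H (H.XO hx) hb h, H.tlh]
    refine ⟨x, hx, h6, fun _ => ?_⟩
    rw [A0, if_neg h4, if_pos h6, zero_add, one_le_div (by positivity)]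
    nlinarith

open Classical in
lemma card_bad (H : SelH Ord X π s L n0 h h' Θ K tl) (hK : 0 ≤ K) (a : Tor d M) :
    ((Ord.filter fun b => tdist b a ≤ L ∧ b ∉ elig Ord X π s h').card : ℝ) ≤ K + 1 := by
  set B := Ord.filter fun b => tdist b a ≤ L ∧ b ∉ elig Ord X π s h'
  have key : ∀ b ∈ B, ∃ x ∈ X, tdist x a ≤ 2 * L ∧ (b ≠ x → 1 ≤ A0 π s L h' x b) := fun b hb => by
    obtain ⟨b1, b2, b3⟩ := mem_filter.1 hb
    obtain ⟨x, x1, x2, x3⟩ := not_elig H b1 b3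
    have := tdist_triangle x b a
    rw [tdist_comm x b] at this
    exact ⟨x, x1, by omega, x3⟩
  rcases B.eq_empty_or_nonempty with e | ⟨b, hb⟩
  · rw [e, card_empty, Nat.cast_zero]
    linarith
  obtain ⟨x, x1, x2, -⟩ := key b hb
  have h1 : ((B.erase x).card : ℝ) ≤ K := by
    rw [card_eq_sum_ones, Nat.cast_sum, Nat.cast_one]
    refine ((sum_le_sum fun k hk => ?_).trans (sum_le_sum_of_subset_of_nonneg
      (erase_subset_erase x (filter_subset _ _)) fun k _ _ => A0_nonneg x k)).trans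
      (sum_A0 H (H.XO x1))
    obtain ⟨y, y1, y2, y3⟩ := key k (mem_of_mem_erase hk)
    obtain rfl := X_eq H x1 y1 x2 y2
    exact y3 (ne_of_mem_erase hk)
  have h2 : (B.card : ℝ) ≤ (B.erase x).card + 1 := by
    exact_mod_cast (show B.card ≤ (B.erase x).card + 1 by
      have := pred_card_le_card_erase (s := B) (a := x); omega)
  linarith

end SelA

open SelA

lemma SelH.X_sub (H : SelH Ord X π s L n0 h h' Θ K tl) (ξ : Tor d M → ℕ) :
    X ⊆ sel Ord X π s L h' ξ ∧ sel Ord X π s L h' ξ ⊆ Ord :=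
  ⟨subset_union_left, fun _ hb => (mem_sel.1 hb).elim (fun h => H.XO h)
    fun h => (mem_elig.1 h.1).1.1⟩
lemma SelH.sep (H : SelH Ord X π s L n0 h h' Θ K tl) (ξ : Tor d M → ℕ) :
    Sep (2 * s) (sel Ord X π s L h' ξ) := fun a ha b hb hab => by
  rcases mem_sel.1 ha with h1 | h1 <;> rcases mem_sel.1 hb with h2 | h2
  · have := H.sepX a h1 b h2 hab
    have := H.sL
    omega
  · exact tdist_comm a b ▸ ((mem_elig.1 h2.1).2 a h1).1
  · exact ((mem_elig.1 h1.1).2 b h2).1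
  · exact not_lt.1 fun h => h2.2.2.1 a h1.1 hab h h1.2.1
lemma SelH.entry (H : SelH Ord X π s L n0 h h' Θ K tl) (ξ : Tor d M → ℕ) {a b : Tor d M}
    (ha : a ∈ sel Ord X π s L h' ξ) (hb : b ∈ sel Ord X π s L h' ξ) (hab : a ≠ b) :
    π a b ≤ h' / 4 + tl := by
  have a0 := (H.X_sub ξ).2 ha
  have t0 := H.tl0 a0
  have hp := H.h0
  rcases lt_or_ge L (tdist b a) with hL | hL
  · linarith [far_one H a0 ((H.X_sub ξ).2 hb) hL]
  rcases mem_sel.1 ha with h1 | h1 <;> rcases mem_sel.1 hb with h2 | h2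
  · have := H.sepX b h2 a h1 hab.symm
    omega
  · linarith [((mem_elig.1 h2.1).2 a h1).2]
  · linarith [((mem_elig.1 h1.1).2 b h2).2, H.symm a b]
  · have h3 := (single_le_sum (f := fun k => π a k ^ 2) (fun k _ => sq_nonneg _)
      (mem_filter.2 ⟨mem_erase.2 ⟨hab.symm, h2.1⟩, hL, h2.2.1⟩)).trans h1.2.2.2
    have h4 : π a b ≤ h' / 4 := by
      refine abs_le_of_sq_le_sq' ?_ (by positivity) |>.2
      linarith
    linarith



end Crest.Agent.N334.AC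
end

-- ▼ part N334/AC/P/Sel0
section

/-! # S0520 part P (helper20): `ℓ²` forms of the selection monitors (after helper36's `SelA`) -/

set_option autoImplicit false
set_option linter.unusedSectionVars false

open Finset Function

namespace Crest.Agent.N334.AC

namespace SelA

variable {Λ : Type} [Fintype Λ] [DecidableEq Λ] {n : ℕ} {U : Finset Λ} {S K t Z : ℝ}

/-- lower tail of a quadratic function -/
lemma quad_tail2 (hn : 0 < n) {m : Λ → ℝ} {A : Λ → Λ → ℝ} (h0 : ∀ b, 0 ≤ m b)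
    (hS : ∑ b, m b ^ 2 ≤ S) (A0 : ∀ b k, 0 ≤ A b k) (Ad : ∀ b, A b b = 0)
    (hK0 : 0 ≤ K) (Ar : ∀ b, ∑ k, A b k ≤ K) (Ac : ∀ k, ∑ b, A b k ≤ K) (hK : 4 * K ≤ n)
    (hU : ∀ b, b ∉ U → m b = 0) (hU' : ∀ b k, k ∉ U → m b * A b k = 0) (ht : 0 < t) (hZ : 0 < Z)
    (h2 : Z * (4 * (K + 1) ^ 2 * S) ≤ t ^ 2) :
    LocB (fun _ => n) U (Real.exp (-Z)) fun ξ =>
      if ∑ b, m b * (io ξ b * (1 - ∑ k, A b k * io ξ k)) ≤ 3 / 4 / n * ∑ b, m b - t
      then 1 else 0 := by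
  have mA : ∀ b k, 0 ≤ m b * A b k := fun b k => mul_nonneg (h0 b) (A0 b k)
  have r : ∀ b, ∑ k, m b * A b k ≤ m b * K := fun b =>
    (mul_sum _ _ _).symm.trans_le (mul_le_mul_of_nonneg_left (Ar b) (h0 b))
  refine locB_imp (locB_tail (m := fun _ => n)
    (f := fun ξ => ∑ b, (∑ k, m b * A b k * (io ξ b * io ξ k) + -m b * io ξ b))
    (c := fun x => ∑ k, m x * A x k + ∑ b, m b * A b x + m x)
    (fun _ => hn) ht hZ (fun ξ ξ' h => sum_congr rfl fun b _ => ?_) (fun ξ x v => ?_)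
    ((mul_le_mul_of_nonneg_left ?_ hZ.le).trans h2)) fun ξ h => ?_
  · by_cases hb : b ∈ U
    · have e : io ξ b = io ξ' b := by rw [io, io, h b hb]
      rw [e]
      congr 1
      refine sum_congr rfl fun k _ => ?_
      by_cases hk : k ∈ U
      · rw [io.eq_1 ξ k, io.eq_1 ξ' k, h k hk]
      · rw [hU' b k hk, zero_mul, zero_mul]
    · simp [hU b hb]
  · rw [← sum_sub_distrib]
    refine (abs_sum_le_sum_abs _ _).trans ((sum_le_sum (g := fun b =>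
      ∑ k, m b * A b k * ((if b = x then 1 else 0) + if k = x then 1 else 0)
        + m b * if b = x then 1 else 0) fun b _ => ?_).trans (le_of_eq ?_))
    · rw [add_sub_add_comm, ← sum_sub_distrib]
      refine (abs_add_le _ _).trans (add_le_add
        ((abs_sum_le_sum_abs _ _).trans (sum_le_sum fun k _ => ?_)) ?_)
      · rw [← mul_sub, abs_mul, abs_of_nonneg (mA b k)]
        exact mul_le_mul_of_nonneg_left (io_upd2 ξ x v b k) (mA b k)
      · rw [← mul_sub, abs_mul, abs_neg, abs_of_nonneg (h0 b)]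
        exact mul_le_mul_of_nonneg_left (io_upd ξ x v b) (h0 b)
    · simp only [mul_add, sum_add_distrib, mul_ite, mul_one, mul_zero, sum_ite_eq', mem_univ,
        if_true]
      rw [sum_comm]
      simp only [sum_ite_eq', mem_univ, if_true]
  · have a1 : ∀ x, (∑ k, m x * A x k + ∑ b, m b * A b x + m x) ^ 2 ≤
        2 * (K + 1) ^ 2 * m x ^ 2 + 2 * K * ∑ b, m b ^ 2 * A b x := fun x => by
      have b1 : (∑ b, m b * A b x) ^ 2 ≤ (∑ b, A b x) * ∑ b, m b ^ 2 * A b x :=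
        sum_sq_le_sum_mul_sum_of_sq_le_mul _ (fun b _ => A0 b x)
          (fun b _ => mul_nonneg (sq_nonneg _) (A0 b x)) fun b _ => le_of_eq (by ring)
      have b2 := mul_le_mul_of_nonneg_right (Ac x)
        (sum_nonneg fun b (_ : b ∈ univ) => mul_nonneg (sq_nonneg (m b)) (A0 b x))
      have b3 : (∑ k, m x * A x k + m x) ^ 2 ≤ (m x * (K + 1)) ^ 2 :=
        pow_le_pow_left₀ (add_nonneg (sum_nonneg fun k _ => mA x k) (h0 x)) (by linarith [r x]) 2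
      nlinarith [sq_nonneg (∑ k, m x * A x k + m x - ∑ b, m b * A b x)]
    have a2 : ∑ x, ∑ b, m b ^ 2 * A b x ≤ K * S := by
      rw [sum_comm]
      refine le_trans (sum_le_sum fun b _ => ?_) ((mul_sum _ _ _).symm.trans_le
        (mul_le_mul_of_nonneg_left hS hK0))
      rw [← mul_sum, mul_comm K]
      exact mul_le_mul_of_nonneg_left (Ar b) (sq_nonneg _)
    have hS0 := (sum_nonneg fun b _ => sq_nonneg (m b)).trans hS
    refine (sum_le_univ_sum_of_nonneg fun k => sq_nonneg _).trans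
      ((sum_le_sum fun x _ => a1 x).trans ?_)
    rw [sum_add_distrib, ← mul_sum, ← mul_sum]
    have a3 := mul_le_mul_of_nonneg_left hS (show 0 ≤ 2 * (K + 1) ^ 2 by positivity)
    have a4 := mul_le_mul_of_nonneg_left a2 (show 0 ≤ 2 * K by positivity)
    nlinarith [mul_nonneg hK0 hS0]
  · have hn' : (0 : ℝ) < n := by exact_mod_cast hn
    have a1 : ∑ b, (∑ k, m b * A b k * (io ξ b * io ξ k) + -m b * io ξ b)
        = -∑ b, m b * (io ξ b * (1 - ∑ k, A b k * io ξ k)) := by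
      rw [← sum_neg_distrib]
      refine sum_congr rfl fun b _ => ?_
      rw [mul_sub, mul_sub, mul_sum, mul_sum, neg_sub, mul_one, neg_mul, sub_eq_add_neg]
      congr 1
      exact sum_congr rfl fun k _ => by ring
    have a2 : avgP (fun _ => n) (fun ξ : Λ → ℕ =>
        ∑ b, (∑ k, m b * A b k * (io ξ b * io ξ k) + -m b * io ξ b))
          ≤ ∑ b, -(3 / 4 / n * m b) := by
      simp only [avgP_sum, avgP_add, avgP_mul, io, avgP_ind (m := fun _ : Λ => n) fun _ => hn]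
      refine sum_le_sum fun b _ => ?_
      have b1 : ∑ k, m b * A b k * avgP (fun _ => n) (fun ξ : Λ → ℕ =>
          (if ξ b = 0 then (1 : ℝ) else 0) * if ξ k = 0 then 1 else 0)
          = (∑ k, m b * A b k) * (1 / n * (1 / n)) := by
        rw [sum_mul]
        refine sum_congr rfl fun k _ => ?_
        by_cases hk : b = k
        · rw [← hk, Ad, mul_zero, zero_mul, zero_mul]
        · rw [avgP_ind₂ (fun _ => hn) hk]
      have b2 := mul_le_mul_of_nonneg_right ((r b).trans (mul_le_mul_of_nonneg_left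
        (show K ≤ n / 4 by linarith) (h0 b))) (show (0 : ℝ) ≤ 1 / n * (1 / n) by positivity)
      have b3 : m b * (n / 4) * (1 / n * (1 / n)) + -m b * (1 / n) = -(3 / 4 / n * m b) := by
        field_simp
        ring
      rw [b1]
      linarith
    rw [sum_neg_distrib, ← mul_sum] at a2
    rw [a1]
    linarith

end SelA

open SelA

variable {d M : ℕ} [NeZero M]
variable {Ord X : Finset (Tor d M)} {π : Tor d M → Tor d M → ℝ} {s L n0 : ℕ} {h h' Θ K tl : ℝ}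

open Classical in
theorem SelH.loc1' (H : SelH Ord X π s L n0 h h' Θ K tl) {a : Tor d M} (ha : a ∈ Ord)
    {m : Tor d M → ℝ} {c t Z : ℝ} (hm0 : ∀ b, 0 ≤ m b) (hc : 0 ≤ c)
    (hm : ∀ b ∈ Ord, b ≠ a → m b ≤ c * π a b) (ht : 0 < t)
    (hZ : 0 < Z) (h1 : c * ((K + 1) * h + tl) ≤ t * n0) 
    (h2 : Z * (4 * (K + 1) ^ 2 * (c ^ 2 * Θ)) ≤ t ^ 2) :
    LocB (fun _ => n0) (tball a (2 * L)) (Real.exp (-Z)) fun ξ =>
      if ∑ b ∈ (sel Ord X π s L h' ξ).erase a, m b < 3 / 4 / n0 * ∑ b ∈ Ord.erase a, m b - 2 * t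
      then 1 else 0 := by
  have hK := (H.K_pos (H.Θ0 ha)).le
  have hn := H.n0_pos (H.Θ0 ha)
  have hn' : (0 : ℝ) < n0 := by exact_mod_cast hn
  have hch := mul_nonneg hc H.hh
  set B := ((elig Ord X π s h').erase a).filter fun b => tdist b a ≤ L with hB
  have memB : ∀ {b}, b ∈ B → b ∈ elig Ord X π s h' ∧ b ≠ a ∧ tdist b a ≤ L := fun hb =>
    ⟨mem_of_mem_erase (mem_filter.1 hb).1, ne_of_mem_erase (mem_filter.1 hb).1, (mem_filter.1 hb).2⟩
  have hmh : ∀ b ∈ Ord, b ≠ a → m b ≤ c * h := fun b hb hne =>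
    (hm b hb hne).trans (mul_le_mul_of_nonneg_left (H.ent a ha b hb hne.symm) hc)
  have sB : ∀ f : Tor d M → ℝ, ∑ b, (if b ∈ B then m b else 0) * f b = ∑ b ∈ B, m b * f b :=
    fun f => by simp only [ite_mul, zero_mul, sum_ite_mem, univ_inter]
  have sB1 : ∑ b, (if b ∈ B then m b else 0) = ∑ b ∈ B, m b := by rw [sum_ite_mem, univ_inter]
  refine locB_imp (quad_tail2 (m := fun b => if b ∈ B then m b else 0) (A := A1 Ord X π s L h') hn
    (fun b => ite_nonneg (hm0 b) le_rfl) ?_ A1_nonneg (fun b => ?_) hK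
    (sum_A1_le H hK) (fun k => ?_) H.hn (fun b hb => if_neg fun h => hb ?_) (fun b k hk => ?_)
    ht hZ h2) fun ξ hξ => ?_
  · simp only [ite_pow, ne_eq, OfNat.ofNat_ne_zero, not_false_eq_true, zero_pow, sum_ite_mem,
      univ_inter]
    refine le_trans ?_ (mul_le_mul_of_nonneg_left (H.two a ha) (sq_nonneg c))
    rw [mul_sum]
    refine (sum_le_sum fun b hb => ?_).trans (sum_le_sum_of_subset_of_nonneg (fun b hb =>
      mem_erase.2 ⟨(memB hb).2.1, (mem_elig.1 (memB hb).1).1.1⟩) fun b _ _ => by positivity)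
    rw [← mul_pow]
    exact pow_le_pow_left₀ (hm0 b) (hm b (mem_elig.1 (memB hb).1).1.1 (memB hb).2.1) 2
  · exact if_neg fun h => notMem_erase _ _ h.2
  · simpa only [A1_symm H _ k] using sum_A1_le H hK k
  · have := (memB h).2.2
    exact mem_tball.2 (by omega)
  · by_cases hb : b ∈ B
    · have a1 := (memB hb).2.2
      have a2 := tdist_triangle k b a
      have a3 := H.sL
      rw [mem_tball] at hk
      rw [A1, A0, if_neg (show ¬tdist k b < 2 * s by omega), if_neg (show ¬tdist k b ≤ L by omega),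
        add_zero, ite_self, mul_zero]
    · rw [if_neg hb, zero_mul]
  · have a1 : ∑ b ∈ B, m b * (io ξ b * (1 - ∑ k, A1 Ord X π s L h' b k * io ξ k))
        ≤ ∑ b ∈ (sel Ord X π s L h' ξ).erase a, m b := by
      refine (sum_le_sum (g := fun b => if b ∈ sel Ord X π s L h' ξ then m b else 0)
        fun b hb => ?_).trans ?_
      · have b1 : 0 ≤ ∑ k, A1 Ord X π s L h' b k * io ξ k :=
          sum_nonneg fun k _ => mul_nonneg (A1_nonneg b k) (io0 ξ k)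
        by_cases b2 : ξ b = 0
        · rw [io, if_pos b2, one_mul]
          split_ifs with b3
          · exact mul_le_of_le_one_right (hm0 b) (by linarith)
          · exact mul_nonpos_of_nonneg_of_nonpos (hm0 b)
              (sub_nonpos.2 (one_le_conf H (memB hb).1 b2 b3))
        · rw [io, if_neg b2, zero_mul, mul_zero]
          exact ite_nonneg (hm0 b) le_rfl
      · rw [← sum_filter]
        exact sum_le_sum_of_subset_of_nonneg (fun b hb => mem_erase.2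
          ⟨(memB (mem_filter.1 hb).1).2.1, (mem_filter.1 hb).2⟩) fun b _ _ => hm0 b
    have a2 : ∑ b ∈ Ord.erase a, m b ≤ ∑ b ∈ B, m b + c * ((K + 1) * h + tl) := by
      have b1 := mul_le_mul_of_nonneg_right (card_bad H hK a) hch
      have b2 := mul_le_mul_of_nonneg_left (H.far a ha) hc
      have b3 : ∑ b ∈ Ord.erase a, m b ≤ ∑ b ∈ Ord, ((if b ∈ B then m b else 0)
          + (if tdist b a ≤ L ∧ b ∉ elig Ord X π s h' then c * h else 0)
          + if L < tdist b a then c * π a b else 0) := by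
        have n1 : ∀ b, 0 ≤ if b ∈ B then m b else 0 := fun b => ite_nonneg (hm0 b) le_rfl
        have n2 : ∀ b, 0 ≤ if tdist b a ≤ L ∧ b ∉ elig Ord X π s h' then c * h else 0 :=
          fun b => ite_nonneg hch le_rfl
        have n3 : ∀ b, 0 ≤ if L < tdist b a then c * π a b else 0 :=
          fun b => ite_nonneg (mul_nonneg hc (H.π0 a b)) le_rfl
        refine (sum_le_sum fun b hb => ?_).trans (sum_le_sum_of_subset_of_nonneg (erase_subset a _)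
          fun b _ _ => add_nonneg (add_nonneg (n1 b) (n2 b)) (n3 b))
        obtain ⟨c1, c2⟩ := mem_erase.1 hb
        by_cases c3 : L < tdist b a
        · rw [if_pos c3]
          linarith [n1 b, n2 b, hm b c2 c1]
        by_cases c4 : b ∈ elig Ord X π s h'
        · rw [if_pos (show b ∈ B from mem_filter.2 ⟨mem_erase.2 ⟨c1, c4⟩, not_lt.1 c3⟩)]
          linarith [n2 b, n3 b]
        · rw [if_pos (And.intro (not_lt.1 c3) c4)]
          linarith [n1 b, n3 b, hmh b c2 c1]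
      rw [sum_add_distrib, sum_add_distrib, ← sum_filter _ fun _ => c * h,
        ← sum_filter _ fun b => c * π a b, sum_const, nsmul_eq_mul, ← mul_sum] at b3
      have b4 := (sum_le_univ_sum_of_nonneg (s := Ord) (f := fun b => if b ∈ B then m b else 0)
        fun b => ite_nonneg (hm0 b) le_rfl).trans_eq sB1
      linarith
    have a3 := mul_le_mul_of_nonneg_left (a2.trans (add_le_add le_rfl h1))
      (show (0 : ℝ) ≤ 3 / 4 / n0 by positivity)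
    have a4 : 3 / 4 / (n0 : ℝ) * (t * n0) = 3 / 4 * t := by field_simp
    rw [sB, sB1]
    linarith

open Classical in
theorem SelH.loc3 (H : SelH Ord X π s L n0 h h' Θ K tl) {a : Tor d M} (ha : a ∈ Ord) {t Z : ℝ}
    (ht : 0 < t) (hZ : 0 < Z) (h2 : Z * (h ^ 2 * Θ) ≤ t ^ 2) :
    LocB (fun _ => n0) (tball a L) (Real.exp (-Z)) fun ξ =>
      if h ^ 2 + Θ / n0 + t + tl < ∑ k ∈ (sel Ord X π s L h' ξ).erase a, π a k ^ 2 then 1 else 0 := by
  set B := (Ord.erase a).filter fun k => tdist k a ≤ L with hB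
  have hh : ∀ k ∈ Ord.erase a, π a k ^ 2 ≤ h ^ 2 := fun k hk => pow_le_pow_left₀ (H.π0 a k)
    (H.ent a ha k (mem_of_mem_erase hk) (ne_of_mem_erase hk).symm) 2
  refine locB_imp (lin_tail (w := fun k => if k ∈ B then π a k ^ 2 else 0) (μ := h ^ 2)
    (S := Θ) (H.n0_pos (H.Θ0 ha)) (fun k => ite_nonneg (sq_nonneg _) le_rfl)
    (fun k hk => if_neg fun h : k ∈ B => hk (mem_tball.2 (mem_filter.1 h).2)) (by positivity)
    (fun k => ?_) ?_ ht hZ h2) fun ξ hξ => ?_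
  · split_ifs with hk
    · exact hh k (mem_filter.1 hk).1
    · positivity
  · rw [sum_ite_mem, univ_inter]
    exact (sum_le_sum_of_subset_of_nonneg (filter_subset _ _) fun k _ _ => sq_nonneg _).trans
      (H.two a ha)
  · have a0 := erase_subset_erase a (H.X_sub ξ).2
    have a1 := far_sq H ha (a0.trans (erase_subset _ _))
    set S := ((sel Ord X π s L h' ξ).erase a).filter fun k => tdist k a ≤ L
    have a2 : ∑ k ∈ S.filter (· ∈ X), π a k ^ 2 ≤ h ^ 2 := by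
      refine (sum_le_card_nsmul _ _ (h ^ 2) fun k hk =>
        hh k (a0 (mem_filter.1 (mem_filter.1 hk).1).1)).trans ?_
      rw [nsmul_eq_mul]
      refine mul_le_of_le_one_left (by positivity) (Nat.cast_le_one.2 (card_le_one.2
        fun x hx y hy => X_eq H (a := a) (mem_filter.1 hx).2 (mem_filter.1 hy).2 ?_ ?_))
      · have := (mem_filter.1 (mem_filter.1 hx).1).2
        omega
      · have := (mem_filter.1 (mem_filter.1 hy).1).2
        omega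
    have a3 : ∑ k ∈ S.filter (· ∉ X), π a k ^ 2 ≤
        ∑ k, (if k ∈ B then π a k ^ 2 else 0) * io ξ k := by
      refine (sum_le_sum fun k hk => ?_).trans (sum_le_univ_sum_of_nonneg fun k =>
        mul_nonneg (ite_nonneg (sq_nonneg _) le_rfl) (io0 ξ k))
      obtain ⟨k1, k2⟩ := mem_filter.1 hk
      obtain ⟨k3, k4⟩ := mem_filter.1 k1
      obtain ⟨-, k5, -⟩ := (mem_sel.1 (mem_of_mem_erase k3)).resolve_left k2
      rw [if_pos (show k ∈ B from mem_filter.2 ⟨a0 k3, k4⟩), io, if_pos k5, mul_one]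
    rw [← sum_filter_add_sum_filter_not S (· ∈ X)] at a1
    linarith

end Crest.Agent.N334.AC
end

-- ▼ part N334/AC/P/Sel
section

/-! # S0520 part P: the selection (leaf; fill the sorries, keep the statements)
Marks `ξ x < m = P Q`, marked = digit `0`. Conflict `b ~ k` (`b ≠ k` in `ord`): `tdist < 2R` or `|G b k|² > h'/4`,
`h' = x'²/q`; degree `≤ nc = 5^d + 288 Q ≤ PQ/4` (`card_sep_le`, `Inv.four`, `Led.γh`), range `≤ ρ` (`Der.dec`).
Survivors: `X ∩ ord`, and the marked `b ∈ ord \ X` with no neighbour in `X` and no marked neighbour. Two `locB_tail`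
monitors per row `a ∈ ord` (`Z = P`, support `tball a (2ρ)`): `γ ∑_{b near} ξ_b |G a b|⁴` (mean `≤ 9x⁴/(PQ)`,
`s = x⁴/64`, `c_b ≤ 16 x⁴/Q`) and minus `∑_{b near, eligible} I(b) ξ_b (1 - ∑_{k ~ b} ξ_k)`, `I(b) = γ_b |G a b|²`
(`s = φ`, `∑ c² ≤ 2(1+nc²) ∑ I²`; `Der.iota`; at most one point of `X` within `3ρ`, doomed mass `≤ (nc+1)·5γh`).
Rows that fail are the new seeds `F`; `s0 = (s, A = ord \ survivors, 0).frz (3ρ) F` (`Inv.frz`). -/

set_option autoImplicit false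

open Finset Complex
open scoped Matrix.Norms.L2Operator Matrix

namespace Crest.Agent.N334.AC.P

variable {d M : ℕ} [NeZero M] {c : Cx d M} {e : Ep} {g : Sg} {f : Ref d M}

theorem Bas.frz {s : St d M} (h : Bas c e f s) (F : Finset (Tor d M)) :
    Bas c e f (s.frz (3 * e.ρ) F) :=
  { h with
    full := fun x hx => h.full x (mem_sdiff.1 hx).1
    sub := sdiff_subset.trans h.sub
    opn := fun x hx => h.opn x (mem_sdiff.1 hx).1
    g2 := fun x h1 h2 h3 => by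
      by_cases h4 : x ∈ s.ord
      · exact nbhd_mono' subset_union_right le_rfl (not_not.1 fun h5 => h3 (mem_sdiff.2 ⟨h4, h5⟩))
      · exact nbhd_mono' subset_union_left le_rfl (h.g2 x h1 h2 h4)
    g3 := by
      change Disjoint (s.ord \ nbhd F (3 * e.ρ)) (nbhd (s.PS ∪ F) (3 * e.ρ))
      rw [nbhd_union, disjoint_union_right]
      exact ⟨h.g3.mono_left sdiff_subset, sdiff_disjoint⟩ }

theorem Inv.frz {t : Th} {s : St d M} (h : Inv c e f t s) (hγ : 0 ≤ c.γ) (F : Finset (Tor d M)) :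
    Inv c e f t (s.frz (3 * e.ρ) F) :=
  have hs : (s.frz (3 * e.ρ) F).ord ⊆ s.ord := sdiff_subset
  { h with
    bas := h.bas.frz F
    sep := h.sep.mono le_rfl hs
    ent := fun a ha b hb => h.ent a (hs ha) b (hs hb)
    four := fun a ha => le_trans (mul_le_mul_of_nonneg_left (sum_le_sum_of_subset_of_nonneg
      (erase_subset_erase a hs) fun _ _ _ => by positivity) hγ) (h.four a (hs ha))
    pair := fun a ha => h.pair a (hs ha)
    bias := fun a ha => h.bias a (hs ha)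
    had := le_trans (mul_le_mul_of_nonneg_left (norm_cmp_mono _ hs) hγ) h.had
    dwl := fun a ha => h.dwl a (hs ha) }

namespace Se

section Num

variable (L : Led c e g)
include L

lemma γ1 : c.γ ≤ 1 := by
  have h1 := L.ok.γ_le
  have h2 := one_le_pow₀ (n := 30) L.ok.C1
  have h3 := L.ok.γ0
  nlinarith

lemma P1 : (1 : ℝ) ≤ e.P := le_trans (by norm_num) L.P_ge

lemma PQ : (e.P : ℝ) ≤ e.Q := (le_self_pow₀ (P1 L) (by norm_num)).trans L.Q_ge

lemma PB : (e.P : ℝ) ^ 7 ≤ e.Bg := by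
  have h1 := (P1 L).trans (PQ L)
  have h2 := P1 L
  refine le_trans ?_ L.B_P
  rw [mul_assoc]
  exact le_mul_of_one_le_right (by positivity) (one_le_mul_of_one_le_of_one_le h1 L.D1)

lemma B1 : 1 ≤ e.Bg := le_trans (by norm_num) L.B_ge

lemma five : (5 : ℝ) ^ d ≤ e.Q := by
  have hd : (3 : ℝ) ≤ d := by exact_mod_cast L.ok.hd
  have h1 : (5 : ℝ) ^ d ≤ (100 * d : ℝ) ^ (5 * d) :=
    (pow_le_pow_left₀ (by norm_num) (by linarith) d).trans
      (pow_le_pow_right₀ (by linarith) (by omega))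
  have h2 : (1 : ℝ) ≤ 10 ^ 30 * c.C ^ 15 :=
    one_le_mul_of_one_le_of_one_le (by norm_num) (one_le_pow₀ L.ok.C1)
  exact h1.trans ((le_mul_of_one_le_right (by positivity) h2).trans (L.P2.trans (PQ L)))

lemma hK : 5 ^ d + 16 * (9 * g.x ^ 4 / c.γ) / (g.x' ^ 2 / e.q / 2) ^ 2 ≤ 1153 * (e.Q : ℝ) := by
  have h1 := L.ok.γ0
  have h2 := L.q0
  have h3 := L.x0
  have : 16 * (9 * g.x ^ 4 / c.γ) / (g.x' ^ 2 / e.q / 2) ^ 2 ≤ 1152 * (e.Q : ℝ) := by
    have e1 : 16 * (9 * g.x ^ 4 / c.γ) / (g.x' ^ 2 / e.q / 2) ^ 2 =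
        576 * (e.q ^ 2 / c.γ) * g.x ^ 4 / g.x' ^ 4 := by field_simp; ring
    rw [e1, L.q_sq, mul_div_cancel_right₀ _ h1.ne', div_le_iff₀ (by positivity)]
    nlinarith [mul_le_mul_of_nonneg_left L.x_ge (Nat.cast_nonneg (α := ℝ) e.Q)]
  linarith [five L]

lemma tlh : 1 / e.Bg ^ 28 ≤ g.x' ^ 2 / e.q / 2 / 4 := by
  have h1 := B1 L
  have h2 := L.q0
  have h3 : 1 ≤ (e.Bg * g.x') ^ 2 := one_le_pow₀ L.B_x
  have h4 : (e.P : ℝ) ^ 4 ≤ e.Bg := (pow_le_pow_right₀ (P1 L) (by norm_num)).trans (PB L)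
  have h5 : e.Bg ^ 2 ≤ e.Bg ^ 26 := pow_le_pow_right₀ h1 (by norm_num)
  have h6 : 8 * e.q ≤ e.Bg ^ 26 := by nlinarith [L.q_le, L.B_ge]
  rw [div_div, div_div, div_le_div_iff₀ (by positivity) (by positivity)]
  calc 1 * (e.q * (2 * 4)) ≤ e.Bg ^ 26 * 1 := by linarith
    _ ≤ e.Bg ^ 26 * (e.Bg * g.x') ^ 2 := by gcongr
    _ = _ := by ring

lemma tlx : 1 / e.Bg ^ 28 ≤ g.x ^ 4 / 64 := by
  have h1 := B1 L
  have h3 : 1 ≤ (e.Bg * g.x) ^ 4 := one_le_pow₀ L.B_x'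
  have h5 : e.Bg ≤ e.Bg ^ 24 := le_self_pow₀ h1 (by norm_num)
  rw [div_le_div_iff₀ (by positivity) (by positivity)]
  calc 1 * 64 ≤ e.Bg ^ 24 * 1 := by linarith [L.B_ge]
    _ ≤ e.Bg ^ 24 * (e.Bg * g.x) ^ 4 := by gcongr
    _ = _ := by ring

lemma n1 : 11 / 10 * c.γ * ((1153 * (e.Q : ℝ) + 1) * (4 * (g.x ^ 2 / e.q)) + 1 / e.Bg ^ 28) ≤
    e.φ * (e.P * e.Q : ℕ) := by
  have h0 := L.ok.γ0
  have h1 := P1 L
  have h2 := h1.trans (PQ L)
  have h3 := L.q0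
  have h4 := L.x_pos
  have hP := L.P_ge
  have e1 : e.φ * (e.P * e.Q : ℕ) = 1 / e.P := by rw [Ep.φ]; push_cast; field_simp
  have e2 : e.Q * c.γ * (g.x ^ 2 / e.q) = e.q * g.x ^ 2 := by rw [← L.q_sq]; field_simp
  have a0 : (e.P : ℝ) ^ 6 * g.x ≤ 1 :=
    le_trans (by gcongr; norm_num) L.x_small
  have a1 : e.q * g.x ^ 2 * e.P ^ 2 ≤ g.x := by
    calc _ ≤ (e.P : ℝ) ^ 4 * g.x ^ 2 * e.P ^ 2 := by gcongr; exact L.q_le
      _ = e.P ^ 6 * g.x * g.x := by ring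
      _ ≤ 1 * g.x := by gcongr
      _ = _ := one_mul _
  have a2 : g.x ≤ 1 := le_trans (le_mul_of_one_le_left h4.le (one_le_pow₀ h1)) a0
  have a3 : g.x ^ 4 * e.P ^ 2 ≤ 1 := by
    calc _ ≤ g.x ^ 1 * (e.P : ℝ) ^ 6 := by
          gcongr ?_ * ?_
          exacts [pow_le_pow_of_le_one h4.le a2 (by norm_num), pow_le_pow_right₀ h1 (by norm_num)]
      _ ≤ 1 := by linarith
  have a4 : c.γ * (1 / e.Bg ^ 28) ≤ g.x ^ 4 / 64 :=
    (mul_le_of_le_one_left (by have := B1 L; positivity) (γ1 L)).trans (tlx L)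
  have a5 : c.γ * (g.x ^ 2 / e.q) ≤ e.q * g.x ^ 2 := by
    rw [← e2]; gcongr; nlinarith
  have a6 : 11 / 10 * c.γ * ((1153 * (e.Q : ℝ) + 1) * (4 * (g.x ^ 2 / e.q)) + 1 / e.Bg ^ 28) ≤
      6000 * (e.q * g.x ^ 2) + g.x ^ 4 := by nlinarith [sq_nonneg (g.x ^ 2), mul_pos h3 (pow_pos h4 2)]
  rw [e1, le_div_iff₀ (by linarith)]
  refine (mul_le_mul_of_nonneg_right a6 (by linarith)).trans ?_
  have a7 : 0 ≤ (6000 * (e.q * g.x ^ 2) + g.x ^ 4) * e.P := by positivity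
  nlinarith

lemma n2 : (e.P : ℝ) * (4 * (1153 * (e.Q : ℝ) + 1) ^ 2 *
    ((11 / 10 * c.γ) ^ 2 * (9 * g.x ^ 4 / c.γ))) ≤ e.φ ^ 2 := by
  have h0 := L.ok.γ0
  have h1 := P1 L
  have h2 := h1.trans (PQ L)
  have h4 := L.x_pos
  have a1 : ((e.P : ℝ) ^ 15 * e.Q * g.x) ^ 4 ≤ 1 := pow_le_one₀ (by positivity) L.main
  have a2 : (10 : ℝ) ^ 60 ≤ e.P ^ 55 := L.P_ge.trans (le_self_pow₀ h1 (by norm_num))
  rw [Ep.φ, div_pow, le_div_iff₀ (by positivity), one_pow]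
  calc _ = (e.P : ℝ) ^ 5 * e.Q ^ 2 * g.x ^ 4 * (1089 / 25 * c.γ * (1153 * (e.Q : ℝ) + 1) ^ 2) := by
        field_simp; ring
    _ ≤ (e.P : ℝ) ^ 5 * e.Q ^ 2 * g.x ^ 4 * (1089 / 25 * 1 * (1154 * (e.Q : ℝ)) ^ 2) := by
        gcongr
        exacts [γ1 L, by linarith]
    _ ≤ (e.P : ℝ) ^ 5 * e.Q ^ 2 * g.x ^ 4 * (e.P ^ 55 * (e.Q : ℝ) ^ 2) := by
        gcongr _ * ?_
        rw [mul_pow, ← mul_assoc]
        gcongr
        linarith
    _ = ((e.P : ℝ) ^ 15 * e.Q * g.x) ^ 4 := by ring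
    _ ≤ 1 := a1

lemma n0 : 10 ^ 6 * (e.P : ℝ) ≤ e.Q := by
  have h1 := P1 L
  have a2 : (10 : ℝ) ^ 60 ≤ e.P ^ 5 := L.P_ge.trans (le_self_pow₀ h1 (by norm_num))
  nlinarith [L.Q_ge]

lemma hsq : (4 * (g.x ^ 2 / e.q)) ^ 2 = 16 * g.x ^ 4 / (e.Q * c.γ) := by
  rw [← L.q_sq]; ring

lemma n3 : (e.P : ℝ) * ((4 * (g.x ^ 2 / e.q)) ^ 2 * (9 * g.x ^ 4 / c.γ)) ≤
    (g.x ^ 4 / (64 * c.γ)) ^ 2 := by
  have h0 := L.ok.γ0
  have h2 := (P1 L).trans (PQ L)
  have h4 := L.x_pos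
  rw [hsq L]
  calc _ = (g.x ^ 4 / (64 * c.γ)) ^ 2 * (589824 * e.P / e.Q) := by field_simp; ring
    _ ≤ _ := mul_le_of_le_one_right (by positivity)
        ((div_le_one (by linarith)).2 (by linarith [n0 L, P1 L]))

lemma n4 : c.γ * ((4 * (g.x ^ 2 / e.q)) ^ 2 + 9 * g.x ^ 4 / c.γ / (e.P * e.Q : ℕ) +
    g.x ^ 4 / (64 * c.γ) + 1 / e.Bg ^ 28) ≤ g.x ^ 4 / 16 := by
  have h0 := L.ok.γ0
  have h1 := P1 L
  have h2 := h1.trans (PQ L)
  have h4 := pow_pos L.x_pos 4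
  have a4 : c.γ * (1 / e.Bg ^ 28) ≤ g.x ^ 4 / 64 :=
    (mul_le_of_le_one_left (by have := B1 L; positivity) (γ1 L)).trans (tlx L)
  have a1 : 16 / (e.Q : ℝ) ≤ 1 / 64 := by
    rw [div_le_div_iff₀ (by linarith) (by norm_num)]; linarith [n0 L]
  have a2 : 9 / ((e.P : ℝ) * e.Q) ≤ 1 / 64 := by
    rw [div_le_div_iff₀ (by positivity) (by norm_num)]; nlinarith [n0 L]
  have e1 : c.γ * ((4 * (g.x ^ 2 / e.q)) ^ 2 + 9 * g.x ^ 4 / c.γ / (e.P * e.Q : ℕ) +
      g.x ^ 4 / (64 * c.γ) + 1 / e.Bg ^ 28) = g.x ^ 4 * (16 / (e.Q : ℝ)) +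
        g.x ^ 4 * (9 / ((e.P : ℝ) * e.Q)) + g.x ^ 4 / 64 + c.γ * (1 / e.Bg ^ 28) := by
    rw [hsq L]; push_cast; field_simp
  nlinarith

lemma n5 : 3 * e.φ ≤ 3 / 4 / (e.P * e.Q : ℕ) * (1 / (4 * c.C)) := by
  have h1 := P1 L
  have h2 := h1.trans (PQ L)
  have h3 := L.ok.C1
  have h4 : c.C ≤ c.C ^ 30 := le_self_pow₀ h3 (by norm_num)
  have e1 : 3 * e.φ = 3 / 4 / (e.P * e.Q : ℕ) * (4 / e.P) := by
    rw [Ep.φ]; push_cast; field_simp
  rw [e1]
  gcongr _ * ?_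
  rw [div_le_div_iff₀ (by positivity) (by positivity)]
  linarith [L.P1]

lemma n6 : Real.exp (-(e.P : ℝ)) + Real.exp (-(e.P : ℝ)) ≤ Real.exp (-(e.P : ℝ) / 3) := by
  have h1 := Real.add_one_le_exp (2 * (e.P : ℝ) / 3)
  have h2 := L.P_ge
  rw [show -(e.P : ℝ) / 3 = 2 * e.P / 3 + -e.P by ring, Real.exp_add]
  nlinarith [Real.exp_pos (-(e.P : ℝ))]

end Num

lemma selH (L : Led c e g) (hf : RefOK c e f) {s : St d M} (h : Inv c e f (th1 e g) s)
    {X : Finset (Tor d M)} (hX : Sep (10 * e.ρ) X) :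
    SelH s.ord (X ∩ s.ord) (fun a b => ‖c.G s.w a b‖ ^ 2) g.R e.ρ (e.P * e.Q) (4 * (g.x ^ 2 / e.q))
      (g.x' ^ 2 / e.q / 2) (9 * g.x ^ 4 / c.γ) (1153 * e.Q) (1 / e.Bg ^ 28) where
  XO := inter_subset_right
  sepO := h.sep
  s1 := L.R1
  sL := L.Rρ
  sepX := hX.mono (by have := L.ρ_pos; omega) inter_subset_left
  π0 := fun _ _ => sq_nonneg _
  symm := fun a b => by rw [Cx.G, h.bas.adm.G_comm]
  ent := h.ent
  two := fun a ha => by
    rw [le_div_iff₀' L.ok.γ0]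
    simp only [← pow_mul]
    exact h.four a ha
  far := fun a ha => by
    have hB := B1 L
    have hd := (der L hf L.le1 h).dec
    have ho : s.ord ⊆ opn f.wr := h.bas.sub.trans hf.opn0
    have h1 : ∑ b ∈ s.ord.filter (fun b => e.ρ < tdist b a), ‖c.G s.w a b‖ ^ 2 ≤
        e.Bg ^ 2 * ∑ x ∈ univ.filter (fun x => e.ρ < tdist x a), Real.exp (-e.ϑ * tdist x a) := by
      rw [mul_sum]
      refine (sum_le_sum fun b hb => ?_).trans (sum_le_sum_of_subset_of_nonneg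
        (filter_subset_filter _ (subset_univ _)) fun _ _ _ => by positivity)
      refine (pow_le_pow_left₀ (norm_nonneg _) (hd a (ho ha) b (ho (mem_filter.1 hb).1)) 2).trans ?_
      rw [mul_pow, tdist_comm a b, sq (Real.exp _)]
      gcongr
      refine mul_le_of_le_one_left (Real.exp_pos _).le (Real.exp_le_one_iff.2 ?_)
      have := L.ϑ0
      rw [neg_mul, neg_nonpos]; positivity
    rw [le_div_iff₀ (by positivity)]
    refine (mul_le_mul_of_nonneg_right h1 (by positivity)).trans (le_of_eq_of_le ?_ (L.far3 a))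
    ring
  tl1 := (div_le_one (by have := B1 L; positivity)).2 (one_le_pow₀ (B1 L))
  tlh := tlh L
  hh := by have := L.q0; positivity
  h0 := by have := L.q0; have := L.x0; positivity
  hK := hK L
  hn := by
    have := L.P_ge
    push_cast
    nlinarith [Nat.cast_nonneg (α := ℝ) e.Q]

end Se

open Se in
theorem select (L : Led c e g) (hf : RefOK c e f) {s : St d M} (h : Inv c e f (th1 e g) s)
    {X : Finset (Tor d M)} (hX : Sep (10 * e.ρ) X) {rr : ℕ}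
    {W : (Tor d M → ℕ × ℕ) → (Tor d M → ℝ) → Prop} (G : Game c.N rr W) (hr : 3 * e.ρ ≤ rr) {β : ℝ}
    (hβ : 0 ≤ β) (post : ∀ s0 : CS d M, Pre c e g f s0 → Fol e X s s0.toSt → Disjoint X s0.A →
      W s0.S (sd s0.PS β)) :
    W s.S (sd s.PS (β + Real.exp (-(e.P : ℝ) / 3))) := by
  classical
  have H := selH L hf h hX
  have D := der L hf L.le1 h
  have hγ := L.ok.γ0
  have hP : (0 : ℝ) < e.P := zero_lt_one.trans_le (P1 L)
  have hn : 0 < e.P * e.Q := by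
    have := (P1 L).trans (PQ L)
    exact_mod_cast (show (0 : ℝ) < e.P * e.Q by positivity)
  obtain ⟨C, hok, hmem⟩ := exists_clsB (fun _ : Tor d M => e.P * e.Q) fun _ => hn
  obtain ⟨sl, hsl⟩ : ∃ sl, sl = sel s.ord (X ∩ s.ord) (fun a b => ‖c.G s.w a b‖ ^ 2) g.R e.ρ
    (g.x' ^ 2 / e.q / 2) := ⟨_, rfl⟩
  obtain ⟨b1, hb1⟩ : ∃ b1 : Tor d M → (Tor d M → ℕ) → Prop, b1 = fun a ξ =>
    ∑ b ∈ (sl ξ).erase a, gam s.w b * ‖c.G s.w a b‖ ^ 2 < 3 / 4 / (e.P * e.Q : ℕ) *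
      ∑ b ∈ s.ord.erase a, gam s.w b * ‖c.G s.w a b‖ ^ 2 - 2 * e.φ := ⟨_, rfl⟩
  obtain ⟨b2, hb2⟩ : ∃ b2 : Tor d M → (Tor d M → ℕ) → Prop, b2 = fun a ξ =>
    (4 * (g.x ^ 2 / e.q)) ^ 2 + 9 * g.x ^ 4 / c.γ / (e.P * e.Q : ℕ) + g.x ^ 4 / (64 * c.γ) +
      1 / e.Bg ^ 28 < ∑ k ∈ (sl ξ).erase a, (‖c.G s.w a k‖ ^ 2) ^ 2 := ⟨_, rfl⟩
  have hs : ∀ ξ, X ∩ s.ord ⊆ sl ξ ∧ sl ξ ⊆ s.ord := hsl ▸ H.X_sub
  have hm0 : ∀ a b, 0 ≤ gam s.w b * ‖c.G s.w a b‖ ^ 2 := fun a b =>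
    mul_nonneg (h.bas.adm.diss b) (sq_nonneg _)
  refine G.mark (π' := fun ξ p => if p ∈ s.PS then 1 else β + if p ∈ s.ord then
    (if b1 p ξ then 1 else 0) + if b2 p ξ then 1 else 0 else 0) (fun _ => e.P * e.Q) (fun _ => hn)
    (fun p => ?_) fun ξ _ => ?_
  · rw [← hmem, sd]
    split_ifs with h1 h2
    · exact C.const _ _ zero_le_one
    · refine C.add (C.const _ _ hβ) (C.le (C.add (C.mono (tball_mono p (r := 2 * e.ρ) (by omega)) ?_)
        (C.mono (tball_mono p (r := e.ρ) (by omega)) ?_)) (n6 L) fun _ _ => ⟨by positivity, le_rfl⟩)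
      · rw [hmem, hb1, hsl]
        exact H.loc1' h2 (hm0 p) (c := 11 / 10 * c.γ) (by positivity)
          (fun b _ _ => mul_le_mul_of_nonneg_right (D.gam_le b) (sq_nonneg _)) L.φ_pos hP (n1 L) (n2 L)
      · rw [hmem, hb2, hsl]
        exact H.loc3 h2 (by have := L.x_pos; positivity) hP (n3 L)
    · exact C.le (C.const _ _ (add_nonneg hβ (Real.exp_pos _).le)) le_rfl fun _ _ =>
        ⟨by linarith, by linarith [Real.exp_pos (-(e.P : ℝ) / 3)]⟩
  set F := s.ord.filter fun p => b1 p ξ ∨ b2 p ξ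
  set s0 := (⟨s, s.ord \ sl ξ, 0⟩ : CS d M).frz (3 * e.ρ) F
  have o1 : ∀ a ∈ s0.ord, a ∈ s.ord ∧ ¬b1 a ξ ∧ ¬b2 a ξ := fun a ha => by
    obtain ⟨a1, a2⟩ := mem_sdiff.1 ha
    exact ⟨a1, not_or.1 fun h' => a2 (mem_nbhd.2 ⟨a, mem_filter.2 ⟨a1, h'⟩, by simp [tdist_self]⟩)⟩
  have o2 : s0.A ⊆ s.ord \ sl ξ := sdiff_subset
  have o3 : s0.ord \ s0.A ⊆ sl ξ := fun a ha => by
    obtain ⟨a1, a2⟩ := mem_sdiff.1 ha
    obtain ⟨a3, a4⟩ := mem_sdiff.1 a1
    exact not_not.1 fun h' => a2 (mem_sdiff.2 ⟨mem_sdiff.2 ⟨a3, h'⟩, a4⟩)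
  refine G.mono (post s0 ⟨h.frz hγ.le F, rfl, sdiff_subset_sdiff sdiff_subset subset_rfl,
    (hsl ▸ H.sep ξ).mono le_rfl o3, fun a ha b hb hab => ?_, fun a ha => ?_, fun a ha => ?_⟩
    ⟨subset_union_left, fun x _ hx => ?_⟩ ?_) (fun p => ite_nonneg zero_le_one hβ) fun p => ?_
  · have a1 := H.entry ξ (hsl ▸ o3 ha) (hsl ▸ o3 hb) hab
    have a2 := tlh L
    change ‖c.G s.w a b‖ ^ 2 ≤ _
    linarith
  · have a1 := (o1 a ha).2.2
    simp only [hb2, not_lt, ← pow_mul] at a1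
    refine le_trans (mul_le_mul_of_nonneg_left ((sum_le_sum_of_subset_of_nonneg
      (erase_subset_erase a o3) fun _ _ _ => by positivity).trans a1) hγ.le) (n4 L)
  · obtain ⟨a0, a1, -⟩ := o1 a ha
    simp only [hb1, not_lt] at a1
    have a2 := D.iota a a0
    have a3 : ∑ b ∈ univ.erase a, gam s.w b * ‖c.G s.w a b‖ ^ 2 ≤
        ∑ b ∈ s.ord.erase a, gam s.w b * ‖c.G s.w a b‖ ^ 2 +
          ∑ b ∈ univ \ s.ord, gam s.w b * ‖c.G s.w a b‖ ^ 2 := by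
      rw [← sum_union (disjoint_sdiff.mono_left (erase_subset _ _))]
      exact sum_le_sum_of_subset_of_nonneg (fun b hb => by
        have := ne_of_mem_erase hb
        by_cases h' : b ∈ s.ord <;> simp [*]) fun b _ _ => hm0 a b
    have a4 : ∑ b ∈ (sl ξ).erase a, gam s.w b * ‖c.G s.w a b‖ ^ 2 +
        ∑ b ∈ univ \ s.ord, gam s.w b * ‖c.G s.w a b‖ ^ 2 ≤ nm c s0 s0.w a := by
      rw [← sum_union (disjoint_sdiff.mono_left ((erase_subset _ _).trans (hs ξ).2))]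
      refine sum_le_sum_of_subset_of_nonneg (fun b hb => mem_sdiff.2 ⟨mem_univ _, fun h' => ?_⟩)
        fun b _ _ => hm0 a b
      obtain ⟨c1, c2⟩ := mem_sdiff.1 (o2 h')
      exact (mem_union.1 hb).elim (fun h'' => c2 (mem_of_mem_erase h''))
        fun h'' => (mem_sdiff.1 h'').2 c1
    have a5 : 0 ≤ ∑ b ∈ univ \ s.ord, gam s.w b * ‖c.G s.w a b‖ ^ 2 :=
      sum_nonneg fun b _ => hm0 a b
    have a6 : (3 / 4 / (e.P * e.Q : ℕ) : ℝ) ≤ 1 := by
      have : (1 : ℝ) ≤ (e.P * e.Q : ℕ) := by exact_mod_cast hn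
      rw [div_le_one (by linarith)]; linarith
    have a7 := mul_le_mul_of_nonneg_left (a2.trans a3)
      (show (0 : ℝ) ≤ 3 / 4 / (e.P * e.Q : ℕ) by positivity)
    have a8 := mul_le_of_le_one_left a5 a6
    linarith [n5 L]
  · by_cases h' : x ∈ nbhd F (3 * e.ρ)
    · exact Or.inr (nbhd_mono' subset_union_right le_rfl h')
    · exact Or.inl (mem_sdiff.2 ⟨hx, h'⟩)
  · exact disjoint_left.2 fun x hx h' => (mem_sdiff.1 (o2 h')).2
      ((hs ξ).1 (mem_inter.2 ⟨hx, (mem_sdiff.1 (o2 h')).1⟩))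
  · change (if p ∈ s.PS ∪ F then 1 else β) ≤ _
    by_cases h1 : p ∈ s.PS
    · rw [if_pos h1, if_pos (mem_union_left _ h1)]
    rw [if_neg h1]
    by_cases h2 : p ∈ F
    · obtain ⟨a1, a2⟩ := mem_filter.1 h2
      rw [if_pos (mem_union_right _ h2), if_pos a1]
      rcases a2 with a2 | a2 <;> rw [if_pos a2] <;> split_ifs <;> linarith
    · rw [if_neg fun h' => (mem_union.1 h').elim h1 h2]
      exact le_add_of_nonneg_right (by positivity)

end Crest.Agent.N334.AC.P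
end

-- ▼ part N334/AC/P/Env
section

/-! # S0520 part P: closure of the environment (leaf; fill the sorries, keep the statements)
`env_of`: first `tw_of` (from `OutNr`), far pairs by decay at `s` (`Led.far1`, `Led.G0_dec`), then `Inv (th2)`, `der`.
`ly`: `τ - τ⁰ = -τ τ⁰ ΔG`, so `|b - b⁰| ≤ m2 (1 + 2σ|ΔG|)|ΔG|`; `m2 ≥ γ/(8C)` (`Adm.tau_id` or `Nw.Pre.e2_iota`, or
`E|τ|² ≥ σ²/4`); `nm ≤ Im G_aa ≤ 2C`; `Be φ = P²x²`. -/

set_option autoImplicit false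
set_option maxHeartbeats 400000

open Finset Complex
open scoped Matrix.Norms.L2Operator Matrix

namespace Crest.Agent.N334.AC.P

variable {d M : ℕ} [NeZero M] {c : Cx d M} {e : Ep} {g : Sg} {f : Ref d M}

variable {s0 s : CS d M}

namespace EnvH

theorem bas_frz {t : St d M} (h : Bas c e f t) (F : Finset (Tor d M)) :
    Bas c e f (t.frz (3 * e.ρ) F) where
  adm := h.adm
  abs := h.abs
  rng := h.rng
  cls := h.cls
  len := h.len
  full := fun x hx => h.full x (mem_sdiff.1 hx).1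
  off := h.off
  sub := sdiff_subset.trans h.sub
  opn := fun x hx => h.opn x (mem_sdiff.1 hx).1
  g2 := fun x hx hg hn => by
    change x ∈ nbhd (t.PS ∪ F) (3 * e.ρ)
    rw [nbhd_union, mem_union]
    by_cases h1 : x ∈ t.ord
    · right
      by_contra h2
      exact hn (mem_sdiff.2 ⟨h1, h2⟩)
    · exact Or.inl (h.g2 x hx hg h1)
  g3 := by
    change Disjoint (t.ord \ nbhd F (3 * e.ρ)) (nbhd (t.PS ∪ F) (3 * e.ρ))
    rw [nbhd_union, disjoint_union_right]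
    exact ⟨h.g3.mono_left sdiff_subset, sdiff_disjoint⟩

/-! ### scalar facts -/

section Sc

variable {C σ r : ℝ} {N : ℕ} {a a' w : ℂ}

theorem beta_rel (h : Sml C σ N) (hr : 0 ≤ r ∧ r ≤ 1) (hg : ‖a‖ ≤ C) (hg' : ‖a'‖ ≤ C)
    (hw : ‖w‖ ≤ C * σ ^ 2) :
    ‖beta σ N r a' w - beta σ N r a w‖ ≤ (1 + 2 * σ * ‖a' - a‖) * ‖a' - a‖ *
      avg N fun k => ‖tau a' w (val σ N r k)‖ ^ 2 := by
  have hσ := h.σ0
  rw [beta, beta, ← TauH.avgV_sub, ← avg_mul]
  refine (norm_avgV_le _ _).trans (avg_mono fun k hk => ?_)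
  have hv := abs_val_le hσ.le hr hk
  have hd := h.den hg hw hv
  have hd' := h.den hg' hw hv
  have h1 := h.tau_le hg hw hv
  have e1 : tau a' w (val σ N r k) - tau a w (val σ N r k) =
      -(tau a' w (val σ N r k) ^ 2 * (a' - a) * (1 + tau a w (val σ N r k) * (a' - a))) := by
    rw [tau, tau]; field_simp; ring
  have h2 : ‖1 + tau a w (val σ N r k) * (a' - a)‖ ≤ 1 + 2 * σ * ‖a' - a‖ := by
    refine (norm_add_le _ _).trans ?_
    rw [norm_one, norm_mul]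
    gcongr
  rw [e1, norm_neg, norm_mul, norm_mul, norm_pow]
  calc _ ≤ ‖tau a' w (val σ N r k)‖ ^ 2 * ‖a' - a‖ * (1 + 2 * σ * ‖a' - a‖) := by gcongr
    _ = _ := by ring

theorem tau_sq_ge (h : Sml C σ N) (hr : 0 ≤ r ∧ r ≤ 1) (hg : ‖a‖ ≤ C) (hw : ‖w‖ ≤ C * σ ^ 2) :
    σ ^ 2 / 8 ≤ avg N fun k => ‖tau a w (val σ N r k)‖ ^ 2 := by
  have hσ := h.σ0
  have h1 : ∀ k < N, 9 / 20 * val σ N r k ^ 2 + -(σ ^ 2 / 1000) ≤ ‖tau a w (val σ N r k)‖ ^ 2 := by
    intro k hk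
    have hv := abs_val_le hσ.le hr hk
    have hd := h.den hg hw hv
    have hu := TauH.u_le h hw hv
    have hw' := TauH.w_le h hw
    have hC := TauH.Cs h
    set v := val σ N r k
    have h2 : ‖1 + ((v : ℂ) - w) * a‖ ≤ 101 / 100 := by
      refine (norm_add_le _ _).trans ?_
      rw [norm_one, norm_mul]
      have := mul_le_mul hu hg (norm_nonneg _) (by positivity)
      nlinarith
    have h3 : ‖(v : ℂ) - w‖ = ‖tau a w v‖ * ‖1 + ((v : ℂ) - w) * a‖ := by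
      rw [← norm_mul, tau, div_mul_cancel₀ _ hd]
    have h4 : ‖(v : ℂ) - w‖ ≤ 101 / 100 * ‖tau a w v‖ := by
      rw [h3, mul_comm]; gcongr
    have h5 : |v| ≤ ‖(v : ℂ) - w‖ + ‖w‖ := by
      have := norm_add_le ((v : ℂ) - w) w
      rwa [sub_add_cancel, Complex.norm_real, Real.norm_eq_abs] at this
    have h6 : |v| ≤ 101 / 100 * ‖tau a w v‖ + σ / 1000 := by linarith
    have h7 : v ^ 2 ≤ (101 / 100 * ‖tau a w v‖ + σ / 1000) ^ 2 := by
      rw [← sq_abs]; exact pow_le_pow_left₀ (abs_nonneg _) h6 2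
    nlinarith [sq_nonneg (101 / 100 * ‖tau a w v‖ - σ / 1000), sq_nonneg σ, sq_nonneg ‖tau a w v‖]
  refine le_trans ?_ (avg_mono h1)
  rw [avg_add, avg_mul, avg_const h.N_pos]
  have h2 := (abs_le.1 (TauH.abs_avg_val_sq h hr)).1
  have h3 := TauH.s1 h
  have h4 : σ ^ 4 ≤ σ ^ 2 / 1000 := by
    have : σ ^ 2 ≤ 1 / 1000 := by nlinarith
    nlinarith [sq_nonneg σ]
  nlinarith [sq_nonneg σ]

/-- the arithmetic of the Lyapunov bound -/
theorem ly_arith {b b0 m B n φ P δ s K : ℝ} (hb : b ≤ b0 + (1 + s * δ) * δ * m) (hm : 0 ≤ m)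
    (hB : 0 < B) (hφ : 0 < φ) (hP : 0 < P) (hδ0 : 0 ≤ δ) (hδ : δ ≤ (1 + φ / P) * (B * (n - φ / 4)))
    (hn : n ≤ K) (hK : 0 < K) (hs : 0 ≤ s) (h1 : φ ≤ P) (h2 : 32 * K ≤ P)
    (h3 : 64 * s * B * K ^ 2 ≤ φ) (h4 : 8 * b0 ≤ m * (B * φ)) : b ≤ m * (B * n) := by
  have hu : φ / P ≤ 1 := (div_le_one hP).2 h1
  have hu0 : 0 ≤ φ / P := by positivity
  have hn0 : 0 ≤ n - φ / 4 := by
    by_contra hc
    push Not at hc
    have : (1 + φ / P) * (B * (n - φ / 4)) < 0 := mul_neg_of_pos_of_neg (by positivity)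
      (mul_neg_of_pos_of_neg hB hc)
    linarith
  have hn1 : n - φ / 4 ≤ K := by linarith
  have hδ1 : δ ≤ 2 * (B * K) := hδ.trans (by gcongr; linarith)
  have hu1 : φ / P * K ≤ φ / 32 := by
    rw [div_mul_eq_mul_div, div_le_div_iff₀ hP (by norm_num)]; nlinarith
  have h5 : s * δ * (2 * K) ≤ φ / 16 := by
    have : s * δ * (2 * K) ≤ s * (2 * (B * K)) * (2 * K) := by gcongr
    nlinarith
  have h6 : (1 + φ / P) * (n - φ / 4) ≤ 2 * K := by nlinarith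
  have h7 : (1 + s * δ) * ((1 + φ / P) * (n - φ / 4)) ≤ n - φ / 8 := by
    have a1 : s * δ * ((1 + φ / P) * (n - φ / 4)) ≤ s * δ * (2 * K) := by gcongr
    have a2 : φ / P * (n - φ / 4) ≤ φ / P * K := by gcongr
    nlinarith
  have h8 : (1 + s * δ) * δ ≤ B * (n - φ / 8) := by
    calc (1 + s * δ) * δ ≤ (1 + s * δ) * ((1 + φ / P) * (B * (n - φ / 4))) := by gcongr
      _ = B * ((1 + s * δ) * ((1 + φ / P) * (n - φ / 4))) := by ring
      _ ≤ _ := by gcongr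
  have h9 := mul_le_mul_of_nonneg_right h8 hm
  nlinarith

end Sc

/-! ### far entries -/

theorem far_le (L : Led c e g) {u : ℝ} {t : ℕ} (ht : e.ρ ≤ t) (hu : u ≤ e.Bg * Real.exp (-e.ϑ * t)) :
    e.Bg ^ 2 * u ≤ 1 := by
  have hB : 1 ≤ e.Bg := le_trans (by norm_num) L.B_ge
  calc e.Bg ^ 2 * u ≤ e.Bg ^ 2 * (e.Bg * Real.exp (-e.ϑ * t)) := by gcongr
    _ = e.Bg ^ 3 * Real.exp (-e.ϑ * t) := by ring
    _ ≤ e.Bg ^ 40 * Real.exp (-e.ϑ * t) :=
      mul_le_mul_of_nonneg_right (pow_le_pow_right₀ hB (by norm_num)) (Real.exp_pos _).le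
    _ ≤ 1 := L.far1 ht

theorem far_x (L : Led c e g) {u : ℝ} (hu : e.Bg ^ 2 * u ≤ 1) : 2 * u ≤ g.x := by
  have hB := L.B_ge
  have h1 := L.B_x'
  have hx := L.x_pos
  by_contra hc
  push Not at hc
  have h2 : e.Bg ^ 2 * g.x ≤ e.Bg ^ 2 * (2 * u) := by gcongr
  nlinarith

theorem far_h (L : Led c e g) {u : ℝ} (h0 : 0 ≤ u) (hu : e.Bg ^ 2 * u ≤ 1) :
    u ^ 2 ≤ g.x' ^ 2 / e.q := by
  have hB : 1 ≤ e.Bg := le_trans (by norm_num) L.B_ge
  have hP : (1 : ℝ) ≤ e.P := le_trans (by norm_num) L.P_ge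
  have hQ : (1 : ℝ) ≤ e.Q := (one_le_pow₀ hP).trans L.Q_ge
  have hq : e.q ≤ e.Bg := by
    refine L.q_le.trans (le_trans ?_ L.B_P)
    calc (e.P : ℝ) ^ 4 ≤ (e.P : ℝ) ^ 7 := pow_le_pow_right₀ hP (by norm_num)
      _ ≤ (e.P : ℝ) ^ 7 * e.Q := le_mul_of_one_le_right (by positivity) hQ
      _ ≤ _ := le_mul_of_one_le_right (by positivity) L.D1
  have h1 : e.Bg * u ≤ g.x' := by
    have h2 : e.Bg * (e.Bg * u) ≤ e.Bg * g.x' := by nlinarith [L.B_x]
    exact le_of_mul_le_mul_left h2 (by linarith)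
  rw [le_div_iff₀ L.q0]
  have h3 := pow_le_pow_left₀ (by positivity) h1 2
  have h4 : u ^ 2 * e.q ≤ u ^ 2 * e.Bg ^ 2 := by
    gcongr
    nlinarith
  nlinarith

theorem h'_le (L : Led c e g) : g.x' ^ 2 / e.q ≤ g.x ^ 2 / e.q := by
  have := L.q0
  have := L.x0
  have := L.x_le
  gcongr

theorem nu_sq (L : Led c e g) : 4 * nu e g ^ 2 ≤ g.x' ^ 2 / e.q := by
  refine le_trans ?_ L.nu_h
  have : (4 : ℝ) ≤ (e.P : ℝ) ^ 2 := by nlinarith [L.P_ge]
  gcongr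

theorem ord_sub (h0 : Pre c e g f s0) (h : Rch c e f s0 s) : s.ord ⊆ s0.ord := fun x hx => by
  by_cases hA : x ∈ s.A
  · exact h0.sub (h.subA hA)
  · exact (mem_sdiff.1 (h.subS (mem_sdiff.2 ⟨hx, hA⟩))).1

theorem gam_same (h : Rch c e f s0 s) {x : Tor d M} (hx : gam s.w x ≠ 0 ∨ x ∉ s0.A) :
    gam s.w x = gam s0.w x := by
  unfold gam; rw [h.same x hx]

theorem nm_le (h : Rch c e f s0 s) (a : Tor d M) : nm c s0 s.w a ≤ ‖c.G s.w a a‖ := by
  have h1 := h.bas.adm.ward_diag a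
  calc nm c s0 s.w a = ∑ b ∈ univ \ s0.A, gam s.w b * ‖c.G s.w a b‖ ^ 2 :=
        sum_congr rfl fun b hb => by rw [gam_same h (Or.inr (mem_sdiff.1 hb).2)]
    _ ≤ ∑ b, gam s.w b * ‖c.G s.w a b‖ ^ 2 :=
        sum_le_sum_of_subset_of_nonneg sdiff_subset fun b _ _ =>
          mul_nonneg (h.bas.adm.diss b) (sq_nonneg _)
    _ = (c.G s.w a a).im := h1
    _ ≤ _ := (le_abs_self _).trans (Complex.abs_im_le_norm _)

theorem norm_le_add (u v : ℂ) : ‖u‖ ≤ ‖v‖ + ‖u - v‖ := by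
  have := norm_add_le v (u - v)
  rwa [add_sub_cancel] at this

end EnvH

open EnvH

theorem Pre.rch (h0 : Pre c e g f s0) : Rch c e f s0 s0 :=
  ⟨h0.inv.bas, h0.sub, Subset.rfl, Subset.rfl, fun _ _ => rfl, Subset.rfl, h0.n0 ▸ Nat.zero_le _⟩

theorem Rch.frz (h : Rch c e f s0 s) (F : Finset (Tor d M)) :
    Rch c e f s0 (s.frz (3 * e.ρ) F) where
  bas := bas_frz h.bas F
  sub := sdiff_subset_sdiff h.sub Subset.rfl
  subA := sdiff_subset.trans h.subA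
  subS := fun x hx => h.subS (by
    obtain ⟨h1, h2⟩ := mem_sdiff.1 hx
    obtain ⟨h3, h4⟩ := mem_sdiff.1 h1
    exact mem_sdiff.2 ⟨h3, fun h5 => h2 (mem_sdiff.2 ⟨h5, h4⟩)⟩)
  same := h.same
  PS := h.PS.trans subset_union_left
  n_le := h.n_le

theorem Env.next (L : Led c e g) (hf : RefOK c e f) (h : Env c e g f s0 s) (hr : s.run e)
    {ω : Option (Tor d M × ℕ)} (hω : okA s.A c.N ω) : Rch c e f s0 (s.next c ω) := by
  have _ := L
  have hR := h.rch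
  have hb := hR.bas
  rcases ω with _ | ⟨y, k⟩
  · exact ⟨hb, hR.sub, hR.subA, hR.subS, hR.same, hR.PS, hr⟩
  obtain ⟨hy, hk⟩ := hω
  have hyo := hR.sub hy
  have hw : ∀ x, x ≠ y → cls1 s.w y (c.v y k) x = s.w x := fun x hx => Function.update_of_ne hx _ _
  have hS : ∀ x, x ≠ y → Function.update s.S y (k, 1) x = s.S x := fun x hx =>
    Function.update_of_ne hx _ _
  have hg : ∀ x, gam (cls1 s.w y (c.v y k)) x ≠ 0 → x ≠ y := fun x hx e1 =>
    hx (e1 ▸ gam_cls_self _ _ _)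
  refine ⟨⟨hb.adm.close (h.der.den y hyo k hk), fun x hx => ?_, fun x => ?_, fun x hx => ?_,
    fun x hx => ?_, fun x hx => ?_, fun x hx => ?_, (erase_subset _ _).trans hb.sub, fun x hx => ?_,
    fun x hx h1 h2 => ?_, hb.g3.mono_left (erase_subset _ _)⟩, erase_subset_erase _ hR.sub,
    (erase_subset _ _).trans hR.subA, fun x hx => hR.subS ?_, fun x hx => ?_, hR.PS, hr⟩
  · have : x ≠ y := fun e1 => disjoint_left.1 hf.dT (hf.sub (hb.sub hyo)) (e1 ▸ hx)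
    exact (hw x this).trans (hb.abs x hx)
  · change 0 < (Function.update s.S y (k, 1) x).2 ∧
      (Function.update s.S y (k, 1) x).1 + (Function.update s.S y (k, 1) x).2 ≤ c.N
    by_cases e1 : x = y
    · subst e1; rw [Function.update_self]; exact ⟨one_pos, hk⟩
    · rw [hS x e1]; exact hb.rng x
  · change (Function.update s.S y (k, 1) x).2 = 1 ∧
      cls1 s.w y (c.v y k) x = c.v x (Function.update s.S y (k, 1) x).1
    by_cases e1 : x = y
    · subst e1; rw [Function.update_self]; exact ⟨rfl, Function.update_self _ _ _⟩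
    · rw [hS x e1, hw x e1]; exact hb.cls x ((gam_cls_ne _ _ e1).symm.trans hx)
  · have e1 := hg x hx
    change ∃ a, e.a ≤ a ∧ (Function.update s.S y (k, 1) x).2 = 2 ^ a
    rw [hS x e1]
    exact hb.len x fun h1 => hx ((gam_cls_ne _ _ e1).trans h1)
  · exact (hS x (mem_erase.1 hx).1).trans (hb.full x (mem_erase.1 hx).2)
  · exact (hw x fun e1 => hx (e1 ▸ hb.sub hyo)).trans (hb.off x hx)
  · exact fun h1 => hb.opn x (mem_erase.1 hx).2 ((gam_cls_ne _ _ (mem_erase.1 hx).1).symm.trans h1)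
  · have e1 := hg x h1
    exact hb.g2 x hx (fun h3 => h1 ((gam_cls_ne _ _ e1).trans h3)) fun h3 => h2 (mem_erase.2 ⟨e1, h3⟩)
  · obtain ⟨h1, h2⟩ := mem_sdiff.1 hx
    obtain ⟨h3, h4⟩ := mem_erase.1 h1
    exact mem_sdiff.2 ⟨h4, fun h5 => h2 (mem_erase.2 ⟨h3, h5⟩)⟩
  · have e1 : x ≠ y := hx.elim (hg x) fun h1 e1 => h1 (e1 ▸ hR.subA hy)
    exact (hw x e1).trans (hR.same x (hx.imp_left fun h1 h2 => h1 ((gam_cls_ne _ _ e1).trans h2)))

theorem env_of (L : Led c e g) (hf : RefOK c e f) (h0 : Pre c e g f s0) (h : Rch c e f s0 s)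
    (p1 : OutP1 c e g s0 s) (p2 : OutP2 c e g f s0 s) (dg : OutDg c e g f s0 s) (ly : OutLy c e g s0 s)
    (dw : OutDw c e g f s0 s) (na : OutNA c e g s) (ns : OutNS c g s) (nr : OutNr c e g f s)
    (hd : OutHd c g s) (en : OutEn c g s) : Env c e g f s0 s := by
  have hb := h.bas
  have i0 := h0.inv
  have ok := L.ok
  have hso := ord_sub h0 h
  have hγ := ok.γ0
  have hC := ok.C1
  have hσ := ok.σ0
  have hx := L.x_pos
  have hP := L.P_ge
  have hP0 : (0 : ℝ) < e.P := lt_of_lt_of_le (by norm_num) hP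
  have hP1 : (1 : ℝ) ≤ e.P := le_trans (by norm_num) hP
  have hQ : (1 : ℝ) ≤ e.Q := (one_le_pow₀ hP1).trans L.Q_ge
  have hz := L.z0
  have hC30 : c.C ^ 2 ≤ c.C ^ 30 := pow_le_pow_right₀ hC (by norm_num)
  have hC2 : c.C ≤ c.C ^ 2 := le_self_pow₀ hC (by norm_num)
  have hCP : 10 ^ 60 * c.C ^ 2 ≤ (e.P : ℝ) := le_trans (by gcongr) L.P1
  have hex : g.e + g.x ≤ g.e' := by
    have : 0 ≤ (e.P : ℝ) ^ 3 * g.z / 2 := by positivity
    linarith [L.e_x_le]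
  have he1 : g.e' ≤ 1 := by
    have h1 := L.e'_small
    have h2 : 0 ≤ g.e' := by linarith [L.e0]
    have h3 : (1 : ℝ) ≤ 10 ^ 60 * c.C ^ 30 := by nlinarith
    nlinarith
  have hnear : ∀ x, gam s.w x ≠ 0 → ‖s.w x - c.w0‖ ≤ g.e' * c.γ := fun x hx' => by
    rw [h.same x (Or.inl hx')]
    exact (i0.near x (gam_same h (Or.inl hx') ▸ hx')).trans (mul_le_mul_of_nonneg_right hex hγ.le)
  have hdec := (tw_of L hf hb hnear nr).2
  have ho1 : ∀ a ∈ s.ord, a ∈ opn f.wr := fun a ha => hf.opn0 (hb.sub ha)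
  have ho2 : ∀ b, gam s.w b ≠ 0 → b ∈ opn f.wr := fun b hb' => by
    by_cases h1 : b ∈ f.ord0
    · exact hf.opn0 h1
    · rw [mem_opn]
      unfold gam at hb' ⊢
      rwa [← hb.off b h1]
  have hfar : ∀ a ∈ opn f.wr, ∀ b ∈ opn f.wr, ¬ tdist b a ≤ e.ρ → e.Bg ^ 2 * ‖c.G s.w a b‖ ≤ 1 :=
    fun a ha b hb' ht => far_le L (t := tdist a b) (by rw [tdist_comm]; omega) (hdec a ha b hb')
  have hT : ∀ a ∈ s.ord, a ∈ f.T := fun a ha => hf.sub (hb.sub ha)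
  have hdiag : ∀ b ∈ f.T, gam s.w b ≠ 0 → ‖c.G s.w b b - c.G0 0 0‖ ≤ g.e' := fun b hb1 hb2 => by
    have h1 := dg b hb1 hb2
    have h2 : ‖c.G s0.w b b - c.G0 0 0‖ ≤ g.e + g.x := i0.diag b hb1 (gam_same h (Or.inl hb2) ▸ hb2)
    have h3 := norm_sub_le_norm_sub_add_norm_sub (c.G s.w b b) (c.G s0.w b b) (c.G0 0 0)
    linarith [L.e_x_le]
  have hGa : ∀ a ∈ s.ord, ‖c.G s.w a a‖ ≤ 2 * c.C := fun a ha => by
    linarith [norm_le_add (c.G s.w a a) (c.G0 0 0), hdiag a (hT a ha) (hb.opn a ha), ok.G0_le 0 0]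
  have hnm : ∀ a ∈ s.ord, nm c s0 s.w a ≤ 2 * c.C := fun a ha => (nm_le h a).trans (hGa a ha)
  have d0 := der L hf L.le1 i0
  have sml : Sml (2 * c.C) c.σ c.N := ok.sml (by linarith) (by linarith)
  have hwa : ∀ a ∈ s.ord, ‖s.w a‖ ≤ 2 * c.C * c.σ ^ 2 := fun a ha => by
    rw [h.same a (Or.inl (hb.opn a ha))]
    exact d0.w_le a (i0.bas.opn a (hso ha))
  have hBe : 0 < Be e g := by unfold Be; positivity
  have hφ := L.φ_pos
  have hly : ∀ y ∈ s.ord, ‖c.b s.w y‖ ≤ c.m2 s.w y * (Be e g * nm c s0 s.w y) := fun y hy => by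
    have hy0 := hso hy
    have hw := h.same y (Or.inl (hb.opn y hy))
    have g0 := d0.g_le y (hT y hy) (i0.bas.opn y hy0)
    have h1 := beta_rel sml (ok.r01 y) g0 (hGa y hy) (hwa y hy)
    have h2 : c.σ ^ 2 / 8 ≤ c.m2 s.w y := tau_sq_ge sml (ok.r01 y) (hGa y hy) (hwa y hy)
    have h3 : ‖beta c.σ c.N (c.r y) (c.G s0.w y y) (s.w y)‖ ≤ g.x ^ 2 * c.γ := by
      rw [hw]; exact i0.bias y hy0
    have h4 := norm_le_add (c.b s.w y) (beta c.σ c.N (c.r y) (c.G s0.w y y) (s.w y))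
    have hφ1 : e.φ * ((e.P : ℝ) ^ 2 * e.Q) = 1 := by unfold Ep.φ; field_simp
    have hPQ : (1 : ℝ) ≤ (e.P : ℝ) ^ 2 * e.Q := one_le_mul_of_one_le_of_one_le (one_le_pow₀ hP1) hQ
    refine ly_arith (b0 := g.x ^ 2 * c.γ) (s := 2 * c.σ) (K := 2 * c.C) (P := e.P) (φ := e.φ)
      (δ := ‖c.G s.w y y - c.G s0.w y y‖) (le_trans h4 (add_le_add h3 h1)) (by nlinarith) hBe hφ hP0
      (norm_nonneg _) (ly y hy) (hnm y hy) (by linarith) (by linarith) (by nlinarith) (by nlinarith)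
      ?_ ?_
    · have a1 : (e.P : ℝ) ^ 3 * e.Q * g.x ≤ 1 := by
        refine le_trans ?_ L.main
        have : (e.P : ℝ) ^ 3 ≤ (e.P : ℝ) ^ 15 := pow_le_pow_right₀ hP1 (by norm_num)
        gcongr
      have a2 : ((e.P : ℝ) ^ 3 * e.Q * g.x) ^ 2 ≤ 1 := pow_le_one₀ (by positivity) a1
      have a3 : 512 * (c.C ^ 2 * c.σ) ≤ 1 := by
        have := ok.σ_le
        have : c.C ^ 2 * c.σ ≤ c.C ^ 30 * c.σ := by gcongr
        nlinarith [mul_pos (pow_pos (lt_of_lt_of_le one_pos hC) 2) hσ]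
      have a4 : 64 * (2 * c.σ) * Be e g * (2 * c.C) ^ 2 * ((e.P : ℝ) ^ 2 * e.Q) ≤
          e.φ * ((e.P : ℝ) ^ 2 * e.Q) := by
        rw [hφ1]
        calc _ = 512 * (c.C ^ 2 * c.σ) * ((e.P : ℝ) ^ 3 * e.Q * g.x) ^ 2 := by unfold Be; ring
          _ ≤ 1 * 1 := by gcongr
          _ = 1 := one_mul _
      exact le_of_mul_le_mul_right a4 (by linarith)
    · rw [L.Be_φ]
      have a1 : 64 * c.γ ≤ c.σ ^ 2 * (e.P : ℝ) ^ 2 := by
        have a2 : 64 * c.C ≤ (e.P : ℝ) ^ 2 := by nlinarith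
        calc 64 * c.γ ≤ 64 * (c.C * c.σ ^ 2) := by linarith [ok.γ_hi]
          _ = c.σ ^ 2 * (64 * c.C) := by ring
          _ ≤ _ := by gcongr
      calc 8 * (g.x ^ 2 * c.γ) = 64 * c.γ / 8 * g.x ^ 2 := by ring
        _ ≤ c.σ ^ 2 * (e.P : ℝ) ^ 2 / 8 * g.x ^ 2 := by gcongr
        _ = c.σ ^ 2 / 8 * ((e.P : ℝ) ^ 2 * g.x ^ 2) := by ring
        _ ≤ _ := by gcongr
  have hh := h'_le L
  have hnu := nu_sq L
  have hh0 : 0 ≤ g.x' ^ 2 / e.q := div_nonneg (sq_nonneg _) L.q0.le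
  have hP3 : 2 * g.x ≤ (e.P : ℝ) ^ 3 * g.x := by
    have : (e.P : ℝ) ≤ (e.P : ℝ) ^ 3 := le_self_pow₀ hP1 (by norm_num)
    gcongr; linarith
  have inv : Inv c e f (th2 e g) s.toSt := by
    refine ⟨hb, i0.sep.mono le_rfl hso, hnear, fun a ha b hb' hab => ?_, fun a ha => ?_,
      fun a ha b hb1 hb2 hab => ?_, hdiag, fun a ha => ?_, en.1, en.2, hd, nr, fun a ha => ?_⟩
    · change _ ≤ 9 * (g.x ^ 2 / e.q)
      by_cases ht : tdist b a ≤ e.ρ
      · have h1 := p1 a ha b hb' hab ht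
        have h2 : ‖c.G s0.w a b‖ ^ 2 ≤ 4 * (g.x ^ 2 / e.q) := i0.ent a (hso ha) b (hso hb') hab
        have h3 : ‖c.G s.w a b‖ ≤ ‖c.G s0.w a b‖ + nu e g :=
          (norm_le_add _ (c.G s0.w a b)).trans (by linarith)
        have h4 := pow_le_pow_left₀ (norm_nonneg _) h3 2
        nlinarith [sq_nonneg (‖c.G s0.w a b‖ - nu e g)]
      · have := far_h L (norm_nonneg _) (hfar a (ho1 a ha) b (ho1 b hb') ht)
        linarith
    · change _ ≤ 13 * g.x ^ 4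
      have h1 := na a ha
      have h2 := ns a ha
      have h3 := one_le_bt L (t_nonneg s)
      have h4 : s.ord.erase a = s.A.erase a ∪ (s.ord \ s.A).erase a := by
        rw [← erase_union_distrib, union_sdiff_of_subset h.sub]
      have h5 : 0 ≤ c.γ * ∑ b ∈ s.A.erase a, ‖c.G s.w a b‖ ^ 4 := by positivity
      have h6 := le_mul_of_one_le_left h5 h3
      rw [h4, sum_union (disjoint_sdiff.mono (erase_subset _ _) (erase_subset _ _)), mul_add]
      have h7 : 0 ≤ g.x ^ 4 := by positivity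
      linarith
    · change _ ≤ g.X'
      have hX := L.X_inc
      have hX0 := L.X0
      by_cases ht : tdist b a ≤ e.ρ
      · have h1 := p2 a ha b hb1 hb2 hab ht
        have h2 : ‖c.G s0.w a b - c.G0 a b‖ ≤ g.X + g.x :=
          i0.pair a (hso ha) b hb1 (gam_same h (Or.inl hb2) ▸ hb2) hab
        have h3 := norm_sub_le_norm_sub_add_norm_sub (c.G s.w a b) (c.G s0.w a b) (c.G0 a b)
        linarith
      · have h1 := far_x L (hfar a (ho1 a ha) b (ho2 b hb2) ht)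
        have h2 := far_x L (far_le L (t := tdist a b) (by rw [tdist_comm]; omega) (L.G0_dec a b))
        have h3 := norm_sub_le (c.G s.w a b) (c.G0 a b)
        linarith
    · change _ ≤ (e.P : ℝ) ^ 5 * e.Q * g.x ^ 2 * c.γ
      have h1 : c.m2 s.w a ≤ c.σ ^ 2 / 3 * (21 / 20) := sml.tau_sq (ok.r01 a) (hGa a ha) (hwa a ha)
      have h2 : c.m2 s.w a ≤ c.C * c.γ := by linarith [ok.γ_lo, sq_nonneg c.σ]
      have h3 : 0 ≤ c.m2 s.w a :=
        le_trans (by positivity) (tau_sq_ge sml (ok.r01 a) (hGa a ha) (hwa a ha))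
      calc ‖c.b s.w a‖ ≤ c.m2 s.w a * (Be e g * nm c s0 s.w a) := hly a ha
        _ ≤ c.m2 s.w a * (Be e g * (2 * c.C)) := by have := hnm a ha; gcongr
        _ ≤ c.C * c.γ * (Be e g * (2 * c.C)) := by gcongr
        _ = 2 * c.C ^ 2 * (Be e g * c.γ) := by ring
        _ ≤ e.P * (Be e g * c.γ) := by gcongr; nlinarith
        _ = _ := by unfold Be; ring
    · change _ ≤ D' e g
      have hD : 0 ≤ g.D := zero_le_one.trans L.D1
      calc _ ≤ Bw e g * nm c s0 s.w a := dw a ha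
        _ ≤ Bw e g * (2 * c.C) := mul_le_mul_of_nonneg_left (hnm a ha) (by unfold Bw; positivity)
        _ = 12 * c.C * ((e.P : ℝ) ^ 2 * e.Q * g.D) := by unfold Bw; ring
        _ ≤ e.P * ((e.P : ℝ) ^ 2 * e.Q * g.D) := by gcongr; nlinarith
        _ = _ := by unfold D'; ring
  refine ⟨h, inv, der L hf L.le2 inv, na, ns, fun a ha b hb' hab => ?_, hly, dw⟩
  have ha1 := (mem_sdiff.1 ha).1
  have hb1 := (mem_sdiff.1 hb').1
  by_cases ht : tdist b a ≤ e.ρ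
  · have h1 := p1 a ha1 b hb1 hab ht
    have h2 := h0.ent a (h.subS ha) b (h.subS hb') hab
    have h3 : ‖c.G s.w a b‖ ≤ ‖c.G s0.w a b‖ + nu e g :=
      (norm_le_add _ (c.G s0.w a b)).trans (by linarith)
    have h4 := pow_le_pow_left₀ (norm_nonneg _) h3 2
    nlinarith [sq_nonneg (‖c.G s0.w a b‖ - nu e g)]
  · exact far_h L (norm_nonneg _) (hfar a (ho1 a ha1) b (ho1 b hb1) ht)

theorem Env.post (L : Led c e g) (hf : RefOK c e f) (h0 : Pre c e g f s0) (h : Env c e g f s0 s)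
    (hA : s.A = ∅) {X : Finset (Tor d M)} (hX : Disjoint X s0.A) :
    Inv c e f (th3 e g) s.toSt ∧ Fol e X s0.toSt s.toSt := by
  have _ := hf
  have i := h.inv
  have hR := h.rch
  have hS : s.ord \ s.A = s.ord := by rw [hA, sdiff_empty]
  refine ⟨⟨i.bas, h0.sep.mono le_rfl (hS ▸ hR.subS), i.near, fun a ha b hb hab => ?_, fun a ha => ?_,
    i.pair, i.diag, fun a ha => ?_, i.ub, i.lb, i.had, i.nrm, i.dwl⟩, hR.PS, fun x hx hx0 => ?_⟩
  · exact h.entS a (hS.symm ▸ ha) b (hS.symm ▸ hb) hab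
  · have h1 := h.ns a ha
    rw [hS] at h1
    change _ ≤ g.x' ^ 4
    linarith [L.x_ge]
  · refine (i.bias a ha).trans ?_
    change (e.P : ℝ) ^ 5 * e.Q * g.x ^ 2 * c.γ ≤ (e.P : ℝ) ^ 6 * e.Q * g.x' ^ 2 * c.γ
    have h1 : g.x ^ 2 ≤ e.P * g.x' ^ 2 := by
      have h2 := pow_le_pow_left₀ L.x_pos.le L.x_le2 2
      have h3 : 4 * g.x' ^ 2 ≤ e.P * g.x' ^ 2 := by
        gcongr; exact le_trans (by norm_num) L.P_ge
      linarith [mul_pow 2 g.x' 2]
    have := L.ok.γ0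
    calc _ ≤ (e.P : ℝ) ^ 5 * e.Q * (e.P * g.x' ^ 2) * c.γ := by gcongr
      _ = _ := by ring
  · have hxA : x ∉ s0.A := disjoint_left.1 hX hx
    by_cases h1 : x ∈ s.ord
    · exact Or.inl h1
    · refine Or.inr (i.bas.g2 x (h0.inv.bas.sub hx0) ?_ h1)
      rw [gam_same hR (Or.inr hxA)]
      exact h0.inv.bas.opn x hx0

end Crest.Agent.N334.AC.P
end

-- ▼ part N334/AC/P/FLy
section

/-! # S0520 part P: Lyapunov monitor of the diagonal (leaf; fill the sorries, keep the statements)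
Finite set `Ω` of unit numbers, `card ≤ 100 P³Q`, `(1-η)|z| ≤ max Re (ω z)`, `η = φ/(2P)`. Rows `a ∈ ord`,
`Q = (Re (ω (G_aa - G⁰_aa)) - Be·nm a)/sc`, `sc = Be φ/4`, `Q s0 ≤ -4` (`Pre.nm`), `a = 0`, `J` = exact increment
(`One.quad_step`; `gam s0.w = gam s.w` off `s0.A` by `Rch.same`). Drift: `|G_ay|² (|b_y| - m2·Be·nm y) ≤ 0` by `Env.ly`,
the linear part of `nm` by Ward (`One.mass_lin_nsq`). QV: `Inv.four`, `One.split`. -/

set_option autoImplicit false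

open Finset Complex
open scoped Matrix.Norms.L2Operator Matrix

namespace Crest.Agent.N334.AC.P

variable {d M : ℕ} [NeZero M] {c : Cx d M} {e : Ep} {g : Sg} {f : Ref d M}

namespace Ly

/-- a net of directions -/
lemma net {n : ℕ} (hn : 0 < n) : ∃ ω : Fin (n + 1) → ℂ, (∀ j, ‖ω j‖ = 1) ∧
    ∀ z : ℂ, ∃ j, (1 - 32 / (n : ℝ) ^ 2) * ‖z‖ ≤ (ω j * z).re := by
  have hn' : (0 : ℝ) < n := by exact_mod_cast hn
  refine ⟨fun j => exp ((4 - (j : ℕ) * (8 / n) : ℝ) * I), fun j => norm_exp_ofReal_mul_I _,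
    fun z => ?_⟩
  have h1 := abs_le.1 ((abs_arg_le_pi z).trans Real.pi_le_four)
  have h0 : 0 ≤ (arg z + 4) * n / 8 := by have := h1.1; have : 0 ≤ arg z + 4 := by linarith
                                          positivity
  have hj : ⌊(arg z + 4) * n / 8⌋₊ < n + 1 := by
    rw [Nat.floor_lt h0]; push_cast; nlinarith [h1.2]
  refine ⟨⟨_, hj⟩, ?_⟩
  have a1 := Nat.floor_le h0
  have a2 := Nat.lt_floor_add_one ((arg z + 4) * n / 8)
  simp only
  generalize (⌊(arg z + 4) * n / 8⌋₊ : ℝ) = j at *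
  have e : exp ((4 - j * (8 / n) : ℝ) * I) * z =
      (‖z‖ : ℝ) * exp ((arg z + 4 - j * (8 / n) : ℝ) * I) := by
    conv_lhs => rw [← norm_mul_exp_arg_mul_I z]
    rw [mul_left_comm, ← exp_add]; congr 2; push_cast; ring
  have e2 : arg z + 4 - j * (8 / n) = ((arg z + 4) * n / 8 - j) * (8 / n) := by field_simp
  rw [e, re_ofReal_mul, exp_ofReal_mul_I_re, mul_comm, e2]
  refine mul_le_mul_of_nonneg_left (le_trans ?_ Real.one_sub_sq_div_two_le_cos) (norm_nonneg _)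
  have : ((arg z + 4) * n / 8 - j) ^ 2 ≤ 1 := by nlinarith
  have e3 : 32 / (n : ℝ) ^ 2 = (8 / n) ^ 2 / 2 := by field_simp; norm_num
  rw [e3, mul_pow]
  nlinarith [sq_nonneg (8 / (n : ℝ))]

/-- the increment of the monitor -/
noncomputable def inc (ω : ℂ) (B : ℝ) (t u l : ℂ) (n : ℝ) : ℝ :=
  -(t * (ω * u ^ 2)).re + 2 * B * (t * (u * l)).re - B * (‖u‖ ^ 2 * n) * ‖t‖ ^ 2

lemma inc_abs {ω t u l : ℂ} {B n : ℝ} (hω : ‖ω‖ = 1) (hB : 0 ≤ B) (ht : ‖t‖ ≤ 1) (hn : 0 ≤ n)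
    (hBn : B * n ≤ 1) : |inc ω B t u l n| ≤ 2 * ‖t‖ * ‖u‖ * (‖u‖ + B * ‖l‖) := by
  have h1 := abs_le.1 (abs_re_le_norm (t * (ω * u ^ 2)))
  have h2 := abs_le.1 (abs_re_le_norm (t * (u * l)))
  simp only [norm_mul, norm_pow, hω, one_mul] at h1 h2
  have h3 : B * (‖u‖ ^ 2 * n) * ‖t‖ ^ 2 ≤ ‖t‖ * ‖u‖ ^ 2 := by
    calc _ = B * n * ‖t‖ * (‖t‖ * ‖u‖ ^ 2) := by ring
      _ ≤ 1 * 1 * (‖t‖ * ‖u‖ ^ 2) := by gcongr
      _ = _ := by ring
  have h4 : 0 ≤ B * (‖u‖ ^ 2 * n) * ‖t‖ ^ 2 := by positivity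
  have h5 := mul_le_mul_of_nonneg_left h2.1 hB
  have h6 := mul_le_mul_of_nonneg_left h2.2 hB
  have h7 : 0 ≤ ‖t‖ * ‖u‖ ^ 2 := by positivity
  rw [inc, abs_le]
  constructor <;> linarith [h1.1, h1.2]

lemma avg_inc {ω u l : ℂ} {B n : ℝ} {N : ℕ} {t : ℕ → ℂ} (hω : ‖ω‖ = 1) (hB : 0 ≤ B)
    (h : ‖avgV N t‖ ≤ avg N (fun k => ‖t k‖ ^ 2) * (B * n)) :
    avg N (fun k => inc ω B (t k) u l n) ≤ B * ‖avgV N t‖ * (‖u‖ ^ 2 + ‖l‖ ^ 2) := by
  have e : ∀ k, inc ω B (t k) u l n = (t k * (-(ω * u ^ 2) + (2 * B : ℝ) * (u * l))).re +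
      -(B * (‖u‖ ^ 2 * n)) * ‖t k‖ ^ 2 := fun k => by
    rw [inc, mul_add, add_re, mul_neg, neg_re, mul_left_comm, mul_left_comm (t k) (2 * B : ℝ),
      re_ofReal_mul]
    ring
  simp only [e, avg_add, avg_mul, avg_re, avgV_mul]
  have h1 := (re_le_norm (avgV N t * (-(ω * u ^ 2) + (2 * B : ℝ) * (u * l)))).trans_eq (norm_mul _ _)
  have h2 := norm_add_le (-(ω * u ^ 2)) ((2 * B : ℝ) * (u * l))
  simp only [norm_neg, norm_mul, norm_pow, hω, one_mul, norm_real, Real.norm_eq_abs, abs_two,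
    abs_of_nonneg hB] at h2
  have h3 := mul_le_mul_of_nonneg_left h2 (norm_nonneg (avgV N t))
  have h4 := mul_le_mul_of_nonneg_left h (sq_nonneg ‖u‖)
  nlinarith [mul_nonneg (mul_nonneg hB (norm_nonneg (avgV N t))) (sq_nonneg (‖u‖ - ‖l‖))]

lemma wardL {ι : Type} [Fintype ι] [DecidableEq ι] {A : Matrix ι ι ℂ} {w : ι → ℂ} (h : Adm A w)
    (Q : Finset ι) (a : ι) : ∑ y, gam w y * ‖∑ b ∈ Q, (gam w b : ℂ) * (starRingEnd ℂ) (Gm A w a b) *
      Gm A w y b‖ ^ 2 ≤ (Gm A w a a).im := by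
  have h1 := One.mass_lin_nsq h.wardK Q fun b => (√(gam w b) : ℝ) * Gm A w a b
  have sq : ∀ (b : ι) (z : ℂ), ‖(√(gam w b) : ℝ) * z‖ ^ 2 = gam w b * ‖z‖ ^ 2 := fun b z => by
    rw [norm_mul, mul_pow, norm_real, Real.norm_of_nonneg (Real.sqrt_nonneg _),
      Real.sq_sqrt (h.diss b)]
  refine le_trans (le_of_eq (sum_congr rfl fun y _ => ?_)) (h1.trans ?_)
  · rw [← sq, mul_sum]
    congr 2
    refine sum_congr rfl fun b _ => ?_
    have : ((√(gam w b) : ℝ) : ℂ) * (√(gam w b) : ℝ) = (gam w b : ℝ) := by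
      rw [← ofReal_mul, Real.mul_self_sqrt (h.diss b)]
    rw [Km, map_mul, conj_ofReal, ← this]; ring
  · rw [← h.ward_diag a]
    simp only [sq]
    exact sum_le_sum_of_subset_of_nonneg (subset_univ Q) fun b _ _ =>
      mul_nonneg (h.diss b) (by positivity)

/-- the linear coefficient of the mass -/
noncomputable def lc (c : Cx d M) (s0 : CS d M) (w : Tor d M → ℂ) (a y : Tor d M) : ℂ :=
  ∑ b ∈ univ \ s0.A, (gam s0.w b : ℂ) * (starRingEnd ℂ) (c.G w a b) * c.G w y b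

/-- the monitor before normalisation -/
noncomputable def mon (c : Cx d M) (B : ℝ) (s0 : CS d M) (ω : ℂ) (a : Tor d M) (w : Tor d M → ℂ) :
    ℝ := (ω * (c.G w a a - c.G s0.w a a)).re - B * nm c s0 w a

lemma mon_step {B : ℝ} {s0 : CS d M} {w : Tor d M → ℂ} (h : Adm c.A w) {y : Tor d M} {k : ℕ}
    (hy : 1 + ((c.v y k : ℂ) - w y) * c.G w y y ≠ 0) (ω : ℂ) (a : Tor d M) :
    mon c B s0 ω a (cls1 w y (c.v y k)) = mon c B s0 ω a w +
      inc ω B (c.τ w y k) (c.G w a y) (lc c s0 w a y) (nm c s0 w y) := by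
  have h1 : ∀ b, c.G (cls1 w y (c.v y k)) a b = c.G w a b - c.τ w y k * c.G w a y * c.G w y b :=
    fun b => h.close_G hy a b
  have h2 : c.G w y a = c.G w a y := h.G_sym y a
  have h3 : ω * (c.G w a a - c.τ w y k * c.G w a y * c.G w a y - c.G s0.w a a) =
      ω * (c.G w a a - c.G s0.w a a) - c.τ w y k * (ω * c.G w a y ^ 2) := by ring
  simp only [mon, nm, h1, One.quad_step, h2, h3]
  rw [sub_re, inc, lc, norm_mul, mul_assoc (c.τ w y k)]
  ring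

variable {s0 s : CS d M}

lemma env (L : Led c e g) (hf : RefOK c e f) (h : Env c e g f s0 s) {a : Tor d M} (ha : a ∈ s.ord) :
    (∀ y ∈ s.ord, 0 ≤ nm c s0 s.w y ∧ nm c s0 s.w y ≤ 2 * c.C ∧ ‖lc c s0 s.w a y‖ ≤ 2 * c.C ∧
      ‖c.G s.w a y‖ ≤ 2 * c.C) ∧ c.γ * ∑ y ∈ s.ord, ‖c.G s.w a y‖ ^ 2 ≤ 3 * c.C ∧
      c.γ * ∑ y ∈ s.ord, ‖lc c s0 s.w a y‖ ^ 2 ≤ 3 * c.C := by
  have hb := h.rch.bas
  have hC := L.ok.C1
  have hg : ∀ b ∈ univ \ s0.A, gam s0.w b = gam s.w b := fun b hb' => by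
    rw [gam, gam, h.rch.same b (Or.inr (mem_sdiff.1 hb').2)]
  have him : ∀ y ∈ s.ord, (c.G s.w y y).im ≤ 2 * c.C := fun y hy =>
    (im_le_norm _).trans (h.der.g_le y (hf.sub (hb.sub hy)) (hb.opn y hy))
  have hn : ∀ y ∈ s.ord, 0 ≤ nm c s0 s.w y ∧ nm c s0 s.w y ≤ 2 * c.C := fun y hy => by
    rw [nm, sum_congr rfl fun b hb' => by rw [hg b hb']]
    refine ⟨sum_nonneg fun b _ => mul_nonneg (hb.adm.diss b) (by positivity),
      le_trans ?_ ((hb.adm.ward_diag y).trans_le (him y hy))⟩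
    exact sum_le_sum_of_subset_of_nonneg (subset_univ _) fun b _ _ =>
      mul_nonneg (hb.adm.diss b) (by positivity)
  have key : ∀ z : Tor d M → ℂ, ∑ y, gam s.w y * ‖z y‖ ^ 2 ≤ (c.G s.w a a).im →
      c.γ * ∑ y ∈ s.ord, ‖z y‖ ^ 2 ≤ 3 * c.C := fun z hz => by
    have h1 : ∑ y ∈ s.ord, 9 / 10 * c.γ * ‖z y‖ ^ 2 ≤ ∑ y, gam s.w y * ‖z y‖ ^ 2 :=
      (sum_le_sum fun y hy => mul_le_mul_of_nonneg_right (h.der.gam_ge y (hb.opn y hy))
        (by positivity)).trans (sum_le_sum_of_subset_of_nonneg (subset_univ _) fun b _ _ =>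
          mul_nonneg (hb.adm.diss b) (by positivity))
    rw [← mul_sum] at h1
    linarith [him a ha]
  refine ⟨fun y hy => ⟨(hn y hy).1, (hn y hy).2, ?_,
    h.der.e_le a ha y (hf.sub (hb.sub hy)) (hb.opn y hy)⟩, key _ (hb.adm.ward_diag a).le, key _ ?_⟩
  · have h1 := One.quad_lin_sq (univ \ s0.A) (ω := gam s0.w)
      (fun b hb' => (hg b hb').symm ▸ hb.adm.diss b) (c.G s.w a) (c.G s.w y)
    refine (abs_le_of_sq_le_sq' (h1.trans ?_) (by linarith)).2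
    rw [sq]
    exact mul_le_mul (hn a ha).2 (hn y hy).2 (hn y hy).1 (by linarith)
  · refine le_trans (le_of_eq (sum_congr rfl fun y _ => ?_)) (wardL hb.adm (univ \ s0.A) a)
    rw [lc, sum_congr rfl fun b hb' => by rw [hg b hb']]
    rfl

lemma num (L : Led c e g) : 0 < Be e g ∧ 4 * c.C * Be e g ≤ g.x ∧ g.x ≤ 1 ∧ 4 * c.C * c.γ ≤ 1 ∧
    10 ^ 5 * c.C ^ 4 ≤ (e.P : ℝ) ∧ 96 * c.C * (Be e g * ((e.P : ℝ) ^ 4 * e.Q)) ≤ 1 := by
  have hC := L.ok.C1
  have hP := L.P_ge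
  have hx := L.x_pos
  have hQ : (0 : ℝ) < e.Q := lt_of_lt_of_le (by positivity) L.Q_ge
  have c1 : c.C ≤ c.C ^ 30 := le_self_pow₀ hC (by norm_num)
  have c4 : c.C ^ 4 ≤ c.C ^ 30 := pow_le_pow_right₀ hC (by norm_num)
  have p1 := L.P1
  have hm := L.main
  have p2 : ∀ n, n ≠ 0 → (e.P : ℝ) ≤ e.P ^ n := fun n hn => le_self_pow₀ (by linarith) hn
  refine ⟨by unfold Be; positivity, ?_, ?_, ?_, by linarith, ?_⟩
  · calc 4 * c.C * Be e g ≤ (e.P : ℝ) ^ 11 * Be e g :=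
          mul_le_mul_of_nonneg_right (by linarith [p2 11 (by norm_num)]) (by unfold Be; positivity)
      _ = e.P ^ 15 * e.Q * g.x * g.x := by unfold Be; ring
      _ ≤ 1 * g.x := by gcongr
      _ = _ := one_mul _
  · nlinarith [L.x_small, p2 21 (by norm_num)]
  · nlinarith [L.ok.γ_le, L.ok.γ0]
  · calc _ ≤ (e.P : ℝ) ^ 22 * (Be e g * ((e.P : ℝ) ^ 4 * e.Q)) :=
          mul_le_mul_of_nonneg_right (by linarith [p2 22 (by norm_num)]) (by unfold Be; positivity)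
      _ = (e.P ^ 15 * e.Q * g.x) ^ 2 := by unfold Be; ring
      _ ≤ 1 := pow_le_one₀ (by positivity) hm

lemma sq_bd {j T U Λ B C γ x : ℝ} (hj : |j| ≤ 2 * T * U * (U + B * Λ)) (hT : T ^ 2 ≤ 4 * C * γ)
    (hγ : 0 ≤ γ) (hC : 1 ≤ C) (hΛ0 : 0 ≤ Λ) (hΛ : Λ ≤ 2 * C) (hB0 : 0 ≤ B) (hB : 4 * C * B ≤ x) :
    j ^ 2 ≤ 64 * C * (γ * U ^ 4) + 128 * C ^ 3 * x ^ 4 * (γ * Λ ^ 2) := by
  have h1 : j ^ 2 ≤ (2 * T * U * (U + B * Λ)) ^ 2 := sq_le_sq' (abs_le.1 hj).1 (abs_le.1 hj).2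
  have h2 : (U * (U + B * Λ)) ^ 2 ≤ 4 * U ^ 4 + 2 * (B * Λ) ^ 4 := by
    nlinarith [sq_nonneg (U ^ 2 - (B * Λ) ^ 2), sq_nonneg (U * (U - B * Λ)), sq_nonneg (U ^ 2),
      sq_nonneg ((B * Λ) ^ 2)]
  have h3 : (B * Λ) ^ 4 ≤ x ^ 4 * ((2 * C) ^ 2 * Λ ^ 2) := by
    rw [mul_pow, show Λ ^ 4 = Λ ^ 2 * Λ ^ 2 by ring]
    have : B ≤ x := by nlinarith
    gcongr
  calc j ^ 2 ≤ 4 * (T ^ 2 * (U * (U + B * Λ)) ^ 2) := h1.trans_eq (by ring)
    _ ≤ 4 * (4 * C * γ * (4 * U ^ 4 + 2 * (x ^ 4 * ((2 * C) ^ 2 * Λ ^ 2)))) := by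
        gcongr; linarith
    _ = _ := by ring

lemma step (L : Led c e g) (hf : RefOK c e f) (h : Env c e g f s0 s) {a : Tor d M} (ha : a ∈ s.ord)
    {ω : ℂ} (hω : ‖ω‖ = 1) (U : Finset (Tor d M)) {sc : ℝ} (hsc : sc = (e.P : ℝ) ^ 2 * g.x ^ 2 / 4)
    {J : Tor d M → ℕ → ℝ} (hJ : ∀ y k, J y k = if y = a then 0 else sc⁻¹ *
      inc ω (Be e g) (c.τ s.w y k) (c.G s.w a y) (lc c s0 s.w a y) (nm c s0 s.w y)) :
    (∀ y ∈ s.A, ∀ k < c.N, e.ρ ≤ tdist y a → J y k ≤ tl e a y) ∧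
    (∀ y ∈ s.A ∩ U, ∀ k < c.N, (e.P : ℝ) * |J y k| ≤ 1) ∧
    ∑ y ∈ s.A ∩ U, avg c.N (J y) ≤ 1 / (4 * e.P) ∧
    (e.P : ℝ) * ∑ y ∈ s.A ∩ U, avg c.N (fun k => J y k ^ 2) ≤ 1 / (4 * e.P) := by
  obtain ⟨e1, e2, e3⟩ := env L hf h ha
  obtain ⟨n0, n1, n2, n3, n4, n5⟩ := num L
  have hC := L.ok.C1
  have hP := L.P_ge
  have hx := L.x_pos
  have hγ := L.ok.γ0
  have hA := h.rch.sub
  have hs0 : 0 < sc := by rw [hsc]; positivity
  have hτ : ∀ y ∈ s.A, ∀ k < c.N, ‖c.τ s.w y k‖ ≤ 1 := fun y hy k hk =>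
    (abs_le_of_sq_le_sq' ((h.der.τ_le y (hA hy) k hk).trans (by linarith)) zero_le_one).2
  have hab := fun y (hy : y ∈ s.A) k (hk : k < c.N) =>
    inc_abs (u := c.G s.w a y) (l := lc c s0 s.w a y) hω n0.le (hτ y hy k hk) (e1 y (hA hy)).1
      (by nlinarith [mul_le_mul_of_nonneg_left (e1 y (hA hy)).2.1 n0.le])
  set q : Tor d M → ℝ := fun y => if y = a then 0 else sc⁻¹ ^ 2 *
    (64 * c.C * (c.γ * ‖c.G s.w a y‖ ^ 4) +
      128 * c.C ^ 3 * g.x ^ 4 * (c.γ * ‖lc c s0 s.w a y‖ ^ 2)) with hq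
  have q0 : ∀ y, 0 ≤ q y := fun y => by simp only [hq]; split_ifs <;> positivity
  have q1 : ∀ y ∈ s.A, ∀ k < c.N, J y k ^ 2 ≤ q y := fun y hy k hk => by
    simp only [hq, hJ]
    split_ifs
    · simp
    · rw [mul_pow]
      exact mul_le_mul_of_nonneg_left (sq_bd (hab y hy k hk) (h.der.τ_le y (hA hy) k hk) hγ.le hC
        (norm_nonneg _) (e1 y (hA hy)).2.2.1 n0.le n1) (by positivity)
  have q2 : ∑ y ∈ s.A ∩ U, q y ≤ 1 / (4 * (e.P : ℝ) ^ 2) := by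
    have h1 : ∑ y ∈ s.A ∩ U, q y ≤ ∑ y ∈ s.ord.erase a, q y := by
      rw [sum_erase _ (by simp [hq])]
      exact sum_le_sum_of_subset_of_nonneg (inter_subset_left.trans hA) fun y _ _ => q0 y
    rw [sum_congr rfl fun y hy => if_neg (ne_of_mem_erase hy), ← mul_sum, sum_add_distrib,
      ← mul_sum, ← mul_sum, ← mul_sum, ← mul_sum] at h1
    have h2 : c.γ * ∑ y ∈ s.ord.erase a, ‖c.G s.w a y‖ ^ 4 ≤ 13 * g.x ^ 4 := h.inv.four a ha
    have h3 : c.γ * ∑ y ∈ s.ord.erase a, ‖lc c s0 s.w a y‖ ^ 2 ≤ 3 * c.C :=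
      (mul_le_mul_of_nonneg_left (sum_le_sum_of_subset_of_nonneg (erase_subset _ _)
        fun _ _ _ => by positivity) hγ.le).trans e3
    have c1 : c.C ≤ c.C ^ 4 := le_self_pow₀ hC (by norm_num)
    refine h1.trans ?_
    calc _ ≤ sc⁻¹ ^ 2 * (64 * c.C ^ 4 * (13 * g.x ^ 4) + 128 * c.C ^ 3 * g.x ^ 4 * (3 * c.C)) := by
          gcongr
      _ = 77824 * c.C ^ 4 / (e.P : ℝ) ^ 2 * (1 / (4 * (e.P : ℝ) ^ 2)) := by
          rw [hsc]; field_simp; ring
      _ ≤ _ := mul_le_of_le_one_left (by positivity) (div_le_one_of_le₀ (by nlinarith) (by positivity))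
  refine ⟨fun y hy k hk hd => ?_, fun y hy k hk => ?_, ?_, ?_⟩
  · rw [hJ]
    split_ifs
    · exact L.tl_nonneg _ _
    refine le_trans ?_ (L.far2 hd)
    have hb := h.rch.bas
    have hB := L.B_ge
    have h1 := h.der.dec y (hf.opn0 (hb.sub (hA hy))) a (hf.opn0 (hb.sub ha))
    rw [show c.G s.w y a = c.G s.w a y from hb.adm.G_sym y a] at h1
    have h2 : sc⁻¹ ≤ e.Bg ^ 2 := by
      rw [inv_le_iff_one_le_mul₀ hs0, hsc]
      have := one_le_pow₀ (n := 2) L.B_x'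
      nlinarith [mul_le_mul_of_nonneg_left (show 4 ≤ (e.P : ℝ) ^ 2 by nlinarith)
        (sq_nonneg (e.Bg * g.x))]
    have h3 : ‖c.G s.w a y‖ + Be e g * ‖lc c s0 s.w a y‖ ≤ 3 * c.C := by
      nlinarith [(e1 y (hA hy)).2.2.2, mul_le_mul_of_nonneg_left (e1 y (hA hy)).2.2.1 n0.le]
    have h4 : 6 * c.C ≤ e.Bg := by linarith [L.B_C, le_self_pow₀ hC (show 30 ≠ 0 by norm_num)]
    calc _ ≤ sc⁻¹ * (2 * ‖c.τ s.w y k‖ * ‖c.G s.w a y‖ *
            (‖c.G s.w a y‖ + Be e g * ‖lc c s0 s.w a y‖)) :=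
          mul_le_mul_of_nonneg_left ((le_abs_self _).trans (hab y hy k hk)) (by positivity)
      _ ≤ e.Bg ^ 2 * (2 * 1 * (e.Bg * Real.exp (-e.ϑ * tdist y a)) * (3 * c.C)) := by
          gcongr; exact hτ y hy k hk
      _ = e.Bg ^ 3 * (6 * c.C) * Real.exp (-e.ϑ * tdist y a) := by ring
      _ ≤ e.Bg ^ 29 * e.Bg * Real.exp (-e.ϑ * tdist y a) := by
          gcongr
          · linarith
          · norm_num
      _ = _ := by ring
  · have h1 := (q1 y (mem_inter.1 hy).1 k hk).trans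
      ((single_le_sum (fun y _ => q0 y) hy).trans q2)
    rw [le_div_iff₀ (by positivity)] at h1
    refine (abs_le_of_sq_le_sq' ?_ zero_le_one).2
    rw [mul_pow, sq_abs]
    nlinarith [mul_nonneg (sq_nonneg (e.P : ℝ)) (sq_nonneg (J y k))]
  · have h1 : ∀ y ∈ s.A ∩ U, avg c.N (J y) ≤ sc⁻¹ * (Be e g * ((e.P : ℝ) ^ 5 * e.Q * g.x ^ 2)) *
        (c.γ * (‖c.G s.w a y‖ ^ 2 + ‖lc c s0 s.w a y‖ ^ 2)) := fun y hy => by
      have hy' := hA (mem_inter.1 hy).1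
      rw [funext (hJ y)]
      split_ifs
      · rw [avg_const L.ok.N0]; positivity
      rw [avg_mul, mul_assoc]
      refine mul_le_mul_of_nonneg_left ((avg_inc hω n0.le (h.ly y hy')).trans ?_) (by positivity)
      have h2 : ‖avgV c.N (c.τ s.w y)‖ ≤ (e.P : ℝ) ^ 5 * e.Q * g.x ^ 2 * c.γ := h.inv.bias y hy'
      calc _ ≤ Be e g * ((e.P : ℝ) ^ 5 * e.Q * g.x ^ 2 * c.γ) *
            (‖c.G s.w a y‖ ^ 2 + ‖lc c s0 s.w a y‖ ^ 2) := by gcongr; exact h2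
        _ = _ := by ring
    refine (sum_le_sum h1).trans ?_
    rw [← mul_sum, ← mul_sum]
    have h2 : c.γ * ∑ y ∈ s.A ∩ U, (‖c.G s.w a y‖ ^ 2 + ‖lc c s0 s.w a y‖ ^ 2) ≤ 6 * c.C := by
      refine (mul_le_mul_of_nonneg_left (sum_le_sum_of_subset_of_nonneg
        (inter_subset_left.trans hA) fun _ _ _ => by positivity) hγ.le).trans ?_
      rw [sum_add_distrib]; linarith
    calc _ ≤ sc⁻¹ * (Be e g * ((e.P : ℝ) ^ 5 * e.Q * g.x ^ 2)) * (6 * c.C) := by gcongr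
      _ = 96 * c.C * (Be e g * ((e.P : ℝ) ^ 4 * e.Q)) * (1 / (4 * e.P)) := by
          rw [hsc]; field_simp; ring
      _ ≤ _ := mul_le_of_le_one_left (by positivity) n5
  · have h1 : ∑ y ∈ s.A ∩ U, avg c.N (fun k => J y k ^ 2) ≤ 1 / (4 * (e.P : ℝ) ^ 2) :=
      (sum_le_sum fun y hy => (avg_mono (q1 y (mem_inter.1 hy).1)).trans_eq
        (avg_const L.ok.N0 _)).trans q2
    exact (mul_le_mul_of_nonneg_left h1 (by positivity)).trans_eq (by field_simp)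

end Ly

open Ly in
theorem fam_ly (L : Led c e g) (hf : RefOK c e f) {s0 : CS d M} (h0 : Pre c e g f s0) :
    Fam c e g f s0 (OutLy c e g s0) := by
  have hP := L.P_ge
  have hx := L.x_pos
  have hQ : (e.P : ℝ) ^ 6 ≤ e.Q := L.Q_ge
  have hm : (100 : ℝ) ≤ (e.P : ℝ) ^ 3 * e.Q := by
    have h1 : (1 : ℝ) ≤ e.P ^ 3 := one_le_pow₀ (by linarith)
    have h2 : (e.P : ℝ) ≤ e.P ^ 6 := le_self_pow₀ (by linarith) (by norm_num)
    nlinarith
  have hn : ((e.P ^ 3 * e.Q : ℕ) : ℝ) = (e.P : ℝ) ^ 3 * e.Q := by push_cast; rfl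
  obtain ⟨ω, hω, hnet⟩ := net (n := e.P ^ 3 * e.Q) (by
    have : (0 : ℝ) < (e.P ^ 3 * e.Q : ℕ) := by rw [hn]; linarith
    exact_mod_cast this)
  obtain ⟨sc, hsc⟩ : ∃ sc, sc = (e.P : ℝ) ^ 2 * g.x ^ 2 / 4 := ⟨_, rfl⟩
  have hs0 : 0 < sc := by rw [hsc]; positivity
  obtain ⟨R, r1, r2, r3, r4⟩ := fam_scalar (Rc := Rch c e f s0) (Ev := Env c e g f s0) L h0.n0
    (fun s h => h.rch.sub) (ι := Tor d M × Fin (e.P ^ 3 * e.Q + 1)) Prod.fst
    (fun i s => i.1 ∈ s.ord) (fun i s => sc⁻¹ * mon c (Be e g) s0 (ω i.2) i.1 s.w)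
    (fun p => by
      refine le_trans ?_ L.mult_vol
      refine le_trans (Nat.cast_le.2 (card_le_card_of_injOn (t := univ) Prod.snd
        (fun _ _ => mem_univ _) fun i hi j hj h => Prod.ext ?_ h)) ?_
      · simp only [coe_filter, Set.mem_setOf_eq] at hi hj
        exact hi.2.1.trans hj.2.1.symm
      · rw [card_univ, Fintype.card_fin, Nat.cast_add, hn, Nat.cast_one]
        nlinarith [one_le_vol (d := d) (M := M) (10 * e.ρ)])
    (fun i s F h => ⟨(mem_sdiff.1 h).1, le_rfl⟩)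
    (fun i s o h => by
      rcases o with _ | ⟨y, k⟩
      exacts [h, mem_of_mem_erase h])
    (fun i s h _ ha => by
      obtain ⟨s1, s2, s3, s4⟩ := step L hf h ha (hω i.2) (tball i.1 (2 * e.ρ)) hsc fun _ _ => rfl
      refine ⟨0, _, by norm_num, Or.inl le_rfl, (add_zero _).ge, fun y hy k hk hl => ?_, s2, ?_, s4⟩
      · have hne : y ≠ i.1 := (ne_of_mem_erase hl).symm
        have e1 := mon_step (B := Be e g) (s0 := s0) h.rch.bas.adm
          (h.der.den y (h.rch.sub hy) k hk) (ω i.2) i.1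
        change sc⁻¹ * mon c (Be e g) s0 (ω i.2) i.1 (cls1 s.w y (c.v y k)) ≤ _
        rw [e1, mul_add, add_zero]
        refine add_le_add_right ?_ _
        have s5 := s1 y hy k hk
        simp only [if_neg hne] at s5 ⊢
        split_ifs with hb
        · exact le_rfl
        · exact s5 (by have := mt mem_tball.2 hb; omega)
      · rw [zero_add, div_eq_mul_one_div]
        exact mul_le_mul_of_nonneg_left s3 dt_pos.le)
  refine ⟨R, r1, fun s π h => ⟨(r2 s π h).1, fun hs a ha => ?_⟩, r3, r4⟩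
  obtain ⟨j, hj⟩ := hnet (c.G s.w a a - c.G s0.w a a)
  have h1 := (r2 s π h).2 hs (a, j) ha
  have ha0 : a ∈ s0.ord := by
    by_cases h : a ∈ s.A
    exacts [h0.sub (hs.subA h), (mem_sdiff.1 (hs.subS (mem_sdiff.2 ⟨ha, h⟩))).1]
  have h2 := mul_le_mul_of_nonneg_left (h0.nm a ha0) (num L).1.le
  have h3 := L.Be_φ
  have h4 := mul_le_mul_of_nonneg_left h1 hs0.le
  simp only [mul_add, mul_inv_cancel_left₀ hs0.ne', mon, sub_self, mul_zero, zero_re] at h4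
  have h5 : (1 - 32 / ((e.P : ℝ) ^ 3 * e.Q) ^ 2) * ‖c.G s.w a a - c.G s0.w a a‖ ≤
      Be e g * (nm c s0 s.w a - e.φ / 4) := by rw [← hn]; linarith
  have h6 : e.φ / e.P = 1 / ((e.P : ℝ) ^ 3 * e.Q) := by rw [Ep.φ]; field_simp
  rw [h6]
  generalize (e.P : ℝ) ^ 3 * e.Q = m at *
  have h7 : 1 ≤ (1 + 1 / m) * (1 - 32 / m ^ 2) := by
    have : (1 + 1 / m) * (1 - 32 / m ^ 2) - 1 = (m ^ 2 - 32 * m - 32) / m ^ 3 := by field_simp; ring
    have : 0 ≤ (m ^ 2 - 32 * m - 32) / m ^ 3 := div_nonneg (by nlinarith) (by positivity)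
    linarith
  exact (le_mul_of_one_le_left (norm_nonneg _) h7).trans
    ((mul_assoc _ _ _).trans_le (mul_le_mul_of_nonneg_left h5 (by positivity)))

end Crest.Agent.N334.AC.P
end

-- ▼ part N334/AC/P/FDw

/-! # S0520 part P: Lyapunov monitor of the dwell time (leaf; fill the sorries, keep the statements)
Rows `a ∈ ord`, `Q = (d_a - Bw·nm a)/D`, `Q s0 ≤ -3` (`Bw φ = 6D`), `a = 0`, `J` = linear part only: the quadratic part
`|τ|²|G_ay|²(d_y - Bw·nm y)` is `≤ 0` by `Env.dw`. `z_y = ∑_{x ∈ O0} conj(G_xa) G_xy`: `|z_y| ≤ D'`,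
`∑_y γ_y|z_y|² ≤ ‖cmp G O0‖ d_a ≤ P⁴D'²` (Ward). QV by `One.split` with `e = x²`. -/

set_option autoImplicit false

open Finset Complex
open scoped Matrix.Norms.L2Operator Matrix

namespace Crest.Agent.N334.AC.P

variable {d M : ℕ} [NeZero M] {c : Cx d M} {e : Ep} {g : Sg} {f : Ref d M}

namespace Dw

variable {s0 s : CS d M} {a y : Tor d M}

/-- dwell time -/
noncomputable def dw (c : Cx d M) (f : Ref d M) (w : Tor d M → ℂ) (a : Tor d M) : ℝ :=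
  ∑ x ∈ opn f.wr, ‖c.G w x a‖ ^ 2

/-- linear coefficient of the dwell time -/
noncomputable def zz (c : Cx d M) (f : Ref d M) (w : Tor d M → ℂ) (a y : Tor d M) : ℂ :=
  ∑ x ∈ opn f.wr, (starRingEnd ℂ) (c.G w x a) * c.G w x y

/-- linear coefficient of the mass -/
noncomputable def uu (c : Cx d M) (s0 : CS d M) (w : Tor d M → ℂ) (a y : Tor d M) : ℂ :=
  ∑ b ∈ univ \ s0.A, (gam s0.w b : ℂ) * (starRingEnd ℂ) (c.G w a b) * c.G w y b

lemma dw_step {w : Tor d M → ℂ} (h : Adm c.A w) {k : ℕ}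
    (hy : 1 + ((c.v y k : ℂ) - w y) * c.G w y y ≠ 0) (a : Tor d M) :
    dw c f (cls1 w y (c.v y k)) a = dw c f w a - 2 * (c.τ w y k * c.G w a y * zz c f w a y).re +
      ‖c.τ w y k * c.G w a y‖ ^ 2 * dw c f w y := by
  have h1 := One.quad_step (opn f.wr) (fun _ => 1) (fun x => c.G w x a) (fun x => c.G w x y)
    (c.τ w y k * c.G w a y)
  simp only [one_mul, ofReal_one] at h1
  rw [dw, dw, dw, zz, ← h1]
  refine sum_congr rfl fun x _ => ?_
  rw [Cx.G, h.close_G hy, h.G_sym y a, mul_right_comm]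
  rfl

lemma nm_step {w : Tor d M → ℂ} (h : Adm c.A w) {k : ℕ}
    (hy : 1 + ((c.v y k : ℂ) - w y) * c.G w y y ≠ 0) (a : Tor d M) :
    nm c s0 (cls1 w y (c.v y k)) a = nm c s0 w a - 2 * (c.τ w y k * c.G w a y * uu c s0 w a y).re +
      ‖c.τ w y k * c.G w a y‖ ^ 2 * nm c s0 w y := by
  rw [nm, nm, nm, uu, ← One.quad_step]
  refine sum_congr rfl fun x _ => ?_
  rw [Cx.G, h.close_G hy]
  rfl

lemma gam_same (h : Env c e g f s0 s) {b : Tor d M} (hb : b ∈ univ \ s0.A) :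
    gam s0.w b = gam s.w b := by
  rw [gam, gam, h.rch.same b (Or.inr (mem_sdiff.1 hb).2)]

lemma row_le (hf : RefOK c e f) (h : Env c e g f s0 s) (ha : a ∈ s.ord) :
    ∑ b, gam s.w b * ‖c.G s.w a b‖ ^ 2 ≤ 2 * c.C :=
  (h.rch.bas.adm.ward_diag a).trans_le ((im_le_norm _).trans
    (h.der.g_le a (hf.sub (h.rch.bas.sub ha)) (h.rch.bas.opn a ha)))

lemma nm_le (hf : RefOK c e f) (h : Env c e g f s0 s) (ha : a ∈ s.ord) :
    nm c s0 s.w a ≤ 2 * c.C := by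
  rw [nm, sum_congr rfl fun b hb => by rw [gam_same h hb]]
  exact (sum_le_univ_sum_of_nonneg fun b =>
    mul_nonneg (h.rch.bas.adm.diss b) (sq_nonneg _)).trans (row_le hf h ha)

lemma dw_nonneg (w : Tor d M → ℂ) (a : Tor d M) : 0 ≤ dw c f w a :=
  sum_nonneg fun _ _ => sq_nonneg _

lemma zz_le (h : Env c e g f s0 s) (ha : a ∈ s.ord) (hy : y ∈ s.ord) :
    ‖zz c f s.w a y‖ ≤ D' e g := by
  have h1 := One.quad_lin_sq (opn f.wr) (ω := fun _ => 1) (fun _ _ => zero_le_one)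
    (fun x => c.G s.w x a) fun x => c.G s.w x y
  simp only [one_mul, ofReal_one] at h1
  have h2 : dw c f s.w a ≤ D' e g := h.inv.dwl a ha
  have h3 : dw c f s.w y ≤ D' e g := h.inv.dwl y hy
  have h4 := (dw_nonneg _ _).trans h2
  exact (abs_le_of_sq_le_sq' (h1.trans ((mul_le_mul h2 h3 (dw_nonneg _ _) h4).trans_eq
    (sq _).symm)) h4).2

lemma uu_le (L : Led c e g) (hf : RefOK c e f) (h : Env c e g f s0 s) (ha : a ∈ s.ord)
    (hy : y ∈ s.ord) : ‖uu c s0 s.w a y‖ ≤ 2 * c.C := by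
  have h0 : ∀ b ∈ univ \ s0.A, 0 ≤ gam s0.w b := fun b hb =>
    (h.rch.bas.adm.diss b).trans_eq (gam_same h hb).symm
  have h1 := One.quad_lin_sq (univ \ s0.A) h0 (fun x => c.G s.w a x) fun x => c.G s.w y x
  have h4 : 0 ≤ 2 * c.C := by linarith [L.ok.C1]
  exact (abs_le_of_sq_le_sq' (h1.trans ((mul_le_mul (nm_le hf h ha) (nm_le hf h hy)
    (sum_nonneg fun b hb => mul_nonneg (h0 b hb) (sq_nonneg _)) h4).trans_eq (sq _).symm)) h4).2

lemma zz_sum (h : Env c e g f s0 s) (ha : a ∈ s.ord) :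
    ∑ y, gam s.w y * ‖zz c f s.w a y‖ ^ 2 ≤ (e.P : ℝ) ^ 4 * D' e g * D' e g := by
  have hA := h.rch.bas.adm
  set v : Tor d M → ℂ := cut (opn f.wr) fun x => (starRingEnd ℂ) (c.G s.w x a) with hv
  have e1 : ∀ y, zz c f s.w a y = (Gm c.A s.w *ᵥ v) y := fun y => by
    rw [zz, Matrix.mulVec, dotProduct, ← sum_subset (subset_univ (opn f.wr))]
    · refine sum_congr rfl fun x hx => ?_
      rw [hA.G_sym y x, mul_comm]
      simp [hv, cut, hx, Cx.G]
    · intro x _ hx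
      simp [hv, cut, hx]
  have e2 : nsq v = dw c f s.w a := by
    rw [hv, nsq_cut]
    simp [dw]
  simp only [e1]
  rw [hA.G_ward]
  refine (Jp.im_le (Bs.supp_cut _ _)).trans ?_
  rw [e2]
  exact mul_le_mul h.inv.nrm (h.inv.dwl a ha) (dw_nonneg _ _) ((norm_nonneg _).trans h.inv.nrm)

lemma uu_sum (hf : RefOK c e f) (h : Env c e g f s0 s) (ha : a ∈ s.ord) :
    ∑ y, gam s.w y * ‖uu c s0 s.w a y‖ ^ 2 ≤ 2 * c.C := by
  have hA := h.rch.bas.adm
  have h1 := One.mass_lin_nsq hA.wardK (univ \ s0.A) fun b => (√(gam s.w b) : ℂ) * c.G s.w a b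
  refine le_trans (le_of_eq (sum_congr rfl fun y _ => ?_)) (h1.trans (le_trans (le_of_eq
    (sum_congr rfl fun b hb => ?_)) (nm_le hf h ha)))
  · have e1 : ∑ b ∈ univ \ s0.A, (starRingEnd ℂ) ((√(gam s.w b) : ℂ) * c.G s.w a b) *
        Km c.A s.w y b = (√(gam s.w y) : ℂ) * uu c s0 s.w a y := by
      rw [uu, mul_sum]
      refine sum_congr rfl fun b hb => ?_
      have e2 : (gam s.w b : ℂ) = √(gam s.w b) * √(gam s.w b) := by
        rw [← ofReal_mul, Real.mul_self_sqrt (hA.diss b)]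
      rw [gam_same h hb, map_mul, conj_ofReal, Km]
      simp only [Cx.G]
      linear_combination (-(√(gam s.w y) * (starRingEnd ℂ) (Gm c.A s.w a b) * Gm c.A s.w y b)) * e2
    rw [e1, norm_mul, mul_pow, norm_real, Real.norm_eq_abs, sq_abs, Real.sq_sqrt (hA.diss y)]
  · rw [gam_same h hb, norm_mul, mul_pow, norm_real, Real.norm_eq_abs, sq_abs,
      Real.sq_sqrt (hA.diss b)]

/-- the normalised linear coefficient -/
noncomputable def η (c : Cx d M) (e : Ep) (g : Sg) (f : Ref d M) (s0 : CS d M) (w : Tor d M → ℂ)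
    (a y : Tor d M) : ℂ :=
  (((e.P : ℝ) ^ 5 * e.Q * g.D : ℝ) : ℂ)⁻¹ * (zz c f w a y - (Bw e g : ℝ) * uu c s0 w a y)

lemma nums (L : Led c e g) : 1 ≤ c.C ∧ 10 ^ 60 * c.C ≤ (e.P : ℝ) ∧ (1 : ℝ) ≤ e.Q := by
  have h1 := L.ok.C1
  have h2 : c.C ≤ c.C ^ 30 := le_self_pow₀ h1 (by norm_num)
  have h3 := L.P1
  exact ⟨h1, by linarith, (one_le_pow₀ (by linarith)).trans L.Q_ge⟩

lemma η_le (L : Led c e g) (hf : RefOK c e f) (h : Env c e g f s0 s) (ha : a ∈ s.ord)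
    (hy : y ∈ s.ord) : ‖η c e g f s0 s.w a y‖ ≤ 1 := by
  obtain ⟨h1, h2, h3⟩ := nums L
  have h4 := L.D1
  have hP : (1 : ℝ) ≤ e.P := by linarith
  have hB : 0 ≤ Bw e g := by rw [Bw]; positivity
  rw [η, norm_mul, norm_inv, norm_real, Real.norm_of_nonneg (by positivity),
    inv_mul_le_iff₀ (by positivity), mul_one]
  refine (norm_sub_le _ _).trans ?_
  rw [norm_mul, norm_real, Real.norm_of_nonneg hB]
  refine (add_le_add (zz_le h ha hy) (mul_le_mul_of_nonneg_left (uu_le L hf h ha hy) hB)).trans ?_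
  have h5 : (e.P : ℝ) + 12 * c.C ≤ (e.P : ℝ) ^ 3 := by nlinarith [mul_le_mul hP hP zero_le_one (by linarith)]
  have h6 := mul_le_mul_of_nonneg_left h5 (show 0 ≤ (e.P : ℝ) ^ 2 * e.Q * g.D by positivity)
  rw [D', Bw]
  linarith

lemma η_sum (L : Led c e g) (hf : RefOK c e f) (h : Env c e g f s0 s) (ha : a ∈ s.ord) :
    ∑ y, gam s.w y * ‖η c e g f s0 s.w a y‖ ^ 2 ≤ 3 := by
  obtain ⟨h1, h2, h3⟩ := nums L
  have h4 := L.D1
  have hP : (1 : ℝ) ≤ e.P := by linarith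
  have hB : 0 ≤ Bw e g := by rw [Bw]; positivity
  have h5 : ∀ y, gam s.w y * ‖η c e g f s0 s.w a y‖ ^ 2 ≤ (((e.P : ℝ) ^ 5 * e.Q * g.D) ^ 2)⁻¹ *
      (2 * (gam s.w y * ‖zz c f s.w a y‖ ^ 2) +
        2 * Bw e g ^ 2 * (gam s.w y * ‖uu c s0 s.w a y‖ ^ 2)) := fun y => by
    rw [η, norm_mul, norm_inv, norm_real, Real.norm_of_nonneg (by positivity), mul_pow, inv_pow,
      mul_left_comm]
    refine mul_le_mul_of_nonneg_left ?_ (by positivity)
    have h6 := norm_sub_le (zz c f s.w a y) ((Bw e g : ℝ) * uu c s0 s.w a y)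
    rw [norm_mul, norm_real, Real.norm_of_nonneg hB] at h6
    have h7 : ‖zz c f s.w a y - (Bw e g : ℝ) * uu c s0 s.w a y‖ ^ 2 ≤
        2 * ‖zz c f s.w a y‖ ^ 2 + 2 * Bw e g ^ 2 * ‖uu c s0 s.w a y‖ ^ 2 := by
      nlinarith [pow_le_pow_left₀ (norm_nonneg _) h6 2,
        sq_nonneg (‖zz c f s.w a y‖ - Bw e g * ‖uu c s0 s.w a y‖)]
    linarith [mul_le_mul_of_nonneg_left h7 (h.rch.bas.adm.diss y)]
  refine (sum_le_sum fun y _ => h5 y).trans ?_
  rw [← mul_sum, sum_add_distrib, ← mul_sum, ← mul_sum, inv_mul_le_iff₀ (by positivity)]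
  have h6 := mul_le_mul_of_nonneg_left (uu_sum hf h ha) (show 0 ≤ 2 * Bw e g ^ 2 by positivity)
  have h7 : 144 * c.C ≤ (e.P : ℝ) ^ 6 := le_trans (by linarith) (le_self_pow₀ hP (by norm_num))
  have h8 := mul_le_mul_of_nonneg_left h7 (show 0 ≤ ((e.P : ℝ) ^ 2 * e.Q * g.D) ^ 2 by positivity)
  have h9 := zz_sum h ha
  rw [D'] at h9
  rw [Bw] at h6 ⊢
  linarith

/-- jumps which are linear in `τ G_ay` with coefficients of size `P⁵ Q` -/
lemma lin_jumps (L : Led c e g) (hf : RefOK c e f) (h : Env c e g f s0 s) (ha : a ∈ s.ord)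
    {η : Tor d M → ℂ} (η1 : ∀ y ∈ s.ord, ‖η y‖ ≤ 1) (η2 : ∑ y, gam s.w y * ‖η y‖ ^ 2 ≤ 3)
    {J : Tor d M → ℕ → ℝ} (hJ0 : ∀ k, J a k = 0) (hJ : ∀ y ≠ a, ∀ k,
      J y k = -(2 * ((e.P : ℝ) ^ 5 * e.Q)) * (c.τ s.w y k * (c.G s.w a y * η y)).re)
    {U : Finset (Tor d M)} (hU : U ⊆ s.ord) :
    (∀ y ∈ s.ord, ∀ k < c.N, e.ρ ≤ tdist y a → J y k ≤ tl e a y) ∧
    (∀ y ∈ U, ∀ k < c.N, (e.P : ℝ) * |J y k| ≤ 1) ∧ ∑ y ∈ U, avg c.N (J y) ≤ 1 / (4 * e.P) ∧
    (e.P : ℝ) * ∑ y ∈ U, avg c.N (fun k => J y k ^ 2) ≤ 1 / (4 * e.P) := by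
  obtain ⟨h1, h2, h3⟩ := nums L
  have hP : (1 : ℝ) ≤ e.P := by linarith
  have hγ := L.ok.γ0
  have hx := L.x_pos
  have hN := L.ok.N0
  set T : ℝ := (e.P : ℝ) ^ 5 * e.Q with hT
  have hT0 : 0 < T := by positivity
  have hg : ∀ y ∈ s.ord, c.γ ≤ 10 / 9 * gam s.w y := fun y hy => by
    linarith [h.der.gam_ge y (h.rch.bas.opn y hy)]
  have hE : U.erase a ⊆ s.ord := (erase_subset _ _).trans hU
  have hs : ∀ {u : Tor d M → ℝ} {B : ℝ}, ∑ y, gam s.w y * u y ^ 2 ≤ B →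
      ∑ y ∈ U.erase a, c.γ * u y ^ 2 ≤ 10 / 9 * B := fun {u B} hB => by
    refine (sum_le_sum fun y hy => mul_le_mul_of_nonneg_right (hg y (hE hy)) (sq_nonneg _)).trans ?_
    simp only [mul_assoc, ← mul_sum]
    exact mul_le_mul_of_nonneg_left ((sum_le_univ_sum_of_nonneg fun y =>
      mul_nonneg (h.rch.bas.adm.diss y) (sq_nonneg _)).trans hB) (by norm_num)
  have hsp : ∑ y ∈ U.erase a, ‖c.G s.w a y‖ ^ 2 * (c.γ * ‖η y‖ ^ 2) ≤ 17 * g.x ^ 2 := by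
    refine (One.split (U.erase a) (c.G s.w a) (e := g.x ^ 2) (si := c.γ) (by positivity)
      (fun y _ => by positivity) (fun y hy => mul_le_of_le_one_right hγ.le
        (pow_le_one₀ (norm_nonneg _) (η1 y (hE hy)))) (hs η2)).trans ?_
    have h4 : c.γ * ∑ y ∈ U.erase a, ‖c.G s.w a y‖ ^ 4 ≤ 13 * g.x ^ 4 :=
      (mul_le_mul_of_nonneg_left (sum_le_sum_of_subset_of_nonneg (erase_subset_erase a hU)
        fun _ _ _ => by positivity) hγ.le).trans (h.inv.four a ha)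
    have h5 : (∑ y ∈ U.erase a, ‖c.G s.w a y‖ ^ 4) / g.x ^ 2 * c.γ ≤ 13 * g.x ^ 2 := by
      rw [div_mul_eq_mul_div, div_le_iff₀ (by positivity)]
      linarith
    nlinarith [sq_nonneg g.x]
  have habs : ∀ y ≠ a, ∀ k, |J y k| ≤ 2 * T * (‖c.τ s.w y k‖ * (‖c.G s.w a y‖ * ‖η y‖)) :=
    fun y hy k => by
      rw [hJ y hy, abs_mul, abs_neg, abs_of_pos (by positivity), ← norm_mul, ← norm_mul]
      exact mul_le_mul_of_nonneg_left (abs_re_le_norm _) (by positivity)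
  have hsq : ∀ y ∈ U.erase a, ∀ k < c.N,
      J y k ^ 2 ≤ 16 * c.C * T ^ 2 * (‖c.G s.w a y‖ ^ 2 * (c.γ * ‖η y‖ ^ 2)) := fun y hy k hk => by
    have h4 := pow_le_pow_left₀ (abs_nonneg _) (habs y (ne_of_mem_erase hy) k) 2
    have h5 := mul_le_mul_of_nonneg_left (h.der.τ_le y (hE hy) k hk)
      (show 0 ≤ 4 * T ^ 2 * (‖c.G s.w a y‖ * ‖η y‖) ^ 2 by positivity)
    rw [sq_abs] at h4
    linarith
  have hmain : 1088 * c.C * (e.P : ℝ) ^ 2 * T ^ 2 * g.x ^ 2 ≤ 1 := by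
    have h4 : 1088 * c.C ≤ (e.P : ℝ) ^ 18 := le_trans (by linarith) (le_self_pow₀ hP (by norm_num))
    have h5 := mul_le_mul_of_nonneg_right h4 (show 0 ≤ (e.P : ℝ) ^ 2 * T ^ 2 * g.x ^ 2 by positivity)
    have h6 := pow_le_one₀ (by positivity) L.main (n := 2)
    rw [hT] at h5 ⊢
    linarith
  have hCT : 0 ≤ 16 * c.C * T ^ 2 := by positivity
  refine ⟨fun y hy k hk hρ => ?_, fun y hy k hk => ?_, ?_, ?_⟩
  · by_cases hya : y = a
    · rw [hya, hJ0]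
      exact L.tl_nonneg _ _
    have hτ : ‖c.τ s.w y k‖ ≤ 1 := by
      have h4 := L.ok.γ_le
      have h5 : c.C * c.γ ≤ c.C ^ 30 * c.γ :=
        mul_le_mul_of_nonneg_right (le_self_pow₀ h1 (by norm_num)) hγ.le
      have h6 : 0 ≤ c.C * c.γ := by positivity
      exact (abs_le_of_sq_le_sq' (by linarith [h.der.τ_le y hy k hk]) zero_le_one).2
    have ho : ∀ z ∈ s.ord, z ∈ opn f.wr := fun z hz => hf.opn0 (h.rch.bas.sub hz)
    have hG : ‖c.G s.w a y‖ ≤ e.Bg * Real.exp (-e.ϑ * tdist y a) := by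
      rw [Cx.G, h.rch.bas.adm.G_sym]
      exact h.der.dec y (ho y hy) a (ho a ha)
    have hB := L.B_ge
    have hTB : 2 * T ≤ e.Bg ^ 29 := by
      have h4 : 2 * 1 ≤ (e.P : ℝ) ^ 2 * g.D :=
        mul_le_mul (by nlinarith) L.D1 zero_le_one (by positivity)
      have h5 := mul_le_mul_of_nonneg_right h4 hT0.le
      have h6 := L.B_P
      have h7 : e.Bg ≤ e.Bg ^ 29 := le_self_pow₀ (by linarith) (by norm_num)
      rw [hT] at h5 ⊢
      linarith
    refine (le_abs_self _).trans ((habs y hya k).trans (le_trans ?_ (L.far2 hρ)))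
    calc _ ≤ e.Bg ^ 29 * (1 * (e.Bg * Real.exp (-e.ϑ * tdist y a) * 1)) := by
          have := η1 y hy
          gcongr
      _ = _ := by ring
  · by_cases hya : y = a
    · rw [hya, hJ0, abs_zero, mul_zero]
      exact zero_le_one
    have hy' := mem_erase.2 ⟨hya, hy⟩
    have h4 := (single_le_sum (f := fun y => ‖c.G s.w a y‖ ^ 2 * (c.γ * ‖η y‖ ^ 2))
      (fun y _ => by positivity) hy').trans hsp
    have h5 := mul_le_mul_of_nonneg_left ((hsq y hy' k hk).trans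
      (mul_le_mul_of_nonneg_left h4 hCT)) (sq_nonneg (e.P : ℝ))
    have h6 : 0 ≤ c.C * (e.P : ℝ) ^ 2 * T ^ 2 * g.x ^ 2 := by positivity
    refine (abs_le_of_sq_le_sq' ?_ zero_le_one).2
    rw [mul_pow, sq_abs]
    linarith
  · rw [← sum_erase U (a := a) (by simp [avg, hJ0])]
    have h4 : ∀ y ∈ U.erase a, avg c.N (J y) ≤
        T ^ 2 * g.x ^ 2 * (c.γ * ‖c.G s.w a y‖ ^ 2 + c.γ * ‖η y‖ ^ 2) := fun y hy => by
      rw [funext (hJ y (ne_of_mem_erase hy)), avg_mul, avg_re, avgV_mul]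
      have h5 : ‖c.b s.w y‖ ≤ T * g.x ^ 2 * c.γ := h.inv.bias y (hE hy)
      have h6 := (abs_le.1 ((abs_re_le_norm (c.b s.w y * (c.G s.w a y * η y))).trans_eq
        (by rw [norm_mul, norm_mul]))).1
      have h7 := mul_le_mul_of_nonneg_right h5
        (mul_nonneg (norm_nonneg (c.G s.w a y)) (norm_nonneg (η y)))
      have h8 := mul_le_mul_of_nonneg_left (h7.trans' (neg_le.1 h6)) hT0.le
      have h9 := mul_nonneg (show 0 ≤ T ^ 2 * g.x ^ 2 * c.γ by positivity)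
        (sq_nonneg (‖c.G s.w a y‖ - ‖η y‖))
      change -(2 * T) * (c.b s.w y * (c.G s.w a y * η y)).re ≤ _
      linarith
    refine (sum_le_sum h4).trans ?_
    rw [← mul_sum, sum_add_distrib, le_div_iff₀ (by positivity)]
    have h5 := mul_le_mul_of_nonneg_left (add_le_add (hs (row_le hf h ha)) (hs η2))
      (show 0 ≤ T ^ 2 * g.x ^ 2 * (4 * e.P) by positivity)
    have h6 : (10 / 9 * (2 * c.C) + 10 / 9 * 3) * (4 * e.P) ≤ 1088 * c.C * (e.P : ℝ) ^ 2 := by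
      nlinarith [mul_le_mul_of_nonneg_left hP (show 0 ≤ c.C * e.P by positivity),
        mul_le_mul_of_nonneg_right h1 (show (0 : ℝ) ≤ e.P by positivity)]
    have h7 := mul_le_mul_of_nonneg_left h6 (show 0 ≤ T ^ 2 * g.x ^ 2 by positivity)
    linarith
  · rw [← sum_erase U (a := a) (by simp [avg, hJ0]), le_div_iff₀ (by positivity)]
    have h4 := sum_le_sum fun y hy => (avg_mono (hsq y hy)).trans_eq (avg_const hN _)
    rw [← mul_sum] at h4
    have h5 := mul_le_mul_of_nonneg_left (h4.trans (mul_le_mul_of_nonneg_left hsp hCT))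
      (show (0 : ℝ) ≤ 4 * e.P ^ 2 by positivity)
    linarith

end Dw

open Dw in
theorem fam_dw (L : Led c e g) (hf : RefOK c e f) {s0 : CS d M} (h0 : Pre c e g f s0) :
    Fam c e g f s0 (OutDw c e g f s0) := by
  have hD : 0 < g.D := zero_lt_one.trans_le L.D1
  have hB : 0 ≤ Bw e g := by rw [Bw]; positivity
  refine (fam_scalar L h0.n0 (fun s hs => hs.rch.sub) id (fun a s => a ∈ s.ord)
    (fun a s => (dw c f s.w a - Bw e g * nm c s0 s.w a) / g.D) (fun p => ?_)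
    (fun a s F h => ⟨(mem_sdiff.1 h).1, le_rfl⟩) (fun a s ω h => ?_) fun a s h _ ha => ?_).mono
    (fun s hs h a ha => ?_) le_rfl
  · refine le_trans ?_ (Real.one_le_exp (by positivity))
    refine Nat.cast_le_one.2 (card_le_one.2 fun a ha b hb => ?_)
    simp only [mem_filter, id] at ha hb
    exact ha.2.1.trans hb.2.1.symm
  · rcases ω with _ | ⟨y, k⟩
    exacts [h, mem_of_mem_erase h]
  · obtain ⟨j1, j2, j3, j4⟩ := lin_jumps L hf h ha (fun y hy => η_le L hf h ha hy)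
      (η_sum L hf h ha) (J := fun y k => if y = a then 0 else -(2 * ((e.P : ℝ) ^ 5 * e.Q)) *
        (c.τ s.w y k * (c.G s.w a y * η c e g f s0 s.w a y)).re) (fun k => if_pos rfl)
      (fun y hy k => if_neg hy) ((inter_subset_left (s₂ := tball a (2 * e.ρ))).trans h.rch.sub)
    refine ⟨0, _, by norm_num, Or.inl le_rfl, (add_zero _).ge, fun y hy k hk hl => ?_, j2, ?_, j4⟩
    · have hy' := h.rch.sub hy
      have hne : y ≠ a := (ne_of_mem_erase hl).symm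
      have hd := h.der.den y hy' k hk
      have key : (dw c f (cls1 s.w y (c.v y k)) a - Bw e g * nm c s0 (cls1 s.w y (c.v y k)) a) / g.D ≤
          (dw c f s.w a - Bw e g * nm c s0 s.w a) / g.D + 0 + -(2 * ((e.P : ℝ) ^ 5 * e.Q)) *
            (c.τ s.w y k * (c.G s.w a y * η c e g f s0 s.w a y)).re := by
        obtain ⟨h1, h2, h3⟩ := nums L
        have hP : (0 : ℝ) < e.P := by linarith
        have e1 : c.τ s.w y k * (c.G s.w a y * η c e g f s0 s.w a y) =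
            ((((e.P : ℝ) ^ 5 * e.Q * g.D)⁻¹ : ℝ) : ℂ) * (c.τ s.w y k * c.G s.w a y * zz c f s.w a y -
              (Bw e g : ℝ) * (c.τ s.w y k * c.G s.w a y * uu c s0 s.w a y)) := by
          rw [η, ofReal_inv]
          ring
        have e2 : dw c f s.w y ≤ Bw e g * nm c s0 s.w y := h.dw y hy'
        have e3 := mul_le_mul_of_nonneg_left e2 (sq_nonneg ‖c.τ s.w y k * c.G s.w a y‖)
        rw [e1, re_ofReal_mul, sub_re, re_ofReal_mul, dw_step h.rch.bas.adm hd,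
          nm_step h.rch.bas.adm hd, add_zero, div_le_iff₀ hD, add_mul, div_mul_cancel₀ _ hD.ne']
        field_simp
        linarith
      refine key.trans (add_le_add_right ?_ _)
      split_ifs with h1
      · exact le_rfl
      · have := j1 y hy' k hk (by
          have : ¬tdist y a ≤ 2 * e.ρ := fun h2 => h1 (mem_filter.2 ⟨mem_univ _, h2⟩)
          omega)
        rwa [if_neg hne] at this
    · rw [zero_add, div_eq_mul_one_div]
      exact mul_le_mul_of_nonneg_left j3 dt_pos.le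
  · have ha0 : a ∈ s0.ord := by
      by_cases hA : a ∈ s.A
      · exact h0.sub (hs.subA hA)
      · exact (mem_sdiff.1 (hs.subS (mem_sdiff.2 ⟨ha, hA⟩))).1
    have h1 : dw c f s0.w a ≤ 3 * g.D := h0.inv.dwl a ha0
    have h2 := mul_le_mul_of_nonneg_left (h0.nm a ha0) hB
    have h3 : (dw c f s.w a - Bw e g * nm c s0 s.w a) / g.D ≤
      (dw c f s0.w a - Bw e g * nm c s0 s0.w a) / g.D + 3 := h a ha
    rw [L.Bw_φ] at h2
    rw [div_add' _ _ _ hD.ne', div_le_div_iff_of_pos_right hD] at h3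
    change dw c f s.w a ≤ _
    linarith

end Crest.Agent.N334.AC.P
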