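import Crest.Agent.N334.AC.F.Mon
import Crest.Agent.N334.AC.F.Cls
import Crest.Agent.N334.AC.P.One
import Crest.Agent.N334.AC.L.Close
import Crest.Agent.N334.AC.Rel
import Mathlib

-- ▼ part N334/AC/P/Fun
section

/-! # S0520 part P (helper78): monitors as functions of the state.
Far closings are paid by the remaining far budget `farB`; no accumulators. Units: threshold `θ`. -/

set_option autoImplicit false

open Finset
open scoped Matrix.Norms.L2Operator Matrix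

namespace Crest.Agent.N334.AC.Mo

variable {Λ : Type} [Fintype Λ] [DecidableEq Λ]

/-- remaining far budget -/
noncomputable def farB (A U : Finset Λ) (tl : Λ → ℝ) : ℝ := ∑ y ∈ A \ U, tl y

/-- `A' ω` is a possible active set after the step -/
def Shr (A : Finset Λ) (A' : Option (Λ × ℕ) → Finset Λ) : Prop :=
  A' none ⊆ A ∧ ∀ y k, A' (some (y, k)) ⊆ A.erase y






omit [Fintype Λ] in
theorem farB_mono {A A' U : Finset Λ} {tl : Λ → ℝ} (h : ∀ y, 0 ≤ tl y) (hA : A' ⊆ A) :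
    farB A' U tl ≤ farB A U tl :=
  sum_le_sum_of_subset_of_nonneg (sdiff_subset_sdiff hA le_rfl) fun y _ _ => h y




omit [Fintype Λ] in
theorem Shr.near {A U : Finset Λ} {A' : Option (Λ × ℕ) → Finset Λ} (h : Shr A A') {tl : Λ → ℝ}
    (h0 : ∀ y, 0 ≤ tl y) (y : Λ) (k : ℕ) : farB (A' (some (y, k))) U tl ≤ farB A U tl :=
  farB_mono h0 ((h.2 y k).trans (erase_subset _ _))








/-! ### reading the monitors -/








end Crest.Agent.N334.AC.Mo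
end

-- ▼ part N334/AC/P/MoB
section

/-! # S0520 part P (helper78): common data of the closing monitors -/

set_option autoImplicit false

open Finset Complex
open scoped Matrix.Norms.L2Operator Matrix

namespace Crest.Agent.N334.AC.Mo

variable {ι : Type} [Fintype ι] [DecidableEq ι]





/-- the rank-one coefficient of the closing of `y` with digit `k` -/
noncomputable abbrev tk (A : Matrix ι ι ℂ) (w : ι → ℂ) (vv : ι → ℕ → ℝ) (y : ι) (k : ℕ) : ℂ :=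
  tau (Gm A w y y) (w y) (vv y k)

/-- data of a lazy closing step with drivers `Ac` -/
structure Ph (A : Matrix ι ι ℂ) (w : ι → ℂ) (Ac : Finset ι) (N : ℕ) (vv : ι → ℕ → ℝ)
    (τ1 t2 b g : ℝ) : Prop where
  adm : Adm A w
  N0 : 0 < N
  g0 : 0 < g
  τ0 : 0 ≤ τ1
  t0 : 0 ≤ t2
  b0 : 0 ≤ b
  ne : ∀ y ∈ Ac, ∀ k < N, 1 + ((vv y k : ℂ) - w y) * Gm A w y y ≠ 0
  gam_ge : ∀ y ∈ Ac, g ≤ gam w y
  τle : ∀ y ∈ Ac, ∀ k < N, ‖tk A w vv y k‖ ≤ τ1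
  τsq : ∀ y ∈ Ac, avg N (fun k => ‖tk A w vv y k‖ ^ 2) ≤ t2 * gam w y
  bias : ∀ y ∈ Ac, ‖avgV N (tk A w vv y)‖ ≤ b * gam w y

variable {A : Matrix ι ι ℂ} {w : ι → ℂ} {Ac : Finset ι} {N : ℕ} {vv : ι → ℕ → ℝ}
  {τ1 t2 b g : ℝ}

theorem Ph.mono (h : Ph A w Ac N vv τ1 t2 b g) {Ac' : Finset ι} (hs : Ac' ⊆ Ac) :
    Ph A w Ac' N vv τ1 t2 b g :=
  ⟨h.adm, h.N0, h.g0, h.τ0, h.t0, h.b0, fun y hy => h.ne y (hs hy), fun y hy => h.gam_ge y (hs hy),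
    fun y hy => h.τle y (hs hy), fun y hy => h.τsq y (hs hy), fun y hy => h.bias y (hs hy)⟩

theorem Ph.gam_pos (h : Ph A w Ac N vv τ1 t2 b g) {y : ι} (hy : y ∈ Ac) : 0 < gam w y :=
  h.g0.trans_le (h.gam_ge y hy)

/-- the row of `a` in intensity units -/
noncomputable def xr (A : Matrix ι ι ℂ) (w : ι → ℂ) (a b : ι) : ℂ :=
  (√(gam w b) : ℝ) * Gm A w a b

theorem xr_sq (h : Adm A w) (a b : ι) : ‖xr A w a b‖ ^ 2 = gam w b * ‖Gm A w a b‖ ^ 2 := by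
  rw [xr, norm_mul, mul_pow, norm_real, Real.norm_of_nonneg (Real.sqrt_nonneg _),
    Real.sq_sqrt (h.diss b)]

theorem xr_close (h : Adm A w) {y : ι} {v : ℝ} (hne : 1 + ((v : ℂ) - w y) * Gm A w y y ≠ 0)
    (hγ : 0 < gam w y) (a : ι) {b : ι} (hb : b ≠ y) :
    xr A (cls1 w y v) a b = xr A w a b -
      tau (Gm A w y y) (w y) v / (gam w y : ℝ) * xr A w a y * Km A w y b := by
  have h1 : ((√(gam w y) : ℝ) : ℂ) * (√(gam w y) : ℝ) = (gam w y : ℝ) := by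
    rw [← ofReal_mul, Real.mul_self_sqrt hγ.le]
  have h2 : ((gam w y : ℝ) : ℂ) ≠ 0 := ofReal_ne_zero.2 hγ.ne'
  rw [xr, xr, xr, gam_cls_ne w v hb, h.close_G hne, Km]
  field_simp
  rw [sq, h1]
  ring

theorem sum_xr_le (h : Adm A w) (S : Finset ι) (a : ι) :
    ∑ b ∈ S, ‖xr A w a b‖ ^ 2 ≤ (Gm A w a a).im := by
  rw [← h.ward_diag a]
  simp only [xr_sq h]
  exact sum_le_sum_of_subset_of_nonneg (subset_univ S) fun b _ _ =>
    mul_nonneg (h.diss b) (by positivity)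

theorem K_sq_xr (h : Adm A w) (y b : ι) : ‖Km A w y b‖ ^ 2 = gam w y * ‖xr A w y b‖ ^ 2 := by
  rw [h.K_sq, xr_sq h, mul_assoc]

theorem sum_K_le (h : Adm A w) (S : Finset ι) (y : ι) :
    ∑ b ∈ S, ‖Km A w y b‖ ^ 2 ≤ gam w y * (Gm A w y y).im := by
  simp only [K_sq_xr h, ← mul_sum]
  exact mul_le_mul_of_nonneg_left (sum_xr_le h S y) (h.diss y)

/-- the relative coefficient -/
theorem Ph.rel_le (h : Ph A w Ac N vv τ1 t2 b g) {y : ι} (hy : y ∈ Ac) {k : ℕ} (hk : k < N) :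
    ‖tk A w vv y k / (gam w y : ℝ)‖ ≤ τ1 / g := by
  rw [norm_div, norm_real, Real.norm_of_nonneg (h.gam_pos hy).le]
  exact div_le_div₀ h.τ0 (h.τle y hy k hk) h.g0 (h.gam_ge y hy)

theorem Ph.rel_sq (h : Ph A w Ac N vv τ1 t2 b g) {y : ι} (hy : y ∈ Ac) :
    avg N (fun k => ‖tk A w vv y k / (gam w y : ℝ)‖ ^ 2) ≤ t2 / g := by
  have hγ := h.gam_pos hy
  have e : ∀ k, ‖tk A w vv y k / (gam w y : ℝ)‖ ^ 2 = (gam w y ^ 2)⁻¹ * ‖tk A w vv y k‖ ^ 2 :=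
    fun k => by rw [norm_div, norm_real, Real.norm_of_nonneg hγ.le, div_pow, div_eq_inv_mul]
  simp only [e, avg_mul]
  calc _ ≤ (gam w y ^ 2)⁻¹ * (t2 * gam w y) :=
        mul_le_mul_of_nonneg_left (h.τsq y hy) (by positivity)
    _ = t2 / gam w y := by field_simp
    _ ≤ _ := div_le_div_of_nonneg_left h.t0 h.g0 (h.gam_ge y hy)

/-- averages of terms linear in the coefficient -/
theorem Ph.rel_re (h : Ph A w Ac N vv τ1 t2 b g) {y : ι} (hy : y ∈ Ac) (z : ℂ) :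
    |avg N fun k => (tk A w vv y k / (gam w y : ℝ) * z).re| ≤ b * ‖z‖ := by
  have hγ := h.gam_pos hy
  have e : ∀ k, tk A w vv y k / (gam w y : ℝ) * z = tk A w vv y k * (z / (gam w y : ℝ)) :=
    fun k => by ring
  simp only [e]
  rw [avg_re, avgV_mul]
  refine (abs_re_le_norm _).trans ?_
  rw [norm_mul, norm_div, norm_real, Real.norm_of_nonneg hγ.le]
  calc _ ≤ b * gam w y * (‖z‖ / gam w y) :=
        mul_le_mul_of_nonneg_right (h.bias y hy) (by positivity)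
    _ = _ := by field_simp

end Crest.Agent.N334.AC.Mo
namespace Crest.Agent.N334.AC.Mo.Shr
end Crest.Agent.N334.AC.Mo.Shr
end

-- ▼ part N334/AC/P/MoN
section

/-! # S0520 part P (helper78): the fourth-moment monitor `N^S + ω N^A / 100` -/

set_option autoImplicit false

open Finset Complex
open scoped Matrix.Norms.L2Operator Matrix

namespace Crest.Agent.N334.AC.Mo

open One

variable {ι : Type} [Fintype ι] [DecidableEq ι]

/-- fourth moment of the row `a` on `Q` -/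
noncomputable def N4 (A : Matrix ι ι ℂ) (w : ι → ℂ) (a : ι) (Q : Finset ι) : ℝ :=
  ∑ b ∈ Q, ‖xr A w a b‖ ^ 4

/-- the bilinear KEY bound on `O` (conclusion of `M6.LB.key2`) -/
def Key (A : Matrix ι ι ℂ) (w : ι → ℂ) (O : Finset ι) (e F : ℝ) : Prop :=
  ∀ l l' : ι → ℝ, (∀ x, 0 ≤ l x) → (∀ x, 0 ≤ l' x) → (∀ x, x ∉ O → l x = 0) →
    (∀ x, x ∉ O → l' x = 0) → ∀ t : ℝ, 0 < t →
    ∑ x, ∑ z ∈ univ.erase x, ‖Km A w x z‖ ^ 2 * (l x * l' z) ≤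
      e * (t * ∑ x, l x ^ 2 + (∑ x, l' x ^ 2) / t) + F * (t * (∑ x, l x) ^ 2 + (∑ x, l' x) ^ 2 / t)

noncomputable def c4N (τ1 g ν : ℝ) : ℝ := τ1 ^ 2 * (τ1 / g) ^ 2 * ν

variable {A : Matrix ι ι ℂ} {w : ι → ℂ} {Ac Sv Q : Finset ι} {N : ℕ} {vv : ι → ℕ → ℝ}
  {τ1 t2 b g r ν c Cd i0 : ℝ} {a y : ι}

theorem N4_nonneg : 0 ≤ N4 A w a Q := sum_nonneg fun _ _ => by positivity

theorem N4_mono {Q' : Finset ι} (h : Q' ⊆ Q) : N4 A w a Q' ≤ N4 A w a Q :=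
  sum_le_sum_of_subset_of_nonneg h fun _ _ _ => by positivity

namespace Nn

/-- overlap of the row with the kernel of `y` -/
noncomputable def Pq (A : Matrix ι ι ℂ) (w : ι → ℂ) (a : ι) (Q : Finset ι) (y : ι) : ℝ :=
  ∑ b ∈ Q.erase y, ‖xr A w a b‖ ^ 2 * ‖Km A w y b‖ ^ 2

noncomputable def sk (A : Matrix ι ι ℂ) (w : ι → ℂ) (vv : ι → ℕ → ℝ) (a y : ι) (k : ℕ) : ℂ :=
  tk A w vv y k / (gam w y : ℝ) * xr A w a y

/-- linear part -/
noncomputable def li (A : Matrix ι ι ℂ) (w : ι → ℂ) (vv : ι → ℕ → ℝ) (a : ι) (Q : Finset ι) (y : ι)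
    (k : ℕ) : ℝ := -4 * (sk A w vv a y k * lin Q (xr A w a) (Km A w y)).re

/-- non-linear part -/
noncomputable def nl (A : Matrix ι ι ℂ) (w : ι → ℂ) (vv : ι → ℕ → ℝ) (a : ι) (Q : Finset ι) (y : ι)
    (k : ℕ) : ℝ := 7 * (‖sk A w vv a y k‖ ^ 2 * Pq A w a Q y) +
      5 * (‖sk A w vv a y k‖ ^ 4 * ∑ b ∈ Q.erase y, ‖Km A w y b‖ ^ 4)

theorem Pq_nonneg : 0 ≤ Pq A w a Q y := sum_nonneg fun _ _ => by positivity

theorem nl_nonneg (k : ℕ) : 0 ≤ nl A w vv a Q y k := by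
  have := Pq_nonneg (A := A) (w := w) (a := a) (Q := Q) (y := y)
  rw [nl]; positivity

theorem step (h : Ph A w Ac N vv τ1 t2 b g) (hy : y ∈ Ac) {k : ℕ} (hk : k < N) (Q : Finset ι) :
    N4 A (cls1 w y (vv y k)) a (Q.erase y) ≤ N4 A w a (Q.erase y) +
      li A w vv a (Q.erase y) y k + nl A w vv a Q y k := by
  have e : N4 A (cls1 w y (vv y k)) a (Q.erase y) =
      ∑ b ∈ Q.erase y, ‖xr A w a b - sk A w vv a y k * Km A w y b‖ ^ 4 :=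
    sum_congr rfl fun b hb => by
      rw [xr_close h.adm (h.ne y hy k hk) (h.gam_pos hy) a (ne_of_mem_erase hb), sk]
  have := four_step (Q.erase y) (xr A w a) (Km A w y) (sk A w vv a y k)
  rw [e, N4, li, nl, Pq]
  linarith

theorem lin_erase (h : Adm A w) (hK : gam w y * ‖Gm A w y y‖ ≤ c) :
    ‖lin (Q.erase y) (xr A w a) (Km A w y)‖ ≤
      ‖lin Q (xr A w a) (Km A w y)‖ + c * ‖xr A w a y‖ ^ 3 := by
  have hc : 0 ≤ c := (mul_nonneg (h.diss y) (norm_nonneg _)).trans hK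
  by_cases hy : y ∈ Q
  · rw [lin, lin, ← sum_erase_add _ _ hy]
    refine (norm_le_add_norm_add _ (((‖xr A w a y‖ ^ 2 : ℝ) : ℂ) *
      (starRingEnd ℂ) (xr A w a y) * Km A w y y)).trans ?_
    rw [add_comm, norm_mul, norm_mul, norm_conj, norm_real, Real.norm_of_nonneg (sq_nonneg _),
      h.K_diag, norm_mul, norm_real, Real.norm_of_nonneg (h.diss y)]
    have := mul_le_mul_of_nonneg_left hK (show 0 ≤ ‖xr A w a y‖ ^ 3 by positivity)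
    linarith
  · rw [erase_eq_of_notMem hy]
    exact le_add_of_nonneg_right (by positivity)

theorem sk_le (h : Ph A w Ac N vv τ1 t2 b g) (hy : y ∈ Ac) {k : ℕ} (hk : k < N) :
    ‖sk A w vv a y k‖ ≤ τ1 / g * ‖xr A w a y‖ := by
  rw [sk, norm_mul]
  exact mul_le_mul_of_nonneg_right (h.rel_le hy hk) (norm_nonneg _)

theorem sk_sq (h : Ph A w Ac N vv τ1 t2 b g) (hy : y ∈ Ac) {z : ℝ} (hz : 0 ≤ z) :
    avg N (fun k => ‖sk A w vv a y k‖ ^ 2 * z) ≤ t2 / g * (‖xr A w a y‖ ^ 2 * z) := by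
  have e : ∀ k, ‖sk A w vv a y k‖ ^ 2 * z =
      ‖xr A w a y‖ ^ 2 * z * ‖tk A w vv y k / (gam w y : ℝ)‖ ^ 2 := fun k => by
    rw [sk, norm_mul]; ring
  simp only [e, avg_mul]
  rw [mul_comm (t2 / g)]
  exact mul_le_mul_of_nonneg_left (h.rel_sq hy) (by positivity)

theorem over_le (h : Adm A w) (hx : ∀ b ∈ Q, ‖xr A w a b‖ ≤ r) (hK : gam w y * ‖Gm A w y y‖ ≤ c) :
    ∑ b ∈ Q, ‖xr A w a b‖ ^ 2 * ‖Km A w y b‖ ^ 2 ≤ r ^ 2 * c := by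
  have h1 : ∑ b ∈ Q, ‖Km A w y b‖ ^ 2 ≤ c := (sum_K_le h Q y).trans
    ((mul_le_mul_of_nonneg_left (im_le_norm _) (h.diss y)).trans hK)
  refine le_trans ?_ (mul_le_mul_of_nonneg_left h1 (sq_nonneg r))
  rw [mul_sum]
  exact sum_le_sum fun b hb => by gcongr; exact hx b hb

theorem four_le' (h : Ph A w Ac N vv τ1 t2 b g) (hy : y ∈ Ac) {k : ℕ} (hk : k < N)
    (hν : N4 A w y (Q.erase y) ≤ ν) :
    ‖sk A w vv a y k‖ ^ 4 * ∑ b ∈ Q.erase y, ‖Km A w y b‖ ^ 4 ≤ c4N τ1 g ν * ‖xr A w a y‖ ^ 4 := by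
  have hγ := h.gam_pos hy
  have e : ∑ b ∈ Q.erase y, ‖Km A w y b‖ ^ 4 = gam w y ^ 2 * N4 A w y (Q.erase y) := by
    rw [N4, mul_sum]
    exact sum_congr rfl fun b _ => by
      rw [show ‖Km A w y b‖ ^ 4 = (‖Km A w y b‖ ^ 2) ^ 2 by ring, K_sq_xr h.adm]; ring
  have e2 : ‖tk A w vv y k / (gam w y : ℝ)‖ * gam w y = ‖tk A w vv y k‖ := by
    rw [norm_div, norm_real, Real.norm_of_nonneg hγ.le, div_mul_cancel₀ _ hγ.ne']
  have h1 := h.rel_le hy hk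
  have h2 := h.τle y hy k hk
  have h3 := N4_nonneg (A := A) (w := w) (a := y) (Q := Q.erase y)
  rw [e, sk, norm_mul, c4N]
  calc _ = (‖tk A w vv y k / (gam w y : ℝ)‖ * gam w y) ^ 2 * ‖tk A w vv y k / (gam w y : ℝ)‖ ^ 2 *
        N4 A w y (Q.erase y) * ‖xr A w a y‖ ^ 4 := by ring
    _ ≤ _ := by rw [e2]; gcongr

theorem nl_le (h : Ph A w Ac N vv τ1 t2 b g) (hy : y ∈ Ac) {k : ℕ} (hk : k < N) (hc : 0 ≤ c)
    (hx : ∀ b ∈ Q, ‖xr A w a b‖ ≤ r) (hxy : ‖xr A w a y‖ ≤ r) (hK : gam w y * ‖Gm A w y y‖ ≤ c)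
    (hν : N4 A w y (Q.erase y) ≤ ν) : nl A w vv a Q y k ≤
      r ^ 2 * (7 * (τ1 / g) ^ 2 * c + 5 * c4N τ1 g ν) * ‖xr A w a y‖ ^ 2 := by
  have h1 : Pq A w a Q y ≤ r ^ 2 * c := over_le h.adm (fun b hb => hx b (mem_of_mem_erase hb)) hK
  have h2 := four_le' (a := a) h hy hk hν
  have h3 : ‖sk A w vv a y k‖ ^ 2 * Pq A w a Q y ≤ (τ1 / g * ‖xr A w a y‖) ^ 2 * (r ^ 2 * c) := by
    have := Pq_nonneg (A := A) (w := w) (a := a) (Q := Q) (y := y)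
    gcongr
    exact sk_le h hy hk
  have h4 : 0 ≤ c4N τ1 g ν := by
    have := N4_nonneg.trans hν
    rw [c4N]; positivity
  have h5 : c4N τ1 g ν * ‖xr A w a y‖ ^ 4 ≤ c4N τ1 g ν * (r ^ 2 * ‖xr A w a y‖ ^ 2) := by
    rw [show ‖xr A w a y‖ ^ 4 = ‖xr A w a y‖ ^ 2 * ‖xr A w a y‖ ^ 2 by ring]
    gcongr
  rw [nl]
  linarith

theorem li_sq (k : ℕ) : li A w vv a Q y k ^ 2 ≤
    16 * (‖sk A w vv a y k‖ ^ 2 * ‖lin Q (xr A w a) (Km A w y)‖ ^ 2) := by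
  have := abs_re_le_norm (sk A w vv a y k * lin Q (xr A w a) (Km A w y))
  have h2 := pow_le_pow_left₀ (abs_nonneg _) this 2
  rw [sq_abs, norm_mul, mul_pow] at h2
  rw [li]
  linarith

theorem li_le (h : Ph A w Ac N vv τ1 t2 b g) (hy : y ∈ Ac) {k : ℕ} (hk : k < N) {ℓ : ℝ}
    (hx : ∀ b ∈ Q, ‖xr A w a b‖ ≤ r) (hK : gam w y * ‖Gm A w y y‖ ≤ c) (hc : 0 ≤ c)
    (hν : N4 A w a Q ≤ ν) (hℓ0 : 0 ≤ ℓ) (hℓ : r ^ 2 * c * ν ≤ ℓ ^ 2) :
    |li A w vv a Q y k| ≤ 4 * (τ1 / g) * ℓ * ‖xr A w a y‖ := by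
  have h1 : ‖lin Q (xr A w a) (Km A w y)‖ ≤ ℓ := (abs_le_of_sq_le_sq' ((lin_sq _ _ _).trans
    ((mul_le_mul (over_le h.adm hx hK) hν N4_nonneg (by positivity)).trans hℓ)) hℓ0).2
  have h2 := abs_re_le_norm (sk A w vv a y k * lin Q (xr A w a) (Km A w y))
  have h3 := mul_le_mul (sk_le (a := a) h hy hk) h1 (norm_nonneg _)
    (mul_nonneg (div_nonneg h.τ0 h.g0.le) (norm_nonneg _))
  rw [norm_mul] at h2
  rw [li, abs_mul, abs_neg, abs_of_pos (show (0 : ℝ) < 4 by norm_num)]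
  linarith

theorem li_avg (h : Ph A w Ac N vv τ1 t2 b g) (hy : y ∈ Ac) : avg N (li A w vv a Q y) ≤
    4 * b * (‖xr A w a y‖ * ‖lin Q (xr A w a) (Km A w y)‖) := by
  have := (abs_le.1 (h.rel_re hy (xr A w a y * lin Q (xr A w a) (Km A w y)))).1
  rw [norm_mul] at this
  have e : li A w vv a Q y = fun k => -4 * (tk A w vv y k / (gam w y : ℝ) *
      (xr A w a y * lin Q (xr A w a) (Km A w y))).re := by
    funext k; rw [li, sk, mul_assoc]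
  rw [e, avg_mul]
  linarith

theorem nl_avg (h : Ph A w Ac N vv τ1 t2 b g) (hy : y ∈ Ac) (hν : N4 A w y (Q.erase y) ≤ ν) :
    avg N (nl A w vv a Q y) ≤ 7 * (t2 / g) * (‖xr A w a y‖ ^ 2 * Pq A w a Q y) +
      5 * c4N τ1 g ν * ‖xr A w a y‖ ^ 4 := by
  have h1 := sk_sq (a := a) h hy (Pq_nonneg (A := A) (w := w) (a := a) (Q := Q) (y := y))
  have h2 := (avg_mono fun k hk => four_le' (a := a) h hy hk hν).trans (avg_const h.N0 _).le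
  unfold nl
  rw [avg_add, avg_mul, avg_mul]
  linarith

/-- KEY applied to the row -/
theorem key_row {O : Finset ι} {e F t : ℝ} (h : Adm A w) (hK : Key A w O e F) (hF : 0 ≤ F)
    (hA : Ac ⊆ O) (hQ : Q ⊆ O) (hi : (Gm A w a a).im ≤ i0) (ht : 0 < t) :
    ∑ y ∈ Ac, ‖xr A w a y‖ ^ 2 * Pq A w a Q y ≤
      e * (t * N4 A w a Ac + N4 A w a Q / t) + F * (i0 ^ 2 * (t + 1 / t)) := by
  have := hK (fun x => if x ∈ Ac then ‖xr A w a x‖ ^ 2 else 0)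
    (fun x => if x ∈ Q then ‖xr A w a x‖ ^ 2 else 0)
    (fun x => by split_ifs <;> positivity) (fun x => by split_ifs <;> positivity)
    (fun x hx => if_neg fun h => hx (hA h)) (fun x hx => if_neg fun h => hx (hQ h)) t ht
  have e1 : ∀ S : Finset ι, ∑ x, (if x ∈ S then ‖xr A w a x‖ ^ 2 else 0) ^ 2 = N4 A w a S :=
    fun S => by simp [N4, ← pow_mul]
  have e2 : ∀ S : Finset ι, (∑ x, if x ∈ S then ‖xr A w a x‖ ^ 2 else 0) ^ 2 ≤ i0 ^ 2 := fun S => by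
    rw [sum_ite_mem, univ_inter]
    exact pow_le_pow_left₀ (sum_nonneg fun _ _ => by positivity) ((sum_xr_le h S a).trans hi) 2
  have e3 : ∑ y ∈ Ac, ‖xr A w a y‖ ^ 2 * Pq A w a Q y = ∑ x, ∑ z ∈ univ.erase x,
      ‖Km A w x z‖ ^ 2 * ((if x ∈ Ac then ‖xr A w a x‖ ^ 2 else 0) *
        if z ∈ Q then ‖xr A w a z‖ ^ 2 else 0) := by
    rw [← sum_subset (subset_univ Ac) fun x _ hx => by simp [hx]]
    refine sum_congr rfl fun x hx => ?_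
    rw [Pq, mul_sum, ← sum_subset (erase_subset_erase x (subset_univ Q))]
    · exact sum_congr rfl fun z hz => by rw [if_pos hx, if_pos (mem_of_mem_erase hz)]; ring
    · intro z hz hz'
      rw [if_neg (fun h => hz' (mem_erase.2 ⟨ne_of_mem_erase hz, h⟩)), mul_zero, mul_zero]
  rw [e1, e1] at this
  rw [e3]
  refine this.trans (add_le_add le_rfl (mul_le_mul_of_nonneg_left ?_ hF))
  have h1 := mul_le_mul_of_nonneg_left (e2 Ac) ht.le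
  have h2 := div_le_div_of_nonneg_right (e2 Q) ht.le
  rw [mul_add, mul_one_div]
  linarith

/-- the jump of the fourth moment on `Q` -/
noncomputable def JQ (A : Matrix ι ι ℂ) (w : ι → ℂ) (vv : ι → ℕ → ℝ) (a : ι) (Q : Finset ι) (y : ι)
    (k : ℕ) : ℝ := li A w vv a (Q.erase y) y k + nl A w vv a Q y k

/-- drift -/
theorem JQ_avg {S O : Finset ι} {e F t Bq : ℝ} (h : Ph A w Ac N vv τ1 t2 b g) (hS : S ⊆ Ac)
    (hK : Key A w O e F) (hF : 0 ≤ F) (hA : Ac ⊆ O) (hQ : Q ⊆ O) (hi : (Gm A w a a).im ≤ i0)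
    (ht : 0 < t) (hc0 : 0 ≤ c) (hν0 : 0 ≤ ν) (hc : ∀ y ∈ Ac, gam w y * ‖Gm A w y y‖ ≤ c)
    (hν : ∀ y ∈ Ac, N4 A w y (Q.erase y) ≤ ν)
    (hB : ∑ y ∈ Ac, ‖xr A w a y‖ * ‖lin Q (xr A w a) (Km A w y)‖ ≤ Bq) :
    ∑ y ∈ S, avg N (JQ A w vv a Q y) ≤ 4 * b * Bq + (4 * b * c + 5 * c4N τ1 g ν) * N4 A w a Ac +
      7 * (t2 / g) * (e * (t * N4 A w a Ac + N4 A w a Q / t) + F * (i0 ^ 2 * (t + 1 / t))) := by
  have hb := h.b0
  have htg : 0 ≤ t2 / g := div_nonneg h.t0 h.g0.le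
  have hc4 : 0 ≤ c4N τ1 g ν := by rw [c4N]; positivity
  have g0 : ∀ y ∈ Ac, avg N (JQ A w vv a Q y) ≤
      4 * b * (‖xr A w a y‖ * ‖lin Q (xr A w a) (Km A w y)‖) +
      (4 * b * c + 5 * c4N τ1 g ν) * ‖xr A w a y‖ ^ 4 +
      7 * (t2 / g) * (‖xr A w a y‖ ^ 2 * Pq A w a Q y) := fun y hy => by
    have g1 := li_avg (a := a) (Q := Q.erase y) h hy
    have g2 := nl_avg (a := a) h hy (hν y hy)
    have g3 := mul_le_mul_of_nonneg_left (lin_erase (a := a) (Q := Q) h.adm (hc y hy))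
      (show 0 ≤ 4 * b * ‖xr A w a y‖ by positivity)
    unfold JQ
    rw [avg_add]
    linarith
  refine (sum_le_sum fun y hy => g0 y (hS hy)).trans
    ((sum_le_sum_of_subset_of_nonneg hS fun y _ _ => ?_).trans ?_)
  · have := Pq_nonneg (A := A) (w := w) (a := a) (Q := Q) (y := y)
    positivity
  · simp only [sum_add_distrib, ← mul_sum]
    have k1 := mul_le_mul_of_nonneg_left (key_row (a := a) h.adm hK hF hA hQ hi ht)
      (show 0 ≤ 7 * (t2 / g) by positivity)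
    have k2 := mul_le_mul_of_nonneg_left hB (show 0 ≤ 4 * b by positivity)
    rw [N4]
    rw [N4] at k1
    linarith

/-- quadratic variation -/
theorem JQ_sq {S : Finset ι} {V : ℝ} (h : Ph A w Ac N vv τ1 t2 b g) (hS : S ⊆ Ac) (hc0 : 0 ≤ c)
    (hxA : ∀ y ∈ Ac, ‖xr A w a y‖ ≤ r) (hxQ : ∀ y ∈ Q, ‖xr A w a y‖ ≤ r)
    (hc : ∀ y ∈ Ac, gam w y * ‖Gm A w y y‖ ≤ c) (hν : ∀ y ∈ Ac, N4 A w y (Q.erase y) ≤ ν)
    (hV : ∑ y ∈ Ac, ‖xr A w a y‖ ^ 2 * ‖lin (Q.erase y) (xr A w a) (Km A w y)‖ ^ 2 ≤ V) :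
    ∑ y ∈ S, avg N (fun k => JQ A w vv a Q y k ^ 2) ≤ 32 * (t2 / g) * V +
      2 * (r ^ 2 * (7 * (τ1 / g) ^ 2 * c + 5 * c4N τ1 g ν)) ^ 2 * N4 A w a Ac := by
  have htg : 0 ≤ t2 / g := div_nonneg h.t0 h.g0.le
  have g0 : ∀ y ∈ Ac, avg N (fun k => JQ A w vv a Q y k ^ 2) ≤
      32 * (t2 / g) * (‖xr A w a y‖ ^ 2 * ‖lin (Q.erase y) (xr A w a) (Km A w y)‖ ^ 2) +
      2 * (r ^ 2 * (7 * (τ1 / g) ^ 2 * c + 5 * c4N τ1 g ν)) ^ 2 * ‖xr A w a y‖ ^ 4 := fun y hy => by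
    have g1 : ∀ k < N, JQ A w vv a Q y k ^ 2 ≤
        32 * (‖sk A w vv a y k‖ ^ 2 * ‖lin (Q.erase y) (xr A w a) (Km A w y)‖ ^ 2) +
        2 * (r ^ 2 * (7 * (τ1 / g) ^ 2 * c + 5 * c4N τ1 g ν)) ^ 2 * ‖xr A w a y‖ ^ 4 := fun k hk => by
      have r1 := pow_le_pow_left₀ (nl_nonneg k)
        (nl_le h hy hk hc0 hxQ (hxA y hy) (hc y hy) (hν y hy)) 2
      have r2 := li_sq (A := A) (w := w) (vv := vv) (a := a) (Q := Q.erase y) (y := y) k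
      rw [JQ]
      nlinarith [sq_nonneg (li A w vv a (Q.erase y) y k - nl A w vv a Q y k)]
    refine (avg_mono g1).trans ?_
    rw [avg_add, avg_mul, avg_const h.N0]
    linarith [sk_sq (a := a) h hy (sq_nonneg ‖lin (Q.erase y) (xr A w a) (Km A w y)‖)]
  refine (sum_le_sum fun y hy => g0 y (hS hy)).trans
    ((sum_le_sum_of_subset_of_nonneg hS fun y _ _ => by positivity).trans ?_)
  simp only [sum_add_distrib, ← mul_sum]
  rw [N4]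
  exact add_le_add (mul_le_mul_of_nonneg_left hV (by positivity)) le_rfl

/-- size of a jump -/
theorem JQ_le (h : Ph A w Ac N vv τ1 t2 b g) (hy : y ∈ Ac) {k : ℕ} (hk : k < N) {ℓ : ℝ}
    (hc0 : 0 ≤ c) (hxy : ‖xr A w a y‖ ≤ r) (hxQ : ∀ y ∈ Q, ‖xr A w a y‖ ≤ r)
    (hc : gam w y * ‖Gm A w y y‖ ≤ c) (hν : N4 A w y (Q.erase y) ≤ ν) (hℓ0 : 0 ≤ ℓ)
    (hℓ : r ^ 2 * c * N4 A w a Q ≤ ℓ ^ 2) : |JQ A w vv a Q y k| ≤
      (4 * (τ1 / g) * ℓ + r ^ 3 * (7 * (τ1 / g) ^ 2 * c + 5 * c4N τ1 g ν)) * ‖xr A w a y‖ := by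
  have g1 := li_le (Q := Q.erase y) h hy hk (fun b hb => hxQ b (mem_of_mem_erase hb)) hc hc0
    (N4_mono (erase_subset _ _)) hℓ0 hℓ
  have g2 := nl_le h hy hk hc0 hxQ hxy hc hν
  have g3 : 0 ≤ 7 * (τ1 / g) ^ 2 * c + 5 * c4N τ1 g ν := by
    have := N4_nonneg.trans hν
    rw [c4N]; positivity
  have g4 : r ^ 2 * (7 * (τ1 / g) ^ 2 * c + 5 * c4N τ1 g ν) * ‖xr A w a y‖ ^ 2 ≤
      r ^ 2 * (7 * (τ1 / g) ^ 2 * c + 5 * c4N τ1 g ν) * (r * ‖xr A w a y‖) := by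
    rw [sq ‖xr A w a y‖]; gcongr
  refine (abs_add_le _ _).trans ?_
  rw [abs_of_nonneg (nl_nonneg k)]
  linarith

/-- early epochs: through KEY -/
theorem V_key {O : Finset ι} {e F : ℝ} (h : Adm A w) (hK : Key A w O e F) (hF : 0 ≤ F)
    (hA : Ac ⊆ O) (hQ : Q ⊆ O) (hi : (Gm A w a a).im ≤ i0) :
    ∑ y ∈ Ac, ‖xr A w a y‖ ^ 2 * ‖lin (Q.erase y) (xr A w a) (Km A w y)‖ ^ 2 ≤
      (e * (N4 A w a Ac + N4 A w a Q) + 2 * F * i0 ^ 2) * N4 A w a Q := by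
  have k1 := key_row (a := a) h hK hF hA hQ hi one_pos
  have g0 : ∀ y ∈ Ac, ‖xr A w a y‖ ^ 2 * ‖lin (Q.erase y) (xr A w a) (Km A w y)‖ ^ 2 ≤
      ‖xr A w a y‖ ^ 2 * Pq A w a Q y * N4 A w a Q := fun y _ => by
    rw [mul_assoc]
    exact mul_le_mul_of_nonneg_left ((lin_sq _ _ _).trans (mul_le_mul_of_nonneg_left
      (N4_mono (erase_subset _ _)) Pq_nonneg)) (sq_nonneg _)
  refine (sum_le_sum g0).trans ?_
  rw [← sum_mul]
  refine mul_le_mul_of_nonneg_right ?_ N4_nonneg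
  simp only [one_mul, div_one] at k1
  linarith

/-- late epochs: `‖K‖ ≤ 1` -/
theorem V_crude (h : Adm A w) (hc1 : c ≤ 1) (hxA : ∀ y ∈ Ac, ‖xr A w a y‖ ≤ r)
    (hxQ : ∀ y ∈ Q, ‖xr A w a y‖ ≤ r) (hc : ∀ y ∈ Ac, gam w y * ‖Gm A w y y‖ ≤ c) :
    ∑ y ∈ Ac, ‖xr A w a y‖ ^ 2 * ‖lin (Q.erase y) (xr A w a) (Km A w y)‖ ^ 2 ≤
      2 * r ^ 4 * (N4 A w a Ac + N4 A w a Q) := by
  have k1 := (sum_le_univ_sum_of_nonneg (s := Ac) fun _ => sq_nonneg _).trans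
    (lin_nsq_crude h.wardK (xr A w a) fun b hb => pow_le_pow_left₀ (norm_nonneg _) (hxQ b hb) 2)
  have g0 : ∀ y ∈ Ac, ‖xr A w a y‖ ^ 2 * ‖lin (Q.erase y) (xr A w a) (Km A w y)‖ ^ 2 ≤
      2 * r ^ 2 * ‖lin Q (xr A w a) (Km A w y)‖ ^ 2 + 2 * r ^ 4 * ‖xr A w a y‖ ^ 4 := fun y hy => by
    have g1 := (lin_erase (a := a) (Q := Q) h (hc y hy)).trans (add_le_add_right
      (mul_le_of_le_one_left (show 0 ≤ ‖xr A w a y‖ ^ 3 by positivity) hc1) _)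
    have g2 := pow_le_pow_left₀ (norm_nonneg _) g1 2
    have g3 := pow_le_pow_left₀ (norm_nonneg _) (hxA y hy) 2
    have g4 := pow_le_pow_left₀ (norm_nonneg _) (hxA y hy) 4
    have g5 : ‖lin (Q.erase y) (xr A w a) (Km A w y)‖ ^ 2 ≤
        2 * ‖lin Q (xr A w a) (Km A w y)‖ ^ 2 + 2 * ‖xr A w a y‖ ^ 6 := by
      nlinarith [sq_nonneg (‖lin Q (xr A w a) (Km A w y)‖ - ‖xr A w a y‖ ^ 3)]
    have g6 := mul_le_mul_of_nonneg_left g5 (sq_nonneg ‖xr A w a y‖)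
    have g7 := mul_le_mul_of_nonneg_right g3 (sq_nonneg ‖lin Q (xr A w a) (Km A w y)‖)
    have g8 := mul_le_mul_of_nonneg_right g4 (show 0 ≤ ‖xr A w a y‖ ^ 4 by positivity)
    linarith
  refine (sum_le_sum g0).trans ?_
  have k2 := mul_le_mul_of_nonneg_left k1 (sq_nonneg r)
  simp only [sum_add_distrib, ← mul_sum, N4]
  linarith

/-- bias sum, size split at level `√E` -/
theorem B_split (h : Adm A w) (hi : (Gm A w a a).im ≤ i0) (hc0 : 0 ≤ c)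
    (hc : ∀ b ∈ Q, gam w b * ‖Gm A w b b‖ ≤ c) {E Bq : ℝ} (hE : 0 < E) (hB0 : 0 ≤ Bq)
    (hB : i0 * (2 * (E * N4 A w a Q) + 2 * (c * (N4 A w a Q ^ 2 / E))) ≤ Bq ^ 2) :
    ∑ y ∈ Ac, ‖xr A w a y‖ * ‖lin Q (xr A w a) (Km A w y)‖ ≤ Bq := by
  have hc' : ∀ b ∈ Q, (Km A w b b).im ≤ c := fun b hb => (im_le_norm _).trans <| by
    rw [h.K_diag, norm_mul, norm_real, Real.norm_of_nonneg (h.diss b)]
    exact hc b hb
  refine (abs_le_of_sq_le_sq' ((lin_bias h.wardK hc0 hc' (Real.sqrt_pos.2 hE) (xr A w a)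
    (xr A w a) Ac).trans (le_trans ?_ hB)) hB0).2
  rw [div_pow, Real.sq_sqrt hE.le]
  exact mul_le_mul_of_nonneg_right ((sum_xr_le h Ac a).trans hi) (by positivity)

end Nn

end Crest.Agent.N334.AC.Mo
end

-- ▼ part N334/AC/P/FN1

/-! # S0520 part P (helper78): numerical lemmas for the fourth moment monitors -/

set_option autoImplicit false

namespace Crest.Agent.N334.AC.P.FNh

/-- the numbers -/
structure Nm (C P Q γ x D r ρ m tg c4 ω NA NQ : ℝ) : Prop where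
  C1 : 1 ≤ C
  hP : 10 ^ 60 * C ^ 5 ≤ P
  Q6 : P ^ 6 ≤ Q
  γ0 : 0 < γ
  γ1 : 10 ^ 60 * C ^ 5 * γ ≤ 1
  x0 : 0 < x
  main : P ^ 15 * Q * x ≤ 1
  hD : D = γ * x ^ 4
  r0 : 0 < r
  r4 : r ^ 4 * Q = 100 * D
  ρ0 : 0 ≤ ρ
  ρ2 : ρ ^ 2 * γ ≤ 5 * C
  hm : m = 7 * ρ ^ 2 * (3 * C * γ) + 5 * c4
  tg0 : 0 ≤ tg
  tg1 : tg * γ ≤ 6 * C
  c40 : 0 ≤ c4
  c41 : c4 ≤ 320 * C ^ 2 * D
  ω1 : 1 ≤ ω
  ω2 : ω ≤ P ^ 2
  NA0 : 0 ≤ NA
  NQ0 : 0 ≤ NQ
  ωA : ω * NA ≤ 16 * D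
  ωQ : ω * NQ ≤ 16 * D

namespace Nm

variable {C P Q γ x D r ρ m tg c4 ω NA NQ : ℝ} (h : Nm C P Q γ x D r ρ m tg c4 ω NA NQ)
include h

lemma Ck {k : ℕ} (hk : k ≤ 5) : C ^ k ≤ C ^ 5 := pow_le_pow_right₀ h.C1 hk
lemma C5 : 1 ≤ C ^ 5 := one_le_pow₀ h.C1
lemma P60 : 10 ^ 60 ≤ P := by linarith [h.hP, h.C5]
lemma P1 : 1 ≤ P := by linarith [h.P60]
lemma Q1 : 1 ≤ Q := (one_le_pow₀ h.P1).trans h.Q6
lemma x1 : x ≤ 1 := le_trans (le_mul_of_one_le_left h.x0.le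
  (one_le_mul_of_one_le_of_one_le (one_le_pow₀ h.P1) h.Q1)) h.main
lemma γ2 : 10 ^ 60 * γ ≤ 1 := by nlinarith [h.γ1, h.C5, h.γ0]
lemma γ3 : γ ≤ 1 := by linarith [h.γ2, h.γ0]
lemma D0 : 0 < D := by rw [h.hD]; exact mul_pos h.γ0 (pow_pos h.x0 4)
lemma Dγ : D ≤ γ := by rw [h.hD]; exact mul_le_of_le_one_right h.γ0.le (pow_le_one₀ h.x0.le h.x1)
lemma r6 : r ^ 4 * P ^ 6 ≤ 100 * D :=
  (mul_le_mul_of_nonneg_left h.Q6 (pow_pos h.r0 4).le).trans h.r4.le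
lemma m0 : 0 ≤ m := by
  have := h.C1; have := h.γ0; have := h.c40
  rw [h.hm]; positivity
lemma m1 : m ≤ 110 * C ^ 2 := by
  have h1 := mul_le_mul_of_nonneg_left h.ρ2 (show 0 ≤ 21 * C by linarith [h.C1])
  have h2 : 320 * D ≤ 1 := by linarith [h.Dγ, h.γ2, h.γ0]
  have h3 := mul_le_mul_of_nonneg_left h2 (sq_nonneg C)
  rw [h.hm]
  linarith [h.c41]
lemma Cγ : 3 * C * γ ≤ 1 := by
  have := mul_le_mul_of_nonneg_right (h.Ck (k := 1) (by norm_num)) h.γ0.le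
  have := mul_nonneg (zero_le_one.trans h.C5) h.γ0.le
  linarith [h.γ1]

lemma n1 {ℓ : ℝ} (hℓ : ℓ ^ 2 = r ^ 2 * (3 * C * γ) * NQ) :
    P * (ω * ((4 * ρ * ℓ + r ^ 3 * m) * r)) ≤ D / 64 := by
  have hP0 : 0 < P := by linarith [h.P1]
  have hC := h.C1; have hγ := h.γ0; have hD := h.D0; have hω := h.ω1; have hr := h.r0
  have := h.NQ0; have := h.m0
  have h1 : P * (ω * (4 * ρ * ℓ * r)) ≤ D / 128 := by
    refine (abs_le_of_sq_le_sq' (le_of_mul_le_mul_right ?_ (pow_pos hP0 2)) (by positivity)).2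
    have g1 : ρ ^ 2 * γ * C * ω * (ω * NQ) * (r ^ 4 * P ^ 4) ≤
        5 * C * C * P ^ 2 * (16 * D) * (r ^ 4 * P ^ 4) := by
      have := h.ρ2; have := h.ω2; have := h.ωQ
      gcongr
    have g2 := mul_le_mul_of_nonneg_left h.r6 (show 0 ≤ C ^ 2 * D by positivity)
    have g3 : 10 ^ 12 * C ^ 2 ≤ P ^ 2 := by
      linarith [h.Ck (k := 2) (by norm_num), h.hP, h.C5, le_self_pow₀ h.P1 two_ne_zero]
    have g4 := mul_le_mul_of_nonneg_right g3 (sq_nonneg D)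
    have g5 : 0 ≤ C ^ 2 * D ^ 2 := by positivity
    rw [show (P * (ω * (4 * ρ * ℓ * r))) ^ 2 = 16 * P ^ 2 * ω ^ 2 * ρ ^ 2 * r ^ 2 * ℓ ^ 2 by ring, hℓ]
    linarith
  have h2 : P * (ω * (r ^ 4 * m)) ≤ D / 128 := by
    refine le_of_mul_le_mul_right ?_ (pow_pos hP0 3)
    have g1 : ω * m * (r ^ 4 * P ^ 4) ≤ P ^ 2 * (110 * C ^ 2) * (r ^ 4 * P ^ 4) := by
      gcongr
      exacts [h.ω2, h.m1]
    have g2 := mul_le_mul_of_nonneg_left h.r6 (sq_nonneg C)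
    have g3 : 10 ^ 12 * C ^ 2 ≤ P ^ 3 := by
      linarith [h.Ck (k := 2) (by norm_num), h.hP, h.C5, le_self_pow₀ h.P1 three_ne_zero]
    have g4 := mul_le_mul_of_nonneg_right g3 hD.le
    have g5 : 0 ≤ C ^ 2 * D := by positivity
    linarith
  linarith

lemma n2 : 2 * C * (2 * (γ * x ^ 2 * NQ) + 2 * (3 * C * γ * (NQ ^ 2 / (γ * x ^ 2)))) ≤
    (10 * C * P * γ * x ^ 3 / ω) ^ 2 := by
  have hC := h.C1; have hγ := h.γ0; have hx := h.x0; have hω := h.ω1; have := h.NQ0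
  have hP := h.P1
  rw [div_pow, le_div_iff₀ (by positivity)]
  have g1 : ω * (ω * NQ) ≤ P ^ 2 * (16 * D) := by
    have := h.ω2; have := h.ωQ
    gcongr
  have g2 : (ω * NQ) ^ 2 / (γ * x ^ 2) ≤ 256 * γ * x ^ 6 := by
    rw [div_le_iff₀ (by positivity)]
    refine (pow_le_pow_left₀ (by positivity) h.ωQ 2).trans (le_of_eq ?_)
    rw [h.hD]; ring
  have g3 := mul_le_mul_of_nonneg_left g1 (show 0 ≤ 4 * C * (γ * x ^ 2) by positivity)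
  have g4 := mul_le_mul_of_nonneg_left g2 (show 0 ≤ 12 * C ^ 2 * γ by positivity)
  have g5 : 64 * C * P ^ 2 + 3072 * C ^ 2 ≤ 100 * C ^ 2 * P ^ 2 := by
    have : (100 : ℝ) ≤ P ^ 2 := by linarith [h.P60, le_self_pow₀ h.P1 two_ne_zero]
    linarith [mul_le_mul_of_nonneg_left this (sq_nonneg C),
      mul_le_mul_of_nonneg_right (le_self_pow₀ hC two_ne_zero) (sq_nonneg P), sq_nonneg C]
  have g6 := mul_le_mul_of_nonneg_right g5 (show 0 ≤ γ ^ 2 * x ^ 6 by positivity)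
  rw [h.hD] at g3
  have g7 : 2 * C * (2 * (γ * x ^ 2 * NQ) + 2 * (3 * C * γ * (NQ ^ 2 / (γ * x ^ 2)))) * ω ^ 2 =
      4 * C * (γ * x ^ 2) * (ω * (ω * NQ)) + 12 * C ^ 2 * γ * ((ω * NQ) ^ 2 / (γ * x ^ 2)) := by ring
  rw [g7]
  linarith

lemma n3 {e F t : ℝ} (he : 0 ≤ e) (he1 : 10 ^ 60 * C ^ 30 * e ≤ 1) (hF : 0 ≤ F)
    (hF1 : P ^ 6 * F ≤ D) (ht1 : 1 ≤ t) (ht2 : t ≤ P) :
    ω * (4 * (2 * (P ^ 5 * Q * x ^ 2)) * (10 * C * P * γ * x ^ 3 / ω) +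
      (4 * (2 * (P ^ 5 * Q * x ^ 2)) * (3 * C * γ) + 5 * c4) * NA +
      7 * tg * (25 * C ^ 2 * γ * e * (t * NA + NQ / t) +
        25 * C ^ 2 * γ * F * ((2 * C) ^ 2 * (t + 1 / t)))) ≤
      ω * (t * NA + NQ / t) / 10 ^ 4 + D / (128 * P) := by
  have hC := h.C1; have hγ := h.γ0; have hx := h.x0; have hω := h.ω1; have := h.NQ0
  have hP1 := h.P1; have hD0 := h.D0; have hQ1 := h.Q1; have := h.NA0; have := h.tg0
  have := h.c40; have hx1 := h.x1; have hγ1 := h.γ3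
  have hu : P ^ 7 * Q * x * P ≤ 1 := le_trans (by
    have := mul_le_mul_of_nonneg_right (pow_le_pow_right₀ hP1 (show 8 ≤ 15 by norm_num))
      (show 0 ≤ Q * x by positivity)
    linarith) h.main
  have hu' : 10 ^ 10 * C ^ 2 * (P ^ 7 * Q * x) ≤ 1 := by
    have := mul_le_mul_of_nonneg_right
      (show 10 ^ 10 * C ^ 2 ≤ P by linarith [h.Ck (k := 2) (by norm_num), h.hP, h.C5])
      (show 0 ≤ P ^ 7 * Q * x by positivity)
    linarith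
  have hCC : C ≤ C ^ 2 := le_self_pow₀ hC two_ne_zero
  have k1 : ω * (4 * (2 * (P ^ 5 * Q * x ^ 2)) * (10 * C * P * γ * x ^ 3 / ω)) ≤
      D / (512 * P) := by
    rw [le_div_iff₀ (by positivity)]
    have g1 := mul_le_mul_of_nonneg_right hu' hD0.le
    have g2 := mul_le_mul_of_nonneg_right hCC (show 0 ≤ P ^ 7 * Q * x * D by positivity)
    have g3 : 0 ≤ C ^ 2 * (P ^ 7 * Q * x * D) := by positivity
    have g4 : ω * (4 * (2 * (P ^ 5 * Q * x ^ 2)) * (10 * C * P * γ * x ^ 3 / ω)) * (512 * P) =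
        40960 * (C * (P ^ 7 * Q * x * D)) := by
      rw [h.hD]; field_simp; norm_num
    linarith
  have k2 : ω * ((4 * (2 * (P ^ 5 * Q * x ^ 2)) * (3 * C * γ) + 5 * c4) * NA) ≤ D / (512 * P) := by
    rw [le_div_iff₀ (by positivity)]
    have g1 : P ^ 6 * Q * x * (x * γ) ≤ P ^ 7 * Q * x * (1 * 1) := by
      gcongr; norm_num
    have g2 : P * 1 * x * (x ^ 3 * γ) ≤ P ^ 7 * Q * x * (1 * 1) := by
      gcongr
      exacts [le_self_pow₀ hP1 (by norm_num), pow_le_one₀ hx.le hx1]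
    have g3 := mul_le_mul hCC g1 (by positivity) (by positivity)
    have g4 := mul_le_mul_of_nonneg_left g2 (sq_nonneg C)
    have g5 := mul_le_mul_of_nonneg_left h.c41 (show 0 ≤ P by positivity)
    have g6 : (4 * (2 * (P ^ 5 * Q * x ^ 2)) * (3 * C * γ) + 5 * c4) * (8192 * P) ≤ 1 := by
      have g7 : 0 ≤ C ^ 2 * (P ^ 7 * Q * x) := by positivity
      rw [h.hD] at g5
      linarith
    have g7 := mul_le_mul g6 h.ωA (by positivity) zero_le_one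
    linarith
  have k3 : 7 * tg * (25 * C ^ 2 * γ * e) ≤ 1 / 10 ^ 4 := by
    have g1 := mul_le_mul_of_nonneg_left h.tg1 (show 0 ≤ C ^ 2 * e by positivity)
    have g2 := mul_le_mul_of_nonneg_right (pow_le_pow_right₀ hC (show 3 ≤ 30 by norm_num)) he
    have g3 : 0 ≤ C ^ 3 * e := by positivity
    linarith
  have k4 : ω * (7 * tg * (25 * C ^ 2 * γ * F * ((2 * C) ^ 2 * (t + 1 / t)))) ≤ D / (512 * P) := by
    rw [le_div_iff₀ (by positivity)]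
    have g1 : 1 / t ≤ P := ((div_le_one (by linarith)).2 ht1).trans hP1
    have g2 : ω * (tg * γ) * (t + 1 / t) * (C ^ 4 * F * P) ≤
        P ^ 2 * (6 * C) * (P + P) * (C ^ 4 * F * P) := by
      have := h.ω2; have := h.tg1
      gcongr
    have g3 : 10 ^ 10 * C ^ 5 ≤ P ^ 2 := by
      linarith [h.hP, h.C5, le_self_pow₀ h.P1 two_ne_zero]
    have g4 := mul_le_mul_of_nonneg_right g3 (show 0 ≤ P ^ 4 * F by positivity)
    have g5 : 0 ≤ C ^ 5 * (P ^ 4 * F) := by positivity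
    linarith
  have k5 := mul_le_mul_of_nonneg_right k3 (show 0 ≤ ω * (t * NA + NQ / t) by positivity)
  have k6 : D / (128 * P) = 4 * (D / (512 * P)) := by field_simp; norm_num
  have k7 : 0 ≤ D / (512 * P) := by positivity
  linarith

lemma n4a {e F : ℝ} (he : 0 ≤ e) (he1 : P ^ 3 * e ≤ 1) (hF : 0 ≤ F) (hF1 : P ^ 6 * F ≤ D) :
    P ^ 3 * (ω ^ 2 * (tg * ((25 * C ^ 2 * γ * e * (NA + NQ) +
      2 * (25 * C ^ 2 * γ * F) * (2 * C) ^ 2) * NQ))) ≤ 10 ^ 6 * C ^ 5 * D ^ 2 := by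
  have hC := h.C1; have hγ := h.γ0; have hω := h.ω1; have := h.NQ0
  have hP1 := h.P1; have hD0 := h.D0; have := h.NA0; have := h.tg0
  have g1 : tg * γ * C ^ 2 * (P ^ 3 * e) * ((ω * NA + ω * NQ) * (ω * NQ)) ≤
      6 * C * C ^ 2 * 1 * ((16 * D + 16 * D) * (16 * D)) := by
    have := h.tg1; have := h.ωA; have := h.ωQ
    gcongr
  have g2 : tg * γ * C ^ 4 * (P ^ 3 * ω * F) * (ω * NQ) ≤ 6 * C * C ^ 4 * D * (16 * D) := by
    have : P ^ 3 * ω * F ≤ P ^ 4 * P ^ 2 * F := by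
      gcongr
      exacts [by norm_num, h.ω2]
    have : P ^ 3 * ω * F ≤ D := by linarith
    have := h.tg1; have := h.ωQ
    gcongr
  have g3 := mul_le_mul_of_nonneg_right (h.Ck (k := 3) (by norm_num)) (sq_nonneg D)
  have g4 : 0 ≤ C ^ 5 * D ^ 2 := by positivity
  linarith

lemma n4b (hq : P ^ 5 ≤ Q * γ) :
    P ^ 3 * (ω ^ 2 * (tg * (2 * r ^ 4 * (NA + NQ)))) ≤ 10 ^ 6 * C ^ 5 * D ^ 2 := by
  have hω := h.ω1; have := h.NQ0; have := h.r0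
  have hP1 := h.P1; have hD0 := h.D0; have := h.NA0; have := h.tg0; have := h.C5
  have g1 : P ^ 3 * ω * (tg * r ^ 4) * (ω * NA + ω * NQ) ≤
      P ^ 3 * P ^ 2 * (tg * r ^ 4) * (16 * D + 16 * D) := by
    have := h.ω2; have := h.ωA; have := h.ωQ
    gcongr
  have g2 := mul_le_mul_of_nonneg_right hq (show 0 ≤ tg * r ^ 4 * D by positivity)
  have g3 := mul_le_mul_of_nonneg_right h.tg1 (sq_nonneg D)
  have g4 : Q * γ * (tg * r ^ 4 * D) = 100 * (tg * γ * D ^ 2) := by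
    linear_combination (γ * tg * D) * h.r4
  have g5 := mul_le_mul_of_nonneg_right (h.Ck (k := 1) (by norm_num)) (sq_nonneg D)
  have g6 : 0 ≤ C ^ 5 * D ^ 2 := by positivity
  linarith

lemma n4 {V : ℝ} (hV : P ^ 3 * (ω ^ 2 * (tg * V)) ≤ 10 ^ 6 * C ^ 5 * D ^ 2) :
    P * (ω ^ 2 * (32 * tg * V + 2 * (r ^ 2 * m) ^ 2 * NA)) ≤ D ^ 2 / (4096 * P) := by
  have hω := h.ω1; have := h.r0; have hC := h.C1; have := h.m0
  have hP1 := h.P1; have hD0 := h.D0; have := h.NA0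
  have k1 : P ^ 3 * (ω ^ 2 * ((r ^ 2 * m) ^ 2 * NA)) ≤ 10 ^ 8 * C ^ 5 * D ^ 2 := by
    have g1 : P ^ 3 * ω * r ^ 4 * m ^ 2 * (ω * NA) ≤
        P ^ 4 * P ^ 2 * r ^ 4 * (110 * C ^ 2) ^ 2 * (16 * D) := by
      have := h.ω2; have := h.m1; have := h.ωA
      gcongr
      norm_num
    have g2 := mul_le_mul_of_nonneg_left h.r6 (show 0 ≤ C ^ 4 * D by positivity)
    have g3 := mul_le_mul_of_nonneg_right (h.Ck (k := 4) (by norm_num)) (sq_nonneg D)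
    have g4 : 0 ≤ C ^ 5 * D ^ 2 := by positivity
    linarith
  rw [le_div_iff₀ (by positivity)]
  refine le_of_mul_le_mul_left ?_ (show 0 < P by positivity)
  have k3 := mul_le_mul_of_nonneg_right h.hP (sq_nonneg D)
  have k4 : 0 ≤ C ^ 5 * D ^ 2 := by positivity
  linarith

lemma n5 : P ^ 5 * r ^ 4 ≤ D / 10 ^ 4 := by
  refine le_of_mul_le_mul_left ?_ (show 0 < P by linarith [h.P1])
  linarith [mul_le_mul_of_nonneg_right h.P60 h.D0.le, h.r6, h.D0]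

end Nm

end Crest.Agent.N334.AC.P.FNh
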