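import Crest.Agent.N334.AC.L.Tau
import Crest.Agent.N334.AC.L.Newton_Mg
import Crest.Agent.N334.AC.L.Close
import Crest.Agent.N334.AC.L.CT
import Crest.Agent.N334.AC.M7.M5
import Crest.Agent.N334.AC.P.Der
import Crest.Agent.N334.AC.M6.Key

-- ▼ part N334/AC/Nw/Core
section

/-! # S0520 (helper74): the Newton (retuning) step, pure form -/

set_option autoImplicit false

open Finset Complex
open scoped Matrix.Norms.L2Operator Matrix

namespace Crest.Agent.N334.AC.Nw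

section Gen

variable {ι : Type} [Fintype ι] [DecidableEq ι]

/-- bias of the port `x` -/
noncomputable def bt (σ : ℝ) (N : ℕ) (r : ι → ℝ) (A : Matrix ι ι ℂ) (w : ι → ℂ) (x : ι) : ℂ :=
  beta σ N (r x) (Gm A w x x) (w x)

/-- `E τ²` at the port `x` -/
noncomputable def et (σ : ℝ) (N : ℕ) (r : ι → ℝ) (A : Matrix ι ι ℂ) (w : ι → ℂ) (x : ι) : ℂ :=
  avgV N fun k => tau (Gm A w x x) (w x) (val σ N (r x) k) ^ 2

/-- `E |τ|²` at the port `x` -/
noncomputable def e2 (σ : ℝ) (N : ℕ) (r : ι → ℝ) (A : Matrix ι ι ℂ) (w : ι → ℂ) (x : ι) : ℝ :=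
  avg N fun k => ‖tau (Gm A w x x) (w x) (val σ N (r x) k)‖ ^ 2

/-- matrix of the linearised retuning problem -/
noncomputable def XN (σ : ℝ) (N : ℕ) (r : ι → ℝ) (A : Matrix ι ι ℂ) (w : ι → ℂ) :
    Matrix ι ι ℂ := fun x y =>
  if x = y then 0 else et σ N r A w x / (1 - 2 * bt σ N r A w x * Gm A w x x) * Gm A w x y ^ 2

/-- state before the retuning of the ports of `O`; relative bias `≤ b` -/
structure Pre (A : Matrix ι ι ℂ) (w : ι → ℂ) (O : Finset ι) (C σ : ℝ) (N : ℕ) (r : ι → ℝ)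
    (b : ℝ) : Prop where
  adm : Adm A w
  sml : Sml C σ N
  r01 : ∀ x, 0 ≤ r x ∧ r x ≤ 1
  gam_pos : ∀ x ∈ O, 0 < gam w x
  G_le : ∀ x ∈ O, ‖Gm A w x x‖ ≤ C / 2
  w_le : ∀ x ∈ O, ‖w x‖ ≤ C * σ ^ 2 / 2
  b0 : 0 ≤ b
  b1 : b ≤ 1 / 10
  bias : ∀ x ∈ O, ‖bt σ N r A w x‖ ≤ b * gam w x

variable {A : Matrix ι ι ℂ} {w : ι → ℂ} {O : Finset ι} {C σ b : ℝ} {N : ℕ} {r : ι → ℝ} {x : ι}

theorem sml_Cσ (h : Sml C σ N) : C * σ ≤ 1 / 1000 ∧ C ^ 2 * σ ≤ 1 / 1000 ∧ σ ≤ 1 / 1000 := by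
  have h1 := h.C1
  have h2 := h.σ0
  have h3 := h.σ1
  have h4 : C ^ 2 * σ ≤ C ^ 3 * σ := by gcongr; norm_num
  have h5 : C * σ ≤ C ^ 2 * σ := by gcongr; nlinarith
  have h6 : σ ≤ C * σ := by nlinarith
  exact ⟨by linarith, by linarith, by linarith⟩

theorem Pre.G_le' (h : Pre A w O C σ N r b) (hx : x ∈ O) : ‖Gm A w x x‖ ≤ C := by
  linarith [h.G_le x hx, h.sml.C1]

theorem Pre.w_le' (h : Pre A w O C σ N r b) (hx : x ∈ O) : ‖w x‖ ≤ C * σ ^ 2 := by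
  have := h.sml.C1
  have : 0 ≤ C * σ ^ 2 := by positivity
  linarith [h.w_le x hx]

theorem Pre.gam_le (h : Pre A w O C σ N r b) (hx : x ∈ O) : gam w x ≤ C * σ ^ 2 / 2 :=
  le_trans ((neg_le_abs _).trans (abs_im_le_norm _)) (h.w_le x hx)

theorem Pre.bG (h : Pre A w O C σ N r b) (hx : x ∈ O) :
    ‖2 * bt σ N r A w x * Gm A w x x‖ ≤ b / 1000 := by
  obtain ⟨h1, -, h2⟩ := sml_Cσ h.sml
  have := h.sml.C1
  have := h.sml.σ0
  have := h.b0
  have h3 := h.gam_le hx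
  have h4 := h.gam_pos x hx
  rw [norm_mul, norm_mul, Complex.norm_two]
  calc _ ≤ 2 * (b * gam w x) * (C / 2) := by gcongr; exacts [h.bias x hx, h.G_le x hx]
    _ ≤ 2 * (b * (C * σ ^ 2 / 2)) * (C / 2) := by gcongr
    _ = b / 2 * (C * σ) ^ 2 := by ring
    _ ≤ b / 2 * (1 / 1000) ^ 2 := by gcongr
    _ ≤ _ := by linarith

theorem Pre.den (h : Pre A w O C σ N r b) (hx : x ∈ O) :
    1 - b / 1000 ≤ ‖1 - 2 * bt σ N r A w x * Gm A w x x‖ := by
  have := norm_sub_norm_le (1 : ℂ) (2 * bt σ N r A w x * Gm A w x x)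
  rw [norm_one] at this
  linarith [h.bG hx]

theorem Pre.den_ne (h : Pre A w O C σ N r b) (hx : x ∈ O) :
    1 - 2 * bt σ N r A w x * Gm A w x x ≠ 0 := by
  intro h0
  have := h.den hx
  rw [h0, norm_zero] at this
  linarith [h.b1]

theorem Pre.div_le (h : Pre A w O C σ N r b) (hx : x ∈ O) (z : ℂ) :
    ‖z / (1 - 2 * bt σ N r A w x * Gm A w x x)‖ ≤ (1 + b) * ‖z‖ := by
  have h1 := h.den hx
  have := h.b0
  have := h.b1
  rw [norm_div, div_le_iff₀ (by linarith)]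
  calc ‖z‖ = 1 * ‖z‖ := (one_mul _).symm
    _ ≤ ((1 + b) * ‖1 - 2 * bt σ N r A w x * Gm A w x x‖) * ‖z‖ := by gcongr; nlinarith
    _ = _ := by ring

omit [Fintype ι] [DecidableEq ι] in
theorem et_le' {g w : ℂ} {r : ℝ} : ‖avgV N fun k => tau g w (val σ N r k) ^ 2‖ ≤
    avg N fun k => ‖tau g w (val σ N r k)‖ ^ 2 := by
  refine (norm_avgV_le N fun k => tau g w (val σ N r k) ^ 2).trans (avg_mono fun k _ => ?_)
  exact (norm_pow _ _).le

theorem et_le : ‖et σ N r A w x‖ ≤ e2 σ N r A w x := et_le'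

theorem e2_nonneg : 0 ≤ e2 σ N r A w x := (norm_nonneg _).trans et_le

theorem Pre.e2_le (h : Pre A w O C σ N r b) (hx : x ∈ O) : e2 σ N r A w x ≤ 7 / 20 * σ ^ 2 := by
  have := h.sml.tau_sq (h.r01 x) (h.G_le' hx) (h.w_le' hx)
  unfold e2; linarith

/-- `E|τ|² ι = γ - Im β - 2γ Re (β G)` -/
theorem Pre.e2_iota (h : Pre A w O C σ N r b) (hx : x ∈ O) :
    e2 σ N r A w x * ∑ y ∈ univ.erase x, gam w y * ‖Gm A w x y‖ ^ 2 =
      gam w x - (bt σ N r A w x).im - gam w x * (2 * bt σ N r A w x * Gm A w x x).re := by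
  have hγ := h.gam_pos x hx
  have hN := h.sml.N_pos
  have hmu : mu (Km A w) x = gam w x * ∑ y ∈ univ.erase x, gam w y * ‖Gm A w x y‖ ^ 2 := by
    rw [mu, mul_sum]
    exact sum_congr rfl fun y _ => by rw [h.adm.K_sq, mul_assoc]
  have h1 : ∀ k < N, ‖tau (Gm A w x x) (w x) (val σ N (r x) k)‖ ^ 2 *
      ∑ y ∈ univ.erase x, gam w y * ‖Gm A w x y‖ ^ 2 =
      gam w x + (tau (Gm A w x x) (w x) (val σ N (r x) k) *
        (I * (1 + 2 * I * (gam w x * Gm A w x x)))).re := by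
    intro k hk
    have h2 := h.adm.tau_id (h.sml.den (h.G_le' hx) (h.w_le' hx)
      (abs_val_le h.sml.σ0.le (h.r01 x) hk)) hγ
    rw [hmu, norm_div, Complex.norm_real, Real.norm_of_nonneg hγ.le] at h2
    have h3 : Sm (Km A w) x x = 1 + 2 * I * (gam w x * Gm A w x x) := by
      simp [Sm, h.adm.K_diag]
    rw [h3] at h2
    set t := tau (Gm A w x x) (w x) (val σ N (r x) k)
    have h4 : I * (t / (gam w x : ℝ)) * (1 + 2 * I * (gam w x * Gm A w x x)) =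
        t * (I * (1 + 2 * I * (gam w x * Gm A w x x))) / (gam w x : ℝ) := by ring
    rw [h4, Complex.div_ofReal_re] at h2
    generalize (t * (I * (1 + 2 * I * (gam w x * Gm A w x x)))).re = z at h2 ⊢
    generalize ∑ y ∈ univ.erase x, gam w y * ‖Gm A w x y‖ ^ 2 = S at h2 ⊢
    field_simp at h2
    linarith
  have h2 : e2 σ N r A w x * ∑ y ∈ univ.erase x, gam w y * ‖Gm A w x y‖ ^ 2 =
      avg N fun k => gam w x + (tau (Gm A w x x) (w x) (val σ N (r x) k) *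
        (I * (1 + 2 * I * (gam w x * Gm A w x x)))).re := by
    rw [e2, mul_comm, ← avg_mul]
    exact le_antisymm (avg_mono fun k hk => by rw [mul_comm, h1 k hk])
      (avg_mono fun k hk => by rw [← h1 k hk, mul_comm])
  rw [h2, avg_add, avg_const hN, avg_re, avgV_mul]
  change gam w x + (bt σ N r A w x * _).re = _
  simp only [mul_re, mul_im, I_re, I_im, add_re, add_im, one_re, one_im, re_ofNat, im_ofNat,
    ofReal_re, ofReal_im]
  ring

theorem Pre.e2_iota_le (h : Pre A w O C σ N r b) (hx : x ∈ O) :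
    |e2 σ N r A w x * ∑ y ∈ univ.erase x, gam w y * ‖Gm A w x y‖ ^ 2 - gam w x| ≤
      2 * b * gam w x := by
  rw [h.e2_iota hx]
  have h1 := abs_le.1 ((abs_im_le_norm _).trans (h.bias x hx))
  have h2 := abs_le.1 ((abs_re_le_norm _).trans (h.bG hx))
  have hγ := h.gam_pos x hx
  have := h.b0
  rw [abs_le]
  constructor <;> nlinarith [h1.1, h1.2, h2.1, h2.2]

theorem Pre.XN_le (h : Pre A w O C σ N r b) (hx : x ∈ O) (y : ι) :
    ‖XN σ N r A w x y‖ ≤ σ ^ 2 / 2 * ‖Gm A w x y‖ ^ 2 := by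
  unfold XN
  split_ifs
  · rw [norm_zero]; positivity
  rw [norm_mul, norm_pow]
  gcongr
  have h1 := h.div_le hx (et σ N r A w x)
  have h2 := (et_le (σ := σ) (N := N) (r := r) (A := A) (w := w) (x := x)).trans (h.e2_le hx)
  have := h.b1
  nlinarith [norm_nonneg (et σ N r A w x), sq_nonneg σ]

theorem Pre.XN_row (h : Pre A w O C σ N r b) (hx : x ∈ O) {κ : ℝ} (hκ0 : 0 ≤ κ)
    (hκ : ‖et σ N r A w x‖ ≤ κ * e2 σ N r A w x) :
    ∑ y ∈ O, ‖XN σ N r A w x y‖ * gam w y ≤ κ * (1 + 4 * b) * gam w x := by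
  have hb := h.b0
  have hb1 := h.b1
  have h0 := e2_nonneg (σ := σ) (N := N) (r := r) (A := A) (w := w) (x := x)
  have h1 : ∑ y ∈ O, ‖XN σ N r A w x y‖ * gam w y ≤ (1 + b) * κ *
      (e2 σ N r A w x * ∑ y ∈ univ.erase x, gam w y * ‖Gm A w x y‖ ^ 2) := by
    rw [← sum_erase (a := x) O (by simp [XN]), mul_sum, mul_sum]
    refine le_trans (sum_le_sum fun y hy => ?_) (sum_le_sum_of_subset_of_nonneg
      (erase_subset_erase x (subset_univ O)) fun y _ _ => by have := h.adm.diss y; positivity)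
    have := h.adm.diss y
    rw [XN, if_neg (ne_of_mem_erase hy).symm, norm_mul, norm_pow]
    calc _ ≤ (1 + b) * (κ * e2 σ N r A w x) * ‖Gm A w x y‖ ^ 2 * gam w y := by
          gcongr
          exact (h.div_le hx _).trans (by gcongr)
      _ = _ := by ring
  have h2 := (abs_le.1 (h.e2_iota_le hx)).2
  have hγ := h.gam_pos x hx
  calc _ ≤ _ := h1
    _ ≤ (1 + b) * κ * ((1 + 2 * b) * gam w x) :=
        mul_le_mul_of_nonneg_left (by linarith) (by positivity)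
    _ = κ * ((1 + b) * (1 + 2 * b)) * gam w x := by ring
    _ ≤ _ := by gcongr; nlinarith

theorem Pre.XN_blk (h : Pre A w O C σ N r b) {Q : Finset ι} (hQ : Q ⊆ O) :
    ‖cmp (XN σ N r A w) Q‖ ≤
      σ ^ 2 / 2 * (‖cmp (Matrix.hadamard (Gm A w) (Gm A w)) Q‖ + C ^ 2) := by
  have e : cmp (XN σ N r A w) Q = Matrix.diagonal (fun x => if x ∈ Q then
      et σ N r A w x / (1 - 2 * bt σ N r A w x * Gm A w x x) else 0) *
      (cmp (Matrix.hadamard (Gm A w) (Gm A w)) Q -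
        Matrix.diagonal fun x => if x ∈ Q then Gm A w x x ^ 2 else 0) := by
    ext x y
    rw [Matrix.diagonal_mul, Matrix.sub_apply]
    by_cases hxy : x = y
    · subst hxy
      by_cases hx : x ∈ Q <;> simp [cmp, XN, hx, sq]
    · by_cases hx : x ∈ Q <;> by_cases hy : y ∈ Q <;> simp [cmp, XN, hx, hy, hxy, sq]
  have hC := h.sml.C1
  rw [e]
  refine (norm_mul_le _ _).trans (mul_le_mul (norm_diagonal_le (by positivity) fun x => ?_)
    ((norm_sub_le _ _).trans (add_le_add le_rfl (norm_diagonal_le (by positivity) fun x => ?_)))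
    (norm_nonneg _) (by positivity))
  · split_ifs with hx
    · have h1 := h.div_le (hQ hx) (et σ N r A w x)
      have h2 := (et_le (σ := σ) (N := N) (r := r) (A := A) (w := w) (x := x)).trans
        (h.e2_le (hQ hx))
      have := h.b1
      nlinarith [norm_nonneg (et σ N r A w x), sq_nonneg σ]
    · rw [norm_zero]; positivity
  · split_ifs with hx
    · rw [norm_pow]; gcongr; exact h.G_le' (hQ hx)
    · rw [norm_zero]; positivity

/-- result of a retuning of relative size `δ` -/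
def Post (A : Matrix ι ι ℂ) (w : ι → ℂ) (O : Finset ι) (C σ : ℝ) (N : ℕ) (r : ι → ℝ) (δ : ℝ)
    (w' : ι → ℂ) : Prop :=
  Jmp A w w' δ ∧ (∀ x, x ∉ O → w' x = w x) ∧ ∀ x ∈ O, ‖bt σ N r A w' x‖ ≤ δ ^ 2 * C * σ ^ 2

theorem Pre.of_solve (h : Pre A w O C σ N r b) {δ : ℝ} (hδ0 : 0 ≤ δ) (hδ : δ ≤ 1 / 10)
    {Δ : ι → ℂ} (hs : Supp Δ O) (hΔ : ∀ x ∈ O, Δ x - ∑ y ∈ O, XN σ N r A w x y * Δ y =
      bt σ N r A w x / (1 - 2 * bt σ N r A w x * Gm A w x x) ∧ ‖Δ x‖ ≤ δ * gam w x) :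
    Post A w O C σ N r δ (w + Δ) := by
  have hJ : Jmp A w (w + Δ) δ := ⟨h.adm, hδ0, hδ, fun x => by
    by_cases hx : x ∈ O
    · simpa using (hΔ x hx).2
    · have := h.adm.diss x
      simp only [Pi.add_apply, add_sub_cancel_left, hs x hx, norm_zero]; positivity⟩
  refine ⟨hJ, fun x hx => by simp [hs x hx], fun x hx => ?_⟩
  obtain ⟨c1, c2, c3⟩ := sml_Cσ h.sml
  have hC := h.sml.C1
  have hσ := h.sml.σ0
  have him : |(Gm A w x x).im| ≤ C / 2 := (abs_im_le_norm _).trans (h.G_le x hx)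
  have hdg : ‖Gm A (w + Δ) x x - Gm A w x x‖ ≤ δ * C := by
    refine abs_le_of_sq_le_sq' ((hJ.entry x x).trans ?_) (by positivity) |>.2
    have : (Gm A w x x).im * (Gm A w x x).im ≤ (C / 2) ^ 2 := by
      rw [← sq, ← sq_abs]; gcongr
    nlinarith [sq_nonneg δ, sq_nonneg (δ * C)]
  have hdw : ‖(w + Δ) x - w x‖ ≤ δ * (C * σ ^ 2 / 2) :=
    (hJ.le x).trans (by gcongr; exact h.gam_le hx)
  have hg' : ‖Gm A (w + Δ) x x‖ ≤ C := by
    have := norm_sub_norm_le (Gm A (w + Δ) x x) (Gm A w x x)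
    nlinarith [h.G_le x hx]
  have hw' : ‖(w + Δ) x‖ ≤ C * σ ^ 2 := by
    have := norm_sub_norm_le ((w + Δ) x) (w x)
    have : 0 ≤ C * σ ^ 2 := by positivity
    nlinarith [h.w_le x hx]
  have h1 := h.sml.beta_taylor (h.r01 x) (h.G_le' hx) hg' (h.w_le' hx) hw'
  have h2 := hJ.second x
  change ‖bt σ N r A (w + Δ) x - (bt σ N r A w x - (1 - 2 * bt σ N r A w x * Gm A w x x +
    et σ N r A w x * Gm A w x x ^ 2) * ((w + Δ) x - w x) -
    et σ N r A w x * (Gm A (w + Δ) x x - Gm A w x x))‖ ≤ _ at h1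
  have h3 : bt σ N r A w x - (1 - 2 * bt σ N r A w x * Gm A w x x +
      et σ N r A w x * Gm A w x x ^ 2) * ((w + Δ) x - w x) -
      et σ N r A w x * (Gm A (w + Δ) x x - Gm A w x x) =
      -(et σ N r A w x * (Gm A (w + Δ) x x - Gm A w x x +
        ∑ y, Gm A w x y ^ 2 * ((w + Δ) y - w y))) := by
    have h4 := (hΔ x hx).1
    have h5 : ∑ y ∈ O, XN σ N r A w x y * Δ y =
        et σ N r A w x / (1 - 2 * bt σ N r A w x * Gm A w x x) *
          (∑ y, Gm A w x y ^ 2 * Δ y - Gm A w x x ^ 2 * Δ x) := by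
      rw [← add_sum_erase _ _ (mem_univ x), add_sub_cancel_left, mul_sum,
        sum_subset (subset_univ O) (fun y _ hy => by simp [hs y hy]),
        ← sum_erase (a := x) univ (by simp [XN])]
      exact sum_congr rfl fun y hy => by rw [XN, if_neg (ne_of_mem_erase hy).symm, mul_assoc]
    rw [h5] at h4
    have h6 := h.den_ne hx
    field_simp at h4
    simp only [Pi.add_apply, add_sub_cancel_left]
    linear_combination -h4
  rw [h3, sub_neg_eq_add] at h1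
  have h4 : ‖et σ N r A w x * (Gm A (w + Δ) x x - Gm A w x x +
      ∑ y, Gm A w x y ^ 2 * ((w + Δ) y - w y))‖ ≤ 7 / 20 * σ ^ 2 * (2 * δ ^ 2 * (C / 2)) := by
    rw [norm_mul]
    gcongr
    · exact et_le.trans (h.e2_le hx)
    · exact h2.trans (by gcongr; exact (le_abs_self _).trans him)
  have h5 := norm_sub_le (bt σ N r A (w + Δ) x + et σ N r A w x * (Gm A (w + Δ) x x - Gm A w x x +
      ∑ y, Gm A w x y ^ 2 * ((w + Δ) y - w y))) (et σ N r A w x * (Gm A (w + Δ) x x - Gm A w x x +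
      ∑ y, Gm A w x y ^ 2 * ((w + Δ) y - w y)))
  rw [add_sub_cancel_right] at h5
  have h6 : 8 * C * ‖(w + Δ) x - w x‖ ^ 2 + 16 * σ * ‖(w + Δ) x - w x‖ *
      ‖Gm A (w + Δ) x x - Gm A w x x‖ + 8 * σ ^ 3 * ‖Gm A (w + Δ) x x - Gm A w x x‖ ^ 2 ≤
      8 * C * (δ * (C * σ ^ 2 / 2)) ^ 2 + 16 * σ * (δ * (C * σ ^ 2 / 2)) * (δ * C) +
        8 * σ ^ 3 * (δ * C) ^ 2 := by gcongr
  have h7 : 8 * C * (δ * (C * σ ^ 2 / 2)) ^ 2 + 16 * σ * (δ * (C * σ ^ 2 / 2)) * (δ * C) +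
      8 * σ ^ 3 * (δ * C) ^ 2 = δ ^ 2 * C * σ ^ 2 * (2 * (C * σ) ^ 2 + 16 * (C * σ)) := by ring
  have h8 : 2 * (C * σ) ^ 2 + 16 * (C * σ) ≤ 1 / 2 := by nlinarith [mul_pos (by linarith : 0 < C) hσ]
  have h9 : 0 ≤ δ ^ 2 * C * σ ^ 2 := by positivity
  nlinarith


end Gen

/-- early retuning: two-norm lemma -/
theorem Pre.early {d M : ℕ} [NeZero M] {A : Matrix (Tor d M) (Tor d M) ℂ} {w : Tor d M → ℂ}
    {O : Finset (Tor d M)} {C σ b : ℝ} {N : ℕ} {r : Tor d M → ℝ} (h : Pre A w O C σ N r b)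
    {g e' b7 b2 : ℝ} {L n : ℕ} (hg : 0 < g) (hγ : ∀ x ∈ O, g ≤ gam w x ∧ gam w x ≤ 2 * g)
    (he' : 0 ≤ e') (hn : 1 ≤ n)
    (hblk : ∀ p, ‖cmp (Matrix.hadamard (Gm A w) (Gm A w)) (O ∩ tball p L)‖ ≤ b7)
    (hb2 : σ ^ 2 / 2 * (b7 + C ^ 2) ≤ b2)
    (hdec : ∀ x ∈ O, σ ^ 2 / 2 * ∑ y ∈ O, ‖Gm A w x y‖ ^ 2 * tdist x y ≤ e' * L)
    (h1 : 80 * n * b ≤ 1) (h2 : 16 * n * d * e' ≤ 1)
    (h3 : 64 * vol d M (2 * n * L) * b2 ^ (2 * n) ≤ 1) :
    ∃ w', Post A w O C σ N r (8 * n * b) w' := by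
  have hb0 := h.b0
  have hb7 : 0 ≤ b7 := (norm_nonneg _).trans (hblk 0)
  obtain ⟨Δ, h4, h5⟩ := solve_early (O := O) (X := XN σ N r A w) (γ := gam w) (e := 4 * b)
    (b := 2 * b) (b2 := b2)
    (β := fun x => bt σ N r A w x / (1 - 2 * bt σ N r A w x * Gm A w x x))
    hg hγ (by positivity) he' (by positivity) (le_trans (by positivity) hb2) hn
    (fun x hx => by simpa using h.XN_row hx (κ := 1) zero_le_one (by simpa using et_le))
    (fun p => (h.XN_blk inter_subset_left).trans (le_trans (by gcongr; exact hblk p) hb2))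
    (fun x hx => le_trans (by
      rw [mul_sum]
      refine sum_le_sum fun y _ => ?_
      rw [← mul_assoc]
      gcongr; exact h.XN_le hx y) (hdec x hx))
    (by nlinarith) h2 h3 fun x hx => (h.div_le hx _).trans (by
        have := h.bias x hx
        have := h.b1
        nlinarith [norm_nonneg (bt σ N r A w x)])
  have e : 4 * (n : ℝ) * (2 * b) = 8 * n * b := by ring
  rw [e] at h5
  exact ⟨_, h.of_solve (by positivity) (by linarith) h4 h5⟩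

end Crest.Agent.N334.AC.Nw
end

-- ▼ part N334/AC/Nw/After
section

/-! # S0520 (helper74): tails from a twisted bound; ready-to-use forms of the Newton step -/

set_option autoImplicit false

open Finset Complex
open scoped Matrix.Norms.L2Operator Matrix

namespace Crest.Agent.N334.AC.Nw

section Tails

variable {d M : ℕ} [NeZero M] {G : Matrix (Tor d M) (Tor d M) ℂ} {O : Finset (Tor d M)} {θ Ag : ℝ}

theorem tw_nonneg (h : TW θ Ag (cmp G O)) : 0 ≤ Ag := (norm_nonneg _).trans h.norm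

theorem tw_entry (h : TW θ Ag (cmp G O)) {a b : Tor d M} (ha : a ∈ O) (hb : b ∈ O) :
    ‖G a b‖ ≤ Ag * Real.exp (-θ * tdist a b) := by
  simpa [cmp, ha, hb] using h.entry a b



/-- first moment of the squared row -/
theorem tw_moment (h : TW θ Ag (cmp G O)) (h0 : 0 < θ) (h1 : θ ≤ 1) {a : Tor d M} (ha : a ∈ O)
    {S : Finset (Tor d M)} (hS : S ⊆ O) {m : ℝ} (hm : ∑ y ∈ S, ‖G a y‖ ^ 2 ≤ m) (D : ℕ) :
    ∑ y ∈ S, ‖G a y‖ ^ 2 * tdist a y ≤
      D * m + Ag ^ 2 * (2 / θ) * Real.exp (-θ * D / 2) * (3 * d / θ) ^ d := by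
  have hA := tw_nonneg h
  have h2 : ∀ y ∈ S, ‖G a y‖ ^ 2 * tdist a y ≤ D * ‖G a y‖ ^ 2 +
      Ag ^ 2 * (2 / θ) * Real.exp (-θ * D / 2) * Real.exp (-θ * tdist y a) := by
    intro y hy
    by_cases hD : tdist a y ≤ D
    · have : (tdist a y : ℝ) ≤ D := by exact_mod_cast hD
      have : ‖G a y‖ ^ 2 * tdist a y ≤ ‖G a y‖ ^ 2 * D := by gcongr
      have : 0 ≤ Ag ^ 2 * (2 / θ) * Real.exp (-θ * D / 2) * Real.exp (-θ * tdist y a) := by
        positivity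
      linarith
    · have h3 : (D : ℝ) ≤ tdist a y := by exact_mod_cast (not_le.1 hD).le
      have h4 := mul_exp_le (t := tdist a y) h0
      have h5 : Real.exp (-(θ / 2) * tdist a y) ≤ Real.exp (-θ * D / 2) :=
        Real.exp_le_exp.2 (by nlinarith)
      have : 0 ≤ D * ‖G a y‖ ^ 2 := by positivity
      calc _ ≤ (Ag * Real.exp (-θ * tdist a y)) ^ 2 * tdist a y := by
            gcongr; exact tw_entry h ha (hS hy)
        _ = Ag ^ 2 * (tdist a y * Real.exp (-θ * tdist a y)) * Real.exp (-θ * tdist y a) := by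
            rw [tdist_comm y a]; ring
        _ ≤ Ag ^ 2 * (2 / θ * Real.exp (-θ * D / 2)) * Real.exp (-θ * tdist y a) := by
            exact mul_le_mul_of_nonneg_right (mul_le_mul_of_nonneg_left
              (h4.trans (mul_le_mul_of_nonneg_left h5 (by positivity))) (by positivity))
              (by positivity)
        _ ≤ _ := by linarith
  refine (sum_le_sum h2).trans ?_
  rw [sum_add_distrib, ← mul_sum, ← mul_sum]
  gcongr
  exact (sum_le_sum_of_subset_of_nonneg (subset_univ _) fun _ _ _ => by positivity).trans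
    (sum_exp_le h0 h1 a)

end Tails

section Gen

variable {ι : Type} [Fintype ι] [DecidableEq ι]
variable {A : Matrix ι ι ℂ} {w : ι → ℂ} {O : Finset ι} {C σ b : ℝ} {N : ℕ} {r : ι → ℝ} {x : ι}





theorem Post.mono {δ δ' : ℝ} {w' : ι → ℂ} (h : Post A w O C σ N r δ w') (hC : 0 ≤ C) (hδ : δ ≤ δ')
    (hδ' : δ' ≤ 1 / 10) : Post A w O C σ N r δ' w' :=
  ⟨⟨h.1.adm, h.1.δ0.trans hδ, hδ', fun x => (h.1.le x).trans
    (mul_le_mul_of_nonneg_right hδ (h.1.adm.diss x))⟩, h.2.1, fun x hx => (h.2.2 x hx).trans (by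
      have := h.1.δ0; gcongr)⟩


end Gen

/-- early retuning from a global bound on the Schur square and a twisted bound -/
theorem Pre.early' {d M : ℕ} [NeZero M] {A : Matrix (Tor d M) (Tor d M) ℂ} {w : Tor d M → ℂ}
    {O O' : Finset (Tor d M)} {C σ b : ℝ} {N : ℕ} {r : Tor d M → ℝ} (h : Pre A w O C σ N r b)
    {g b7 b2 θ Ag : ℝ} {L D n : ℕ} (hg : 0 < g) (hγ : ∀ x ∈ O, g ≤ gam w x ∧ gam w x ≤ 2 * g)
    (hO : O ⊆ O') (tw : TW θ Ag (cmp (Gm A w) O')) (h0 : 0 < θ) (h1 : θ ≤ 1) (hn : 1 ≤ n)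
    (hL : 0 < L) (hblk : ‖cmp (Matrix.hadamard (Gm A w) (Gm A w)) O‖ ≤ b7)
    (hb2 : σ ^ 2 / 2 * (b7 + C ^ 2) ≤ b2) (hb : 80 * n * b ≤ 1)
    (hD : 8 * n * d * σ ^ 2 *
      (D * (C / g) + Ag ^ 2 * (2 / θ) * Real.exp (-θ * D / 2) * (3 * d / θ) ^ d) ≤ L)
    (h3 : 64 * vol d M (2 * n * L) * b2 ^ (2 * n) ≤ 1) :
    ∃ w', Post A w O C σ N r (8 * n * b) w' := by
  have hC := h.sml.C1
  have hL' : (0 : ℝ) < L := by exact_mod_cast hL
  have sz : M7.Sz A w O g C := ⟨h.adm, hg, by linarith, fun x hx => (hγ x hx).1,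
    fun x hx => (im_le_norm _).trans (h.G_le' hx)⟩
  refine h.early (e' := σ ^ 2 / 2 *
    (D * (C / g) + Ag ^ 2 * (2 / θ) * Real.exp (-θ * D / 2) * (3 * d / θ) ^ d) / L) (L := L)
    hg hγ (by positivity) hn (fun p => (norm_cmp_mono _ inter_subset_left).trans hblk) hb2
    (fun x hx => ?_) hb ?_ h3
  · rw [div_mul_cancel₀ _ hL'.ne']
    gcongr
    exact tw_moment tw h0 h1 (hO hx) hO (sz.row hx subset_rfl) D
  · rw [mul_div_assoc', div_le_one hL']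
    linarith

end Crest.Agent.N334.AC.Nw
end

-- ▼ part N334/AC/P/Newt

/-! # S0520 part P: the Newton step (helper74)
`Nw.Pre.early'` with `C_N = 4C`, `b = (10/9) P⁶ Q x²`, `n = P`, `L = P²ρ`, `b2 = 1/2`; `δ = 8 n b ≤ nu`.
Then `Jmp.*`. -/

set_option autoImplicit false

open Finset Complex
open scoped Matrix.Norms.L2Operator Matrix

namespace Crest.Agent.N334.AC.P

variable {d M : ℕ} [NeZero M] {c : Cx d M} {e : Ep} {g : Sg} {f : Ref d M}

namespace Nt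

theorem P_one (L : Led c e g) : (1 : ℝ) ≤ e.P := le_trans (by norm_num) L.P_ge

theorem C_P (L : Led c e g) : 10 ^ 6 * c.C ^ 3 ≤ (e.P : ℝ) := by
  have := L.ok.C1
  refine le_trans ?_ L.P1
  gcongr <;> norm_num

theorem x_one (L : Led c e g) : g.x ≤ 1 := by
  have h1 : (1 : ℝ) ≤ (e.P : ℝ) ^ 21 := one_le_pow₀ (P_one L)
  nlinarith [L.x_small, L.x_pos]

theorem nu0 (e : Ep) (g : Sg) : 0 ≤ nu e g := by unfold nu; positivity

theorem nu1 (L : Led c e g) : 100 * c.C * (e.P : ℝ) ^ 2 * nu e g ≤ g.x := by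
  have h1 := L.ok.C1
  have h2 := P_one L
  have h3 := nu0 e g
  have h4 : 100 * c.C ≤ (e.P : ℝ) := by
    have : c.C ≤ c.C ^ 3 := le_self_pow₀ h1 (by norm_num)
    linarith [C_P L]
  refine le_trans ?_ L.nu_le
  calc _ ≤ (e.P : ℝ) * (e.P : ℝ) ^ 2 * nu e g := by gcongr
    _ = (e.P : ℝ) ^ 3 * nu e g := by ring
    _ ≤ _ := by gcongr; norm_num

theorem nu2 (L : Led c e g) : 100 * c.C * nu e g ≤ g.x := by
  have h1 := L.ok.C1
  have h2 : (1 : ℝ) ≤ (e.P : ℝ) ^ 2 := one_le_pow₀ (P_one L)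
  have h3 := nu0 e g
  refine le_trans ?_ (nu1 L)
  calc _ = 100 * c.C * 1 * nu e g := by ring
    _ ≤ _ := by gcongr

theorem nu3 (L : Led c e g) : 100 * nu e g ≤ g.x := by
  nlinarith [nu2 L, L.ok.C1, nu0 e g]

theorem d_P (L : Led c e g) : 100 * d * c.C ^ 2 ≤ (e.P : ℝ) := by
  have h1 := L.ok.C1
  have hd : (3 : ℝ) ≤ d := by exact_mod_cast L.ok.hd
  have h2 : (100 * d : ℝ) ≤ (100 * d : ℝ) ^ (5 * d) :=
    le_self_pow₀ (by linarith) (by have := L.ok.hd; omega)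
  have h3 : c.C ^ 2 ≤ 10 ^ 30 * c.C ^ 15 := by
    have : c.C ^ 2 ≤ c.C ^ 15 := by gcongr; norm_num
    nlinarith [pow_pos (zero_lt_one.trans_le h1) 15]
  refine le_trans ?_ L.P2
  gcongr

theorem tail1 (L : Led c e g) :
    e.Bg ^ 2 * (2 / e.ϑ) * Real.exp (-e.ϑ * e.ρ / 2) * (3 * d / e.ϑ) ^ d ≤ 1 := by
  have hϑ := L.ϑ0
  have hϑ1 := L.ϑ_le
  have hd : (3 : ℝ) ≤ d := by exact_mod_cast L.ok.hd
  have hB : 1 ≤ e.Bg := le_trans (by norm_num) L.B_ge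
  have h1 : 1 ≤ 100 * d / e.ϑ := by rw [le_div_iff₀ hϑ]; linarith
  have h2 : 2 / e.ϑ * (3 * d / e.ϑ) ^ d ≤ e.Bg := by
    refine le_trans ?_ L.B_ϑ
    rw [two_mul d, pow_add]
    gcongr
    · refine le_trans ?_ (le_self_pow₀ h1 (by have := L.ok.hd; omega))
      gcongr; linarith
    · norm_num
  have h3 : Real.exp (-e.ϑ * e.ρ / 2) ≤ Real.exp (-e.ϑ * e.ρ / 4) := by
    have : 0 ≤ e.ϑ * e.ρ := by positivity
    exact Real.exp_le_exp.2 (by linarith)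
  calc _ = e.Bg ^ 2 * (2 / e.ϑ * (3 * d / e.ϑ) ^ d) * Real.exp (-e.ϑ * e.ρ / 2) := by ring
    _ ≤ e.Bg ^ 2 * e.Bg * Real.exp (-e.ϑ * e.ρ / 4) := by gcongr
    _ = e.Bg ^ 3 * Real.exp (-e.ϑ * e.ρ / 4) := by ring
    _ ≤ e.Bg ^ 40 * Real.exp (-e.ϑ * e.ρ / 4) := by gcongr; norm_num
    _ ≤ 1 := L.tail

theorem vol1 (L : Led c e g) :
    64 * vol d M (2 * e.P * (e.P ^ 2 * e.ρ)) * (1 / 2 : ℝ) ^ (2 * e.P) ≤ 1 := by
  have hP : 6 ≤ e.P := by
    have : ((6 : ℕ) : ℝ) ≤ e.P := le_trans (by norm_num) L.P_ge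
    exact_mod_cast this
  have hρ := L.ρ_pos
  have h1 : 2 * (2 * e.P * (e.P ^ 2 * e.ρ)) + 1 ≤ 10 * e.P ^ 4 * e.ρ := by
    have h2 : 1 ≤ e.P ^ 3 * e.ρ := Nat.mul_pos (Nat.pow_pos (by omega)) (by omega)
    have h3 : e.P ^ 3 * e.ρ ≤ e.P * (e.P ^ 3 * e.ρ) := Nat.le_mul_of_pos_left _ (by omega)
    calc _ = 4 * (e.P ^ 3 * e.ρ) + 1 := by ring
      _ ≤ 10 * (e.P * (e.P ^ 3 * e.ρ)) := by omega
      _ = _ := by ring
  have h2 : vol d M (2 * e.P * (e.P ^ 2 * e.ρ)) ≤ (2 : ℝ) ^ e.P := by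
    refine (vol_le _).trans ?_
    exact_mod_cast (Nat.pow_le_pow_left h1 d).trans L.logv
  have h3 : (64 : ℝ) ≤ 2 ^ e.P := by
    calc (64 : ℝ) = 2 ^ 6 := by norm_num
      _ ≤ _ := by gcongr; norm_num
  have h4 : 0 ≤ vol d M (2 * e.P * (e.P ^ 2 * e.ρ)) := zero_le_one.trans (one_le_vol _)
  calc _ ≤ 2 ^ e.P * 2 ^ e.P * (1 / 2 : ℝ) ^ (2 * e.P) := by gcongr
    _ = 1 := by rw [← pow_add, ← two_mul, ← mul_pow]; norm_num

/-- the retuning exists -/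
theorem solve (L : Led c e g) (hf : RefOK c e f) {s : St d M} (h : Inv c e f (th0 e g) s) :
    ∃ w', Nw.Post c.A s.w s.ord (4 * c.C) c.σ c.N c.r (nu e g) w' := by
  have D := der L hf L.le0 h
  have hC := L.ok.C1
  have hγ := L.ok.γ0
  have hσ := L.ok.σ0
  have hP := P_one L
  have hx := L.x_pos
  have hν := nu3 L
  have hx1 := x_one L
  have hT : ∀ a ∈ s.ord, a ∈ f.T := fun a ha => hf.sub (h.bas.sub ha)
  have hσ1 : c.C ^ 2 * c.σ ≤ 1 / 1000 ∧ c.σ ≤ 1 / 1000 :=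
    (Nw.sml_Cσ (L.ok.sml hC (by linarith))).2
  set b : ℝ := 10 / 9 * ((e.P : ℝ) ^ 6 * e.Q * g.x ^ 2) with hb
  have hb0 : 0 ≤ b := by positivity
  have hδ : 8 * (e.P : ℝ) * b ≤ nu e g := by
    have h9 : (9 : ℝ) ≤ e.P := le_trans (by norm_num) L.P_ge
    calc _ = 80 / 9 * ((e.P : ℝ) ^ 7 * e.Q * g.x ^ 2) := by rw [hb]; ring
      _ ≤ e.P * ((e.P : ℝ) ^ 7 * e.Q * g.x ^ 2) := by gcongr; linarith
      _ = _ := by rw [nu]; ring
  have pre : Nw.Pre c.A s.w s.ord (4 * c.C) c.σ c.N c.r b :=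
    { adm := h.bas.adm
      sml := L.ok.sml (by linarith) (by linarith)
      r01 := L.ok.r01
      gam_pos := fun a ha => lt_of_lt_of_le (by positivity) (D.gam_ge a (h.bas.opn a ha))
      G_le := fun a ha => (D.g_le a (hT a ha) (h.bas.opn a ha)).trans (by linarith)
      w_le := fun a ha => (D.w_le a (h.bas.opn a ha)).trans (by linarith)
      b0 := hb0
      b1 := by nlinarith
      bias := fun a ha => by
        have h1 := D.gam_ge a (h.bas.opn a ha)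
        calc _ ≤ (e.P : ℝ) ^ 6 * e.Q * g.x ^ 2 * c.γ := h.bias a ha
          _ = b * (9 / 10 * c.γ) := by rw [hb]; ring
          _ ≤ _ := by gcongr }
  have he : c.C * g.e ≤ 1 / 2 := by
    have h1 : g.e ≤ g.e' := L.le0.e_le
    have h2 : c.C ≤ c.C ^ 30 := le_self_pow₀ hC (by norm_num)
    have h3 := L.e'_small
    have h4 := L.e0
    nlinarith
  obtain ⟨w', hw⟩ := pre.early' (g := 9 / 10 * c.γ) (b7 := g.e / c.γ) (b2 := 1 / 2)
    (L := e.P ^ 2 * e.ρ) (D := e.ρ) (n := e.P) (by positivity)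
    (fun a ha => ⟨D.gam_ge a (h.bas.opn a ha), (D.gam_le a).trans (by linarith)⟩)
    (h.bas.sub.trans hf.opn0) D.tw L.ϑ0 (L.ϑ_le.trans (by norm_num)) (by exact_mod_cast hP)
    (Nat.mul_pos (Nat.pow_pos (by exact_mod_cast hP)) (by have := L.ρ_pos; omega))
    (by rw [le_div_iff₀' hγ]; exact h.had)
    (by
      have h1 : c.σ ^ 2 * (g.e / c.γ) ≤ c.C * g.e := by
        have := L.e0
        rw [← mul_div_assoc, div_le_iff₀ hγ]
        nlinarith [L.ok.γ_lo]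
      nlinarith [hσ1.1, hσ1.2])
    (by nlinarith)
    (by
      have hρ : (1 : ℝ) ≤ e.ρ := by exact_mod_cast (show 1 ≤ e.ρ by have := L.ρ_pos; omega)
      have h1 : c.σ ^ 2 * (4 * c.C / (9 / 10 * c.γ)) ≤ 5 * c.C ^ 2 := by
        rw [← mul_div_assoc, div_le_iff₀ (by positivity)]
        nlinarith [L.ok.γ_lo, mul_pos (zero_lt_one.trans_le hC) hγ]
      have h2 : c.σ ^ 2 ≤ c.C ^ 2 * e.ρ := by nlinarith [hσ1.2, one_le_pow₀ (n := 2) hC]
      calc _ ≤ 8 * (e.P : ℝ) * d * c.σ ^ 2 * (e.ρ * (4 * c.C / (9 / 10 * c.γ)) + 1) := by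
            gcongr; exact tail1 L
        _ = 8 * (e.P : ℝ) * d * (e.ρ * (c.σ ^ 2 * (4 * c.C / (9 / 10 * c.γ))) + c.σ ^ 2) := by ring
        _ ≤ 8 * (e.P : ℝ) * d * (e.ρ * (5 * c.C ^ 2) + c.C ^ 2 * e.ρ) := by gcongr
        _ = e.P * (48 * d * c.C ^ 2) * e.ρ := by ring
        _ ≤ e.P * e.P * e.ρ := by
            gcongr
            refine le_trans ?_ (d_P L)
            gcongr; norm_num
        _ = _ := by push_cast; ring)
    (vol1 L)
  exact ⟨w', hw.mono (by linarith) hδ (by linarith)⟩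

theorem four_add (x y : ℝ) : (x + y) ^ 4 ≤ 8 * x ^ 4 + 8 * y ^ 4 := by
  nlinarith [sq_nonneg (x - y), sq_nonneg (x + y), sq_nonneg (x ^ 2 - y ^ 2),
    mul_nonneg (sq_nonneg (x - y)) (sq_nonneg (x + y)), sq_nonneg ((x - y) ^ 2)]

end Nt

open Nt in
theorem newton (L : Led c e g) (hf : RefOK c e f) {s : St d M} (h : Inv c e f (th0 e g) s) :
    ∃ w', Inv c e f (th1 e g) { s with w := w' } := by
  obtain ⟨w', J, hoff, hbias⟩ := solve L hf h
  have D := der L hf L.le0 h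
  have hC := L.ok.C1
  have hγ := L.ok.γ0
  have hx := L.x_pos
  have hx1 := x_one L
  have hν0 := nu0 e g
  have hν1 := nu1 L
  have hν2 := nu2 L
  have hν3 := nu3 L
  have hνh := L.nu_h
  set ν := nu e g
  have hT : ∀ a ∈ s.ord, a ∈ f.T := fun a ha => hf.sub (h.bas.sub ha)
  have o1 : ∀ a, gam w' a ≠ 0 → gam s.w a ≠ 0 := fun a ha h0 => ha (le_antisymm
    (by simpa [h0] using (J.gam_le a).2) (J.adm'.diss a))
  have o2 : ∀ a, gam s.w a ≠ 0 → gam w' a ≠ 0 := fun a ha => ne_of_gt (lt_of_lt_of_le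
    (mul_pos (by linarith) ((h.bas.adm.diss a).lt_of_ne' ha)) (J.gam_le a).1)
  have im : ∀ b ∈ f.T, gam s.w b ≠ 0 → (Gm c.A s.w b b).im ≤ 2 * c.C := fun b hb h0 =>
    (le_abs_self _).trans ((abs_im_le_norm _).trans (D.g_le b hb h0))
  have imo : ∀ a ∈ s.ord, (Gm c.A s.w a a).im ≤ 2 * c.C := fun a ha =>
    im a (hT a ha) (h.bas.opn a ha)
  have dsq : ∀ a ∈ f.T, gam s.w a ≠ 0 → ∀ b ∈ f.T, gam s.w b ≠ 0 →
      ‖c.G w' a b - c.G s.w a b‖ ^ 2 ≤ 8 * (c.C * ν) ^ 2 := fun a ha h0 b hb h1 => by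
    refine (J.entry a b).trans ?_
    calc _ ≤ 2 * ν ^ 2 * (2 * c.C * (2 * c.C)) := by
          gcongr
          exacts [Jp.im_diag h.bas.adm b, im a ha h0, im b hb h1]
      _ = _ := by ring
  have hCν : 0 ≤ c.C * ν := by positivity
  have dx : ∀ a ∈ f.T, gam s.w a ≠ 0 → ∀ b ∈ f.T, gam s.w b ≠ 0 →
      ‖c.G w' a b - c.G s.w a b‖ ≤ g.x := fun a ha h0 b hb h1 =>
    (pow_le_pow_iff_left₀ (norm_nonneg _) hx.le two_ne_zero).1
      ((dsq a ha h0 b hb h1).trans (by nlinarith))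
  have E0 : ∀ ψ, 0 ≤ c.E0 ψ := fun ψ => En_nn _ _
  have he1 : g.e ≤ 1 := by
    have h1 : g.e ≤ g.e' := L.le0.e_le
    have h2 := one_le_pow₀ (n := 30) hC
    nlinarith [L.e'_small, L.e0]
  refine ⟨w',
    { bas :=
      { adm := J.adm'
        abs := fun a ha => (hoff a fun h1 => disjoint_left.1 hf.dT (hT a h1) ha).trans (h.bas.abs a ha)
        rng := h.bas.rng
        cls := fun a ha => ?_
        len := fun a ha => h.bas.len a (o1 a ha)
        full := h.bas.full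
        off := fun a ha => (hoff a fun h1 => ha (h.bas.sub h1)).trans (h.bas.off a ha)
        sub := h.bas.sub
        opn := fun a ha => o2 a (h.bas.opn a ha)
        g2 := fun a ha h0 => h.bas.g2 a ha (o1 a h0)
        g3 := h.bas.g3 }
      sep := h.sep
      near := fun a ha => ?_
      ent := fun a ha b hb hab => ?_
      four := fun a ha => ?_
      pair := fun a ha b hb h0 hab => ?_
      diag := fun b hb h0 => ?_
      bias := fun a ha => ?_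
      ub := ?_
      lb := ?_
      had := ?_
      nrm := ?_
      dwl := fun a ha => ?_ }⟩
  · have h0 : gam s.w a = 0 := by_contra fun h0 => o2 a h0 ha
    exact ⟨(h.bas.cls a h0).1, (hoff a fun h1 => h.bas.opn a h1 h0).trans (h.bas.cls a h0).2⟩
  · have h1 : ‖s.w a - c.w0‖ ≤ g.e * c.γ := h.near a (o1 a ha)
    have h2 : ‖w' a - s.w a‖ ≤ ν * (11 / 10 * c.γ) := (J.le a).trans (by gcongr; exact D.gam_le a)
    have h3 := norm_sub_le_norm_sub_add_norm_sub (w' a) (s.w a) c.w0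
    show ‖w' a - c.w0‖ ≤ (g.e + g.x) * c.γ
    nlinarith
  · have h1 : ‖c.G s.w a b‖ ^ 2 ≤ g.x ^ 2 / e.q := h.ent a ha b hb hab
    have h2 := dsq a (hT a ha) (h.bas.opn a ha) b (hT b hb) (h.bas.opn b hb)
    have h3 : 8 * (c.C * ν) ^ 2 ≤ g.x ^ 2 / e.q := by
      have h4 : 8 * c.C ^ 2 ≤ (e.P : ℝ) ^ 2 := by
        have h5 : c.C ≤ c.C ^ 3 := le_self_pow₀ hC (by norm_num)
        nlinarith [C_P L]
      have := L.q0
      have := L.x0
      calc _ = 8 * c.C ^ 2 * ν ^ 2 := by ring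
        _ ≤ (e.P : ℝ) ^ 2 * ν ^ 2 := by gcongr
        _ ≤ g.x' ^ 2 / e.q := hνh
        _ ≤ _ := by gcongr; exact L.x_le
    have h4 := norm_le_norm_add_norm_sub' (c.G w' a b) (c.G s.w a b)
    show ‖c.G w' a b‖ ^ 2 ≤ 4 * (g.x ^ 2 / e.q)
    calc _ ≤ (‖c.G s.w a b‖ + ‖c.G w' a b - c.G s.w a b‖) ^ 2 := by gcongr
      _ ≤ _ := by nlinarith [sq_nonneg (‖c.G s.w a b‖ - ‖c.G w' a b - c.G s.w a b‖)]
  · have h1 : c.γ * ∑ b ∈ s.ord.erase a, ‖c.G s.w a b‖ ^ 4 ≤ g.x ^ 4 := h.four a ha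
    have h2 : ∑ b ∈ s.ord.erase a, gam s.w b * ‖c.G w' a b - c.G s.w a b‖ ^ 2 ≤ 4 * c.C * ν ^ 2 := by
      refine (sum_le_univ_sum_of_nonneg fun b =>
        mul_nonneg (h.bas.adm.diss b) (sq_nonneg _)).trans ((J.row a).trans ?_)
      nlinarith [imo a ha, sq_nonneg ν]
    have h3 : ∀ b ∈ s.ord.erase a, c.γ * ‖c.G w' a b‖ ^ 4 ≤ 8 * (c.γ * ‖c.G s.w a b‖ ^ 4) +
        72 * (c.C * ν) ^ 2 * (gam s.w b * ‖c.G w' a b - c.G s.w a b‖ ^ 2) := fun b hb => by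
      have hb' := mem_of_mem_erase hb
      have h4 := dsq a (hT a ha) (h.bas.opn a ha) b (hT b hb') (h.bas.opn b hb')
      have h5 := D.gam_ge b (h.bas.opn b hb')
      have h6 := norm_le_norm_add_norm_sub' (c.G w' a b) (c.G s.w a b)
      set u := ‖c.G w' a b - c.G s.w a b‖
      have h7 : c.γ * u ^ 4 ≤ 9 * (c.C * ν) ^ 2 * (gam s.w b * u ^ 2) :=
        calc _ = u ^ 2 * (c.γ * u ^ 2) := by ring
          _ ≤ 8 * (c.C * ν) ^ 2 * (10 / 9 * gam s.w b * u ^ 2) := by gcongr; linarith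
          _ ≤ _ := by
            have : 0 ≤ (c.C * ν) ^ 2 * (gam s.w b * u ^ 2) :=
              mul_nonneg (sq_nonneg _) (mul_nonneg (h.bas.adm.diss b) (sq_nonneg _))
            nlinarith
      calc _ ≤ c.γ * (‖c.G s.w a b‖ + u) ^ 4 := by gcongr
        _ ≤ c.γ * (8 * ‖c.G s.w a b‖ ^ 4 + 8 * u ^ 4) := by gcongr; exact four_add _ _
        _ ≤ _ := by linarith
    have h4 : 72 * (c.C * ν) ^ 2 * (4 * c.C * ν ^ 2) ≤ g.x ^ 4 :=
      calc _ = 288 * (c.C * ν) ^ 2 * (c.C * 1 * ν ^ 2) := by ring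
        _ ≤ 10 ^ 8 * (c.C * ν) ^ 2 * (c.C * c.C * ν ^ 2) := by gcongr; norm_num
        _ = (100 * c.C * ν) ^ 4 := by ring
        _ ≤ _ := by gcongr
    show c.γ * ∑ b ∈ s.ord.erase a, ‖c.G w' a b‖ ^ 4 ≤ 9 * g.x ^ 4
    rw [mul_sum]
    refine (sum_le_sum h3).trans ?_
    rw [sum_add_distrib, ← mul_sum, ← mul_sum, ← mul_sum]
    have : 72 * (c.C * ν) ^ 2 * ∑ b ∈ s.ord.erase a, gam s.w b * ‖c.G w' a b - c.G s.w a b‖ ^ 2 ≤
      72 * (c.C * ν) ^ 2 * (4 * c.C * ν ^ 2) := by gcongr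
    linarith
  · have h1 : ‖c.G s.w a b - c.G0 a b‖ ≤ g.X := h.pair a ha b hb (o1 b h0) hab
    have h2 := dx a (hT a ha) (h.bas.opn a ha) b hb (o1 b h0)
    have h3 := norm_sub_le_norm_sub_add_norm_sub (c.G w' a b) (c.G s.w a b) (c.G0 a b)
    show ‖c.G w' a b - c.G0 a b‖ ≤ g.X + g.x
    linarith
  · have h1 : ‖c.G s.w b b - c.G0 0 0‖ ≤ g.e := h.diag b hb (o1 b h0)
    have h2 := dx b hb (o1 b h0) b hb (o1 b h0)
    have h3 := norm_sub_le_norm_sub_add_norm_sub (c.G w' b b) (c.G s.w b b) (c.G0 0 0)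
    show ‖c.G w' b b - c.G0 0 0‖ ≤ g.e + g.x
    linarith
  · show ‖c.b w' a‖ ≤ g.x ^ 2 * c.γ
    calc _ ≤ ν ^ 2 * (4 * c.C) * c.σ ^ 2 := hbias a ha
      _ ≤ ν ^ 2 * (4 * c.C) * (c.C * c.γ) := by gcongr; exact L.ok.γ_lo
      _ = (2 * (c.C * ν)) ^ 2 * c.γ := by ring
      _ ≤ _ := by gcongr; linarith
  · exact (M6.UB.jmp h.ub E0 he1 (by positivity) J.En_le).mono E0
      (show g.e + 2 * (10 * ν) ≤ g.e + g.x by linarith)
  · exact (M6.LB.jmp h.lb E0 L.e0 (by positivity) (by linarith) o1 J.le_En).mono E0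
      (show g.e + 10 * ν ≤ g.e + g.x by linarith)
  · have h1 : c.γ * ‖cmp (Matrix.hadamard (c.G s.w) (c.G s.w)) s.ord‖ ≤ g.e := h.had
    have h2 := J.had (Q := s.ord) (g := 9 / 10 * c.γ) (c := 2 * c.C) (by positivity) (by positivity)
      fun a ha => ⟨D.gam_ge a (h.bas.opn a ha), imo a ha⟩
    have h3 : c.γ * (4 * ν * (2 * c.C) / (9 / 10 * c.γ)) = 80 / 9 * (c.C * ν) := by
      field_simp; ring
    have h4 := mul_le_mul_of_nonneg_left h2 hγ.le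
    show c.γ * ‖cmp (Matrix.hadamard (Gm c.A w') (Gm c.A w')) s.ord‖ ≤ g.e + g.x
    rw [mul_add, h3] at h4
    exact h4.trans (add_le_add h1 (by linarith))
  · have h1 : ‖cmp (Gm c.A s.w) (opn f.wr)‖ ≤ (e.P : ℝ) ^ 4 * g.D := h.nrm
    show ‖cmp (Gm c.A w') (opn f.wr)‖ ≤ 2 * ((e.P : ℝ) ^ 4 * g.D)
    refine (J.block _).trans ?_
    gcongr
    linarith
  · have h1 : ‖cmp (Gm c.A s.w) (opn f.wr)‖ ≤ (e.P : ℝ) ^ 4 * g.D := h.nrm
    have h2 : ∑ x ∈ opn f.wr, ‖Gm c.A s.w x a‖ ^ 2 ≤ g.D := h.dwl a ha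
    have hD := L.D1
    have h3 : 4 * ν ^ 2 * ‖cmp (Gm c.A s.w) (opn f.wr)‖ * (Gm c.A s.w a a).im ≤ g.D :=
      calc _ ≤ 4 * ν ^ 2 * ((e.P : ℝ) ^ 4 * g.D) * (2 * c.C) := by
            gcongr
            exacts [Jp.im_diag h.bas.adm a, imo a ha]
        _ = 8 * (c.C * 1) * ((e.P : ℝ) ^ 2 * ν) ^ 2 * g.D := by ring
        _ ≤ 10 ^ 4 * (c.C * c.C) * ((e.P : ℝ) ^ 2 * ν) ^ 2 * g.D := by gcongr; norm_num
        _ = (100 * c.C * (e.P : ℝ) ^ 2 * ν) ^ 2 * g.D := by ring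
        _ ≤ 1 ^ 2 * g.D := by gcongr; linarith
        _ = _ := by ring
    show ∑ x ∈ opn f.wr, ‖Gm c.A w' x a‖ ^ 2 ≤ 3 * g.D
    linarith [J.dwell (opn f.wr) a]

end Crest.Agent.N334.AC.P
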