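import Crest.Agent.N334.AC.P.Gen
import Crest.Agent.N334.AC.P.Der
import Crest.Agent.N334.AC.P.One
import Crest.Agent.N334.AC.P.Newt

-- ▼ part N334/AC/P/FP
section

/-! # S0520 part P: monitors of entries (leaf; fill the sorries, keep the statements)
`fam_scalar` with `Q = Re (ω (G - G⁰))/sc`, `ω ∈ {±1, ±i}`, `a = 0`, `J = -Re (ω τ G_ay G_yb)/sc` (`Adm.close_G`, `Der.den`),
`|z| ≤ |Re z| + |Im z| ≤ 6 sc`. Drift: `avg τ = c.b`, `|b| ≤ P⁵Qx²γ`, `∑_y γ|G_ay||G_yb| ≤ 3C` (Ward).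
`p1`: index `(a,b,ω)`, live = the hypotheses of `OutP1`, `sc = nu/6`, QV by Cauchy-Schwarz and `Inv.four` of both rows.
`p2`: `sc = P³x/12`, QV by `One.split` with `e = x²` (row `a` has `Inv.four`, `|G_yb| ≤ 2C`, `Im G_bb ≤ 2C`).
`dg`: `sc = P³z/12`, `∑_y|G_yb|⁴ ≤ 4∑|G0|⁴ + 4X'²∑|G|²` from `Inv.pair`, `RefOK.sepT`, `Led.four`, `X' ≤ z²`.
Far `y`: `Der.dec`, `Led.far2`. -/

set_option autoImplicit false

open Finset Complex
open scoped Matrix.Norms.L2Operator Matrix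

namespace Crest.Agent.N334.AC.P

variable {d M : ℕ} [NeZero M] {c : Cx d M} {e : Ep} {g : Sg} {f : Ref d M}

variable {s0 : CS d M}

namespace FPe

variable {s : CS d M}

/-- Ward bound of a row on the ordinary ports -/
theorem wsum (L : Led c e g) (E : Env c e g f s0 s) {b : Tor d M} (hb : b ∈ f.T)
    (hb' : gam s.w b ≠ 0) : c.γ * ∑ y ∈ s.ord, ‖c.G s.w b y‖ ^ 2 ≤ 3 * c.C := by
  have h1 : ∑ y ∈ s.ord, 9 / 10 * c.γ * ‖c.G s.w b y‖ ^ 2 ≤ ∑ y, gam s.w y * ‖c.G s.w b y‖ ^ 2 :=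
    (sum_le_sum fun y hy => mul_le_mul_of_nonneg_right (E.der.gam_ge y (E.inv.bas.opn y hy))
      (sq_nonneg _)).trans (sum_le_sum_of_subset_of_nonneg (subset_univ _) fun y _ _ =>
        mul_nonneg (E.inv.bas.adm.diss y) (sq_nonneg _))
  have h2 : ∑ y, gam s.w y * ‖c.G s.w b y‖ ^ 2 ≤ 2 * c.C :=
    (E.inv.bas.adm.ward_diag b).le.trans ((im_le_norm _).trans (E.der.g_le b hb hb'))
  rw [← mul_sum] at h1
  have := L.ok.C1
  linarith

/-- the four directions -/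
noncomputable def om : Fin 4 → ℂ := ![1, -1, I, -I]

theorem norm_om (j : Fin 4) : ‖om j‖ = 1 := by fin_cases j <;> simp [om]

theorem norm_le_om {z : ℂ} {t : ℝ} (h : ∀ j, (om j * z).re ≤ t) : ‖z‖ ≤ 2 * t := by
  have h0 := h 0
  have h1 := h 1
  have h2 := h 2
  have h3 := h 3
  simp [om] at h0 h1 h2 h3
  have h4 : |z.re| ≤ t := abs_le.2 ⟨by linarith, h0⟩
  have h5 : |z.im| ≤ t := abs_le.2 ⟨by linarith, h3⟩
  linarith [norm_le_abs_re_add_abs_im z]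

theorem abs_re_om (j : Fin 4) (z : ℂ) : |(om j * z).re| ≤ ‖z‖ :=
  (abs_re_le_norm _).trans_eq (by rw [norm_mul, norm_om, one_mul])

theorem x_le_one (L : Led c e g) : g.x ≤ 1 := by
  have h1 := L.x_small
  have h2 : (1 : ℝ) ≤ (e.P : ℝ) ^ 21 := one_le_pow₀ (le_trans (by norm_num) L.P_ge)
  nlinarith [L.x_pos]

open Classical in
/-- monitors of a family of entries -/
theorem fam_entry (L : Led c e g) (h0 : Pre c e g f s0)
    (live : Tor d M → Tor d M → CS d M → Prop) {sc : ℝ} (h1 : g.x ^ 2 ≤ sc)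
    (h2 : 12 * c.C * ((e.P : ℝ) ^ 6 * e.Q * g.x ^ 2) ≤ sc)
    (hρ : ∀ a b, live a b s0 → tdist b a ≤ e.ρ)
    (hfz : ∀ a b (s : CS d M) F, live a b (s.frz (3 * e.ρ) F) → live a b s)
    (hlv : ∀ a b (s : CS d M) ω, live a b (s.next c ω) → live a b s)
    (hne : ∀ a b (s : CS d M) y k, live a b (s.next c (some (y, k))) → y ≠ a ∧ y ≠ b)
    (hT : ∀ a b s, Env c e g f s0 s → live a b s →
      (a ∈ f.T ∧ gam s.w a ≠ 0) ∧ b ∈ f.T ∧ gam s.w b ≠ 0)
    (hQ : ∀ a b s, Env c e g f s0 s → live a b s → 16 * c.C * (e.P : ℝ) ^ 2 *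
      (c.γ * ∑ y ∈ (s.ord.erase a).erase b, ‖c.G s.w a y‖ ^ 2 * ‖c.G s.w y b‖ ^ 2) ≤ sc ^ 2) :
    Fam c e g f s0 fun s => ∀ a b, live a b s → ‖c.G s.w a b - c.G s0.w a b‖ ≤ 6 * sc := by
  have hx := L.x_pos
  have hsc : 0 < sc := lt_of_lt_of_le (by positivity) h1
  have hP : (1 : ℝ) ≤ e.P := le_trans (by norm_num) L.P_ge
  have hC := L.ok.C1
  have hγ := L.ok.γ0
  refine (fam_scalar L h0.n0 (fun s (E : Env c e g f s0 s) => E.rch.sub)
    (ι := (Tor d M × Tor d M) × Fin 4) (fun i => i.1.1) (fun i s => live i.1.1 i.1.2 s)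
    (fun i s => (om i.2 * (c.G s.w i.1.1 i.1.2 - c.G s0.w i.1.1 i.1.2)).re / sc) (fun p => ?_)
    (fun i s F h => ⟨hfz _ _ _ _ h, le_rfl⟩) (fun i s ω h => hlv _ _ _ _ h) ?_).mono
    (fun s _ h a b hl => ?_) le_rfl
  · have h3 : #{i : (Tor d M × Tor d M) × Fin 4 | i.1.1 = p ∧ live i.1.1 i.1.2 s0} ≤
        #((({p} : Finset (Tor d M)) ×ˢ tball p e.ρ) ×ˢ (univ : Finset (Fin 4))) :=
      card_le_card fun i hi => by
        obtain ⟨a1, a2⟩ := (mem_filter.1 hi).2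
        exact mem_product.2 ⟨mem_product.2 ⟨mem_singleton.2 a1, mem_tball.2 (a1 ▸ hρ _ _ a2)⟩,
          mem_univ _⟩
    rw [card_product, card_product, card_singleton, card_univ, Fintype.card_fin, one_mul] at h3
    refine le_trans ?_ L.mult_vol
    have h4 : vol d M e.ρ ≤ vol d M (10 * e.ρ) := vol_mono (by omega)
    have h5 : (1 : ℝ) ≤ (e.P : ℝ) ^ 3 * e.Q :=
      one_le_mul_of_one_le_of_one_le (one_le_pow₀ hP) ((one_le_pow₀ hP).trans L.Q_ge)
    have h6 := one_le_vol (d := d) (M := M) (10 * e.ρ)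
    calc _ ≤ ((#(tball p e.ρ) * 4 : ℕ) : ℝ) := Nat.cast_le.2 h3
      _ = vol d M e.ρ * 4 := by rw [Nat.cast_mul, card_tball]; norm_num
      _ ≤ _ := by nlinarith
  · rintro ⟨⟨a, b⟩, j⟩ s E - hl
    obtain ⟨⟨ha, ha'⟩, hb, hb'⟩ := hT a b s E hl
    have hV := hQ a b s E hl
    have hA := E.rch.sub
    have adm := E.inv.bas.adm
    let J : Tor d M → ℕ → ℝ := fun y k => if y ≠ a ∧ y ≠ b then
      -(om j * (c.τ s.w y k * c.G s.w a y * c.G s.w y b)).re / sc else 0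
    let m : Tor d M → ℝ := fun y =>
      if y ≠ a ∧ y ≠ b then ‖c.G s.w a y‖ ^ 2 * ‖c.G s.w y b‖ ^ 2 else 0
    have hm0 : ∀ y, 0 ≤ m y := fun y => by simp only [m]; split_ifs <;> positivity
    have hJ : ∀ y ∈ s.ord, ∀ k < c.N, J y k ^ 2 ≤ 4 * c.C * c.γ / sc ^ 2 * m y := fun y hy k hk => by
      simp only [J, m]
      split_ifs
      · rw [div_pow, neg_sq, div_mul_eq_mul_div]
        refine div_le_div_of_nonneg_right ?_ (sq_nonneg _)
        rw [← sq_abs]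
        refine (pow_le_pow_left₀ (abs_nonneg _) (abs_re_om _ _) 2).trans ?_
        rw [mul_assoc, norm_mul, norm_mul, mul_pow, mul_pow]
        exact mul_le_mul_of_nonneg_right (E.der.τ_le y hy k hk) (by positivity)
      · simp
    have hm : 4 * c.C * c.γ / sc ^ 2 * ∑ y ∈ s.ord, m y ≤ 1 / (4 * (e.P : ℝ) ^ 2) := by
      have e1 : ∑ y ∈ s.ord, m y =
          ∑ y ∈ (s.ord.erase a).erase b, ‖c.G s.w a y‖ ^ 2 * ‖c.G s.w y b‖ ^ 2 := by
        rw [← sum_filter]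
        refine sum_congr ?_ fun _ _ => rfl
        ext y; simp only [mem_filter, mem_erase]; tauto
      rw [e1, div_mul_eq_mul_div, div_le_div_iff₀ (by positivity) (by positivity)]
      linarith
    have hS : s.A ∩ tball a (2 * e.ρ) ⊆ s.ord := inter_subset_left.trans hA
    refine ⟨0, J, by norm_num, Or.inl le_rfl, (add_zero _).ge, fun y hy k hk hl' => ?_,
      fun y hy k hk => ?_, ?_, ?_⟩
    · have e1 : c.G (s.next c (some (y, k))).w a b =
          c.G s.w a b - c.τ s.w y k * c.G s.w a y * c.G s.w y b :=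
        adm.close_G (E.der.den y (hA hy) k hk) a b
      simp only [e1, J, if_pos (hne a b s y k hl')]
      rw [add_zero, sub_right_comm, mul_sub, sub_re, sub_div, sub_eq_add_neg, ← neg_div]
      refine add_le_add le_rfl ?_
      split_ifs with hy'
      · exact le_rfl
      · have hB : (1 : ℝ) ≤ e.Bg := le_trans (by norm_num) L.B_ge
        have hd : e.ρ ≤ tdist y a := by rw [mem_tball] at hy'; omega
        have o : ∀ u, gam s.w u ≠ 0 → u ∈ opn f.wr := fun u hu => E.der.sub0 (mem_opn.2 hu)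
        have oy := o y (E.inv.bas.opn y (hA hy))
        have g1 := E.der.dec a (o a ha') y oy
        have g2 : ‖c.G s.w y b‖ ≤ e.Bg := (E.der.dec y oy b (o b hb')).trans
          (mul_le_of_le_one_right (by positivity) (Real.exp_le_one_iff.2 (by
            have := L.ϑ0; have : (0 : ℝ) ≤ tdist y b := Nat.cast_nonneg _; nlinarith)))
        have g3 : ‖c.τ s.w y k‖ ≤ 1 := by
          refine (sq_le_one_iff₀ (norm_nonneg _)).1 ((E.der.τ_le y (hA hy) k hk).trans ?_)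
          have := L.ok.γ_le
          have h30 : c.C ≤ c.C ^ 30 := le_self_pow₀ hC (by norm_num)
          nlinarith [mul_le_mul_of_nonneg_right h30 hγ.le]
        have g4 : 1 ≤ e.Bg ^ 28 * sc := by
          have h5 := pow_le_pow_left₀ zero_le_one L.B_x' 2
          have h6 : e.Bg ^ 2 ≤ e.Bg ^ 28 := pow_le_pow_right₀ hB (by norm_num)
          rw [one_pow, mul_pow] at h5
          exact h5.trans (mul_le_mul h6 h1 (by positivity) (by positivity))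
        rw [tdist_comm a y] at g1
        refine le_trans ?_ (L.far2 hd)
        rw [div_le_iff₀ hsc]
        refine (neg_le_abs _).trans ((abs_re_om _ _).trans ?_)
        rw [norm_mul, norm_mul]
        calc _ ≤ 1 * (e.Bg * Real.exp (-e.ϑ * tdist y a)) * e.Bg := by gcongr
          _ = e.Bg ^ 2 * Real.exp (-e.ϑ * tdist y a) * 1 := by ring
          _ ≤ e.Bg ^ 2 * Real.exp (-e.ϑ * tdist y a) * (e.Bg ^ 28 * sc) := by gcongr
          _ = _ := by ring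
    · have h3 := ((hJ y (hS hy) k hk).trans (mul_le_mul_of_nonneg_left (single_le_sum
        (fun y _ => hm0 y) (hS hy)) (by positivity))).trans hm
      rw [le_div_iff₀ (by positivity), ← sq_abs] at h3
      refine (sq_le_one_iff₀ (by positivity)).1 ?_
      nlinarith [sq_nonneg ((e.P : ℝ) * |J y k|)]
    · rw [zero_add, div_eq_mul_one_div]
      refine mul_le_mul_of_nonneg_left ?_ dt_pos.le
      have h3 : ∀ y ∈ s.ord, avg c.N (J y) ≤ (e.P : ℝ) ^ 5 * e.Q * g.x ^ 2 / (2 * sc) *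
          (c.γ * ‖c.G s.w a y‖ ^ 2 + c.γ * ‖c.G s.w b y‖ ^ 2) := fun y hy => by
        by_cases hy' : y ≠ a ∧ y ≠ b
        · have e1 : J y = fun k => -sc⁻¹ *
              (c.τ s.w y k * (c.G s.w a y * c.G s.w y b * om j)).re := by
            funext k
            simp only [J, if_pos hy']
            rw [show c.τ s.w y k * (c.G s.w a y * c.G s.w y b * om j) =
              om j * (c.τ s.w y k * c.G s.w a y * c.G s.w y b) by ring]
            ring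
          have e2 : avgV c.N (c.τ s.w y) = c.b s.w y := rfl
          rw [e1, avg_mul, avg_re, avgV_mul, e2, neg_mul, ← mul_neg, ← div_eq_inv_mul,
            div_le_iff₀ hsc]
          refine (neg_le_abs _).trans ((abs_re_le_norm _).trans ?_)
          have h4 : ‖c.b s.w y‖ ≤ (e.P : ℝ) ^ 5 * e.Q * g.x ^ 2 * c.γ := E.inv.bias y hy
          have h5 : ‖c.G s.w y b‖ = ‖c.G s.w b y‖ := congrArg norm (adm.G_sym y b)
          rw [norm_mul, norm_mul, norm_mul, norm_om, mul_one, h5]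
          calc _ ≤ (e.P : ℝ) ^ 5 * e.Q * g.x ^ 2 * c.γ *
                ((‖c.G s.w a y‖ ^ 2 + ‖c.G s.w b y‖ ^ 2) / 2) := by
                refine mul_le_mul h4 ?_ (by positivity) (by positivity)
                nlinarith [sq_nonneg (‖c.G s.w a y‖ - ‖c.G s.w b y‖)]
            _ = _ := by field_simp
        · have e1 : J y = fun _ => 0 := funext fun k => if_neg hy'
          rw [e1, avg_const L.ok.N0]
          positivity
      refine ((sum_le_sum fun y hy => h3 y (hS hy)).trans (sum_le_sum_of_subset_of_nonneg hS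
        fun y _ _ => by positivity)).trans ?_
      rw [← mul_sum, sum_add_distrib, ← mul_sum, ← mul_sum]
      refine (mul_le_mul_of_nonneg_left (add_le_add (wsum L E ha ha') (wsum L E hb hb'))
        (by positivity)).trans ?_
      rw [div_mul_eq_mul_div, div_le_div_iff₀ (by positivity) (by positivity)]
      linarith
    · have h3 : ∑ y ∈ s.A ∩ tball a (2 * e.ρ), avg c.N (fun k => J y k ^ 2) ≤
          1 / (4 * (e.P : ℝ) ^ 2) := by
        refine le_trans ?_ hm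
        rw [mul_sum]
        exact (sum_le_sum fun y hy => (avg_mono (hJ y (hS hy))).trans_eq
          (avg_const L.ok.N0 _)).trans (sum_le_sum_of_subset_of_nonneg hS fun y _ _ =>
            mul_nonneg (by positivity) (hm0 y))
      refine (mul_le_mul_of_nonneg_left h3 (by positivity)).trans_eq ?_
      field_simp
  · refine (norm_le_om (t := 3 * sc) fun j => ?_).trans_eq (by ring)
    have := h ((a, b), j) hl
    simp only [sub_self, mul_zero, zero_re, zero_div, zero_add] at this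
    exact (div_le_iff₀ hsc).1 this

theorem ord_T (hf : RefOK c e f) (E : Env c e g f s0 s) {a : Tor d M} (ha : a ∈ s.ord) :
    a ∈ f.T ∧ gam s.w a ≠ 0 := ⟨hf.sub (E.inv.bas.sub ha), E.inv.bas.opn a ha⟩

omit [NeZero M] in
theorem next_ord {ω : Option (Tor d M × ℕ)} {a : Tor d M} (h : a ∈ (s.next c ω).ord) :
    a ∈ s.ord := by
  rcases ω with _ | ⟨y, k⟩
  exacts [h, (mem_erase.1 h).2]

theorem next_ne {y b : Tor d M} {k : ℕ} (h : gam (s.next c (some (y, k))).w b ≠ 0) : y ≠ b := by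
  rintro rfl
  exact h (gam_cls_self _ _ _)

theorem next_gam {ω : Option (Tor d M × ℕ)} {b : Tor d M} (h : gam (s.next c ω).w b ≠ 0) :
    gam s.w b ≠ 0 := by
  rcases ω with _ | ⟨y, k⟩
  · exact h
  · exact (gam_cls_ne s.w (c.v y k) (next_ne h).symm) ▸ h

theorem four (E : Env c e g f s0 s) {a : Tor d M} (ha : a ∈ s.ord) (L : Led c e g)
    {S : Finset (Tor d M)} (hS : S ⊆ s.ord.erase a) :
    c.γ * ∑ y ∈ S, ‖c.G s.w a y‖ ^ 4 ≤ 13 * g.x ^ 4 :=
  (mul_le_mul_of_nonneg_left (sum_le_sum_of_subset_of_nonneg hS fun _ _ _ => by positivity)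
    L.ok.γ0.le).trans (E.inv.four a ha)

theorem C_le (L : Led c e g) : 10 ^ 7 * c.C ^ 3 ≤ (e.P : ℝ) := by
  have h1 : c.C ^ 3 ≤ c.C ^ 30 := pow_le_pow_right₀ L.ok.C1 (by norm_num)
  have h2 : 0 ≤ c.C ^ 3 := pow_nonneg (zero_le_one.trans L.ok.C1) 3
  linarith [L.P1]

/-- the scale `P³ t / 12`, `x ≤ t` -/
theorem scale (L : Led c e g) {t : ℝ} (ht : g.x ≤ t) : g.x ^ 2 ≤ (e.P : ℝ) ^ 3 * t / 12 ∧
    12 * c.C * ((e.P : ℝ) ^ 6 * e.Q * g.x ^ 2) ≤ (e.P : ℝ) ^ 3 * t / 12 := by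
  have hx := L.x_pos
  have hP := L.P_ge
  have hP1 : (1 : ℝ) ≤ e.P := le_trans (by norm_num) hP
  have h1 : (e.P : ℝ) ^ 3 * g.x / 12 ≤ (e.P : ℝ) ^ 3 * t / 12 := by gcongr
  have h2 : (e.P : ℝ) ≤ (e.P : ℝ) ^ 3 := le_self_pow₀ hP1 (by norm_num)
  refine ⟨le_trans ?_ h1, le_trans ?_ h1⟩
  · nlinarith [x_le_one L]
  · have h3 : c.C ≤ c.C ^ 3 := le_self_pow₀ L.ok.C1 (by norm_num)
    have h4 : 144 * c.C ≤ (e.P : ℝ) ^ 12 :=
      le_trans (by linarith [C_le L, L.ok.C1]) (le_self_pow₀ hP1 (by norm_num))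
    have h5 : 144 * c.C * ((e.P : ℝ) ^ 3 * e.Q * g.x) ≤ 1 :=
      (mul_le_mul_of_nonneg_right h4 (by positivity)).trans (le_of_eq_of_le (by ring) L.main)
    have h6 := mul_le_mul_of_nonneg_right h5 (by positivity : 0 ≤ (e.P : ℝ) ^ 3 * g.x / 12)
    linarith

/-- quadratic variation at the scale `P³ t / 12` -/
theorem qv (L : Led c e g) {t V : ℝ} (h : V ≤ 100 * c.C ^ 2 * t ^ 2) :
    16 * c.C * (e.P : ℝ) ^ 2 * V ≤ ((e.P : ℝ) ^ 3 * t / 12) ^ 2 := by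
  have hC := L.ok.C1
  have hP1 : (1 : ℝ) ≤ e.P := le_trans (by norm_num) L.P_ge
  have h1 : 10 ^ 7 * c.C ^ 3 ≤ (e.P : ℝ) ^ 4 := (C_le L).trans (le_self_pow₀ hP1 (by norm_num))
  have h2 := mul_le_mul_of_nonneg_right h1 (by positivity : 0 ≤ (e.P : ℝ) ^ 2 * t ^ 2)
  have h3 := mul_le_mul_of_nonneg_left h (by positivity : 0 ≤ 16 * c.C * (e.P : ℝ) ^ 2)
  have h4 : 0 ≤ c.C ^ 3 * ((e.P : ℝ) ^ 2 * t ^ 2) := by positivity
  nlinarith

end FPe

open FPe

theorem fam_p1 (L : Led c e g) (hf : RefOK c e f) (h0 : Pre c e g f s0) :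
    Fam c e g f s0 (OutP1 c e g s0) := by
  have hx := L.x_pos
  have hC := L.ok.C1
  have hP1 : (1 : ℝ) ≤ e.P := le_trans (by norm_num) L.P_ge
  have hQ : (1 : ℝ) ≤ e.Q := (one_le_pow₀ hP1).trans L.Q_ge
  have h3 : c.C ≤ c.C ^ 3 := le_self_pow₀ hC (by norm_num)
  have h4 : 10 ^ 7 * c.C ≤ (e.P : ℝ) ^ 2 :=
    le_trans (by linarith [C_le L]) (le_self_pow₀ hP1 (by norm_num))
  have h5 : 1 ≤ (e.P : ℝ) ^ 6 * e.Q := one_le_mul_of_one_le_of_one_le (one_le_pow₀ hP1) hQ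
  have h6 : 12 * c.C * ((e.P : ℝ) ^ 6 * e.Q * g.x ^ 2) ≤ nu e g / 6 := by
    have := mul_le_mul_of_nonneg_right h4 (by positivity : 0 ≤ (e.P : ℝ) ^ 6 * e.Q * g.x ^ 2)
    have : 0 ≤ c.C * ((e.P : ℝ) ^ 6 * e.Q * g.x ^ 2) := by positivity
    rw [nu]; linarith
  have h7 : g.x ^ 2 ≤ (e.P : ℝ) ^ 6 * e.Q * g.x ^ 2 := le_mul_of_one_le_left (sq_nonneg _) h5
  refine (fam_entry L h0 (fun a b s => a ∈ s.ord ∧ b ∈ s.ord ∧ a ≠ b ∧ tdist b a ≤ e.ρ)
    (sc := nu e g / 6) (le_trans ?_ h6) h6 (fun a b h => h.2.2.2)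
    (fun a b s F h => ⟨(mem_sdiff.1 h.1).1, (mem_sdiff.1 h.2.1).1, h.2.2⟩)
    (fun a b s ω h => ⟨next_ord h.1, next_ord h.2.1, h.2.2⟩)
    (fun a b s y k h => ⟨(mem_erase.1 h.1).1.symm, (mem_erase.1 h.2.1).1.symm⟩)
    (fun a b s E h => ⟨ord_T hf E h.1, ord_T hf E h.2.1⟩) fun a b s E h => ?_).mono
    (fun s _ h a ha b hb hab hd => (h a b ⟨ha, hb, hab, hd⟩).trans_eq (by ring)) le_rfl
  · nlinarith [sq_nonneg g.x]
  · have a1 := four E h.1 L (erase_subset b _)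
    have a2 := four E h.2.1 L (S := (s.ord.erase a).erase b) (erase_subset_erase _ (erase_subset _ _))
    have a3 : c.γ * ∑ y ∈ (s.ord.erase a).erase b, ‖c.G s.w a y‖ ^ 2 * ‖c.G s.w y b‖ ^ 2 ≤
        13 * g.x ^ 4 := by
      refine le_trans (mul_le_mul_of_nonneg_left (sum_le_sum (g := fun y =>
        (‖c.G s.w a y‖ ^ 4 + ‖c.G s.w b y‖ ^ 4) / 2) fun y _ => ?_) L.ok.γ0.le) ?_
      · rw [show c.G s.w y b = c.G s.w b y from E.inv.bas.adm.G_sym y b]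
        nlinarith [sq_nonneg (‖c.G s.w a y‖ ^ 2 - ‖c.G s.w b y‖ ^ 2)]
      · rw [← sum_div, sum_add_distrib]; linarith
    refine (mul_le_mul_of_nonneg_left a3 (by positivity)).trans ?_
    have a4 : (e.P : ℝ) ^ 2 * g.x ^ 2 ≤ (e.P : ℝ) ^ 8 * e.Q * g.x ^ 2 := by
      have := mul_le_mul_of_nonneg_left h7 (sq_nonneg (e.P : ℝ))
      linarith
    have a5 := pow_le_pow_left₀ (by positivity) a4 2
    have a6 := mul_le_mul_of_nonneg_right h4 (by positivity : 0 ≤ (e.P : ℝ) ^ 2 * g.x ^ 4)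
    have a7 : 0 ≤ c.C * ((e.P : ℝ) ^ 2 * g.x ^ 4) := by positivity
    rw [nu, div_pow]
    nlinarith

theorem fam_p2 (L : Led c e g) (hf : RefOK c e f) (h0 : Pre c e g f s0) :
    Fam c e g f s0 (OutP2 c e g f s0) := by
  have hx := L.x_pos
  have hC := L.ok.C1
  have hγ := L.ok.γ0
  refine (fam_entry L h0
    (fun a b s => a ∈ s.ord ∧ b ∈ f.T ∧ gam s.w b ≠ 0 ∧ a ≠ b ∧ tdist b a ≤ e.ρ)
    (scale L le_rfl).1 (scale L le_rfl).2 (fun a b h => h.2.2.2.2)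
    (fun a b s F h => ⟨(mem_sdiff.1 h.1).1, h.2⟩)
    (fun a b s ω h => ⟨next_ord h.1, h.2.1, next_gam h.2.2.1, h.2.2.2⟩)
    (fun a b s y k h => ⟨(mem_erase.1 h.1).1.symm, next_ne h.2.2.1⟩)
    (fun a b s E h => ⟨ord_T hf E h.1, h.2.1, h.2.2.1⟩) fun a b s E h => qv L ?_).mono
    (fun s _ h a ha b hb hb' hab hd => (h a b ⟨ha, hb, hb', hab, hd⟩).trans_eq (by ring)) le_rfl
  have hS : (s.ord.erase a).erase b ⊆ s.ord := (erase_subset _ _).trans (erase_subset _ _)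
  have a1 := four E h.1 L (erase_subset b _)
  have a2 := One.split ((s.ord.erase a).erase b) (c.G s.w a)
    (c := fun y => c.γ * ‖c.G s.w y b‖ ^ 2) (e := g.x ^ 2) (s1 := 3 * c.C)
    (si := c.γ * (2 * c.C) ^ 2) (by positivity) (fun _ _ => by positivity)
    (fun y hy => mul_le_mul_of_nonneg_left (pow_le_pow_left₀ (norm_nonneg _)
      (E.der.e_le y (hS hy) b h.2.1 h.2.2.1) 2) hγ.le) (by
      refine le_trans ?_ (wsum L E h.2.1 h.2.2.1)
      rw [mul_sum]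
      refine (sum_le_sum_of_subset_of_nonneg hS fun _ _ _ => by positivity).trans_eq ?_
      exact sum_congr rfl fun y _ => by
        rw [show c.G s.w y b = c.G s.w b y from E.inv.bas.adm.G_sym y b])
  have a3 : (∑ y ∈ (s.ord.erase a).erase b, ‖c.G s.w a y‖ ^ 4) / g.x ^ 2 * (c.γ * (2 * c.C) ^ 2) ≤
      13 * g.x ^ 2 * (2 * c.C) ^ 2 := by
    rw [← mul_assoc]
    refine mul_le_mul_of_nonneg_right ?_ (sq_nonneg _)
    rw [div_mul_eq_mul_div, div_le_iff₀ (by positivity)]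
    linarith
  rw [mul_sum, sum_congr rfl fun y _ => mul_left_comm _ _ _]
  nlinarith [mul_nonneg (sq_nonneg g.x) (mul_nonneg (zero_le_one.trans hC) (sub_nonneg.2 hC)),
    mul_nonneg (sq_nonneg g.x) (sq_nonneg c.C)]

theorem fam_dg (L : Led c e g) (hf : RefOK c e f) (h0 : Pre c e g f s0) :
    Fam c e g f s0 (OutDg c e g f s0) := by
  have hC := L.ok.C1
  have hγ := L.ok.γ0
  refine (fam_entry L h0 (fun a b s => a = b ∧ b ∈ f.T ∧ gam s.w b ≠ 0)
    (scale L L.x_le_z).1 (scale L L.x_le_z).2 (fun a b h => by rw [h.1, tdist_self]; omega)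
    (fun a b s F h => h) (fun a b s ω h => ⟨h.1, h.2.1, next_gam h.2.2⟩)
    (fun a b s y k h => ⟨h.1 ▸ next_ne h.2.2, next_ne h.2.2⟩)
    (fun a b s E h => ⟨h.1 ▸ h.2, h.2⟩) fun a b s E h => qv L ?_).mono
    (fun s _ h b hb hb' => (h b b ⟨rfl, hb, hb'⟩).trans_eq (by ring)) le_rfl
  obtain ⟨rfl, ha, ha'⟩ := h
  have hz : g.z ≤ 1 := by
    have h1 : (1 : ℝ) ≤ (e.P : ℝ) ^ 3 := one_le_pow₀ (le_trans (by norm_num) L.P_ge)
    have h2 : (1 : ℝ) ≤ c.C ^ 30 := one_le_pow₀ hC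
    have h3 := (le_mul_of_one_le_left L.z0 h1).trans L.z_small
    have h4 := L.e'_small
    nlinarith [mul_le_mul_of_nonneg_right h2 (L.z0.trans h3)]
  have hX : 0 ≤ g.X' := le_trans (by have := L.X0; have := L.x_pos; positivity) L.X_inc
  have a1 : ∀ y ∈ s.ord.erase a, ‖c.G s.w a y‖ ^ 2 * ‖c.G s.w y a‖ ^ 2 ≤
      4 * (‖c.G0 (y - a) 0‖ ^ 4 * (1 + (c.σ ^ 2 * tdist (y - a) 0) ^ 2)) +
        4 * g.z ^ 4 * ‖c.G s.w a y‖ ^ 2 := fun y hy => by
    have b1 : ‖c.G s.w y a - c.G0 y a‖ ≤ g.X' :=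
      E.inv.pair y (mem_erase.1 hy).2 a ha ha' (mem_erase.1 hy).1
    have b2 : c.G0 y a = c.G0 (y - a) 0 := L.ok.init.transl y a
    have b3 : c.G s.w y a = c.G s.w a y := E.inv.bas.adm.G_sym y a
    rw [b2, b3] at b1
    rw [b3]
    have b4 := (norm_sub_norm_le _ _).trans (b1.trans L.X_z)
    have b5 : ‖c.G0 (y - a) 0‖ ^ 4 ≤
        ‖c.G0 (y - a) 0‖ ^ 4 * (1 + (c.σ ^ 2 * tdist (y - a) 0) ^ 2) :=
      le_mul_of_one_le_right (by positivity) (le_add_of_nonneg_right (sq_nonneg _))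
    have hu := norm_nonneg (c.G s.w a y)
    have hv := norm_nonneg (c.G0 (y - a) 0)
    generalize ‖c.G s.w a y‖ = u at *
    generalize ‖c.G0 (y - a) 0‖ = v at *
    have b6 : u ^ 2 ≤ (v + g.z ^ 2) ^ 2 := pow_le_pow_left₀ hu (by linarith) 2
    have b7 : u ^ 2 ≤ 2 * v ^ 2 + 2 * g.z ^ 4 := by nlinarith [sq_nonneg (v - g.z ^ 2)]
    nlinarith [mul_le_mul_of_nonneg_right b7 (sq_nonneg u), sq_nonneg (u ^ 2 - 2 * v ^ 2)]
  have a2 : c.γ * ∑ y ∈ s.ord.erase a,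
      ‖c.G0 (y - a) 0‖ ^ 4 * (1 + (c.σ ^ 2 * tdist (y - a) 0) ^ 2) ≤ g.z ^ 4 := by
    refine le_trans (mul_le_mul_of_nonneg_left ?_ hγ.le) L.four
    rw [← sum_image (f := fun u => ‖c.G0 u 0‖ ^ 4 * (1 + (c.σ ^ 2 * tdist u 0) ^ 2))
      (g := fun y => y - a) fun _ _ _ _ h => sub_left_injective h]
    refine sum_le_sum_of_subset_of_nonneg (fun u hu => ?_) fun _ _ _ => by positivity
    obtain ⟨y, hy, rfl⟩ := mem_image.1 hu
    obtain ⟨b1, b2⟩ := mem_erase.1 hy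
    exact mem_filter.2 ⟨mem_univ _, sub_ne_zero.2 b1,
      (tdist_sub y a).symm ▸ hf.sepT y (ord_T hf E b2).1 a ha b1⟩
  have a3 : c.γ * ∑ y ∈ s.ord.erase a, ‖c.G s.w a y‖ ^ 2 ≤ 3 * c.C :=
    (mul_le_mul_of_nonneg_left (sum_le_sum_of_subset_of_nonneg (erase_subset _ _)
      fun _ _ _ => by positivity) hγ.le).trans (wsum L E ha ha')
  rw [erase_idem]
  refine (mul_le_mul_of_nonneg_left (sum_le_sum a1) hγ.le).trans ?_
  rw [sum_add_distrib, ← mul_sum, ← mul_sum]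
  have a4 : g.z ^ 4 ≤ g.z ^ 2 := pow_le_pow_of_le_one L.z0 hz (by norm_num)
  have a5 := mul_le_mul_of_nonneg_left a3 (by positivity : 0 ≤ 4 * g.z ^ 4)
  have a6 := mul_le_mul_of_nonneg_left a4 (by positivity : 0 ≤ 4 + 12 * c.C)
  nlinarith [mul_nonneg (sq_nonneg g.z) (mul_nonneg (zero_le_one.trans hC) (sub_nonneg.2 hC)),
    mul_nonneg (sq_nonneg g.z) (sub_nonneg.2 hC)]

end Crest.Agent.N334.AC.P
end

-- ▼ part N334/AC/P/FNs

/-! # S0520 part P: the monitor of `N^S` (helper74)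
`Q = 16 γ N^S/x⁴ + e^{-t/4}`; no use of `Led.alt`. -/

set_option autoImplicit false

open Finset Complex
open scoped Matrix.Norms.L2Operator Matrix

namespace Crest.Agent.N334.AC.P

variable {d M : ℕ} [NeZero M] {c : Cx d M} {e : Ep} {g : Sg} {f : Ref d M}

namespace Ns

open Nt FPe _root_.Crest.Agent.N334.AC.One

section Gen

variable {ι : Type} [Fintype ι] [DecidableEq ι] {A : Matrix ι ι ℂ} {w : ι → ℂ} {Q : Finset ι}

theorem ward_l2 (h : Adm A w) {g : ℝ} (hg : 0 < g) (hQ : ∀ b ∈ Q, g ≤ gam w b) (v : ι → ℂ) :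
    ∑ y, gam w y * ‖∑ b ∈ Q, v b * Gm A w y b‖ ^ 2 ≤ (∑ b ∈ Q, ‖v b‖ ^ 2) / g := by
  have h1 := h.G_ward (cut Q v)
  have h2 := Jp.im_le (A := A) (w := w) (Bs.supp_cut v Q)
  have h3 : nsq (cut Q v) = ∑ b ∈ Q, ‖v b‖ ^ 2 := by
    rw [nsq, ← sum_subset (subset_univ Q) (fun b _ hb => by simp [cut, hb])]
    exact sum_congr rfl fun b hb => by simp [cut, hb]
  have h4 : ∀ y, ∑ b ∈ Q, v b * Gm A w y b = (Gm A w *ᵥ cut Q v) y := fun y => by
    rw [Matrix.mulVec, dotProduct, ← sum_subset (subset_univ Q) (fun b _ hb => by simp [cut, hb])]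
    exact sum_congr rfl fun b hb => by simp [cut, hb, mul_comm]
  simp only [h4]
  rw [h1, div_eq_mul_one_div, mul_comm, ← h3]
  exact h2.trans (mul_le_mul_of_nonneg_right (h.norm_cmp hg hQ) (sum_nonneg fun _ _ => sq_nonneg _))

theorem ward_l1 (h : Adm A w) {Ci : ℝ} (hQ : ∀ b ∈ Q, (Gm A w b b).im ≤ Ci) (v : ι → ℂ) :
    ∑ y, gam w y * ‖∑ b ∈ Q, v b * Gm A w y b‖ ^ 2 ≤ Ci * (∑ b ∈ Q, ‖v b‖) ^ 2 := by
  have h1 : ∀ y, ‖∑ b ∈ Q, v b * Gm A w y b‖ ^ 2 ≤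
      (∑ b ∈ Q, ‖v b‖) * ∑ b ∈ Q, ‖v b‖ * ‖Gm A w b y‖ ^ 2 := fun y => by
    refine le_trans ?_ (sum_sq_le_sum_mul_sum_of_sq_le_mul Q (r := fun b => ‖v b‖ * ‖Gm A w b y‖)
      (fun _ _ => norm_nonneg _) (fun _ _ => by positivity) fun b _ => le_of_eq (by ring))
    gcongr
    exact (norm_sum_le _ _).trans (le_of_eq (sum_congr rfl fun b _ => by rw [norm_mul, h.G_sym y b]))
  calc _ ≤ ∑ y, gam w y * ((∑ b ∈ Q, ‖v b‖) * ∑ b ∈ Q, ‖v b‖ * ‖Gm A w b y‖ ^ 2) :=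
        sum_le_sum fun y _ => mul_le_mul_of_nonneg_left (h1 y) (h.diss y)
    _ = (∑ b ∈ Q, ‖v b‖) * ∑ b ∈ Q, ‖v b‖ * (Gm A w b b).im := by
        simp only [← h.ward_diag, mul_left_comm (gam w _) (∑ b ∈ Q, ‖v b‖)]
        rw [← mul_sum]
        simp only [mul_sum]
        rw [sum_comm]
        exact sum_congr rfl fun b _ => sum_congr rfl fun y _ => by ring
    _ ≤ (∑ b ∈ Q, ‖v b‖) * ∑ b ∈ Q, ‖v b‖ * Ci := by gcongr with b hb; exact hQ b hb
    _ = _ := by rw [← sum_mul]; ring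

/-- the linear coefficients of a fourth moment in `ℓ²` over the drivers -/
theorem lin_ward (h : Adm A w) {g Ci ε N : ℝ} (hg : 0 < g) (hC : 0 ≤ Ci) (hε : 0 < ε)
    (hQ : ∀ b ∈ Q, g ≤ gam w b ∧ (Gm A w b b).im ≤ Ci) (x : ι → ℂ)
    (hN : ∑ b ∈ Q, ‖x b‖ ^ 4 ≤ N) :
    ∑ y, gam w y * ‖lin Q x (Gm A w y)‖ ^ 2 ≤ 2 * (ε ^ 2 * N / g) + 2 * (Ci * (N / ε) ^ 2) := by
  classical
  set u : ι → ℂ := fun b => ((‖x b‖ ^ 2 : ℝ) : ℂ) * (starRingEnd ℂ) (x b) with hu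
  have hun : ∀ b, ‖u b‖ = ‖x b‖ ^ 3 := fun b => by
    simp only [hu, norm_mul, Complex.norm_conj, Complex.norm_real, Real.norm_of_nonneg (sq_nonneg _)]
    ring
  have h1 := ward_l2 h hg (Q := Q.filter fun b => ‖x b‖ ≤ ε) (fun b hb => (hQ b (mem_filter.1 hb).1).1) u
  have h2 := ward_l1 h (Q := Q.filter fun b => ¬‖x b‖ ≤ ε) (fun b hb => (hQ b (mem_filter.1 hb).1).2) u
  have h3 : ∑ b ∈ Q.filter fun b => ‖x b‖ ≤ ε, ‖u b‖ ^ 2 ≤ ε ^ 2 * N := by
    refine le_trans ?_ (mul_le_mul_of_nonneg_left ((sum_le_sum_of_subset_of_nonneg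
      (filter_subset (fun b => ‖x b‖ ≤ ε) Q) fun _ _ _ => by positivity).trans hN) (sq_nonneg ε))
    rw [mul_sum]
    refine sum_le_sum fun b hb => ?_
    calc _ = ‖x b‖ ^ 2 * ‖x b‖ ^ 4 := by rw [hun]; ring
      _ ≤ _ := by gcongr; exact (mem_filter.1 hb).2
  have h4 : ∑ b ∈ Q.filter fun b => ¬‖x b‖ ≤ ε, ‖u b‖ ≤ N / ε := by
    rw [le_div_iff₀ hε, sum_mul]
    refine le_trans (sum_le_sum fun b hb => ?_) ((sum_le_sum_of_subset_of_nonneg
      (filter_subset (fun b => ¬‖x b‖ ≤ ε) Q) fun _ _ _ => by positivity).trans hN)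
    calc _ ≤ ‖x b‖ ^ 3 * ‖x b‖ := by rw [hun]; gcongr; exact (not_le.1 (mem_filter.1 hb).2).le
      _ = _ := by ring
  calc _ ≤ ∑ y, (2 * (gam w y * ‖∑ b ∈ Q.filter fun b => ‖x b‖ ≤ ε, u b * Gm A w y b‖ ^ 2) +
        2 * (gam w y * ‖∑ b ∈ Q.filter fun b => ¬‖x b‖ ≤ ε, u b * Gm A w y b‖ ^ 2)) := by
        refine sum_le_sum fun y _ => ?_
        rw [lin, ← sum_filter_add_sum_filter_not Q fun b => ‖x b‖ ≤ ε]
        set p := ∑ b ∈ Q.filter fun b => ‖x b‖ ≤ ε, u b * Gm A w y b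
        set q := ∑ b ∈ Q.filter fun b => ¬‖x b‖ ≤ ε, u b * Gm A w y b
        have h5 : ‖p + q‖ ^ 2 ≤ 2 * ‖p‖ ^ 2 + 2 * ‖q‖ ^ 2 :=
          (pow_le_pow_left₀ (norm_nonneg _) (norm_add_le p q) 2).trans
            (by nlinarith [sq_nonneg (‖p‖ - ‖q‖)])
        linarith [mul_le_mul_of_nonneg_left h5 (h.diss y)]
    _ ≤ _ := by
        rw [sum_add_distrib, ← mul_sum, ← mul_sum]
        gcongr
        · exact h1.trans (by gcongr)
        · exact h2.trans (by gcongr)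

end Gen

variable {s0 s : CS d M} {a : Tor d M}

theorem Cγ (L : Led c e g) : 10 ^ 6 * (c.C ^ 2 * c.γ) ≤ 1 := by
  have := L.ok.γ0
  have := L.ok.C1
  refine le_trans ?_ L.ok.γ_le
  rw [← mul_assoc]
  gcongr <;> norm_num

theorem PQx (L : Led c e g) : 10 ^ 6 * c.C ^ 3 * ((e.P : ℝ) ^ 6 * e.Q * g.x) ≤ 1 := by
  have hP := P_one L
  have := L.x_pos
  calc _ ≤ e.P * ((e.P : ℝ) ^ 14 * e.Q * g.x) := by gcongr; exacts [C_P L, by norm_num]
    _ ≤ 1 := by linarith [L.main]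

theorem Px (L : Led c e g) : 10 ^ 6 * c.C ^ 3 * ((e.P : ℝ) ^ 6 * g.x) ≤ 1 := by
  have hP := P_one L
  have := L.x_pos
  calc _ ≤ e.P * ((e.P : ℝ) ^ 20 * g.x) := by gcongr; exacts [C_P L, by norm_num]
    _ ≤ 1 := by linarith [L.x_small]

/-- jumps `-4 Re (τ G_ay ℓ_y) + m_y` -/
theorem jumps (L : Led c e g) (hf : RefOK c e f) (E : Env c e g f s0 s) (ha : a ∈ s.ord)
    {l : Tor d M → ℂ} {m : Tor d M → ℝ} {r : ℝ} (l1 : ∀ y ∈ s.A.erase a, ‖l y‖ ≤ 8)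
    (l2 : c.γ * ∑ y ∈ s.A.erase a, ‖l y‖ ^ 2 ≤ 768 * c.C / g.x ^ 2)
    (m0 : ∀ y ∈ s.A.erase a, 0 ≤ m y ∧ m y ≤ 225 * c.C * (c.γ * ‖c.G s.w a y‖ ^ 2))
    (m1 : ∑ y ∈ s.A.erase a, m y ≤ r + 1 / (5 * e.P))
    {J : Tor d M → ℕ → ℝ} (hJ0 : ∀ k, J a k = 0)
    (hJ : ∀ y ≠ a, ∀ k, J y k = -4 * (c.τ s.w y k * (c.G s.w a y * l y)).re + m y)
    {U : Finset (Tor d M)} (hU : U ⊆ s.A) :
    (∀ y ∈ s.A.erase a, ∀ k < c.N, e.ρ ≤ tdist y a → J y k ≤ tl e a y) ∧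
    (∀ y ∈ U, ∀ k < c.N, (e.P : ℝ) * |J y k| ≤ 1) ∧ ∑ y ∈ U, avg c.N (J y) ≤ r + 1 / (4 * e.P) ∧
    (e.P : ℝ) * ∑ y ∈ U, avg c.N (fun k => J y k ^ 2) ≤ 1 / (4 * e.P) := by
  have hγ := L.ok.γ0
  have hC := L.ok.C1
  have hx := L.x_pos
  have hx1 := x_one L
  have hP := P_one L
  have hN := L.ok.N0
  have hCγ := Cγ L
  have hC2 : c.C ≤ c.C ^ 2 := le_self_pow₀ hC (by norm_num)
  have hC3 : c.C ^ 2 ≤ c.C ^ 3 := by gcongr; norm_num
  have hγ1 : 10 ^ 6 * (c.C * c.γ) ≤ 1 := by nlinarith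
  have hγ2 : 10 ^ 6 * c.γ ≤ 1 := by nlinarith
  have hA : s.A.erase a ⊆ s.ord.erase a := erase_subset_erase a E.rch.sub
  have hA' : ∀ y ∈ s.A.erase a, y ∈ s.ord := fun y hy => mem_of_mem_erase (hA hy)
  have hE : U.erase a ⊆ s.A.erase a := erase_subset_erase a hU
  have h4 := four E ha L hA
  set u : Tor d M → ℝ := fun y => c.γ * ‖c.G s.w a y‖ ^ 2 with hu
  have u0 : ∀ y, 0 ≤ u y := fun y => by positivity
  have u2 : ∑ y ∈ s.A.erase a, u y ^ 2 ≤ g.x ^ 4 :=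
    calc _ = c.γ * (c.γ * ∑ y ∈ s.A.erase a, ‖c.G s.w a y‖ ^ 4) := by
          simp only [mul_sum]; exact sum_congr rfl fun y _ => by ring
      _ ≤ 1 / 13 * (13 * g.x ^ 4) := by gcongr; linarith
      _ = _ := by ring
  have u1 : ∀ y ∈ s.A.erase a, u y ≤ g.x ^ 2 := fun y hy => (abs_le_of_sq_le_sq' (by
    linarith [single_le_sum (f := fun y => u y ^ 2) (fun _ _ => sq_nonneg _) hy]) (sq_nonneg _)).2
  have hsq : ∀ y ∈ s.A.erase a, ∀ k < c.N,
      J y k ^ 2 ≤ 128 * c.C * (‖c.G s.w a y‖ ^ 2 * (c.γ * ‖l y‖ ^ 2)) + 101250 * c.C ^ 2 * u y ^ 2 :=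
    fun y hy k hk => by
      have h1 : (c.τ s.w y k * (c.G s.w a y * l y)).re ^ 2 ≤
          4 * c.C * c.γ * (‖c.G s.w a y‖ * ‖l y‖) ^ 2 := by
        rw [← sq_abs]
        calc _ ≤ (‖c.τ s.w y k‖ * (‖c.G s.w a y‖ * ‖l y‖)) ^ 2 := by
              gcongr; rw [← norm_mul, ← norm_mul]; exact abs_re_le_norm _
          _ ≤ _ := by rw [mul_pow]; gcongr; exact E.der.τ_le y (hA' y hy) k hk
      have h2 : m y ^ 2 ≤ (225 * c.C * u y) ^ 2 := by gcongr; exacts [(m0 y hy).1, (m0 y hy).2]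
      rw [hJ y (ne_of_mem_erase hy)]
      nlinarith [sq_nonneg (4 * (c.τ s.w y k * (c.G s.w a y * l y)).re + m y)]
  have hl : ∀ y ∈ s.A.erase a, c.γ * ‖l y‖ ^ 2 ≤ 64 * c.γ := fun y hy => by
    have := pow_le_pow_left₀ (norm_nonneg _) (l1 y hy) 2
    nlinarith
  have hsum : ∑ y ∈ s.A.erase a, (128 * c.C * (‖c.G s.w a y‖ ^ 2 * (c.γ * ‖l y‖ ^ 2)) +
      101250 * c.C ^ 2 * u y ^ 2) ≤ 10 ^ 6 * c.C ^ 3 * g.x / 2 := by
    have h1 := split (s.A.erase a) (c.G s.w a) (c := fun y => c.γ * ‖l y‖ ^ 2) (e := g.x ^ 3)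
      (s1 := 768 * c.C / g.x ^ 2) (by positivity) (fun _ _ => by positivity) hl
      (by rw [← mul_sum]; exact l2)
    have h2 : (∑ y ∈ s.A.erase a, ‖c.G s.w a y‖ ^ 4) / g.x ^ 3 * (64 * c.γ) ≤ 832 * g.x := by
      rw [div_mul_eq_mul_div, div_le_iff₀ (by positivity)]
      linarith
    have h3 : g.x ^ 3 * (768 * c.C / g.x ^ 2) = 768 * c.C * g.x := by field_simp
    have h5 : g.x ^ 4 ≤ g.x := pow_le_of_le_one hx.le hx1 (by norm_num)
    rw [sum_add_distrib, ← mul_sum, ← mul_sum]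
    calc _ ≤ 128 * c.C * (768 * c.C * g.x + 832 * (c.C * g.x)) + 101250 * c.C ^ 2 * g.x := by
          gcongr
          · nlinarith
          · exact u2.trans h5
      _ = 306050 * c.C ^ 2 * g.x := by ring
      _ ≤ _ := by nlinarith
  have hPx : 10 ^ 6 * c.C ^ 3 * g.x * (e.P : ℝ) ^ 2 ≤ 1 / 2 := by
    have h1 : 2 * (e.P : ℝ) ^ 2 ≤ (e.P : ℝ) ^ 6 := by
      calc _ ≤ e.P * (e.P : ℝ) ^ 5 := by gcongr; exacts [by linarith [L.P_ge], by norm_num]
        _ = _ := by ring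
    have := mul_le_mul_of_nonneg_left h1 (show 0 ≤ 10 ^ 6 * c.C ^ 3 * g.x by positivity)
    linarith [Px L]
  refine ⟨fun y hy k hk hρ => ?_, fun y hy k hk => ?_, ?_, ?_⟩
  · have hy' := hA' y hy
    have hτ : ‖c.τ s.w y k‖ ≤ 1 :=
      (abs_le_of_sq_le_sq' (by linarith [E.der.τ_le y hy' k hk, mul_pos hγ hγ]) zero_le_one).2
    have ho : ∀ z ∈ s.ord, z ∈ opn f.wr := fun z hz => hf.opn0 (E.rch.bas.sub hz)
    have hG : ‖c.G s.w a y‖ ≤ e.Bg * Real.exp (-e.ϑ * tdist y a) := by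
      rw [Cx.G, E.rch.bas.adm.G_sym]
      exact E.der.dec y (ho y hy') a (ho a ha)
    have hB := L.B_ge
    have h1 : |(c.τ s.w y k * (c.G s.w a y * l y)).re| ≤ 1 * (‖c.G s.w a y‖ * 8) := by
      refine (abs_re_le_norm _).trans ?_
      rw [norm_mul, norm_mul]
      gcongr
      exact l1 y hy
    have h2 : m y ≤ ‖c.G s.w a y‖ :=
      calc _ ≤ 225 * c.C * (c.γ * ‖c.G s.w a y‖ ^ 2) := (m0 y hy).2
        _ = 225 * c.C * c.γ * ‖c.G s.w a y‖ * ‖c.G s.w a y‖ := by ring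
        _ ≤ 225 * c.C * c.γ * (2 * c.C) * ‖c.G s.w a y‖ := by
            gcongr; exact E.der.e_le a ha y (ord_T hf E hy').1 (ord_T hf E hy').2
        _ ≤ 1 * ‖c.G s.w a y‖ := by gcongr; nlinarith
        _ = _ := one_mul _
    refine le_trans ?_ (L.far2 hρ)
    rw [hJ y (ne_of_mem_erase hy)]
    calc _ ≤ 33 * ‖c.G s.w a y‖ := by linarith [(abs_le.1 h1).1]
      _ ≤ e.Bg ^ 29 * (e.Bg * Real.exp (-e.ϑ * tdist y a)) := by
          gcongr; exact le_trans (by linarith) (le_self_pow₀ (by linarith) (by norm_num))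
      _ = _ := by ring
  · by_cases hya : y = a
    · rw [hya, hJ0, abs_zero, mul_zero]
      exact zero_le_one
    have hy' := mem_erase.2 ⟨hya, hU hy⟩
    have h1 := (hsq y hy' k hk).trans ((single_le_sum (f := fun y => 128 * c.C *
      (‖c.G s.w a y‖ ^ 2 * (c.γ * ‖l y‖ ^ 2)) + 101250 * c.C ^ 2 * u y ^ 2)
      (fun y _ => by positivity) hy').trans hsum)
    refine (abs_le_of_sq_le_sq' ?_ zero_le_one).2
    rw [mul_pow, sq_abs]
    nlinarith [mul_le_mul_of_nonneg_left h1 (sq_nonneg (e.P : ℝ))]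
  · rw [← sum_erase U (a := a) (by simp [avg, hJ0])]
    set T : ℝ := (e.P : ℝ) ^ 5 * e.Q with hT
    have hT0 : 0 ≤ T := by positivity
    have h1 : ∀ y ∈ s.A.erase a, avg c.N (J y) ≤ 2 * T * g.x * (u y + g.x ^ 2 * (c.γ * ‖l y‖ ^ 2)) + m y :=
      fun y hy => by
        rw [funext (hJ y (ne_of_mem_erase hy)), avg_add, avg_const hN, avg_mul, avg_re, avgV_mul]
        have h5 : ‖c.b s.w y‖ ≤ T * g.x ^ 2 * c.γ := E.inv.bias y (hA' y hy)
        have h6 := (abs_le.1 ((abs_re_le_norm (c.b s.w y * (c.G s.w a y * l y))).trans_eq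
          (by rw [norm_mul, norm_mul]))).1
        have h7 := mul_le_mul_of_nonneg_right h5
          (mul_nonneg (norm_nonneg (c.G s.w a y)) (norm_nonneg (l y)))
        have h9 := mul_nonneg (show 0 ≤ T * g.x * c.γ by positivity)
          (sq_nonneg (‖c.G s.w a y‖ - g.x * ‖l y‖))
        change -4 * (c.b s.w y * (c.G s.w a y * l y)).re + m y ≤ _
        simp only [hu]
        linarith
    have h2 : ∑ y ∈ s.A.erase a, u y ≤ 3 * c.C := by
      refine le_trans ?_ (wsum L E (ord_T hf E ha).1 (ord_T hf E ha).2)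
      rw [mul_sum]
      exact sum_le_sum_of_subset_of_nonneg hA' fun y _ _ => u0 y
    have h3 : g.x ^ 2 * (c.γ * ∑ y ∈ s.A.erase a, ‖l y‖ ^ 2) ≤ 768 * c.C := by
      rwa [le_div_iff₀' (by positivity)] at l2
    have h5 : 2 * T * g.x * (3 * c.C + 768 * c.C) ≤ 1 / (20 * e.P) := by
      rw [le_div_iff₀ (by positivity)]
      calc _ = 30840 * c.C * ((e.P : ℝ) ^ 6 * e.Q * g.x) := by rw [hT]; ring
        _ ≤ 10 ^ 6 * c.C ^ 3 * ((e.P : ℝ) ^ 6 * e.Q * g.x) := by gcongr; exacts [by norm_num, by linarith]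
        _ ≤ 1 := PQx L
    calc _ ≤ ∑ y ∈ U.erase a, (2 * T * g.x * (u y + g.x ^ 2 * (c.γ * ‖l y‖ ^ 2)) + m y) :=
          sum_le_sum fun y hy => h1 y (hE hy)
      _ ≤ ∑ y ∈ s.A.erase a, (2 * T * g.x * (u y + g.x ^ 2 * (c.γ * ‖l y‖ ^ 2)) + m y) :=
          sum_le_sum_of_subset_of_nonneg hE fun y hy _ => by have := u0 y; have := (m0 y hy).1; positivity
      _ ≤ 2 * T * g.x * (3 * c.C + 768 * c.C) + (r + 1 / (5 * e.P)) := by
          rw [sum_add_distrib, ← mul_sum, sum_add_distrib, ← mul_sum _ _ (g.x ^ 2),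
            ← mul_sum _ (fun y => ‖l y‖ ^ 2)]
          exact add_le_add (mul_le_mul_of_nonneg_left (add_le_add h2 h3) (by positivity)) m1
      _ ≤ 1 / (20 * e.P) + (r + 1 / (5 * e.P)) := by gcongr
      _ = _ := by field_simp; ring
  · rw [← sum_erase U (a := a) (by simp [avg, hJ0]), le_div_iff₀ (by positivity)]
    have h1 := (sum_le_sum fun y hy => (avg_mono (hsq y (hE hy))).trans_eq (avg_const hN _)).trans
      ((sum_le_sum_of_subset_of_nonneg hE fun y _ _ => by positivity).trans hsum)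
    nlinarith [mul_le_mul_of_nonneg_left h1 (sq_nonneg (e.P : ℝ))]

/-- the bilinear kernel bound between active and static ports -/
theorem cross (L : Led c e g) (hf : RefOK c e f) (E : Env c e g f s0 s) (ha : a ∈ s.ord) :
    c.γ ^ 2 * ∑ y ∈ s.A.erase a, ‖c.G s.w a y‖ ^ 2 * ∑ b ∈ (s.ord \ s.A).erase a,
      ‖c.G s.w a b‖ ^ 2 * ‖c.G s.w y b‖ ^ 2 ≤ 20 * c.C ^ 2 * g.x ^ 4 *
        (13 * g.e' * (Real.exp (-s.t / 4) + 1 / e.P) + 9 * c.C ^ 2 / (e.P : ℝ) ^ 5) := by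
  classical
  have hγ := L.ok.γ0
  have hC := L.ok.C1
  have hx := L.x_pos
  have hP := P_one L
  have he : 0 ≤ g.e' := L.e0.trans L.le0.e_le
  have hb1 := one_le_bt L (t_nonneg s)
  set α := √(bt e s.t) with hα
  have α1 : 1 ≤ α := Real.one_le_sqrt.2 hb1
  have α2 : α ^ 2 = bt e s.t := Real.sq_sqrt (by linarith)
  have αP : α ≤ e.P := Real.sqrt_le_iff.2 ⟨by linarith, bt_le _⟩
  have αi : 1 / α ≤ Real.exp (-s.t / 4) + 1 / e.P := by
    rcases min_choice (Real.exp (s.t / 2)) ((e.P : ℝ) ^ 2) with h | h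
    · have : α = Real.exp (s.t / 4) := by
        rw [hα, bt, h, show s.t / 2 = s.t / 4 + s.t / 4 by ring, Real.exp_add,
          Real.sqrt_mul_self (Real.exp_pos _).le]
      rw [this, one_div, ← Real.exp_neg, neg_div]
      exact le_add_of_nonneg_right (by positivity)
    · have : α = e.P := by rw [hα, bt, h, Real.sqrt_sq (by linarith)]
      rw [this]
      exact le_add_of_nonneg_left (Real.exp_pos _).le
  set u : Tor d M → ℝ := fun y =>
    if y = a then 0 else (if y ∈ s.A then α else 1) * ‖c.G s.w a y‖ ^ 2 with hu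
  have u0 : ∀ y, 0 ≤ u y := fun y => by simp only [hu]; split_ifs <;> positivity
  have uA : ∀ y ∈ s.A.erase a, u y = α * ‖c.G s.w a y‖ ^ 2 := fun y hy => by
    simp [hu, mem_erase.1 hy]
  have uS : ∀ y ∈ (s.ord \ s.A).erase a, u y = ‖c.G s.w a y‖ ^ 2 := fun y hy => by
    simp [hu, (mem_erase.1 hy).1, (mem_sdiff.1 (mem_erase.1 hy).2).2]
  have h1 : c.γ * ∑ y ∈ s.ord, u y ≤ α * (3 * c.C) :=
    calc _ ≤ c.γ * ∑ y ∈ s.ord, α * ‖c.G s.w a y‖ ^ 2 := by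
          gcongr with y
          simp only [hu]
          split_ifs
          exacts [by positivity, le_rfl, by gcongr]
      _ = α * (c.γ * ∑ y ∈ s.ord, ‖c.G s.w a y‖ ^ 2) := by rw [← mul_sum]; ring
      _ ≤ _ := mul_le_mul_of_nonneg_left (wsum L E (ord_T hf E ha).1 (ord_T hf E ha).2) (by linarith)
  have h2 : c.γ * ∑ y ∈ s.ord, u y ^ 2 ≤ 13 * g.x ^ 4 := by
    rw [← sum_sdiff E.rch.sub, ← sum_erase (s.ord \ s.A) (a := a) (by simp [hu]),
      ← sum_erase s.A (a := a) (by simp [hu]), sum_congr rfl fun y hy => by rw [uS y hy, ← pow_mul],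
      sum_congr (s₁ := s.A.erase a) rfl fun y hy => by rw [uA y hy, mul_pow, ← pow_mul, α2], ← mul_sum]
    have := E.na a ha
    have := E.ns a ha
    nlinarith [pow_pos hx 4]
  have h3 : α * ∑ y ∈ s.A.erase a, ‖c.G s.w a y‖ ^ 2 * ∑ b ∈ (s.ord \ s.A).erase a,
      ‖c.G s.w a b‖ ^ 2 * ‖c.G s.w y b‖ ^ 2 ≤
      ∑ y ∈ s.ord, ∑ b ∈ s.ord.erase y, ‖c.G s.w y b‖ ^ 2 * (u y * u b) := by
    have p : ∀ y b, 0 ≤ ‖c.G s.w y b‖ ^ 2 * (u y * u b) := fun y b =>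
      mul_nonneg (sq_nonneg _) (mul_nonneg (u0 y) (u0 b))
    refine le_trans ?_ (sum_le_sum_of_subset_of_nonneg ((erase_subset a s.A).trans E.rch.sub)
      fun y _ _ => sum_nonneg fun b _ => p y b)
    rw [mul_sum]
    refine sum_le_sum fun y hy => le_trans (le_of_eq ?_)
      (sum_le_sum_of_subset_of_nonneg (s := (s.ord \ s.A).erase a) (fun b hb => ?_) fun b _ _ => p y b)
    · rw [mul_sum, mul_sum]
      exact sum_congr rfl fun b hb => by rw [uA y hy, uS b hb]; ring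
    · have hb' := mem_sdiff.1 (mem_of_mem_erase hb)
      exact mem_erase.2 ⟨fun h => hb'.2 (h ▸ mem_of_mem_erase hy), hb'.1⟩
  have h4 : g.F * (c.γ * ∑ y ∈ s.ord, u y) ^ 2 ≤ c.γ * (α * (9 * c.C ^ 2 * g.x ^ 4 / (e.P : ℝ) ^ 5)) :=
    calc _ ≤ c.γ * g.x ^ 4 / (e.P : ℝ) ^ 6 * (α * (3 * c.C)) ^ 2 := by
          gcongr
          exact (le_div_iff₀' (by positivity)).2 L.F_le
      _ = c.γ * (α * (9 * c.C ^ 2 * g.x ^ 4 / (e.P : ℝ) ^ 6 * α)) := by ring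
      _ ≤ c.γ * (α * (9 * c.C ^ 2 * g.x ^ 4 / (e.P : ℝ) ^ 6 * e.P)) := by gcongr
      _ = _ := by field_simp
  have h5 : c.γ * (g.F * (∑ y ∈ s.ord, u y) ^ 2) ≤ α * (9 * c.C ^ 2 * g.x ^ 4 / (e.P : ℝ) ^ 5) :=
    le_of_mul_le_mul_left (le_trans (le_of_eq (by ring)) h4) hγ
  have h6 := mul_le_mul_of_nonneg_left
    ((mul_le_mul_of_nonneg_left h3 hγ.le).trans (E.der.ker u u0)) hγ.le
  refine le_of_mul_le_mul_left ?_ (zero_lt_one.trans_le α1)
  calc _ ≤ 20 * c.C ^ 2 * (g.e' * (c.γ * ∑ y ∈ s.ord, u y ^ 2) +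
        c.γ * (g.F * (∑ y ∈ s.ord, u y) ^ 2)) := by linarith
    _ ≤ 20 * c.C ^ 2 * (g.e' * (13 * g.x ^ 4) + α * (9 * c.C ^ 2 * g.x ^ 4 / (e.P : ℝ) ^ 5)) := by gcongr
    _ = α * (20 * c.C ^ 2 * g.x ^ 4 * (13 * g.e' * (1 / α) + 9 * c.C ^ 2 / (e.P : ℝ) ^ 5)) := by
        field_simp
    _ ≤ _ := by gcongr

theorem exp_step (L : Led c e g) (t : ℝ) : Real.exp (-(t + dt d M) / 4) ≤
    Real.exp (-t / 4) - dt d M * (Real.exp (-t / 4) / 8) := by
  have h0 : 0 < dt d M := dt_pos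
  have h1 := L.ok.dt_le
  have h2 : Real.exp (-(dt d M / 4)) ≤ 1 - dt d M / 8 := by
    rw [Real.exp_neg, inv_le_iff_one_le_mul₀ (Real.exp_pos _)]
    nlinarith [Real.add_one_le_exp (dt d M / 4), mul_le_mul_of_nonneg_left
      (Real.add_one_le_exp (dt d M / 4)) (show 0 ≤ 1 - dt d M / 8 by linarith)]
  rw [show -(t + dt d M) / 4 = -t / 4 + -(dt d M / 4) by ring, Real.exp_add]
  nlinarith [mul_le_mul_of_nonneg_left h2 (Real.exp_pos (-t / 4)).le]

theorem fam_ns (L : Led c e g) (hf : RefOK c e f) (h0 : Pre c e g f s0) :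
    Fam c e g f s0 (OutNS c g) := by
  have hγ := L.ok.γ0
  have hC := L.ok.C1
  have hx := L.x_pos
  have hx1 := x_one L
  have hP := P_one L
  set κ : ℝ := 16 * c.γ / g.x ^ 4 with hκ
  have κ0 : 0 < κ := by positivity
  have hκN : ∀ {N t : ℝ}, κ * N ≤ 16 * t ↔ c.γ * N ≤ g.x ^ 4 * t := fun {N t} => by
    rw [hκ, div_mul_eq_mul_div, div_le_iff₀ (by positivity)]
    constructor <;> intro h <;> linarith
  refine (fam_scalar L h0.n0 (fun s hs => hs.rch.sub) id (fun a s => a ∈ s.ord)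
    (fun a s => κ * ∑ b ∈ (s.ord \ s.A).erase a, ‖c.G s.w a b‖ ^ 4 + Real.exp (-s.t / 4)) (fun p => ?_)
    (fun a s F h => ⟨(mem_sdiff.1 h).1, ?_⟩) (fun a s ω h => next_ord h) fun a s E _ ha => ?_).mono
    (fun s hs h a ha => ?_) le_rfl
  · refine le_trans ?_ (Real.one_le_exp (by positivity))
    refine Nat.cast_le_one.2 (card_le_one.2 fun a ha b hb => ?_)
    simp only [mem_filter, id] at ha hb
    exact ha.2.1.trans hb.2.1.symm
  · refine add_le_add (mul_le_mul_of_nonneg_left (sum_le_sum_of_subset_of_nonneg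
      (erase_subset_erase a fun b hb => ?_) fun _ _ _ => by positivity) κ0.le) le_rfl
    simp only [CS.frz, St.frz, mem_sdiff, not_and, not_not] at hb ⊢
    exact ⟨hb.1.1, fun h1 => hb.1.2 (hb.2 h1)⟩
  · set S := (s.ord \ s.A).erase a with hS
    have hSo : ∀ b ∈ S, b ∈ s.ord := fun b hb => (mem_sdiff.1 (mem_of_mem_erase hb)).1
    have Na : c.γ * ∑ b ∈ S, ‖c.G s.w a b‖ ^ 4 ≤ g.x ^ 4 / 2 := E.ns a ha
    have Ny : ∀ y ∈ s.A, κ * ∑ b ∈ S, ‖c.G s.w y b‖ ^ 4 ≤ 8 := fun y hy => by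
      have h1 := E.ns y (E.rch.sub hy)
      rw [erase_eq_of_notMem fun h => (mem_sdiff.1 h).2 hy] at h1
      have h2 : ∑ b ∈ S, ‖c.G s.w y b‖ ^ 4 ≤ ∑ b ∈ s.ord \ s.A, ‖c.G s.w y b‖ ^ 4 :=
        sum_le_sum_of_subset_of_nonneg (erase_subset _ _) fun _ _ _ => by positivity
      have := hκN.2 (show c.γ * ∑ b ∈ S, ‖c.G s.w y b‖ ^ 4 ≤ g.x ^ 4 * (1 / 2) by nlinarith)
      linarith
    have Na' : κ * ∑ b ∈ S, ‖c.G s.w a b‖ ^ 4 ≤ 8 := by
      have := hκN.2 (show c.γ * ∑ b ∈ S, ‖c.G s.w a b‖ ^ 4 ≤ g.x ^ 4 * (1 / 2) by linarith)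
      linarith
    set W : Tor d M → ℝ := fun y => ∑ b ∈ S, ‖c.G s.w a b‖ ^ 2 * ‖c.G s.w y b‖ ^ 2 with hW
    have W0 : ∀ y, 0 ≤ W y := fun y => sum_nonneg fun _ _ => by positivity
    have W8 : ∀ y ∈ s.A, κ * W y ≤ 8 := fun y hy => by
      have h1 : 2 * W y ≤ ∑ b ∈ S, ‖c.G s.w a b‖ ^ 4 + ∑ b ∈ S, ‖c.G s.w y b‖ ^ 4 := by
        rw [← sum_add_distrib, hW, mul_sum]
        exact sum_le_sum fun b _ => by nlinarith [sq_nonneg (‖c.G s.w a b‖ ^ 2 - ‖c.G s.w y b‖ ^ 2)]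
      nlinarith [Ny y hy]
    have hA : s.A.erase a ⊆ s.ord.erase a := erase_subset_erase a E.rch.sub
    have h4 := four E ha L hA
    have hCγ := Cγ L
    have hPx := Px L
    have hC2 : c.C ≤ c.C ^ 2 := le_self_pow₀ hC (by norm_num)
    have hC3 : c.C ^ 2 ≤ c.C ^ 3 := by gcongr; norm_num
    have hP6 : (e.P : ℝ) ≤ (e.P : ℝ) ^ 6 := le_self_pow₀ hP (by norm_num)
    have hx4 : g.x ^ 4 ≤ g.x := pow_le_of_le_one hx.le hx1 (by norm_num)
    obtain ⟨j1, j2, j3, j4⟩ := jumps L hf E ha (l := fun y => (κ : ℂ) * lin S (c.G s.w a) (c.G s.w y))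
      (m := fun y => 28 * c.C * (c.γ * ‖c.G s.w a y‖ ^ 2) * (κ * W y) +
        640 * c.C ^ 2 * (c.γ * ‖c.G s.w a y‖ ^ 2) ^ 2) (r := Real.exp (-s.t / 4) / 8)
      (fun y hy => by
        refine (abs_le_of_sq_le_sq' ?_ (by norm_num)).2
        rw [norm_mul, Complex.norm_real, Real.norm_of_nonneg κ0.le, mul_pow]
        calc _ ≤ κ ^ 2 * (W y * ∑ b ∈ S, ‖c.G s.w a b‖ ^ 4) := by gcongr; exact lin_sq _ _ _
          _ = κ * W y * (κ * ∑ b ∈ S, ‖c.G s.w a b‖ ^ 4) := by ring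
          _ ≤ 8 * 8 := by gcongr; exact W8 y (mem_of_mem_erase hy)
          _ = _ := by norm_num)
      (by
        have h1 := lin_ward E.rch.bas.adm (Q := S) (g := 9 / 10 * c.γ) (Ci := 2 * c.C) (by positivity)
          (by positivity) hx (fun b hb => ⟨E.der.gam_ge b (E.rch.bas.opn b (hSo b hb)), (im_le_norm _).trans
            (E.der.g_le b (ord_T hf E (hSo b hb)).1 (ord_T hf E (hSo b hb)).2)⟩) (c.G s.w a)
          ((le_div_iff₀' hγ).2 Na)
        calc _ = 10 / 9 * κ ^ 2 * ∑ y ∈ s.A.erase a, 9 / 10 * c.γ * ‖lin S (c.G s.w a) (c.G s.w y)‖ ^ 2 := by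
              simp only [mul_sum, norm_mul, Complex.norm_real, Real.norm_of_nonneg κ0.le]
              exact sum_congr rfl fun y _ => by ring
          _ ≤ 10 / 9 * κ ^ 2 * ∑ y ∈ s.A.erase a, gam s.w y * ‖lin S (c.G s.w a) (c.G s.w y)‖ ^ 2 := by
              gcongr with y hy
              exact E.der.gam_ge y (E.rch.bas.opn y (mem_of_mem_erase (hA hy)))
          _ ≤ 10 / 9 * κ ^ 2 * (2 * (g.x ^ 2 * (g.x ^ 4 / 2 / c.γ) / (9 / 10 * c.γ)) +
                2 * (2 * c.C * (g.x ^ 4 / 2 / c.γ / g.x) ^ 2)) := by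
              gcongr
              exact (sum_le_univ_sum_of_nonneg fun y =>
                mul_nonneg (E.rch.bas.adm.diss y) (sq_nonneg _)).trans h1
          _ = 2560 / 9 * (10 / 9 * 1 + c.C) / g.x ^ 2 := by rw [hκ]; field_simp; ring
          _ ≤ _ := div_le_div_of_nonneg_right (by linarith) (by positivity))
      (fun y hy => by
        have := W0 y
        refine ⟨by positivity, ?_⟩
        have h1 : (c.γ * ‖c.G s.w a y‖ ^ 2) ^ 2 ≤ (g.x ^ 2) ^ 2 := by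
          have h2 := mul_le_mul_of_nonneg_left (single_le_sum (f := fun y => ‖c.G s.w a y‖ ^ 4)
            (fun _ _ => by positivity) hy) hγ.le
          calc _ = c.γ * (c.γ * ‖c.G s.w a y‖ ^ 4) := by ring
            _ ≤ 1 / 13 * (13 * g.x ^ 4) :=
                mul_le_mul (by nlinarith) (h2.trans h4) (by positivity) (by norm_num)
            _ = _ := by ring
        have h2 := (abs_le_of_sq_le_sq' h1 (sq_nonneg _)).2
        have h3 : 640 * c.C * g.x ^ 2 ≤ 1 := by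
          have h5 : c.C * 1 * g.x ^ 2 ≤ c.C ^ 3 * (e.P : ℝ) ^ 6 * g.x := by
            gcongr
            exacts [by linarith, by linarith, pow_le_of_le_one hx.le hx1 (by norm_num)]
          nlinarith [show 0 ≤ c.C * g.x ^ 2 by positivity]
        calc _ = c.C * (c.γ * ‖c.G s.w a y‖ ^ 2) *
              (28 * (κ * W y) + 640 * c.C * (c.γ * ‖c.G s.w a y‖ ^ 2)) := by ring
          _ ≤ c.C * (c.γ * ‖c.G s.w a y‖ ^ 2) * (28 * 8 + 640 * c.C * g.x ^ 2) := by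
              gcongr; exact W8 y (mem_of_mem_erase hy)
          _ ≤ c.C * (c.γ * ‖c.G s.w a y‖ ^ 2) * (28 * 8 + 1) := by gcongr
          _ = _ := by ring)
      (by
        have he : 0 ≤ g.e' := L.e0.trans L.le0.e_le
        have h1 : 116480 * (c.C ^ 3 * g.e') ≤ 1 / 10 := by
          have : c.C ^ 3 * g.e' ≤ c.C ^ 30 * g.e' := by gcongr; norm_num
          nlinarith [L.e'_small]
        have h2 : 80640 * c.C ^ 5 / (e.P : ℝ) ^ 5 ≤ 1 / (20 * e.P) := by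
          rw [div_le_div_iff₀ (by positivity) (by positivity)]
          calc _ = 1612800 * c.C ^ 5 * e.P := by ring
            _ ≤ (10 ^ 6 * c.C ^ 3) ^ 2 * (e.P : ℝ) ^ 3 := by
                rw [mul_pow, ← pow_mul c.C]
                gcongr
                exacts [by norm_num, by norm_num, le_self_pow₀ hP (by norm_num)]
            _ ≤ (e.P : ℝ) ^ 2 * (e.P : ℝ) ^ 3 := by gcongr; exact C_P L
            _ = _ := by ring
        have h3 : 8320 * (c.C ^ 2 * c.γ) * g.x ^ 4 ≤ 1 / (20 * e.P) := by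
          rw [le_div_iff₀ (by positivity)]
          calc _ ≤ 1 * g.x * (20 * (e.P : ℝ) ^ 6) := by gcongr; linarith [mul_pos (pow_pos (zero_lt_one.trans_le hC) 2) hγ]
            _ = 20 * 1 * ((e.P : ℝ) ^ 6 * g.x) := by ring
            _ ≤ 10 ^ 6 * c.C ^ 3 * ((e.P : ℝ) ^ 6 * g.x) := by gcongr; exacts [by norm_num, by linarith]
            _ ≤ 1 := hPx
        calc _ = 448 * c.C / g.x ^ 4 * (c.γ ^ 2 * ∑ y ∈ s.A.erase a, ‖c.G s.w a y‖ ^ 2 * W y) +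
              640 * (c.C ^ 2 * c.γ) * (c.γ * ∑ y ∈ s.A.erase a, ‖c.G s.w a y‖ ^ 4) := by
              simp only [mul_sum (s.A.erase a), ← sum_add_distrib]
              exact sum_congr rfl fun y _ => by rw [hκ]; ring
          _ ≤ 448 * c.C / g.x ^ 4 * (20 * c.C ^ 2 * g.x ^ 4 *
              (13 * g.e' * (Real.exp (-s.t / 4) + 1 / e.P) + 9 * c.C ^ 2 / (e.P : ℝ) ^ 5)) +
              640 * (c.C ^ 2 * c.γ) * (13 * g.x ^ 4) :=
              add_le_add (mul_le_mul_of_nonneg_left (cross L hf E ha) (by positivity))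
                (mul_le_mul_of_nonneg_left h4 (by positivity))
          _ = 116480 * (c.C ^ 3 * g.e') * (Real.exp (-s.t / 4) + 1 / e.P) +
              80640 * c.C ^ 5 / (e.P : ℝ) ^ 5 + 8320 * (c.C ^ 2 * c.γ) * g.x ^ 4 := by field_simp; ring
          _ ≤ 1 / 10 * (Real.exp (-s.t / 4) + 1 / e.P) + 1 / (20 * e.P) + 1 / (20 * e.P) := by gcongr
          _ = Real.exp (-s.t / 4) / 10 + 1 / (5 * e.P) := by field_simp; ring
          _ ≤ _ := by gcongr; norm_num)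
      (J := fun y k => if y = a then 0 else _) (fun k => if_pos rfl) (fun y hy k => if_neg hy)
      (inter_subset_left (s₂ := tball a (2 * e.ρ)))
    have hd0 : 0 < dt d M := dt_pos
    have hex := exp_step L s.t
    have hneg : -(dt d M * (Real.exp (-s.t / 4) / 8)) ≤ 0 := neg_nonpos.2 (by positivity)
    refine ⟨-(dt d M * (Real.exp (-s.t / 4) / 8)), _, by linarith, Or.inl hneg, ?_,
      fun y hy k hk hl => ?_, j2, ?_, j4⟩
    · rw [next_t]
      change κ * ∑ b ∈ S, ‖c.G s.w a b‖ ^ 4 + _ ≤ _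
      linarith
    · have hy' := E.rch.sub hy
      have hne : y ≠ a := (ne_of_mem_erase hl).symm
      have hτ := E.der.τ_le y hy' k hk
      have e1 : s.ord.erase y \ s.A.erase y = s.ord \ s.A := by
        ext b
        by_cases hb : b = y <;> simp [hb, hy]
      have e2 : ∀ b, c.G (cls1 s.w y (c.v y k)) a b =
          c.G s.w a b - c.τ s.w y k * c.G s.w a y * c.G s.w y b := fun b => by
        rw [Cx.G, E.rch.bas.adm.close_G (E.der.den y hy' k hk)]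
        rfl
      have h1 := mul_le_mul_of_nonneg_left
        (four_step S (c.G s.w a) (c.G s.w y) (c.τ s.w y k * c.G s.w a y)) κ0.le
      have h2 : ‖c.τ s.w y k * c.G s.w a y‖ ^ 2 ≤ 4 * c.C * (c.γ * ‖c.G s.w a y‖ ^ 2) := by
        rw [norm_mul, mul_pow, ← mul_assoc]; gcongr
      have h3 : ‖c.τ s.w y k * c.G s.w a y‖ ^ 2 * (κ * W y) ≤
          4 * c.C * (c.γ * ‖c.G s.w a y‖ ^ 2) * (κ * W y) :=
        mul_le_mul_of_nonneg_right h2 (mul_nonneg κ0.le (W0 y))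
      have h5 : (‖c.τ s.w y k * c.G s.w a y‖ ^ 2) ^ 2 * (κ * ∑ b ∈ S, ‖c.G s.w y b‖ ^ 4) ≤
          (4 * c.C * (c.γ * ‖c.G s.w a y‖ ^ 2)) ^ 2 * 8 := by gcongr; exact Ny y hy
      have h6 : (c.τ s.w y k * (c.G s.w a y * (κ * lin S (c.G s.w a) (c.G s.w y)))).re =
          κ * (c.τ s.w y k * c.G s.w a y * lin S (c.G s.w a) (c.G s.w y)).re := by
        rw [← re_ofReal_mul]; congr 1; ring
      have key : κ * ∑ b ∈ S, ‖c.G (cls1 s.w y (c.v y k)) a b‖ ^ 4 ≤ κ * ∑ b ∈ S, ‖c.G s.w a b‖ ^ 4 +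
          (-4 * (c.τ s.w y k * (c.G s.w a y * (κ * lin S (c.G s.w a) (c.G s.w y)))).re +
            (28 * c.C * (c.γ * ‖c.G s.w a y‖ ^ 2) * (κ * W y) +
              640 * c.C ^ 2 * (c.γ * ‖c.G s.w a y‖ ^ 2) ^ 2)) := by
        simp only [e2]
        rw [h6]
        refine h1.trans ?_
        simp only [hW] at h3 ⊢
        linarith
      rw [next_t]
      change κ * ∑ b ∈ (s.ord.erase y \ s.A.erase y).erase a, ‖c.G (cls1 s.w y (c.v y k)) a b‖ ^ 4 + _ ≤ _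
      rw [e1]
      simp only [id, if_neg hne]
      split_ifs with h7
      · linarith
      · have := j1 y (mem_erase.2 ⟨hne, hy⟩) k hk (by
          have : ¬tdist y a ≤ 2 * e.ρ := fun h2 => h7 (mem_tball.2 h2)
          omega)
        rw [if_neg hne] at this
        linarith
    · have := mul_le_mul_of_nonneg_left j3 hd0.le
      rw [div_eq_mul_one_div (dt d M)]
      simp only [id]
      linarith
  · have ha0 : a ∈ s0.ord := by
      by_cases hA : a ∈ s.A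
      · exact h0.sub (hs.subA hA)
      · exact (mem_sdiff.1 (hs.subS (mem_sdiff.2 ⟨ha, hA⟩))).1
    have h1 := hκN.2 ((h0.ns a ha0).trans_eq (div_eq_mul_one_div _ _))
    have h2 := h a ha
    have h3 : Real.exp (-s0.t / 4) ≤ 1 := Real.exp_le_one_iff.2 (by linarith [t_nonneg s0])
    have h4 := hκN.1 (show κ * ∑ b ∈ (s.ord \ s.A).erase a, ‖c.G s.w a b‖ ^ 4 ≤ 16 * (1 / 2) by
      linarith [Real.exp_pos (-s.t / 4)])
    linarith

end Ns

end Crest.Agent.N334.AC.P
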