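import Crest.Agent.N334.AC.P.Der
import Crest.Agent.N334.AC.P.FN1_Mg
import Crest.Agent.N334.AC.P.Gen
import Crest.Agent.N334.AC.P.FNs
import Crest.Agent.N334.AC.M7.M5
import Crest.Agent.N334.AC.P.Newt
import Crest.Agent.N334.AC.M6.Defs
import Crest.Agent.N334.AC.M6.Key

-- ▼ part N334/AC/P/FN0
section

/-! # S0520 part P (helper78): jumps of the fourth moments in the environment -/

set_option autoImplicit false

open Finset Complex
open scoped Matrix.Norms.L2Operator Matrix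

namespace Crest.Agent.N334.AC.P.FNh

open Mo Mo.Nn One

variable {d M : ℕ} [NeZero M] {c : Cx d M} {e : Ep} {g : Sg} {f : Ref d M} {s0 s : CS d M}
  {a : Tor d M} {Q : Finset (Tor d M)}

lemma N4_up {w : Tor d M → ℂ} (h : Adm c.A w) {k : ℝ} (hk : ∀ b ∈ Q, gam w b ≤ k * c.γ) :
    N4 c.A w a Q ≤ k ^ 2 * c.γ * (c.γ * ∑ b ∈ Q, ‖c.G w a b‖ ^ 4) := by
  rw [N4, mul_sum, mul_sum]
  refine sum_le_sum fun b hb => ?_
  have := mul_le_mul_of_nonneg_right (pow_le_pow_left₀ (h.diss b) (hk b hb) 2)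
    (show 0 ≤ ‖c.G w a b‖ ^ 4 by positivity)
  rw [show ‖xr c.A w a b‖ ^ 4 = (‖xr c.A w a b‖ ^ 2) ^ 2 by ring, xr_sq h]
  change (gam w b * ‖c.G w a b‖ ^ 2) ^ 2 ≤ _
  linarith

lemma N4_lo {w : Tor d M → ℂ} (h : Adm c.A w) {k : ℝ} (h0 : 0 ≤ k * c.γ)
    (hk : ∀ b ∈ Q, k * c.γ ≤ gam w b) :
    k ^ 2 * c.γ * (c.γ * ∑ b ∈ Q, ‖c.G w a b‖ ^ 4) ≤ N4 c.A w a Q := by
  rw [N4, mul_sum, mul_sum]
  refine sum_le_sum fun b hb => ?_
  have := mul_le_mul_of_nonneg_right (pow_le_pow_left₀ h0 (hk b hb) 2)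
    (show 0 ≤ ‖c.G w a b‖ ^ 4 by positivity)
  rw [show ‖xr c.A w a b‖ ^ 4 = (‖xr c.A w a b‖ ^ 2) ^ 2 by ring, xr_sq h]
  change _ ≤ (gam w b * ‖c.G w a b‖ ^ 2) ^ 2
  linarith

lemma ph (L : Led c e g) (E : Env c e g f s0 s) : Ph c.A s.w s.ord c.N c.v √(4 * c.C * c.γ)
    (5 * c.C) (2 * ((e.P : ℝ) ^ 5 * e.Q * g.x ^ 2)) (9 / 10 * c.γ) := by
  have hγ := L.ok.γ0
  have hC := L.ok.C1
  have hg : ∀ y ∈ s.ord, 9 / 10 * c.γ ≤ gam s.w y := fun y hy =>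
    E.der.gam_ge y (E.rch.bas.opn y hy)
  refine ⟨E.rch.bas.adm, L.ok.N0, by positivity, Real.sqrt_nonneg _, by positivity, by positivity,
    E.der.den, hg, fun y hy k hk => Real.le_sqrt_of_sq_le (E.der.τ_le y hy k hk), fun y hy => ?_,
    fun y hy => ?_⟩
  · refine ((avg_mono (E.der.τ_le y hy)).trans_eq (avg_const L.ok.N0 _)).trans ?_
    nlinarith [hg y hy]
  · have h1 : ‖c.b s.w y‖ ≤ (e.P : ℝ) ^ 5 * e.Q * g.x ^ 2 * c.γ := E.inv.bias y hy
    have h2 := mul_le_mul_of_nonneg_left (show c.γ ≤ 2 * gam s.w y by linarith [hg y hy])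
      (show 0 ≤ (e.P : ℝ) ^ 5 * e.Q * g.x ^ 2 by positivity)
    exact h1.trans (by linarith)

lemma key (L : Led c e g) (E : Env c e g f s0 s) :
    Key c.A s.w s.ord (25 * c.C ^ 2 * c.γ * g.e') (25 * c.C ^ 2 * c.γ * g.F) := by
  intro l l' h0 h0' hl hl' t ht
  have hγ := L.ok.γ0
  have hA := E.rch.bas.adm
  have he : 0 ≤ g.e' := le_trans (by have := L.z0; positivity) L.z_small
  have hF := L.F0
  have k1 := E.der.ker (fun x => t * l x + l' x) fun x => by have := h0 x; have := h0' x; positivity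
  set S := ∑ x ∈ s.ord, ∑ z ∈ s.ord.erase x, ‖c.G s.w x z‖ ^ 2 * (l x * l' z) with hS
  have e1 : ∑ x ∈ s.ord, ∑ z ∈ s.ord.erase x, ‖c.G s.w x z‖ ^ 2 * (l' x * l z) = S := by
    rw [hS, sum_comm' (t' := s.ord) (s' := fun z => s.ord.erase z)]
    · exact sum_congr rfl fun x _ => sum_congr rfl fun z _ => by
        rw [Cx.G, hA.G_sym z x, mul_comm (l' z)]
    · intro x z
      simp only [mem_erase]
      tauto
  have k2 : 2 * t * S ≤ ∑ x ∈ s.ord, ∑ z ∈ s.ord.erase x,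
      ‖c.G s.w x z‖ ^ 2 * ((t * l x + l' x) * (t * l z + l' z)) := by
    rw [two_mul, add_mul]
    nth_rewrite 2 [← e1]
    rw [hS, mul_sum, mul_sum, ← sum_add_distrib]
    refine sum_le_sum fun x _ => ?_
    rw [mul_sum, mul_sum, ← sum_add_distrib]
    refine sum_le_sum fun z _ => ?_
    have := mul_nonneg (sq_nonneg ‖c.G s.w x z‖) (add_nonneg
      (mul_nonneg (sq_nonneg t) (mul_nonneg (h0 x) (h0 z))) (mul_nonneg (h0' x) (h0' z)))
    linarith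
  have k3 : ∑ x ∈ s.ord, (t * l x + l' x) ^ 2 ≤ 2 * (t ^ 2 * ∑ x, l x ^ 2 + ∑ x, l' x ^ 2) := by
    rw [mul_sum, ← sum_add_distrib, mul_sum]
    refine (sum_le_univ_sum_of_nonneg fun _ => sq_nonneg _).trans (sum_le_sum fun x _ => ?_)
    nlinarith [sq_nonneg (t * l x - l' x)]
  have k4 : (∑ x ∈ s.ord, (t * l x + l' x)) ^ 2 ≤ 2 * (t ^ 2 * (∑ x, l x) ^ 2 + (∑ x, l' x) ^ 2) := by
    have h1 : ∑ x ∈ s.ord, (t * l x + l' x) ≤ t * ∑ x, l x + ∑ x, l' x := by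
      rw [mul_sum, ← sum_add_distrib]
      exact sum_le_univ_sum_of_nonneg fun x => by have := h0 x; have := h0' x; positivity
    have h2 := pow_le_pow_left₀ (sum_nonneg fun x _ => by
      have := h0 x; have := h0' x; positivity) h1 2
    nlinarith [sq_nonneg (t * ∑ x, l x - ∑ x, l' x)]
  have k5 : ∑ x, ∑ z ∈ univ.erase x, ‖Km c.A s.w x z‖ ^ 2 * (l x * l' z) ≤ 5 / 4 * c.γ ^ 2 * S := by
    rw [← sum_subset (subset_univ s.ord) fun x _ hx => by simp [hl x hx], hS, mul_sum]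
    refine sum_le_sum fun x _ => ?_
    rw [← sum_subset (erase_subset_erase x (subset_univ s.ord)) fun z hz hz' => by
      rw [hl' z fun h => hz' (mem_erase.2 ⟨ne_of_mem_erase hz, h⟩), mul_zero, mul_zero], mul_sum]
    refine sum_le_sum fun z _ => ?_
    have h1 := mul_le_mul (E.der.gam_le x) (E.der.gam_le z) (hA.diss z) (by positivity)
    have h2 := mul_le_mul_of_nonneg_right (show gam s.w x * gam s.w z ≤ 5 / 4 * c.γ ^ 2 by nlinarith)
      (mul_nonneg (sq_nonneg ‖c.G s.w x z‖) (mul_nonneg (h0 x) (h0' z)))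
    rw [hA.K_sq]
    change gam s.w x * gam s.w z * ‖c.G s.w x z‖ ^ 2 * _ ≤ _
    linarith
  have k6 : c.γ * (2 * t * S) ≤ 20 * c.C ^ 2 * (g.e' * (2 * (t ^ 2 * ∑ x, l x ^ 2 + ∑ x, l' x ^ 2)) +
      g.F * (2 * (t ^ 2 * (∑ x, l x) ^ 2 + (∑ x, l' x) ^ 2))) :=
    (mul_le_mul_of_nonneg_left k2 hγ.le).trans (k1.trans (by gcongr))
  refine k5.trans (le_of_mul_le_mul_left ?_ ht)
  have k7 := mul_le_mul_of_nonneg_left k6 (show 0 ≤ 5 / 8 * c.γ by positivity)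
  field_simp
  field_simp at k7
  nlinarith

noncomputable def rr (c : Cx d M) (e : Ep) (g : Sg) : ℝ := √(10 * (c.γ * (g.x ^ 2 / e.q)))
noncomputable def ρρ (c : Cx d M) : ℝ := √(4 * c.C * c.γ) / (9 / 10 * c.γ)
noncomputable def cc (c : Cx d M) (g : Sg) : ℝ :=
  c4N √(4 * c.C * c.γ) (9 / 10 * c.γ) (16 * (c.γ * g.x ^ 4))

omit [NeZero M] in
lemma rr_sq (hγ : 0 < c.γ) (hq : 0 < e.q) : rr c e g ^ 2 = 10 * (c.γ * (g.x ^ 2 / e.q)) :=
  Real.sq_sqrt (by positivity)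

lemma nm (L : Led c e g) {ω NA NQ : ℝ} (hω1 : 1 ≤ ω) (hω2 : ω ≤ (e.P : ℝ) ^ 2) (hA0 : 0 ≤ NA)
    (hQ0 : 0 ≤ NQ) (hωA : ω * NA ≤ 16 * (c.γ * g.x ^ 4)) (hωQ : ω * NQ ≤ 16 * (c.γ * g.x ^ 4)) :
    Nm c.C e.P e.Q c.γ g.x (c.γ * g.x ^ 4) (rr c e g) (ρρ c)
      (7 * ρρ c ^ 2 * (3 * c.C * c.γ) + 5 * cc c g) (5 * c.C / (9 / 10 * c.γ)) (cc c g) ω NA NQ := by
  have hC := L.ok.C1
  have hγ := L.ok.γ0
  have hx := L.x_pos
  have hq := L.q0
  have h1 : c.C ^ 5 ≤ c.C ^ 30 := pow_le_pow_right₀ hC (by norm_num)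
  have hQ : (0 : ℝ) < e.Q := lt_of_lt_of_le (pow_pos (by linarith [L.P_ge]) 6) L.Q_ge
  have h2 := mul_pos hγ (show 0 < c.C by linarith)
  have hρ2 : ρρ c ^ 2 * c.γ ≤ 5 * c.C := by
    rw [ρρ, div_pow, Real.sq_sqrt (by positivity), div_mul_eq_mul_div, div_le_iff₀ (by positivity)]
    linarith [mul_pos hγ h2]
  refine ⟨hC, by linarith [L.P1], L.Q_ge, hγ,
    by linarith [L.ok.γ_le, mul_le_mul_of_nonneg_right h1 hγ.le], hx, L.main, rfl,
    Real.sqrt_pos.2 (by positivity), ?_, by rw [ρρ]; positivity, hρ2, rfl, by positivity, ?_,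
    by rw [cc, c4N]; positivity, ?_, hω1, hω2, hA0, hQ0, hωA, hωQ⟩
  · have := L.γh
    rw [eq_div_iff hQ.ne'] at this
    rw [show rr c e g ^ 4 = (rr c e g ^ 2) ^ 2 by ring, rr_sq hγ hq, ← this]; ring
  · rw [div_mul_eq_mul_div, div_le_iff₀ (by positivity)]
    linarith
  · rw [cc, c4N, Real.sq_sqrt (by positivity), ← ρρ]
    linarith [mul_le_mul_of_nonneg_left hρ2 (show 0 ≤ 64 * c.C * (c.γ * g.x ^ 4) by positivity)]

section Env

variable (L : Led c e g) (hf : RefOK c e f) (E : Env c e g f s0 s)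
include L hf E

lemma Kd {y : Tor d M} (hy : y ∈ s.ord) : gam s.w y * ‖Gm c.A s.w y y‖ ≤ 3 * c.C * c.γ := by
  have := mul_pos L.ok.γ0 (show 0 < c.C by linarith [L.ok.C1])
  exact (mul_le_mul (E.der.gam_le y) (E.der.g_le y (hf.sub (E.rch.bas.sub hy)) (E.rch.bas.opn y hy))
    (norm_nonneg _) (by linarith [L.ok.γ0])).trans (by linarith)

omit L in
lemma im_le (ha : a ∈ s.ord) : (Gm c.A s.w a a).im ≤ 2 * c.C :=
  (im_le_norm _).trans (E.der.g_le a (hf.sub (E.rch.bas.sub ha)) (E.rch.bas.opn a ha))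

omit hf in
lemma xr_le (ha : a ∈ s.ord) {y : Tor d M} (hy : y ∈ s.ord.erase a) :
    ‖xr c.A s.w a y‖ ≤ rr c e g := Real.le_sqrt_of_sq_le <| by
  have hγ := L.ok.γ0
  have hq := L.q0
  have h1 : ‖c.G s.w a y‖ ^ 2 ≤ 9 * (g.x ^ 2 / e.q) :=
    E.inv.ent a ha y (mem_of_mem_erase hy) (ne_of_mem_erase hy).symm
  have h2 := mul_le_mul (E.der.gam_le y) h1 (sq_nonneg _) (by positivity)
  have h3 : 0 ≤ c.γ * (g.x ^ 2 / e.q) := by positivity
  rw [xr_sq E.rch.bas.adm]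
  exact h2.trans (by linarith)

omit hf in
lemma row_le (hQ : Q ⊆ s.ord) {y : Tor d M} (hy : y ∈ s.ord) :
    N4 c.A s.w y (Q.erase y) ≤ 16 * (c.γ * g.x ^ 4) := by
  have h1 := (N4_mono (erase_subset_erase y hQ)).trans
    (N4_up (a := y) E.rch.bas.adm fun b _ => E.der.gam_le b)
  have h2 : c.γ * ∑ b ∈ s.ord.erase y, ‖c.G s.w y b‖ ^ 4 ≤ 13 * g.x ^ 4 := E.inv.four y hy
  have h3 := mul_le_mul_of_nonneg_left h2 L.ok.γ0.le
  have h4 := mul_pos L.ok.γ0 (pow_pos L.x_pos 4)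
  linarith

lemma xr_far (ha : a ∈ s.ord) {y : Tor d M} (hy : y ∈ s.ord) :
    ‖xr c.A s.w a y‖ ≤ e.Bg * Real.exp (-e.ϑ * tdist y a) := by
  have ho : ∀ z ∈ s.ord, z ∈ opn f.wr := fun z hz => hf.opn0 (E.rch.bas.sub hz)
  have h1 := E.der.dec y (ho y hy) a (ho a ha)
  have h2 : 10 ^ 60 * c.γ ≤ 1 := by
    linarith [L.ok.γ_le, mul_le_mul_of_nonneg_right (one_le_pow₀ (n := 30) L.ok.C1) L.ok.γ0.le]
  refine (abs_le_of_sq_le_sq' ?_ ((norm_nonneg _).trans h1)).2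
  rw [xr_sq E.rch.bas.adm, E.rch.bas.adm.G_sym]
  refine (mul_le_of_le_one_left (sq_nonneg _) (by linarith [E.der.gam_le y, L.ok.γ0])).trans ?_
  exact pow_le_pow_left₀ (norm_nonneg _) h1 2

lemma xr_tl (ha : a ∈ s.ord) {y : Tor d M} (hy : y ∈ s.ord) (hρ : e.ρ ≤ tdist y a) :
    ‖xr c.A s.w a y‖ ≤ rr c e g * tl e a y := by
  have hγ := L.ok.γ0
  have hq := L.q0
  have hB := L.B_ge
  have hP1 : (1 : ℝ) ≤ e.P := by linarith [L.P_ge]
  have hr0 : 0 ≤ rr c e g := Real.sqrt_nonneg _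
  have h1 : 1 ≤ rr c e g * e.Bg ^ 2 := by
    refine (abs_le_of_sq_le_sq' ?_ (by positivity)).2
    have g1 : e.q ≤ e.Bg := by
      have g2 : (e.P : ℝ) ^ 4 * 1 ≤ (e.P : ℝ) ^ 4 * ((e.P : ℝ) ^ 3 * e.Q * g.D) :=
        mul_le_mul_of_nonneg_left (one_le_mul_of_one_le_of_one_le (one_le_mul_of_one_le_of_one_le
          (one_le_pow₀ hP1) ((one_le_pow₀ hP1).trans L.Q_ge)) L.D1) (by positivity)
      linarith [L.q_le, L.B_P]
    have g2 : 1 * 1 ^ 2 * 1 ≤ e.Bg * c.γ * (e.Bg * g.x) ^ 2 * (e.Bg / e.q) := by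
      have := L.B_γ
      have := L.B_x'
      have : 1 ≤ e.Bg / e.q := (one_le_div hq).2 g1
      gcongr
    rw [mul_pow, rr_sq hγ hq]
    have g3 : e.Bg * c.γ * (e.Bg * g.x) ^ 2 * (e.Bg / e.q) =
      c.γ * (g.x ^ 2 / e.q) * (e.Bg ^ 2) ^ 2 := by ring
    linarith
  refine (xr_far L hf E ha hy).trans (le_trans ?_ (mul_le_mul_of_nonneg_left (L.far2 hρ) hr0))
  have g1 : e.Bg * 1 * 1 ≤ e.Bg * (rr c e g * e.Bg ^ 2) * e.Bg ^ 27 := by
    have : 1 ≤ e.Bg ^ 27 := one_le_pow₀ (by linarith)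
    gcongr
  have := mul_le_mul_of_nonneg_right g1 (Real.exp_pos (-e.ϑ * tdist y a)).le
  linarith

lemma xr_four (ha : a ∈ s.ord) {y : Tor d M} (hy : y ∈ s.ord) (hρ : e.ρ ≤ tdist y a) :
    e.Bg ^ 30 * ‖xr c.A s.w a y‖ ^ 4 ≤ tl e a y := by
  have h0 := xr_far L hf E ha hy
  have h1 := L.far1 hρ
  have h2 := Real.exp_pos (-e.ϑ * tdist y a)
  have h5 := L.far2 hρ
  generalize Real.exp (-e.ϑ * tdist y a) = u at *
  have hB1 : 1 ≤ e.Bg := by linarith [L.B_ge]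
  have h3 : e.Bg ^ 2 * u ≤ 1 :=
    (mul_le_mul_of_nonneg_right (pow_le_pow_right₀ hB1 (by norm_num)) h2.le).trans h1
  refine le_trans (mul_le_mul_of_nonneg_left ((pow_le_pow_left₀ (norm_nonneg _) h0 4).trans ?_)
    (by positivity)) h5
  have h4 : u ≤ 1 := (le_mul_of_one_le_left h2.le (one_le_pow₀ hB1)).trans h3
  calc (e.Bg * u) ^ 4 = (e.Bg ^ 2 * u) ^ 2 * u * u := by ring
    _ ≤ 1 ^ 2 * 1 * u := by gcongr
    _ = u := by ring

/-- the four estimates -/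
lemma bun (ha : a ∈ s.ord) (hQ : Q ⊆ s.ord.erase a) {ω : ℝ} (hω1 : 1 ≤ ω)
    (hω2 : ω ≤ (e.P : ℝ) ^ 2) (hωA : ω * N4 c.A s.w a (s.A.erase a) ≤ 16 * (c.γ * g.x ^ 4))
    (hωQ : ω * N4 c.A s.w a Q ≤ 16 * (c.γ * g.x ^ 4)) :
    (∀ y ∈ s.A.erase a, ∀ k < c.N,
      (e.P : ℝ) * (ω * |JQ c.A s.w c.v a Q y k|) ≤ c.γ * g.x ^ 4 / 64) ∧
    (∀ y ∈ s.A.erase a, ∀ k < c.N, e.ρ ≤ tdist y a →
      ω * |JQ c.A s.w c.v a Q y k| ≤ c.γ * g.x ^ 4 / 64 * tl e a y) ∧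
    (∀ S ⊆ s.A.erase a, ∀ t : ℝ, 1 ≤ t → t ≤ e.P → ω * ∑ y ∈ S, avg c.N (JQ c.A s.w c.v a Q y) ≤
      ω * (t * N4 c.A s.w a (s.A.erase a) + N4 c.A s.w a Q / t) / 10 ^ 4 +
        c.γ * g.x ^ 4 / (128 * e.P)) ∧
    (∀ S ⊆ s.A.erase a, (e.P : ℝ) * (ω ^ 2 * ∑ y ∈ S, avg c.N fun k => JQ c.A s.w c.v a Q y k ^ 2) ≤
      (c.γ * g.x ^ 4) ^ 2 / (4096 * e.P)) ∧
    ∀ y ∈ s.A.erase a, (e.P : ℝ) ^ 5 * ‖xr c.A s.w a y‖ ^ 4 ≤ c.γ * g.x ^ 4 / 10 ^ 4 := by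
  have n := nm L hω1 hω2 N4_nonneg N4_nonneg hωA hωQ
  have hC := n.C1; have hγ := n.γ0; have hx := n.x0; have hP1 := n.P1; have hr0 := n.r0
  have hρ0 := n.ρ0; have hm0 := n.m0
  have hA := E.rch.bas.adm
  have hAo : s.A.erase a ⊆ s.ord.erase a := erase_subset_erase a E.rch.sub
  have hAo' : s.A.erase a ⊆ s.ord := hAo.trans (erase_subset _ _)
  have hQo : Q ⊆ s.ord := hQ.trans (erase_subset _ _)
  have H := (ph L E).mono hAo'
  have hF := L.F0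
  have he : 0 ≤ g.e' := le_trans (by have := L.z0; positivity) L.z_small
  have hKd := fun y (hy : y ∈ s.A.erase a) => Kd L hf E (hAo' hy)
  have hxA := fun y (hy : y ∈ s.A.erase a) => xr_le L E ha (hAo hy)
  have hxQ := fun y (hy : y ∈ Q) => xr_le L E ha (hQ hy)
  have hν := fun y (hy : y ∈ s.A.erase a) => row_le L E hQo (hAo' hy)
  have hi := im_le hf E ha
  have hc0 : 0 ≤ 3 * c.C * c.γ := by positivity
  obtain ⟨ℓ, hℓ0, hℓ2⟩ : ∃ ℓ, 0 ≤ ℓ ∧ ℓ ^ 2 = rr c e g ^ 2 * (3 * c.C * c.γ) * N4 c.A s.w a Q :=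
    ⟨_, Real.sqrt_nonneg _, Real.sq_sqrt (mul_nonneg (by positivity) N4_nonneg)⟩
  have hJ : ∀ y ∈ s.A.erase a, ∀ k < c.N, |JQ c.A s.w c.v a Q y k| ≤ (4 * ρρ c * ℓ + rr c e g ^ 3 *
      (7 * ρρ c ^ 2 * (3 * c.C * c.γ) + 5 * cc c g)) * ‖xr c.A s.w a y‖ := fun y hy k hk =>
    JQ_le H hy hk hc0 (hxA y hy) hxQ (hKd y hy) (hν y hy) hℓ0 hℓ2.ge
  have hjc := n.n1 hℓ2
  refine ⟨fun y hy k hk => le_trans ?_ hjc, fun y hy k hk hρ' => ?_, fun S hS t ht1 ht2 => ?_,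
    fun S hS => ?_, fun y hy => ?_⟩
  · have := (hJ y hy k hk).trans (mul_le_mul_of_nonneg_left (hxA y hy) (by positivity))
    gcongr
  · have h3 := (hJ y hy k hk).trans
      (mul_le_mul_of_nonneg_left (xr_tl L hf E ha (hAo' hy) hρ') (by positivity))
    have h5 := mul_le_mul_of_nonneg_right
      ((le_mul_of_one_le_left (by positivity) hP1).trans hjc) (L.tl_nonneg a y)
    have h6 := mul_le_mul_of_nonneg_left h3 (zero_le_one.trans hω1)
    linarith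
  · have hBq := B_split (Ac := s.A.erase a) hA hi hc0 (fun b hb => Kd L hf E (hQo hb))
      (by positivity) (by positivity) n.n2
    exact (mul_le_mul_of_nonneg_left (JQ_avg H hS (key L E) (by positivity) hAo' hQo hi
      (show 0 < t by linarith) hc0 (by positivity) hKd hν hBq) (zero_le_one.trans hω1)).trans
      (n.n3 he L.e'_small hF L.F_le ht1 ht2)
  · obtain ⟨V, hV, hV'⟩ : ∃ V, ∑ y ∈ s.A.erase a, ‖xr c.A s.w a y‖ ^ 2 *
        ‖lin (Q.erase y) (xr c.A s.w a) (Km c.A s.w y)‖ ^ 2 ≤ V ∧ (e.P : ℝ) ^ 3 *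
        (ω ^ 2 * (5 * c.C / (9 / 10 * c.γ) * V)) ≤ 10 ^ 6 * c.C ^ 5 * (c.γ * g.x ^ 4) ^ 2 := by
      rcases L.alt with h | h
      · exact ⟨_, V_key hA (key L E) (by positivity) hAo' hQo hi, n.n4a he h hF L.F_le⟩
      · exact ⟨_, V_crude hA n.Cγ hxA hxQ hKd, n.n4b h⟩
    refine le_trans ?_ (n.n4 hV')
    have k0 := JQ_sq H hS hc0 hxA hxQ hKd hν hV
    gcongr
    exact k0
  · exact (mul_le_mul_of_nonneg_left (pow_le_pow_left₀ (norm_nonneg _) (hxA y hy) 4)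
      (by positivity)).trans n.n5

end Env

end Crest.Agent.N334.AC.P.FNh
end

-- ▼ part N334/AC/P/FN
section

/-! # S0520 part P: monitors of the fourth moments (leaf; fill the sorries, keep the statements)
`na`: `Q = bt(t) γ N^A/x⁴`, `Q s0 ≤ 9`, `a = (bt(t+dt) - bt t) γ N^A/x⁴ ≤ (3/5) dt bt γ N^A/x⁴`, `J` = `bt(t+dt) γ/x⁴` times
(`One.four_step` bound minus the removed term `|G_ay|⁴`). Quadratic term by `Der.ker` with `u = |G_a·|² 1_{A\a}`
(`∑u ≤ 3C/γ`, `Led.F_le`), bias by `One.lin_bias`, QV of the linear term: `Led.alt`, case `P³e' ≤ 1`: `One.lin_sq` + `ker`;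
case `P⁵ ≤ Qγ`: `|G_ay|² ≤ 9h`, `One.lin_nsq_crude`, `Led.γh`.
`ns`: `Q = 16 γ N^S/x⁴ - R(t)`, `R(t) = 1 - e^{-t/4} + t/P ≤ 2`, `a = R(t) - R(t+dt)`; bilinear `ker` by `u + λ u'`,
`N^A ≤ 12x⁴/bt`, `bt^{-1/2} ≤ e^{-t/4} + 1/P`. -/

set_option autoImplicit false

open Finset Complex
open scoped Matrix.Norms.L2Operator Matrix

namespace Crest.Agent.N334.AC.P

variable {d M : ℕ} [NeZero M] {c : Cx d M} {e : Ep} {g : Sg} {f : Ref d M}

variable {s0 : CS d M}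

namespace FNh

open Mo Mo.Nn

variable {s : CS d M} {a : Tor d M}

lemma bt_step (L : Led c e g) {t δ : ℝ} (ht : 0 ≤ t) (hδ : 0 ≤ δ) :
    bt e (t + δ) * (1 - δ / 2) ≤ bt e t := by
  have h0 : 0 ≤ bt e (t + δ) := zero_le_one.trans (one_le_bt L (by linarith))
  refine le_min ?_ ((mul_le_of_le_one_right h0 (by linarith)).trans (bt_le _))
  have h1 : 1 - δ / 2 ≤ Real.exp (-(δ / 2)) := by linarith [Real.add_one_le_exp (-(δ / 2))]
  calc _ ≤ bt e (t + δ) * Real.exp (-(δ / 2)) := mul_le_mul_of_nonneg_left h1 h0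
    _ ≤ Real.exp ((t + δ) / 2) * Real.exp (-(δ / 2)) :=
        mul_le_mul_of_nonneg_right (min_le_left _ _) (Real.exp_pos _).le
    _ = _ := by rw [← Real.exp_add]; congr 1; ring

lemma gam0 (L : Led c e g) (h0 : Pre c e g f s0) {b : Tor d M} (hb : gam s0.w b ≠ 0) :
    99 / 100 * c.γ ≤ gam s0.w b ∧ gam s0.w b ≤ 101 / 100 * c.γ := by
  have h1 : ‖s0.w b - c.w0‖ ≤ (g.e + g.x) * c.γ := h0.inv.near b hb
  have h2 := abs_le.1 ((abs_im_le_norm _).trans h1)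
  have h3 : g.e + g.x ≤ 1 / 100 := by
    have := L.e_x_le
    have h4 : 0 ≤ (e.P : ℝ) ^ 3 * g.z := by have := L.z0; positivity
    have h5 := mul_le_mul_of_nonneg_right (one_le_pow₀ (n := 30) L.ok.C1)
      (h4.trans L.z_small)
    linarith [L.e'_small, h4.trans L.z_small]
  have h4 := mul_le_mul_of_nonneg_right h3 L.ok.γ0.le
  rw [sub_im] at h2
  rw [gam]
  have h5 : c.γ = -c.w0.im := rfl
  constructor <;> linarith [h2.1, h2.2]

lemma ord0 (h0 : Pre c e g f s0) (hs : Rch c e f s0 s) (ha : a ∈ s.ord) : a ∈ s0.ord := by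
  by_cases hA : a ∈ s.A
  · exact h0.sub (hs.subA hA)
  · exact (mem_sdiff.1 (hs.subS (mem_sdiff.2 ⟨ha, hA⟩))).1

lemma out_lo (L : Led c e g) (h0 : Pre c e g f s0) (hs : Rch c e f s0 s) {Q : Finset (Tor d M)}
    (hQ : Q ⊆ s.ord) :
    (99 / 100) ^ 2 * c.γ * (c.γ * ∑ b ∈ Q, ‖c.G s.w a b‖ ^ 4) ≤ N4 c.A s.w a Q :=
  N4_lo hs.bas.adm (by linarith [L.ok.γ0]) fun b hb => by
    have h1 := hs.bas.opn b (hQ hb)
    have h2 : gam s.w b = gam s0.w b := by rw [gam, gam, hs.same b (Or.inl h1)]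
    rw [h2] at h1 ⊢
    exact (gam0 L h0 h1).1

lemma in_up (L : Led c e g) (h0 : Pre c e g f s0) {Q : Finset (Tor d M)} (hQ : Q ⊆ s0.ord) :
    N4 c.A s0.w a Q ≤ (101 / 100) ^ 2 * c.γ * (c.γ * ∑ b ∈ Q, ‖c.G s0.w a b‖ ^ 4) :=
  N4_up h0.inv.bas.adm fun b hb => (gam0 L h0 (h0.inv.bas.opn b (hQ hb))).2

lemma NA_le (L : Led c e g) (E : Env c e g f s0 s) (ha : a ∈ s.ord) :
    bt e s.t * N4 c.A s.w a (s.A.erase a) ≤ 15 * (c.γ * g.x ^ 4) := by
  have h1 := mul_le_mul_of_nonneg_left (N4_up (a := a) (Q := s.A.erase a) E.rch.bas.adm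
    fun b _ => E.der.gam_le b) (zero_le_one.trans (one_le_bt L (t_nonneg s)))
  have h2 := mul_le_mul_of_nonneg_left (E.na a ha) L.ok.γ0.le
  have h3 := mul_pos L.ok.γ0 (pow_pos L.x_pos 4)
  linarith

lemma far_sum (L : Led c e g) (hf : RefOK c e f) (E : Env c e g f s0 s) (ha : a ∈ s.ord) :
    (e.P : ℝ) ^ 3 * (N4 c.A s.w a (s.A.erase a) -
      ∑ y ∈ (s.A ∩ tball a (2 * e.ρ)).erase a, ‖xr c.A s.w a y‖ ^ 4) ≤ c.γ * g.x ^ 4 / 64 := by
  have hB := L.B_ge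
  have hP1 : (1 : ℝ) ≤ e.P := by linarith [L.P_ge]
  have h1 : N4 c.A s.w a (s.A.erase a) - ∑ y ∈ (s.A ∩ tball a (2 * e.ρ)).erase a,
      ‖xr c.A s.w a y‖ ^ 4 = ∑ y ∈ s.A.erase a \ tball a (2 * e.ρ), ‖xr c.A s.w a y‖ ^ 4 := by
    rw [N4, ← sum_inter_add_sum_sdiff (s.A.erase a) (tball a (2 * e.ρ)), erase_inter, add_sub_cancel_left]
  have h2 : e.Bg ^ 30 * ∑ y ∈ s.A.erase a \ tball a (2 * e.ρ), ‖xr c.A s.w a y‖ ^ 4 ≤ 1 := by
    rw [mul_sum]
    refine le_trans (sum_le_sum fun y hy => ?_)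
      ((sum_le_univ_sum_of_nonneg fun y => L.tl_nonneg a y).trans (L.sum_tl a))
    refine xr_four L hf E ha (E.rch.sub (mem_of_mem_erase (mem_sdiff.1 hy).1)) ?_
    have := (mem_sdiff.1 hy).2
    rw [mem_tball] at this
    omega
  have h3 : 1 * 1 ^ 4 ≤ e.Bg * c.γ * (e.Bg * g.x) ^ 4 := by
    have := L.B_γ
    have := L.B_x'
    gcongr
  have h4 : (e.P : ℝ) ^ 3 ≤ e.Bg := by
    have g2 : (e.P : ℝ) ^ 3 * 1 ≤ (e.P : ℝ) ^ 3 * ((e.P : ℝ) ^ 4 * e.Q * g.D) :=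
      mul_le_mul_of_nonneg_left (one_le_mul_of_one_le_of_one_le (one_le_mul_of_one_le_of_one_le
        (one_le_pow₀ hP1) ((one_le_pow₀ hP1).trans L.Q_ge)) L.D1) (by positivity)
    linarith [L.B_P]
  have h5 : (64 : ℝ) ≤ e.Bg ^ 24 := le_trans (by linarith) (le_self_pow₀ (by linarith) (by norm_num))
  rw [h1]
  have h6 : 0 ≤ ∑ y ∈ s.A.erase a \ tball a (2 * e.ρ), ‖xr c.A s.w a y‖ ^ 4 := by positivity
  generalize ∑ y ∈ s.A.erase a \ tball a (2 * e.ρ), ‖xr c.A s.w a y‖ ^ 4 = u at *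
  have h7 : 64 * (e.P : ℝ) ^ 3 * u * 1 ≤ e.Bg ^ 24 * e.Bg * u * (e.Bg * c.γ * (e.Bg * g.x) ^ 4) := by
    gcongr
    linarith
  have h8 := mul_le_mul_of_nonneg_right h2 (mul_pos L.ok.γ0 (pow_pos L.x_pos 4)).le
  linarith

lemma not_ball {y : Tor d M} (h : y ∉ tball a (2 * e.ρ)) : e.ρ ≤ tdist y a := by
  rw [mem_tball] at h
  omega

lemma na_step (L : Led c e g) (hf : RefOK c e f) (E : Env c e g f s0 s) (ha : a ∈ s.ord) :
    ∃ (a' : ℝ) (J : Tor d M → ℕ → ℝ), a' ≤ 1 / 2 ∧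
      2 / (c.γ * g.x ^ 4) * (bt e (s.t + dt d M) * N4 c.A s.w a (s.A.erase a)) ≤
        2 / (c.γ * g.x ^ 4) * (bt e s.t * N4 c.A s.w a (s.A.erase a)) + a' ∧
      (∀ y ∈ s.A, ∀ k < c.N, y ≠ a → 2 / (c.γ * g.x ^ 4) * (bt e (s.t + dt d M) *
        N4 c.A (cls1 s.w y (c.v y k)) a ((s.A.erase y).erase a)) ≤
        2 / (c.γ * g.x ^ 4) * (bt e s.t * N4 c.A s.w a (s.A.erase a)) + a' +
          if y ∈ tball a (2 * e.ρ) then J y k else tl e a y) ∧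
      (∀ y ∈ s.A ∩ tball a (2 * e.ρ), ∀ k < c.N, (e.P : ℝ) * |J y k| ≤ 1) ∧
      a' + dt d M * ∑ y ∈ s.A ∩ tball a (2 * e.ρ), avg c.N (J y) ≤ dt d M / (4 * e.P) ∧
      (e.P : ℝ) * ∑ y ∈ s.A ∩ tball a (2 * e.ρ), avg c.N (fun k => J y k ^ 2) ≤ 1 / (4 * e.P) := by
  have hγ := L.ok.γ0
  have hD : 0 < c.γ * g.x ^ 4 := mul_pos hγ (pow_pos L.x_pos 4)
  have hP1 : (1 : ℝ) ≤ e.P := by linarith [L.P_ge]
  have hN := L.ok.N0
  have hδ := (dt_pos (d := d) (M := M)).le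
  have hδ1 := L.ok.dt_le
  have b1 := bt_step L (t_nonneg s) hδ
  have b2 := one_le_bt L (add_nonneg (t_nonneg s) hδ)
  have b3 := bt_le (e := e) (s.t + dt d M)
  have nA := N4_nonneg (A := c.A) (w := s.w) (a := a) (Q := s.A.erase a)
  have b4 := mul_le_mul_of_nonneg_right b1 nA
  have b5 := NA_le L E ha
  have b6 := mul_le_mul_of_nonneg_right hδ1 (mul_nonneg (zero_le_one.trans b2) nA)
  have b7 : bt e (s.t + dt d M) * N4 c.A s.w a (s.A.erase a) ≤ 16 * (c.γ * g.x ^ 4) := by linarith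
  obtain ⟨j1, j2, j3, j4, j5⟩ := bun L hf E ha (erase_subset_erase a E.rch.sub) b2 b3 b7 b7
  have fs := far_sum L hf E ha
  generalize bt e (s.t + dt d M) = ω' at *
  generalize hD' : c.γ * g.x ^ 4 = D at *
  have hω0 : 0 ≤ ω' := by linarith
  have h2D : 0 ≤ 2 / D := by positivity
  have hS : (s.A ∩ tball a (2 * e.ρ)).erase a ⊆ s.A.erase a :=
    erase_subset_erase a inter_subset_left
  have hx4 : ∀ y ∈ s.A.erase a, (e.P : ℝ) ^ 2 * (ω' * ‖xr c.A s.w a y‖ ^ 4) ≤ D / 10 ^ 4 :=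
    fun y hy => le_trans (by
      have : (e.P : ℝ) ^ 2 * ω' ≤ (e.P : ℝ) ^ 3 * (e.P : ℝ) ^ 2 := by gcongr; norm_num
      have := mul_le_mul_of_nonneg_right this (show 0 ≤ ‖xr c.A s.w a y‖ ^ 4 by positivity)
      linarith) (j5 y hy)
  refine ⟨2 / D * ((ω' - bt e s.t) * N4 c.A s.w a (s.A.erase a)), fun y k => if y = a then 0 else
    2 / D * (ω' * (JQ c.A s.w c.v a (s.A.erase a) y k - ‖xr c.A s.w a y‖ ^ 4)), ?_, le_of_eq (by ring),
    fun y hy k hk hne => ?_, fun y hy k hk => ?_, ?_, ?_⟩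
  · rw [div_mul_eq_mul_div, div_le_iff₀ hD]
    linarith
  · have hy' : y ∈ s.A.erase a := mem_erase.2 ⟨hne, hy⟩
    have k1 := step (a := a) (ph L E) (E.rch.sub hy) hk (s.A.erase a)
    have k2 : N4 c.A s.w a ((s.A.erase a).erase y) + ‖xr c.A s.w a y‖ ^ 4 =
      N4 c.A s.w a (s.A.erase a) := sum_erase_add _ _ hy'
    have k3 : ω' * N4 c.A (cls1 s.w y (c.v y k)) a ((s.A.erase y).erase a) ≤
        ω' * (N4 c.A s.w a (s.A.erase a) +
          (JQ c.A s.w c.v a (s.A.erase a) y k - ‖xr c.A s.w a y‖ ^ 4)) :=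
      mul_le_mul_of_nonneg_left (by rw [erase_right_comm, JQ]; linarith) hω0
    have k4 := mul_le_mul_of_nonneg_left k3 h2D
    simp only [if_neg hne]
    split_ifs with h1
    · linarith
    · have k5 := j2 y hy' k hk (not_ball h1)
      have k6 := mul_le_mul_of_nonneg_left (le_abs_self (JQ c.A s.w c.v a (s.A.erase a) y k)) hω0
      have k7 : 0 ≤ ω' * ‖xr c.A s.w a y‖ ^ 4 := by positivity
      have k8 := mul_nonneg hD.le (L.tl_nonneg a y)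
      have k9 : 2 / D * (ω' * (JQ c.A s.w c.v a (s.A.erase a) y k - ‖xr c.A s.w a y‖ ^ 4)) ≤
          tl e a y := by
        rw [div_mul_eq_mul_div, div_le_iff₀ hD]
        linarith
      linarith
  · beta_reduce
    split_ifs with hya
    · simp
    · have hy' := hS (mem_erase.2 ⟨hya, hy⟩)
      have k1 := mul_le_mul_of_nonneg_left (abs_sub (JQ c.A s.w c.v a (s.A.erase a) y k)
        (‖xr c.A s.w a y‖ ^ 4)) (show 0 ≤ e.P * ω' by positivity)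
      have k2 := mul_le_mul_of_nonneg_right (le_self_pow₀ hP1 two_ne_zero)
        (show 0 ≤ ω' * ‖xr c.A s.w a y‖ ^ 4 by positivity)
      rw [abs_of_nonneg (show 0 ≤ ‖xr c.A s.w a y‖ ^ 4 by positivity)] at k1
      rw [abs_mul, abs_mul, abs_of_nonneg h2D, abs_of_nonneg hω0, mul_left_comm,
        div_mul_eq_mul_div, div_le_iff₀ hD]
      linarith [j1 y hy' k hk, hx4 y hy']
  · rw [← sum_erase (s.A ∩ tball a (2 * e.ρ)) (a := a) (by simp [avg]),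
      sum_congr rfl fun y hy => by
        simp only [if_neg (ne_of_mem_erase hy)]
        rw [avg_mul, avg_mul, funext fun k => sub_eq_add_neg _ _, avg_add, avg_const hN]]
    simp only [← mul_sum, sum_add_distrib, sum_neg_distrib]
    have k1 := j3 _ hS 1 le_rfl hP1
    have k2 : ω' * (N4 c.A s.w a (s.A.erase a) -
        ∑ y ∈ (s.A ∩ tball a (2 * e.ρ)).erase a, ‖xr c.A s.w a y‖ ^ 4) ≤ D / (64 * e.P) := by
      rw [le_div_iff₀ (by positivity)]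
      have g1 : 0 ≤ N4 c.A s.w a (s.A.erase a) -
        ∑ y ∈ (s.A ∩ tball a (2 * e.ρ)).erase a, ‖xr c.A s.w a y‖ ^ 4 := sub_nonneg.2 (N4_mono hS)
      have g2 := mul_le_mul_of_nonneg_right b3 (mul_nonneg g1 (zero_le_one.trans hP1))
      linarith
    have k3 : D / (64 * e.P) = D / (8 * e.P) / 8 := by field_simp; norm_num
    have k4 : D / (128 * e.P) = D / (8 * e.P) / 16 := by field_simp; norm_num
    have k5 : 0 ≤ D / (8 * e.P) := by positivity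
    have k6 : ω' * N4 c.A s.w a (s.A.erase a) / 2 + ω' * (∑ y ∈ (s.A ∩ tball a (2 * e.ρ)).erase a,
        avg c.N (JQ c.A s.w c.v a (s.A.erase a) y) + -∑ y ∈ (s.A ∩ tball a (2 * e.ρ)).erase a,
          ‖xr c.A s.w a y‖ ^ 4) ≤ D / (8 * e.P) := by
      have := mul_nonneg hω0 nA
      simp only [one_mul, div_one] at k1
      linarith
    have k7 := mul_le_mul_of_nonneg_left (mul_le_mul_of_nonneg_left k6 hδ) h2D
    have k8 : 2 / D * (dt d M * (D / (8 * e.P))) = dt d M / (4 * e.P) := by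
      field_simp; ring
    have k9 := mul_le_mul_of_nonneg_left b4 h2D
    linarith
  · rw [← sum_erase (s.A ∩ tball a (2 * e.ρ)) (a := a) (by simp [avg])]
    have k0 : ∀ y ∈ (s.A ∩ tball a (2 * e.ρ)).erase a, (e.P : ℝ) ^ 2 * avg c.N (fun k =>
        (if y = a then 0 else 2 / D * (ω' * (JQ c.A s.w c.v a (s.A.erase a) y k -
          ‖xr c.A s.w a y‖ ^ 4))) ^ 2) ≤ (2 / D) ^ 2 * (2 * ((e.P : ℝ) ^ 2 * ω' ^ 2) *
          avg c.N (fun k => JQ c.A s.w c.v a (s.A.erase a) y k ^ 2) +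
          2 * (D / 10 ^ 4) * ω' * ‖xr c.A s.w a y‖ ^ 4) := fun y hy => by
      rw [← avg_const hN (2 * (D / 10 ^ 4) * ω' * ‖xr c.A s.w a y‖ ^ 4), ← avg_mul, ← avg_mul,
        ← avg_add, ← avg_mul]
      refine avg_mono fun k _ => ?_
      rw [if_neg (ne_of_mem_erase hy), mul_pow, mul_left_comm]
      refine mul_le_mul_of_nonneg_left ?_ (sq_nonneg _)
      have g1 := mul_le_mul_of_nonneg_right (hx4 y (hS hy))
        (show 0 ≤ ω' * ‖xr c.A s.w a y‖ ^ 4 by positivity)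
      have g2 := mul_nonneg (show 0 ≤ (e.P : ℝ) ^ 2 * ω' ^ 2 by positivity)
        (sq_nonneg (JQ c.A s.w c.v a (s.A.erase a) y k + ‖xr c.A s.w a y‖ ^ 4))
      linarith
    have k1 := sum_le_sum k0
    simp only [← mul_sum, sum_add_distrib] at k1
    have k2 := j4 _ hS
    rw [le_div_iff₀ (by positivity)] at k2 ⊢
    have k3 := mul_le_mul_of_nonneg_left ((mul_le_mul_of_nonneg_left (N4_mono hS) hω0).trans b7)
      hD.le
    have k4 : 2 * ((e.P : ℝ) ^ 2 * ω' ^ 2) * ∑ y ∈ (s.A ∩ tball a (2 * e.ρ)).erase a,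
        avg c.N (fun k => JQ c.A s.w c.v a (s.A.erase a) y k ^ 2) + 2 * (D / 10 ^ 4) * ω' *
        ∑ y ∈ (s.A ∩ tball a (2 * e.ρ)).erase a, ‖xr c.A s.w a y‖ ^ 4 ≤ D ^ 2 / 16 := by
      rw [N4] at k3
      linarith [sq_nonneg D]
    have k5 := mul_le_mul_of_nonneg_left k4 (sq_nonneg (2 / D))
    have k6 : (2 / D) ^ 2 * (D ^ 2 / 16) = 1 / 4 := by field_simp; norm_num
    linarith

lemma na_out (L : Led c e g) (h0 : Pre c e g f s0) (hs : Rch c e f s0 s) (ha : a ∈ s.ord)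
    (h1 : 2 / (c.γ * g.x ^ 4) * (bt e s.t * N4 c.A s.w a (s.A.erase a)) ≤
      2 / (c.γ * g.x ^ 4) * (bt e s0.t * N4 c.A s0.w a (s0.A.erase a)) + 3) :
    bt e s.t * (c.γ * ∑ b ∈ s.A.erase a, ‖c.G s.w a b‖ ^ 4) ≤ 12 * g.x ^ 4 := by
  have hγ := L.ok.γ0
  have hD : 0 < c.γ * g.x ^ 4 := mul_pos hγ (pow_pos L.x_pos 4)
  have ha0 := ord0 h0 hs ha
  have h2 : s0.t = 0 := by rw [CS.t, h0.n0, Nat.cast_zero, zero_mul]
  have h3 := (N4_mono (erase_subset_erase a h0.sub)).trans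
    (in_up (a := a) L h0 (erase_subset a s0.ord))
  have h4 : c.γ * ∑ b ∈ s0.ord.erase a, ‖c.G s0.w a b‖ ^ 4 ≤ 9 * g.x ^ 4 := h0.inv.four a ha0
  have h5 := mul_le_mul_of_nonneg_left h4 hγ.le
  have h6 := mul_le_mul_of_nonneg_left (out_lo (a := a) L h0 hs
    ((erase_subset a s.A).trans hs.sub)) (zero_le_one.trans (one_le_bt L (t_nonneg s)))
  simp only [h2, bt_zero L, one_mul] at h1
  rw [div_mul_eq_mul_div, div_mul_eq_mul_div, div_add' _ _ _ hD.ne',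
    div_le_div_iff_of_pos_right hD] at h1
  refine le_of_mul_le_mul_left ?_ hγ
  linarith

end FNh

open FNh Mo Mo.Nn in
theorem fam_na (L : Led c e g) (hf : RefOK c e f) (h0 : Pre c e g f s0) :
    Fam c e g f s0 (OutNA c e g) := by
  have hD : 0 < c.γ * g.x ^ 4 := mul_pos L.ok.γ0 (pow_pos L.x_pos 4)
  refine (fam_scalar L h0.n0 (fun s hs => hs.rch.sub) id (fun a s => a ∈ s.ord)
    (fun a s => 2 / (c.γ * g.x ^ 4) * (bt e s.t * N4 c.A s.w a (s.A.erase a))) (fun p => ?_)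
    (fun a s F h => ⟨(mem_sdiff.1 h).1, ?_⟩) (fun a s ω h => ?_) fun a s E _ ha => ?_).mono
    (fun s hs h a ha => na_out L h0 hs ha (h a ha)) le_rfl
  · refine le_trans ?_ (Real.one_le_exp (by positivity))
    refine Nat.cast_le_one.2 (card_le_one.2 fun a ha b hb => ?_)
    simp only [mem_filter, id] at ha hb
    exact ha.2.1.trans hb.2.1.symm
  · refine mul_le_mul_of_nonneg_left (mul_le_mul_of_nonneg_left
      (N4_mono (erase_subset_erase a sdiff_subset)) ?_) (by positivity)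
    exact zero_le_one.trans (one_le_bt L (t_nonneg s))
  · rcases ω with _ | ⟨y, k⟩
    exacts [h, mem_of_mem_erase h]
  · obtain ⟨a', J, j1, j2, j3, j4⟩ := na_step L hf E ha
    refine ⟨a', J, j1, Or.inr ha, ?_, fun y hy k hk hl => ?_, j4⟩
    · rw [next_t]
      exact j2
    · rw [next_t]
      exact j3 y hy k hk (ne_of_mem_erase hl).symm

theorem fam_ns (L : Led c e g) (hf : RefOK c e f) (h0 : Pre c e g f s0) :
    Fam c e g f s0 (OutNS c g) := Ns.fam_ns L hf h0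

end Crest.Agent.N334.AC.P
end

-- ▼ part N334/AC/P/FNr
section

/-! # S0520 part P: monitor of the norm (leaf; fill the sorries, keep the statements)
`fam_ghost` with the record `Ys y = cmp (-τ g gᵀ) O0` of the closing of `y`, `Tr`: `cmp (G s) O0 = cmp (G s0) O0 + ∑ Ys`,
`Ys y = 0` on open `y`, entries `≤ Bg² e^{-ϑ(d+d)}`; `M7.blk_locA`, `M7.glue7`, `L = ρ`, scale `sc = P⁴D'/(6·2^d)`:
jump `2σ D'`, QV `4Cγ D' ‖cmp G‖/(0.9γ)`, drift `|b| ‖cmp G‖/(0.9γ)` (Ward `G_ward`). -/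

set_option autoImplicit false

open Finset Complex
open scoped Matrix.Norms.L2Operator Matrix

namespace Crest.Agent.N334.AC.P

variable {d M : ℕ} [NeZero M] {c : Cx d M} {e : Ep} {g : Sg} {f : Ref d M}

namespace Nr

/-- charts of the balls of radius `R` -/
def ee (R : ℕ) (p : Tor d M) (u : {x // x ∈ tball (0 : Tor d M) R}) : Tor d M := u.1 + p

theorem ee_inj (R : ℕ) (p : Tor d M) : Function.Injective (ee R p) :=
  fun _ _ h => Subtype.ext (add_right_cancel h)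

theorem ee_cov (R : ℕ) (p : Tor d M) : tball p R ⊆ univ.image (ee R p) := fun x hx =>
  mem_image.2 ⟨⟨x - p, mem_tball.2 ((tdist_sub x p).trans_le (mem_tball.1 hx))⟩, mem_univ _,
    sub_add_cancel x p⟩

theorem ee_card (R : ℕ) : (Fintype.card {x // x ∈ tball (0 : Tor d M) R} : ℝ) = vol d M R := by
  rw [Fintype.card_coe, card_tball]

/-- update of the record -/
noncomputable def stp (c : Cx d M) (O : Finset (Tor d M)) (s : CS d M) (Ys : M7.Rec7 d M) :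
    Option (Tor d M × ℕ) → M7.Rec7 d M
  | none => Ys
  | some (y, k) => fun z => Ys z + if z = y then M5.inc5 c.A s.w O c.v y k else 0

/-- bookkeeping -/
structure Tr (c : Cx d M) (e : Ep) (O : Finset (Tor d M)) (s0 s : CS d M) (Ys : M7.Rec7 d M) :
    Prop where
  eq : cmp (c.G s.w) O = cmp (c.G s0.w) O + ∑ y, Ys y
  zero : ∀ y ∈ s.ord, Ys y = 0
  loc : ∀ y x z, ‖Ys y x z‖ ≤
    e.Bg ^ 2 * (Real.exp (-e.ϑ * tdist x y) * Real.exp (-e.ϑ * tdist z y))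

theorem mon_stp {B : Type} (ε : B → Tor d M) (a : ℝ) (R : ℕ) (O : Finset (Tor d M)) (s : CS d M)
    (Ys : M7.Rec7 d M) (p : Tor d M) (ω : Option (Tor d M × ℕ)) :
    M7.mon7 ε a R (stp c O s Ys ω) p = (a : ℂ) •
      blk (accUp (tball p R) (∑ y ∈ tball p R, Ys y) 0 (M5.inc5 c.A s.w O c.v) ω) ε univ := by
  rcases ω with _ | ⟨y, k⟩
  · simp [M7.mon7, stp, accUp]
  · simp [M7.mon7, stp, accUp, sum_add_distrib]

theorem num (L : Led c e g) : 1000 * ((2 : ℝ) ^ d) ^ 2 * c.C ≤ e.P := by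
  have h1 : (3 : ℝ) ≤ d := by exact_mod_cast L.ok.hd
  have h2 := L.ok.C1
  have h3 : ((2 : ℝ) ^ d) ^ 2 ≤ (100 * d : ℝ) ^ (5 * d) := by
    rw [← pow_mul, mul_comm d 2]
    exact (pow_le_pow_left₀ (by norm_num) (by linarith) _).trans
      (pow_le_pow_right₀ (by linarith) (by omega))
  have h4 : 1000 * c.C ≤ 10 ^ 30 * c.C ^ 15 :=
    mul_le_mul (by norm_num) (le_self_pow₀ h2 (by norm_num)) (by linarith) (by norm_num)
  calc _ = ((2 : ℝ) ^ d) ^ 2 * (1000 * c.C) := by ring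
    _ ≤ _ := mul_le_mul h3 h4 (by linarith) (by positivity)
    _ ≤ _ := L.P2

theorem tau_le (L : Led c e g) {s : St d M} (h : Der c e g f s) {y : Tor d M} (hy : y ∈ s.ord)
    {k : ℕ} (hk : k < c.N) : ‖c.τ s.w y k‖ ≤ 1 := by
  have h1 := h.τ_le y hy k hk
  have h2 := L.ok.γ_le
  have h3 : 4 * c.C ≤ 10 ^ 60 * c.C ^ 30 :=
    mul_le_mul (by norm_num) (le_self_pow₀ L.ok.C1 (by norm_num)) (by linarith [L.ok.C1])
      (by norm_num)
  exact (pow_le_one_iff_of_nonneg (norm_nonneg _) two_ne_zero).1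
    (h1.trans ((mul_le_mul_of_nonneg_right h3 L.ok.γ0.le).trans h2))

theorem Tr.next (L : Led c e g) {s0 s s1 : CS d M} {Ys : M7.Rec7 d M} (hE : Env c e g f s1 s)
    (h : Tr c e (opn f.wr) s0 s Ys) {ω : Option (Tor d M × ℕ)} (hω : okA s.A c.N ω) :
    Tr c e (opn f.wr) s0 (s.next c ω) (stp c (opn f.wr) s Ys ω) := by
  rcases ω with _ | ⟨y, k⟩
  · exact ⟨h.eq, h.zero, h.loc⟩
  have hy := hE.rch.sub hω.1
  refine ⟨?_, fun z hz => ?_, fun z x x' => ?_⟩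
  · have e1 := M5.cmp_close (Q := opn f.wr) hE.rch.bas.adm (hE.der.den y hy k hω.2)
    refine e1.trans ?_
    simp only [stp, sum_add_distrib, sum_ite_eq', mem_univ, if_true]
    rw [← add_assoc, ← h.eq]
    rfl
  · simp only [stp, if_neg (ne_of_mem_erase hz), add_zero]
    exact h.zero z (mem_of_mem_erase hz)
  · by_cases hz : z = y
    · subst hz
      have hz0 := hE.der.sub0 (mem_opn.2 (hE.rch.bas.opn z hy))
      have hB : 0 ≤ e.Bg := le_trans (by norm_num) L.B_ge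
      have hc : ∀ x, ‖M5.col c.A s.w (opn f.wr) z x‖ ≤ e.Bg * Real.exp (-e.ϑ * tdist x z) :=
        fun x => by
          by_cases hx : x ∈ opn f.wr
          · simp only [M5.col, cut, if_pos hx]
            exact hE.der.dec x hx z hz0
          · simp only [M5.col, cut, if_neg hx, norm_zero]
            positivity
      simp only [stp, if_true, h.zero z hy, zero_add, M5.inc5, M5.Y5, Matrix.smul_apply,
        Matrix.vecMulVec_apply, smul_eq_mul, norm_mul, norm_neg]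
      calc _ ≤ 1 * (e.Bg * Real.exp (-e.ϑ * tdist x z) * (e.Bg * Real.exp (-e.ϑ * tdist x' z))) :=
            mul_le_mul (tau_le L hE.der hy hω.2) (mul_le_mul (hc x) (hc x') (norm_nonneg _)
              (by positivity)) (by positivity) zero_le_one
        _ = _ := by ring
    · simpa only [stp, if_neg hz, add_zero] using h.loc z x x'

end Nr

open Nr

theorem fam_nr (L : Led c e g) (hf : RefOK c e f) {s0 : CS d M} (h0 : Pre c e g f s0) :
    Fam c e g f s0 (OutNr c e g f) := by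
  have hP := L.P_ge
  have hP0 : (0 : ℝ) < e.P := lt_of_lt_of_le (by norm_num) hP
  have hP1 : (1 : ℝ) ≤ e.P := le_trans (by norm_num) hP
  have hQ : (e.P : ℝ) ≤ e.Q := (le_self_pow₀ hP1 (by norm_num)).trans L.Q_ge
  have hC := L.ok.C1
  have hn := num L
  have hD := L.D1
  set a : ℝ := 2 ^ d with ha
  have ha1 : 1 ≤ a := one_le_pow₀ one_le_two
  have hD6 : 6 * g.D ≤ D' e g := by
    unfold D'
    gcongr
    exact le_trans (by linarith) (le_mul_of_one_le_left (by linarith) (one_le_pow₀ hP1))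
  have hD' : 0 < D' e g := by linarith
  have haP : 1000 * a ≤ e.P := by nlinarith [mul_le_mul_of_nonneg_left hC (sq_nonneg a)]
  set sc : ℝ := 6 * a / ((e.P : ℝ) ^ 4 * D' e g) with hsc
  have hsc0 : 0 < sc := by positivity
  have n1 : (e.P : ℝ) * (sc * (1 * D' e g)) ≤ 1 := by
    have : (e.P : ℝ) * (sc * (1 * D' e g)) = 6 * a / (e.P : ℝ) ^ 3 := by
      rw [hsc]; field_simp
    rw [this, div_le_one (by positivity)]
    exact le_trans (by linarith) (le_self_pow₀ hP1 three_ne_zero)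
  have n2 : sc * (2 * ((e.P : ℝ) ^ 5 * e.Q * g.x ^ 2) * ((e.P : ℝ) ^ 4 * D' e g)) ≤
      1 / (4 * e.P) := by
    have : sc * (2 * ((e.P : ℝ) ^ 5 * e.Q * g.x ^ 2) * ((e.P : ℝ) ^ 4 * D' e g)) =
        12 * a * ((e.P : ℝ) ^ 5 * e.Q * g.x ^ 2) := by
      rw [hsc]; field_simp; ring
    rw [this, le_div_iff₀ (by positivity)]
    have hx := L.x_pos
    have h1 : g.x ≤ 1 := (le_mul_of_one_le_left hx.le (one_le_pow₀ hP1)).trans L.x_small
    calc _ = 48 * a * g.x * ((e.P : ℝ) ^ 6 * e.Q * g.x) := by ring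
      _ ≤ (e.P : ℝ) ^ 9 * 1 * ((e.P : ℝ) ^ 6 * e.Q * g.x) := by
          gcongr
          exact le_trans (by linarith) (le_self_pow₀ hP1 (by norm_num))
      _ = (e.P : ℝ) ^ 15 * e.Q * g.x := by ring
      _ ≤ 1 := L.main
  have n3 : (e.P : ℝ) * (sc ^ 2 * (5 * c.C * D' e g * ((e.P : ℝ) ^ 4 * D' e g))) ≤
      1 / (4 * e.P) := by
    have : (e.P : ℝ) * (sc ^ 2 * (5 * c.C * D' e g * ((e.P : ℝ) ^ 4 * D' e g))) =
        180 * (a ^ 2 * c.C) / (e.P : ℝ) ^ 3 := by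
      rw [hsc]; field_simp; ring
    rw [this, div_le_div_iff₀ (by positivity) (by positivity)]
    nlinarith [mul_le_mul_of_nonneg_left hP1 (mul_pos hP0 hP0).le, mul_pos hP0 hP0,
      mul_le_mul_of_nonneg_left hP1 hP0.le]
  refine (fam_ghost L h0.n0 (B := {x // x ∈ tball (0 : Tor d M) (2 * e.ρ)})
    ((ee_card _).trans_le (vol_mono (by omega))) (Tr c e (opn f.wr) s0) (stp c (opn f.wr))
    (fun Ys p => M7.mon7 (ee (2 * e.ρ) p) sc e.ρ Ys p) 0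
    ⟨⟨by simp, fun _ _ => rfl, fun y x z => by simp; positivity⟩, fun p => M7.mon7_zero _ _ _ p⟩
    (fun s Ys F h => ⟨h.eq, fun y hy => h.zero y (mem_sdiff.1 hy).1, h.loc⟩)
    fun s Ys hE _ hT _ => ⟨fun ω hω => ⟨hT.next L hE hω, fun p => ?_⟩, fun p => ?_⟩).mono
    (fun s _ ⟨Ys, hT, hb⟩ => ?_) le_rfl
  · rcases ω with _ | ⟨y, k⟩
    · exact ⟨by simp [stp], fun _ => rfl⟩
    have hy := hE.rch.sub hω.1
    have e1 : M7.mon7 (ee (2 * e.ρ) p) sc e.ρ (stp c (opn f.wr) s Ys (some (y, k))) p =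
        M7.mon7 (ee (2 * e.ρ) p) sc e.ρ Ys p + (sc : ℂ) • blk (if y ∈ tball p e.ρ then
          M5.inc5 c.A s.w (opn f.wr) c.v y k else 0) (ee (2 * e.ρ) p) univ := by
      rw [mon_stp]
      simp only [accUp, add_zero, M7.mon7, M7.blk_eq, Matrix.mul_add, Matrix.add_mul, smul_add]
    refine ⟨?_, fun hd => ?_⟩
    · rw [e1, add_sub_cancel_left, norm_smul, Complex.norm_real, Real.norm_of_nonneg hsc0.le]
      refine le_trans ?_ ((le_mul_of_one_le_left (by positivity) hP1).trans n1)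
      refine mul_le_mul_of_nonneg_left ((M7.norm_blk_le _ (ee_inj _ p) _).trans ?_) hsc0.le
      split_ifs
      · exact M5.norm_Y5.trans (mul_le_mul (tau_le L hE.der hy hω.2) (hE.inv.dwl y hy)
          (by positivity) zero_le_one)
      · rw [norm_zero]; positivity
    · rw [e1, if_neg fun h => disjoint_left.1 hd (tball_mono p (by omega) h) hy]
      simp [M7.blk_eq]
  · simp only [mon_stp]
    refine LocA.mono L.ok.N0 (tball_mono p (by omega)) (M5.blk5_locA (ee_inj _ p) univ _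
      (τ1 := 1) (t2 := 5 * c.C) (b := 2 * ((e.P : ℝ) ^ 5 * e.Q * g.x ^ 2)) (D := D' e g)
      (Mq := (e.P : ℝ) ^ 4 * D' e g) L.ok.N0 dt_pos.le hP0 hP0 hsc0.le hE.rch.bas.adm
      (by positivity) (by positivity) hD'.le hE.inv.nrm
      (fun y hy => hE.inv.dwl y (hE.rch.sub (mem_inter.1 hy).1))
      (fun y hy k hk => tau_le L hE.der (hE.rch.sub (mem_inter.1 hy).1) hk) (fun y hy => ?_)
      (fun y hy => ?_) n1 n2 n3)
    · have hy' := hE.rch.sub (mem_inter.1 hy).1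
      have h1 := hE.der.gam_ge y (hE.rch.bas.opn y hy')
      refine (avg_mono fun k hk => hE.der.τ_le y hy' k hk).trans ((avg_const L.ok.N0 _).trans_le ?_)
      nlinarith [L.ok.γ0, mul_le_mul_of_nonneg_left h1 (show 0 ≤ c.C by linarith),
        mul_pos L.ok.γ0 (show 0 < c.C by linarith)]
    · have hy' := hE.rch.sub (mem_inter.1 hy).1
      have h1 := hE.der.gam_ge y (hE.rch.bas.opn y hy')
      refine (hE.inv.bias y hy').trans ?_
      have h2 : c.γ ≤ 2 * gam s.w y := by linarith [L.ok.γ0]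
      calc _ ≤ (e.P : ℝ) ^ 5 * e.Q * g.x ^ 2 * (2 * gam s.w y) :=
            mul_le_mul_of_nonneg_left h2 (by positivity)
        _ = _ := by ring
  · have h1 := M7.glue7 hT.loc L.ϑ0 (L.ϑ_le.trans (by norm_num)) hsc0 (ee_inj _) (ee_cov _) hb
    have h2 : ‖cmp (c.G s0.w) (opn f.wr)‖ ≤ 2 * ((e.P : ℝ) ^ 4 * g.D) := h0.inv.nrm
    have h3 : a * (2 / sc) = (e.P : ℝ) ^ 4 * D' e g / 3 := by
      rw [hsc]; field_simp; ring
    have hB : (1 : ℝ) ≤ e.Bg := le_trans (by norm_num) L.B_ge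
    have hϑ := L.ϑ0
    have h4 : e.Bg ^ 2 * Real.exp (-e.ϑ * e.ρ / 2) * (6 * d / e.ϑ) ^ (2 * d) ≤ 1 := by
      have h5 : (6 * d / e.ϑ) ^ (2 * d) ≤ e.Bg := le_trans (by gcongr; norm_num) L.B_ϑ
      have h6 : Real.exp (-e.ϑ * e.ρ / 2) ≤ Real.exp (-e.ϑ * e.ρ / 4) :=
        Real.exp_le_exp.2 (by nlinarith [mul_nonneg hϑ.le (Nat.cast_nonneg e.ρ)])
      calc _ ≤ e.Bg ^ 2 * Real.exp (-e.ϑ * e.ρ / 4) * e.Bg := by gcongr
        _ = e.Bg ^ 3 * Real.exp (-e.ϑ * e.ρ / 4) := by ring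
        _ ≤ e.Bg ^ 40 * Real.exp (-e.ϑ * e.ρ / 4) := by
            gcongr
            norm_num
        _ ≤ 1 := L.tail
    have h7 : 1 ≤ (e.P : ℝ) ^ 4 := one_le_pow₀ hP1
    rw [OutNr, hT.eq]
    refine (norm_add_le _ _).trans ?_
    rw [← ha, h3] at h1
    nlinarith [mul_le_mul_of_nonneg_left hD6 (show 0 ≤ (e.P : ℝ) ^ 4 by linarith),
      mul_le_mul h7 hD zero_le_one (show 0 ≤ (e.P : ℝ) ^ 4 by linarith)]

end Crest.Agent.N334.AC.P
private theorem rz_50d8a0e54b : type_of% @_root_.Crest.Agent.N334.AC.P.Nr.stp.eq_1 := @_root_.Crest.Agent.N334.AC.P.Nr.stp.eq_1 -- L35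
end

-- ▼ part N334/AC/P/FHd
section

/-! # S0520 part P: monitor M7 (helper74)
`fam_ghost` with `M7.Track7`, `mon7_locA`, `glue7`, `Track7.norm_le`, `L = ρ`, scale `γ/(P² x)`. -/

set_option autoImplicit false

open Finset Complex
open scoped Matrix.Norms.L2Operator Matrix

namespace Crest.Agent.N334.AC.P

variable {d M : ℕ} [NeZero M] {c : Cx d M} {e : Ep} {g : Sg} {f : Ref d M}

namespace Hd

open Nt M7

/-- scale of the monitor -/
noncomputable def sc (c : Cx d M) (e : Ep) (g : Sg) : ℝ := c.γ / ((e.P : ℝ) ^ 2 * g.x)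
/-- bound of `|τ|` -/
noncomputable def t1 (c : Cx d M) : ℝ := √(4 * c.C * c.γ)
/-- bound of an entry -/
noncomputable def cs1 (e : Ep) (g : Sg) : ℝ := √(9 * (g.x ^ 2 / e.q))

/-- index set of a block -/
abbrev Bl (d M : ℕ) [NeZero M] (r : ℕ) : Type := {u : Tor d M // u ∈ tball (0 : Tor d M) r}

/-- the block around `p` -/
def em (r : ℕ) (p : Tor d M) : Bl d M r → Tor d M := fun u => u.1 + p

theorem em_inj (r : ℕ) (p : Tor d M) : Function.Injective (em r p) := fun _ _ h =>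
  Subtype.ext (add_right_cancel h)

theorem em_cov (r : ℕ) (p : Tor d M) : tball p r ⊆ univ.image (em r p) := fun x hx =>
  mem_image.2 ⟨⟨x - p, mem_tball.2 (by rw [tdist_sub]; exact mem_tball.1 hx)⟩, mem_univ _,
    sub_add_cancel x p⟩

theorem card_Bl (r : ℕ) : (Fintype.card (Bl d M r) : ℝ) = vol d M r := by
  rw [Fintype.card_coe, vol]

theorem sc_pos (L : Led c e g) : 0 < sc c e g := by
  have := L.ok.γ0
  have := L.x_pos
  have := P_one L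
  unfold sc; positivity

theorem t1_sq (L : Led c e g) : t1 c ^ 2 = 4 * c.C * c.γ := by
  have := L.ok.γ0
  have := L.ok.C1
  exact Real.sq_sqrt (by positivity)

theorem Cγ (L : Led c e g) : 10 ^ 6 * c.C ^ 3 * c.γ ≤ 1 := by
  have := L.ok.γ0
  have := L.ok.C1
  refine le_trans ?_ L.ok.γ_le
  gcongr <;> norm_num

theorem Cγ1 (L : Led c e g) : 10 ^ 6 * (c.C * c.γ) ≤ 1 := by
  have h1 : c.C ≤ c.C ^ 3 := le_self_pow₀ L.ok.C1 (by norm_num)
  nlinarith [Cγ L, L.ok.γ0]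

theorem num1 (L : Led c e g) : (e.P : ℝ) * (sc c e g * (2 * t1 c * cs1 e g ^ 2 / (9 / 10 * c.γ) +
    2 * t1 c ^ 2 * (13 * g.x ^ 4 / c.γ))) ≤ 1 := by
  have hγ := L.ok.γ0
  have hC := L.ok.C1
  have hx := L.x_pos
  have hx1 := x_one L
  have hP := P_one L
  have hq := L.q0
  have hs := sc_pos L
  have h1 : t1 c ≤ e.q := by
    refine (pow_le_pow_iff_left₀ (Real.sqrt_nonneg _) hq.le two_ne_zero).1 ?_
    have h2 : c.C ≤ c.C ^ 3 := le_self_pow₀ hC (by norm_num)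
    have h3 : (e.P : ℝ) ≤ (e.P : ℝ) ^ 6 := le_self_pow₀ hP (by norm_num)
    show t1 c ^ 2 ≤ _
    rw [t1_sq L, L.q_sq]
    gcongr
    linarith [C_P L, L.Q_ge]
  have h2 : cs1 e g ^ 2 = 9 * (g.x ^ 2 / e.q) := Real.sq_sqrt (by positivity)
  have h3 : 2 * t1 c * cs1 e g ^ 2 / (9 / 10 * c.γ) ≤ 20 * (g.x ^ 2 / c.γ) :=
    calc _ ≤ 2 * e.q * cs1 e g ^ 2 / (9 / 10 * c.γ) := by gcongr
      _ = _ := by rw [h2]; field_simp; ring
  have h4 : 2 * t1 c ^ 2 * (13 * g.x ^ 4 / c.γ) ≤ g.x ^ 2 / c.γ :=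
    calc _ = 104 * (c.C * c.γ) * g.x ^ 2 * (g.x ^ 2 / c.γ) := by rw [t1_sq L]; ring
      _ ≤ 1 * 1 ^ 2 * (g.x ^ 2 / c.γ) := by gcongr; linarith [Cγ1 L, mul_pos (zero_lt_one.trans_le hC) hγ]
      _ = _ := by ring
  calc _ ≤ (e.P : ℝ) * (sc c e g * (20 * (g.x ^ 2 / c.γ) + g.x ^ 2 / c.γ)) := by gcongr
    _ = 21 * g.x / e.P := by rw [sc]; field_simp; ring
    _ ≤ 1 := by rw [div_le_one (by positivity)]; linarith [L.P_ge]

theorem num2 (L : Led c e g) : sc c e g * (2 * (10 / 9 * ((e.P : ℝ) ^ 5 * e.Q * g.x ^ 2)) *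
    (2 * c.C) / (9 / 10 * c.γ)) ≤ 1 / (4 * e.P) := by
  have hγ := L.ok.γ0
  have hC := L.ok.C1
  have hx := L.x_pos
  have hP := P_one L
  have h2 : c.C ≤ c.C ^ 3 := le_self_pow₀ hC (by norm_num)
  rw [le_div_iff₀ (by positivity)]
  calc _ = 1600 / 81 * c.C * ((e.P : ℝ) ^ 4 * e.Q * g.x) := by rw [sc]; field_simp; ring
    _ ≤ e.P * ((e.P : ℝ) ^ 14 * e.Q * g.x) := by gcongr; linarith [C_P L]; norm_num
    _ ≤ 1 := by linarith [L.main]

theorem num3 (L : Led c e g) : (e.P : ℝ) * (sc c e g ^ 2 * q7 (9 / 10 * c.γ) (2 * c.C)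
    (13 * g.x ^ 4 / c.γ) (t1 c) (g.x ^ 2)) ≤ 1 / (4 * e.P) := by
  have hγ := L.ok.γ0
  have hC := L.ok.C1
  have hx := L.x_pos
  have hx1 := x_one L
  have hP := P_one L
  have h4 : t1 c ^ 4 = (4 * c.C * c.γ) ^ 2 := by rw [← t1_sq L]; ring
  have h5 : c.C * c.γ * g.x ^ 2 ≤ 1 / 10 ^ 6 * 1 ^ 2 := by gcongr; linarith [Cγ1 L]
  rw [le_div_iff₀ (by positivity)]
  calc _ = 80 / 9 * c.C ^ 2 * (32 * (100 / 81 * 1 + 260 / 9 * c.C) +
        33280 / 9 * c.C * (c.C * c.γ * g.x ^ 2)) / (e.P : ℝ) ^ 2 := by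
        rw [sc, q7, h4, t1_sq L]; field_simp; ring
    _ ≤ 80 / 9 * c.C ^ 2 * (32 * (100 / 81 * c.C + 260 / 9 * c.C) +
        33280 / 9 * c.C * (1 / 10 ^ 6 * 1 ^ 2)) / (e.P : ℝ) ^ 2 := by gcongr
    _ ≤ 1 := by
        rw [div_le_one (by positivity)]
        nlinarith [C_P L, pow_pos (zero_lt_one.trans_le hC) 3]

theorem num4 (L : Led c e g) : 2 ^ d * (2 / sc c e g) + 4 * e.Bg ^ 4 * Real.exp (-e.ϑ * e.ρ / 2) *
    (6 * d / e.ϑ) ^ (2 * d) ≤ (e.P : ℝ) ^ 3 * g.z / 2 / c.γ := by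
  have hγ := L.ok.γ0
  have hC := L.ok.C1
  have hx := L.x_pos
  have hP := P_one L
  have hϑ := L.ϑ0
  have hxz := L.x_le_z
  have hB : 1 ≤ e.Bg := le_trans (by norm_num) L.B_ge
  have hd : (3 : ℝ) ≤ d := by exact_mod_cast L.ok.hd
  have h1 : (2 : ℝ) ^ d * 8 ≤ e.P := by
    refine le_trans ?_ L.P2
    gcongr
    · calc (2 : ℝ) ^ d ≤ (100 * d) ^ d := by gcongr; linarith
        _ ≤ _ := by gcongr; linarith; omega
    · nlinarith [one_le_pow₀ (n := 15) hC]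
  have h2 : 2 ^ d * (2 / sc c e g) ≤ (e.P : ℝ) ^ 3 * g.z / 4 / c.γ :=
    calc _ = 2 ^ d * 8 * ((e.P : ℝ) ^ 2 * g.x) / 4 / c.γ := by rw [sc]; field_simp; ring
      _ ≤ e.P * ((e.P : ℝ) ^ 2 * g.z) / 4 / c.γ := by gcongr
      _ = _ := by ring
  have h3 : Real.exp (-e.ϑ * e.ρ / 2) ≤ Real.exp (-e.ϑ * e.ρ / 4) := by
    have : 0 ≤ e.ϑ * e.ρ := by positivity
    exact Real.exp_le_exp.2 (by linarith)
  have h4 : (6 * d / e.ϑ) ^ (2 * d) ≤ e.Bg := le_trans (by gcongr; norm_num) L.B_ϑ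
  have h5 : 16 * c.γ ≤ (e.P : ℝ) ^ 3 := by
    have : (e.P : ℝ) ≤ (e.P : ℝ) ^ 3 := le_self_pow₀ hP (by norm_num)
    nlinarith [Cγ1 L, L.P_ge]
  have h6 : 4 * e.Bg ^ 4 * Real.exp (-e.ϑ * e.ρ / 2) * (6 * d / e.ϑ) ^ (2 * d) ≤ 4 * g.x :=
    calc _ ≤ 4 * e.Bg ^ 4 * Real.exp (-e.ϑ * e.ρ / 4) * e.Bg := by gcongr
      _ = 4 * (e.Bg ^ 5 * Real.exp (-e.ϑ * e.ρ / 4)) * 1 := by ring
      _ ≤ 4 * (e.Bg ^ 39 * Real.exp (-e.ϑ * e.ρ / 4)) * (e.Bg * g.x) := by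
          gcongr; norm_num; exact L.B_x'
      _ = 4 * g.x * (e.Bg ^ 40 * Real.exp (-e.ϑ * e.ρ / 4)) := by ring
      _ ≤ 4 * g.x * 1 := by gcongr; exact L.tail
      _ = _ := mul_one _
  have h7 : 4 * g.x ≤ (e.P : ℝ) ^ 3 * g.z / 4 / c.γ := by
    rw [le_div_iff₀ hγ]
    calc _ = 16 * c.γ * g.x / 4 := by ring
      _ ≤ _ := by gcongr
  calc _ ≤ (e.P : ℝ) ^ 3 * g.z / 4 / c.γ + (e.P : ℝ) ^ 3 * g.z / 4 / c.γ := add_le_add h2 (h6.trans h7)
    _ = _ := by ring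

theorem blk_add {B : Type} (X Y : Matrix (Tor d M) (Tor d M) ℂ) (i : B → Tor d M) :
    blk (X + Y) i univ = blk X i univ + blk Y i univ := by
  ext u v; simp [blk]

variable {s0 s : CS d M}

/-- sizes in the environment -/
theorem sizes (L : Led c e g) (hf : RefOK c e f) (E : Env c e g f s0 s) :
    Sz c.A s.w s.ord (9 / 10 * c.γ) (2 * c.C) ∧
    (∀ y ∈ s.ord, ∀ x ∈ s.ord.erase y, ‖Gm c.A s.w x y‖ ≤ cs1 e g) ∧
    (∀ y ∈ s.ord, ∑ x ∈ s.ord.erase y, ‖Gm c.A s.w x y‖ ^ 4 ≤ 13 * g.x ^ 4 / c.γ) ∧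
    (∀ y ∈ s.ord, ∀ k < c.N, ‖tau (Gm c.A s.w y y) (s.w y) (c.v y k)‖ ≤ t1 c) ∧
    ∀ y ∈ s.ord, ‖avgV c.N fun k => tau (Gm c.A s.w y y) (s.w y) (c.v y k) ^ 2‖ ≤ t1 c ^ 2 := by
  have hγ := L.ok.γ0
  have hC := L.ok.C1
  have b := E.inv.bas
  have hτ : ∀ y ∈ s.ord, ∀ k < c.N, ‖tau (Gm c.A s.w y y) (s.w y) (c.v y k)‖ ≤ t1 c :=
    fun y hy k hk => Real.le_sqrt_of_sq_le (E.der.τ_le y hy k hk)
  refine ⟨⟨b.adm, by positivity, by positivity, fun x hx => E.der.gam_ge x (b.opn x hx), fun x hx =>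
    (le_abs_self _).trans ((abs_im_le_norm _).trans (E.der.g_le x (hf.sub (b.sub hx)) (b.opn x hx)))⟩,
    fun y hy x hx => Real.le_sqrt_of_sq_le (E.inv.ent x (mem_of_mem_erase hx) y hy (ne_of_mem_erase hx)),
    fun y hy => ?_, hτ, fun y hy => (norm_avgV_le _ _).trans ((avg_mono fun k hk => ?_).trans
      (avg_const L.ok.N0 _).le)⟩
  · rw [le_div_iff₀' hγ, sum_congr rfl fun x _ => by rw [b.adm.G_sym x y]]
    exact E.inv.four y hy
  · rw [norm_pow]; gcongr; exact hτ y hy k hk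

end Hd

open Nt Hd M7 in
theorem fam_hd (L : Led c e g) (hf : RefOK c e f) {s0 : CS d M} (h0 : Pre c e g f s0) :
    Fam c e g f s0 (OutHd c g) := by
  have hγ := L.ok.γ0
  have hC := L.ok.C1
  have hx := L.x_pos
  have hP := P_one L
  have hs := sc_pos L
  have hB : 1 ≤ e.Bg := le_trans (by norm_num) L.B_ge
  have hz : 0 ≤ (e.P : ℝ) ^ 3 * g.z / 2 := by have := L.z0; positivity
  have he' : 0 < g.e' := by linarith [L.e_x_le, L.e0]
  have hρ : ∀ p : Tor d M, tball p e.ρ ⊆ tball p (3 * e.ρ) := fun p => tball_mono p (by omega)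
  refine (fam_ghost (Rc := Rch c e f s0) (Ev := Env c e g f s0) L h0.n0 (B := Bl d M (2 * e.ρ))
    ((card_Bl _).trans_le (vol_mono (by omega)))
    (fun s Ys => Track7 c.A s0.ord s0.w s.w s.ord Ys (g.e' / c.γ) (4 * e.Bg ^ 4) e.ϑ)
    (fun s Ys ω => step7 c.A s.w s.ord c.N c.v Ys ω)
    (fun Ys p => mon7 (em (2 * e.ρ) p) (sc c e g) e.ρ Ys p) 0
    ⟨Track7.init _ _ _ _ (by positivity) _, fun p => mon7_zero _ _ _ _⟩
    (fun s Ys F h => h.shrink sdiff_subset) fun s Ys E _ h _ => ?_).mono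
    (fun s R ⟨Ys, h, hm⟩ => ?_) le_rfl
  · obtain ⟨z1, z2, z3, z4, z5⟩ := sizes L hf E
    have b := E.inv.bas
    have hA := E.rch.sub
    refine ⟨fun ω hω => ?_, fun p => LocA.mono L.ok.N0 (hρ p) ?_⟩
    · rcases ω with _ | ⟨y, k⟩
      · exact ⟨h, fun p => ⟨by simp [step7], fun _ => rfl⟩⟩
      have hy := hA hω.1
      have ht : t1 c ^ 2 ≤ 1 := by rw [t1_sq L]; nlinarith [Cγ1 L]
      refine ⟨h.close b.adm hy (div_pos he' hγ) (E.der.den y hy k hω.2)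
        (E.der.g_le y (hf.sub (b.sub hy)) (b.opn y hy)) ?_ ((z5 y hy).trans ht)
        ((z4 y hy k hω.2).trans ((pow_le_one_iff_of_nonneg (Real.sqrt_nonneg _) two_ne_zero).1 ht))
        L.ϑ0.le hB (fun x hx z hz => E.der.dec x (hf.opn0 (b.sub hx)) z (hf.opn0 (b.sub hz))) le_rfl,
        fun p => ⟨?_, fun hd => ?_⟩⟩
      · have h2 : c.C ≤ c.C ^ 30 := le_self_pow₀ hC (by norm_num)
        calc _ ≤ t1 c ^ 2 * (g.e' / c.γ + (2 * c.C) ^ 2) := by gcongr; exact z5 y hy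
          _ = 4 * (c.C * g.e') + 16 * (c.C ^ 3 * c.γ) := by rw [t1_sq L]; field_simp; ring
          _ ≤ 1 := by nlinarith [L.e'_small, Cγ L]
      · rw [mon7_step, mon7, accUp, add_zero, blk_add, smul_add, add_sub_cancel_left, norm_smul,
          Complex.norm_real, Real.norm_of_nonneg hs.le]
        have h1 := z1.norm_Y7 (Real.sqrt_nonneg _) (z2 y hy) (z3 y hy) (z4 y hy k hω.2) (z5 y hy)
        have h2 : ‖if y ∈ tball p e.ρ then inc c.A s.w s.ord c.N c.v y k else 0‖ ≤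
            2 * t1 c * cs1 e g ^ 2 / (9 / 10 * c.γ) + 2 * t1 c ^ 2 * (13 * g.x ^ 4 / c.γ) := by
          split_ifs
          · exact h1
          · rw [norm_zero]; exact (norm_nonneg _).trans h1
        have h3 := mul_le_mul_of_nonneg_left ((norm_blk_le _ (em_inj (2 * e.ρ) p) univ).trans h2) hs.le
        have h4 := num1 L
        have h5 := (mul_nonneg hs.le (norm_nonneg _)).trans h3
        exact h3.trans ((le_mul_of_one_le_left h5 hP).trans h4)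
      · rw [mon7_step, mon7, accUp, add_zero, if_neg fun h1 => disjoint_left.1 hd (hρ p h1) hy, add_zero]
    · exact mon7_locA (em_inj _ p) L.ok.N0 dt_pos.le (by positivity) (by positivity) hs.le z1 hA
        (Real.sqrt_nonneg _) (by positivity) (by positivity) (by positivity)
        (fun y hy => z2 y (hA (mem_inter.1 hy).1)) (fun y hy => z3 y (hA (mem_inter.1 hy).1))
        (fun y hy => z4 y (hA (mem_inter.1 hy).1)) (fun y hy => by
          have hy' := hA (mem_inter.1 hy).1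
          calc _ ≤ (e.P : ℝ) ^ 5 * e.Q * g.x ^ 2 * c.γ := E.inv.bias y hy'
            _ = 10 / 9 * ((e.P : ℝ) ^ 5 * e.Q * g.x ^ 2) * (9 / 10 * c.γ) := by ring
            _ ≤ _ := by gcongr; exact z1.gam_ge y hy')
        (num1 L) (num2 L) (num3 L)
  · have h1 := (glue7 h.loc L.ϑ0 (L.ϑ_le.trans (by norm_num)) hs (em_inj _) (em_cov _) hm).trans (num4 L)
    have h2 : ‖cmp (RR c.A s0.w) s0.ord‖ ≤ (g.e + g.x) / c.γ := (le_div_iff₀' hγ).2 h0.inv.had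
    have h3 : (g.e + g.x) / c.γ + (e.P : ℝ) ^ 3 * g.z / 2 / c.γ ≤ g.e' / c.γ := by
      rw [← add_div]; gcongr; exact L.e_x_le
    exact (le_div_iff₀' hγ).1 ((h.norm_le R.bas.adm h2 h1 h3).trans h3)

end Crest.Agent.N334.AC.P
end

-- ▼ part N334/AC/M6/QV
section

/-!
# Row 334, S0520 (helper73): M6, jump / drift / quadratic variation of the form increments
-/

set_option autoImplicit false

open Matrix Finset
open scoped ComplexConjugate

namespace Crest.Agent.N334.AC.M6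

variable {d M : ℕ} [NeZero M] {E0 : (Tor d M → ℝ) → ℝ} {A : Matrix (Tor d M) (Tor d M) ℂ}
  {w : Tor d M → ℂ} {y : Tor d M} {Q T Cr : Finset (Tor d M)} {r : Tor d M → ℝ}
  {μ a F a' F' h h1 m ι0 ι1 κ m1 m2 : ℝ}

theorem sum_sq_le_sq_abs {ι : Type} [Fintype ι] (l : ι → ℝ) : ∑ x, l x ^ 2 ≤ (∑ x, |l x|) ^ 2 := by
  simpa using sum_sq_le_sq_sum_of_nonneg (s := univ) (f := fun x => |l x|) fun _ _ => abs_nonneg _

theorem Row.Iy_le (hR : Row A w y Q T Cr r h h1 m ι0 ι1 κ m1 m2) (hA : Adm A w) {b : Tor d M}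
    (hb : b ∈ Q ∩ T) : Iy A w y b ≤ h + r b ∧ Iy A w y b ≤ h1 := by
  rw [mem_inter] at hb
  by_cases e : b = y
  · subst e; rw [Iy_self]; exact ⟨add_nonneg hR.h0 (hR.r0 _), hR.h10⟩
  · rw [Iy_eq hA.diss e]; exact ⟨hR.ent b hb.1 hb.2 e, hR.ent1 b hb.1 hb.2 e⟩

theorem Row.core_le (hR : Row A w y Q T Cr r h h1 m ι0 ι1 κ m1 m2) (hA : Adm A w) :
    ∑ b ∈ Q \ T, Iy A w y b ≤ m := by
  refine le_trans ?_ hR.core
  rw [← sum_filter_ne_zero]
  calc _ ≤ ∑ b ∈ (Q ∩ Cr).erase y, Iy A w y b := by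
        refine sum_le_sum_of_subset_of_nonneg (fun b hb => ?_) fun b _ _ => Iy_nonneg b
        simp only [mem_filter, mem_sdiff, mem_erase, mem_inter] at hb ⊢
        have e : b ≠ y := fun e => hb.2 (e ▸ Iy_self)
        exact ⟨e, hb.1.1, (hR.cover b hb.1.1 e fun e' => hb.2 (Iy_closed e')).resolve_left hb.1.2⟩
    _ ≤ _ := sum_le_sum fun b _ => M6.Iy_le hA.diss b

theorem Row.iot_le (hR : Row A w y Q T Cr r h h1 m ι0 ι1 κ m1 m2) (hA : Adm A w) :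
    iot A w y ≤ ι1 := (M6.iot_le hA).trans hR.i1

theorem Row.le_iot (hR : Row A w y Q T Cr r h h1 m ι0 ι1 κ m1 m2) (hA : Adm A w) :
    ι0 ≤ iot A w y := by rw [iot_eq hA]; exact hR.i0

theorem Row.cap (hR : Row A w y Q T Cr r h h1 m ι0 ι1 κ m1 m2) (hA : Adm A w) (hμ : 0 < μ)
    (hE : ∀ ψ, 0 ≤ E0 ψ) (hT : Cap E0 μ T a F) (hC : Cap E0 μ univ a' F') (ha : 0 ≤ a) (hF : 0 ≤ F)
    (ha' : 0 ≤ a') (hF' : 0 ≤ F') {l u g : Tor d M → ℝ} (hg : Supp g Q) (hv : Van g)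
    (hl : ∀ b, |l b| ≤ ‖kv A w y b‖ * u b) {α : ℝ}
    (hα : ∑ b ∈ Q ∩ T, Iy A w y b * u b ^ 2 ≤ α) :
    μ * (∑ b, l b * g b) ^ 2 ≤ 2 * (a * α + (F * ι1 + (a' + F') * m) * ∑ b, u b ^ 2) * E0 g := by
  set lT : Tor d M → ℝ := fun b => if b ∈ Q ∩ T then l b else 0 with hlT
  set lC : Tor d M → ℝ := fun b => if b ∈ Q \ T then l b else 0 with hlC
  have e : ∑ b, l b * g b = ∑ b, lT b * g b + ∑ b, lC b * g b := by
    rw [← sum_add_distrib]
    refine sum_congr rfl fun b _ => ?_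
    by_cases hQ : b ∈ Q <;> by_cases hb : b ∈ T <;> simp [hlT, hlC, hQ, hb, hg b]
  have h2 := hT lT g (fun x hx => by simp [hlT, hx]) hv
  have h3 := hC lC g (fun x hx => absurd (mem_univ x) hx) hv
  have hcs : ∀ S : Finset (Tor d M), (∑ b, |if b ∈ S then l b else 0|) ^ 2 ≤
      (∑ b ∈ S, Iy A w y b) * ∑ b, u b ^ 2 := fun S => by
    have : ∑ b, |if b ∈ S then l b else 0| = ∑ b ∈ S, |l b| := by
      simp [apply_ite abs]
    rw [this]
    calc _ ≤ (∑ b ∈ S, ‖kv A w y b‖ * u b) ^ 2 := by gcongr with b; exact hl b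
      _ ≤ (∑ b ∈ S, ‖kv A w y b‖ ^ 2) * ∑ b ∈ S, u b ^ 2 := sum_mul_sq_le_sq_mul_sq _ _ _
      _ ≤ _ := mul_le_mul_of_nonneg_left
        (sum_le_sum_of_subset_of_nonneg (subset_univ _) fun _ _ _ => sq_nonneg _) (by positivity)
  have hU : 0 ≤ ∑ b, u b ^ 2 := by positivity
  have h4 : ∑ b, lT b ^ 2 ≤ α := by
    refine le_trans ?_ hα
    have : ∑ b, lT b ^ 2 = ∑ b ∈ Q ∩ T, l b ^ 2 := by
      simp only [hlT, ite_pow, ne_eq, OfNat.ofNat_ne_zero, not_false_eq_true, zero_pow, sum_ite_mem,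
        univ_inter]
    rw [this]
    refine sum_le_sum fun b _ => ?_
    rw [Iy, ← mul_pow, ← sq_abs]; gcongr; exact hl b
  have h5 : (∑ b, |lT b|) ^ 2 ≤ ι1 * ∑ b, u b ^ 2 := by
    refine (hcs _).trans ?_
    gcongr
    exact (sum_le_sum_of_subset_of_nonneg (subset_univ _) fun b _ _ => Iy_nonneg b).trans
      (hR.iot_le hA)
  have h6 : (∑ b, |lC b|) ^ 2 ≤ m * ∑ b, u b ^ 2 := (hcs _).trans (by gcongr; exact hR.core_le hA)
  have h7 := (sum_sq_le_sq_abs lC).trans h6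
  have h8 : μ * (∑ b, lT b * g b) ^ 2 ≤ (a * α + F * (ι1 * ∑ b, u b ^ 2)) * E0 g :=
    h2.trans (by have := hE g; gcongr)
  have h9 : μ * (∑ b, lC b * g b) ^ 2 ≤
      (a' * (m * ∑ b, u b ^ 2) + F' * (m * ∑ b, u b ^ 2)) * E0 g :=
    h3.trans (by have := hE g; gcongr)
  rw [e]
  nlinarith [mul_nonneg hμ.le (sq_nonneg (∑ b, lT b * g b - ∑ b, lC b * g b))]

theorem Row.m_nonneg (hR : Row A w y Q T Cr r h h1 m ι0 ι1 κ m1 m2) (hA : Adm A w) : 0 ≤ m :=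
  (sum_nonneg fun b _ => Iy_nonneg b).trans (hR.core_le hA)

theorem Row.lam_nonneg (hR : Row A w y Q T Cr r h h1 m ι0 ι1 κ m1 m2) (hA : Adm A w) (ha : 0 ≤ a)
    (hF : 0 ≤ F) (ha' : 0 ≤ a') (hF' : 0 ≤ F') : 0 ≤ lamC a F a' F' h1 m ι1 := by
  have := hR.m_nonneg hA
  have := iot_nonneg.trans (hR.iot_le hA)
  have := hR.h10
  unfold lamC; positivity

theorem Row.q_nonneg (hR : Row A w y Q T Cr r h h1 m ι0 ι1 κ m1 m2) (hA : Adm A w) (ha : 0 ≤ a)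
    (hF : 0 ≤ F) (ha' : 0 ≤ a') (hF' : 0 ≤ F') : 0 ≤ qC a F a' F' h m ι0 ι1 κ m1 m2 := by
  have := hR.m_nonneg hA
  have := iot_nonneg.trans (hR.iot_le hA)
  have := hR.h0
  have := hR.κ0
  have := hR.ι00
  have : 0 ≤ m1 := (sum_nonneg fun b _ => hR.r0 b).trans hR.r1
  have : 0 ≤ m2 := (sum_nonneg fun b _ => sq_nonneg _).trans hR.r2
  unfold qC; positivity

/-- leverage -/
theorem Row.lev (hR : Row A w y Q T Cr r h h1 m ι0 ι1 κ m1 m2) (hA : Adm A w) (hμ : 0 < μ)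
    (hE : ∀ ψ, 0 ≤ E0 ψ) (hT : Cap E0 μ T a F) (hC : Cap E0 μ univ a' F') (ha : 0 ≤ a) (hF : 0 ≤ F)
    (ha' : 0 ≤ a') (hF' : 0 ≤ F') {f : Tor d M → ℝ} (hf : Supp f Q) (hv : Van f) :
    μ * star2 A w y f 0 ≤ lamC a F a' F' h1 m ι1 * E0 f := by
  set W := star2 A w y f 0 with hW
  have hW0 : 0 ≤ W := star2_nonneg f 0
  have e1 : ∑ b, (‖kv A w y b‖ * |f b|) ^ 2 = W := by simp [hW, star2, Iy, mul_pow]
  have e2 : ∑ b, Iy A w y b * f b * f b = W := by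
    simp only [hW, star2, sub_zero]; exact sum_congr rfl fun b _ => by ring
  have h2 := hR.cap hA hμ hE hT hC ha hF ha' hF' (l := fun b => Iy A w y b * f b)
    (u := fun b => ‖kv A w y b‖ * |f b|) hf hv
    (fun b => by rw [abs_mul, abs_of_nonneg (Iy_nonneg b), Iy]; exact le_of_eq (by ring))
    (α := h1 * W) (by
      rw [← e1, mul_sum]
      calc _ ≤ ∑ b ∈ Q ∩ T, h1 * (‖kv A w y b‖ * |f b|) ^ 2 :=
            sum_le_sum fun b hb => by gcongr; exact (hR.Iy_le hA hb).2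
        _ ≤ _ := sum_le_sum_of_subset_of_nonneg (subset_univ _) fun b _ _ => by
            have := hR.h10; positivity)
  rw [e1, e2] at h2
  rcases hW0.eq_or_lt with h0 | h0
  · rw [← h0, mul_zero]; exact mul_nonneg (hR.lam_nonneg hA ha hF ha' hF') (hE f)
  · refine le_of_mul_le_mul_right ?_ h0
    unfold lamC; nlinarith

theorem zv_sq_le (hA : Adm A w) (f : Tor d M → ℝ) (b : Tor d M) : ‖zv A w y f b‖ ^ 2 ≤
    2 * (Iy A w y b * (f b - vm A w y f) ^ 2) +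
      8 * (gam w b * (Gm A w b b).im * star2 A w y f (vm A w y f)) := by
  set p : Tor d M → ℂ := fun a => kv A w y a * ((f a - vm A w y f : ℝ) : ℂ) with hp
  have e : zv A w y f b = p b - 2 * Complex.I * ((fun a => conj (Km A w b a)) ⬝ᵥ p) := by
    simp only [zv, mulVec, dotProduct, Sb, sub_mul, sum_sub_distrib, ite_mul, one_mul, zero_mul,
      sum_ite_eq, mem_univ, if_true, mul_sum, hp, mul_assoc]
  have h1 := cs' (fun a => conj (Km A w b a)) p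
  rw [hp, nsq_kv_mul, ← hp] at h1
  have h2 : nsq (fun a => conj (Km A w b a)) = gam w b * (Gm A w b b).im := by
    rw [← Km_row hA]; simp [nsq]
  have h3 : ‖p b‖ ^ 2 = Iy A w y b * (f b - vm A w y f) ^ 2 := by
    simp only [hp, Iy, norm_mul, mul_pow, Complex.norm_real, Real.norm_eq_abs, sq_abs]
  have h4 := norm_sub_le (p b) (2 * Complex.I * ((fun a => conj (Km A w b a)) ⬝ᵥ p))
  rw [h2] at h1
  rw [e, ← h3]
  simp only [norm_mul, Complex.norm_ofNat, Complex.norm_I, mul_one] at h4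
  have h5 := pow_le_pow_left₀ (norm_nonneg _) h4 2
  nlinarith [sq_nonneg (‖p b‖ - 2 * ‖(fun a => conj (Km A w b a)) ⬝ᵥ p‖)]

theorem Row.tame (hR : Row A w y Q T Cr r h h1 m ι0 ι1 κ m1 m2) (hA : Adm A w) (f : Tor d M → ℝ) :
    ∑ b ∈ Q ∩ T, Iy A w y b * ‖zv A w y f b‖ ^ 2 ≤
      (3 * h + 8 * m2 / ι0 + 8 * m1 * κ) * star2 A w y f (f y) +
        8 * ∑ b, r b ^ 2 * (f b - f y) ^ 2 := by
  set W := star2 A w y f (f y) with hW
  set V := vm A w y f with hV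
  set W' := star2 A w y f V with hW'
  have hWW : W' ≤ W := star2_vm_le f _
  have hW0 : 0 ≤ W' := star2_nonneg f _
  have hh := hR.h0
  have hκ := hR.κ0
  have hι := hR.ι00
  have hVy : (V - f y) ^ 2 ≤ W / ι0 := by
    rw [le_div_iff₀ hι]
    have h1 := star2_eq (A := A) (w := w) (y := y) f (f y)
    have h2 := hR.le_iot hA
    nlinarith [sq_nonneg (V - f y)]
  have h1 : ∀ b ∈ Q ∩ T, Iy A w y b * ‖zv A w y f b‖ ^ 2 ≤ h * ‖zv A w y f b‖ ^ 2 +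
      2 * h * (Iy A w y b * (f b - V) ^ 2) + 8 * (r b ^ 2 * (f b - f y) ^ 2) +
      8 * (W / ι0) * r b ^ 2 + 8 * (κ * W) * r b := by
    intro b hb
    have h2 := (hR.Iy_le hA hb).1
    have h3 := hR.r0 b
    have h4 := Iy_nonneg (A := A) (w := w) (y := y) b
    have h5 : r b * ‖zv A w y f b‖ ^ 2 ≤ r b * (2 * (Iy A w y b * (f b - V) ^ 2) + 8 * (κ * W)) := by
      by_cases e : r b = 0
      · simp [e]
      refine mul_le_mul_of_nonneg_left ((zv_sq_le hA f b).trans ?_) h3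
      have := hR.kap b (mem_inter.1 hb).1 (mem_inter.1 hb).2 e
      gcongr
    have h6 : r b * Iy A w y b ≤ h * Iy A w y b + 2 * r b ^ 2 := by
      rcases le_total (r b) h with e | e <;> nlinarith
    have h7 : (f b - V) ^ 2 ≤ 2 * (f b - f y) ^ 2 + 2 * (W / ι0) := by
      nlinarith [sq_nonneg (f b - f y + (V - f y))]
    have h8 := mul_le_mul_of_nonneg_right h6 (sq_nonneg (f b - V))
    have h9 := mul_le_mul_of_nonneg_left h7 (sq_nonneg (r b))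
    have h10 := mul_le_mul_of_nonneg_right h2 (sq_nonneg ‖zv A w y f b‖)
    nlinarith
  have hW0' : 0 ≤ W := hW0.trans hWW
  calc _ ≤ _ := sum_le_sum h1
    _ ≤ ∑ b, (h * ‖zv A w y f b‖ ^ 2 + 2 * h * (Iy A w y b * (f b - V) ^ 2) +
        8 * (r b ^ 2 * (f b - f y) ^ 2) + 8 * (W / ι0) * r b ^ 2 + 8 * (κ * W) * r b) :=
      sum_le_sum_of_subset_of_nonneg (subset_univ _) fun b _ _ => by
        have := hR.r0 b
        have := Iy_nonneg (A := A) (w := w) (y := y) b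
        positivity
    _ = h * W' + 2 * h * W' + 8 * ∑ b, r b ^ 2 * (f b - f y) ^ 2 + 8 * (W / ι0) * ∑ b, r b ^ 2 +
        8 * (κ * W) * ∑ b, r b := by
      simp only [sum_add_distrib, ← mul_sum]
      rw [← nsq, nsq_zv hA]; rfl
    _ ≤ h * W + 2 * h * W + 8 * ∑ b, r b ^ 2 * (f b - f y) ^ 2 + 8 * (W / ι0) * m2 +
        8 * (κ * W) * m1 := by gcongr; exacts [hR.r2, hR.r1]
    _ = _ := by ring

/-- dual bound behind the quadratic variation -/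
theorem Row.qv (hR : Row A w y Q T Cr r h h1 m ι0 ι1 κ m1 m2) (hA : Adm A w) (hμ : 0 < μ)
    (hE : ∀ ψ, 0 ≤ E0 ψ) (hT : Cap E0 μ T a F) (hC : Cap E0 μ univ a' F') (ha : 0 ≤ a) (hF : 0 ≤ F)
    (ha' : 0 ≤ a') (hF' : 0 ≤ F') (τ : ℂ) (f : Tor d M → ℝ) {g : Tor d M → ℝ} (hg : Supp g Q)
    (hv : Van g) : μ * (f ⬝ᵥ XM A w y τ *ᵥ g) ^ 2 ≤
      2 * ‖τ‖ ^ 2 * (qC a F a' F' h m ι0 ι1 κ m1 m2 * star2 A w y f (f y) +
        8 * a * ∑ b, r b ^ 2 * (f b - f y) ^ 2) * E0 g := by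
  have h2 := hR.cap hA hμ hE hT hC ha hF ha' hF'
    (l := fun b => (τ * (Complex.I * kv A w y b * zv A w y f b)).re)
    (u := fun b => ‖τ‖ * ‖zv A w y f b‖) hg hv
    (fun b => (Complex.abs_re_le_norm _).trans (le_of_eq (by simp; ring)))
    (α := ‖τ‖ ^ 2 * ((3 * h + 8 * m2 / ι0 + 8 * m1 * κ) * star2 A w y f (f y) +
        8 * ∑ b, r b ^ 2 * (f b - f y) ^ 2)) (by
      refine le_trans (le_of_eq ?_) (mul_le_mul_of_nonneg_left (hR.tame hA f) (sq_nonneg ‖τ‖))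
      rw [mul_sum]; exact sum_congr rfl fun b _ => by ring)
  have h3 : ∑ b, (‖τ‖ * ‖zv A w y f b‖) ^ 2 ≤ ‖τ‖ ^ 2 * star2 A w y f (f y) := by
    simp only [mul_pow, ← mul_sum]
    gcongr
    exact nsq_zv_le hA f _
  rw [XM_form hA]
  refine h2.trans ?_
  have := hE g
  have := hR.m_nonneg hA
  have := iot_nonneg.trans (hR.iot_le hA)
  calc _ ≤ 2 * (a * (‖τ‖ ^ 2 * ((3 * h + 8 * m2 / ι0 + 8 * m1 * κ) * star2 A w y f (f y) +
        8 * ∑ b, r b ^ 2 * (f b - f y) ^ 2)) +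
        (F * ι1 + (a' + F') * m) * (‖τ‖ ^ 2 * star2 A w y f (f y))) * E0 g := by gcongr
    _ = _ := by unfold qC; ring

theorem gam_star2 (hA : Adm A w) (f : Tor d M → ℝ) (y : Tor d M) :
    gam w y * star2 A w y f (f y) = ∑ b, ‖Km A w y b‖ ^ 2 * (f y - f b) ^ 2 := by
  rw [star2, mul_sum]
  refine sum_congr rfl fun b _ => ?_
  by_cases e : b = y
  · simp [e]
  · rw [Km_comm hA, Km_col_sq hA.diss e]; ring

/-- the star energies add up to twice the energy -/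
theorem sum_star2_le (hA : Adm A w) (U : Finset (Tor d M)) (f : Tor d M → ℝ) :
    ∑ y ∈ U, gam w y * star2 A w y f (f y) ≤ 2 * En (Km A w) f := by
  simp only [gam_star2 hA, En]
  rw [← mul_assoc, show (2 : ℝ) * (1 / 2) = 1 by norm_num, one_mul]
  exact sum_le_sum_of_subset_of_nonneg (subset_univ _) fun _ _ _ => by positivity

/-- drift -/
theorem drift_le (hA : Adm A w) (U : Finset (Tor d M)) {β : Tor d M → ℂ} {b : ℝ} (hb : 0 ≤ b)
    (hβ : ∀ y ∈ U, ‖β y‖ ≤ b * gam w y) (f g : Tor d M → ℝ) :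
    (f ⬝ᵥ (∑ y ∈ U, XM A w y (β y)) *ᵥ g) ^ 2 ≤ (2 * b) ^ 2 * (En (Km A w) f * En (Km A w) g) := by
  rw [sum_mulVec, dotProduct_sum]
  have h1 := sum_sq_le_sum_mul_sum_of_sq_le_mul U (r := fun y => f ⬝ᵥ XM A w y (β y) *ᵥ g)
    (f := fun y => b * (gam w y * star2 A w y f (f y)))
    (g := fun y => b * (gam w y * star2 A w y g (g y)))
    (fun y _ => mul_nonneg hb (mul_nonneg (hA.diss y) (star2_nonneg _ _)))
    (fun y _ => mul_nonneg hb (mul_nonneg (hA.diss y) (star2_nonneg _ _))) fun y hy => by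
      refine (XM_sq_le hA (β y) f g (f y) (g y)).trans ?_
      have := star2_nonneg (A := A) (w := w) (y := y) f (f y)
      have := star2_nonneg (A := A) (w := w) (y := y) g (g y)
      calc _ ≤ (b * gam w y) ^ 2 * (star2 A w y f (f y) * star2 A w y g (g y)) := by
            gcongr; exact hβ y hy
        _ = _ := by ring
  refine h1.trans ?_
  rw [← mul_sum, ← mul_sum]
  have h2 := sum_star2_le hA U f
  have h3 := sum_star2_le hA U g
  have h4 : 0 ≤ ∑ y ∈ U, gam w y * star2 A w y g (g y) :=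
    sum_nonneg fun y _ => mul_nonneg (hA.diss y) (star2_nonneg _ _)
  have h5 : 0 ≤ ∑ y ∈ U, gam w y * star2 A w y f (f y) :=
    sum_nonneg fun y _ => mul_nonneg (hA.diss y) (star2_nonneg _ _)
  calc _ ≤ b * (2 * En (Km A w) f) * (b * (2 * En (Km A w) g)) := by
        gcongr; exact mul_nonneg hb (h5.trans h2)
    _ = _ := by ring

end Crest.Agent.N334.AC.M6
end

-- ▼ part N334/AC/M6/Mon
section

/-!
# Row 334, S0520 (helper73): the monitor M6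
-/

set_option autoImplicit false
set_option linter.unusedSectionVars false

open Matrix Finset
open scoped Matrix.Norms.L2Operator

namespace Crest.Agent.N334.AC.M6

variable {d M : ℕ} [NeZero M] {E0 : (Tor d M → ℝ) → ℝ} {A : Matrix (Tor d M) (Tor d M) ℂ}
  {w : Tor d M → ℂ} {B : Type} [Fintype B] [DecidableEq B] {n : Matrix (Tor d M) B ℝ}

theorem nsq_re_im (v : B → ℂ) : nsq v = ∑ i, (v i).re ^ 2 + ∑ i, (v i).im ^ 2 := by
  simp only [nsq, Complex.sq_norm, Complex.normSq_apply, sum_add_distrib]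
  simp only [sq]

theorem nsq_real (J : Matrix B B ℝ) (v : B → ℂ) : nsq (J.map Complex.ofReal *ᵥ v) =
    ∑ i, (J *ᵥ fun j => (v j).re) i ^ 2 + ∑ i, (J *ᵥ fun j => (v j).im) i ^ 2 := by
  rw [nsq_re_im]
  simp [mulVec, dotProduct, Complex.re_sum, Complex.im_sum]

theorem sq_le_of_dual {x : B → ℝ} {c : ℝ} (hc : 0 ≤ c) (h : ∀ u, (u ⬝ᵥ x) ^ 2 ≤ c * ∑ i, u i ^ 2) :
    ∑ i, x i ^ 2 ≤ c := by
  have h1 := h x
  have e : x ⬝ᵥ x = ∑ i, x i ^ 2 := by simp [dotProduct, sq]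
  rw [e] at h1
  rcases (show 0 ≤ ∑ i, x i ^ 2 by positivity).eq_or_lt with h0 | h0
  · rwa [← h0]
  · nlinarith

theorem nrm_form (s : ℝ) (X : Matrix (Tor d M) (Tor d M) ℝ) (u z : B → ℝ) :
    u ⬝ᵥ (s • (nᵀ * X * n)) *ᵥ z = s * ((n *ᵥ u) ⬝ᵥ X *ᵥ (n *ᵥ z)) := by
  rw [smul_mulVec, dotProduct_smul, smul_eq_mul, ← mulVec_mulVec, ← mulVec_mulVec,
    dotProduct_mulVec u, vecMul_transpose]

theorem nrm_sq_le {Q : Finset (Tor d M)} (hn : Nrm E0 Q n) (s : ℝ) {X : Matrix (Tor d M) (Tor d M) ℝ}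
    {z : B → ℝ} {c : ℝ} (hc : 0 ≤ c)
    (h : ∀ g, Supp g Q → (g ⬝ᵥ X *ᵥ (n *ᵥ z)) ^ 2 ≤ c * E0 g) :
    ∑ i, ((s • (nᵀ * X * n)) *ᵥ z) i ^ 2 ≤ s ^ 2 * c := by
  refine sq_le_of_dual (by positivity) fun u => ?_
  rw [nrm_form, mul_pow, mul_assoc]
  gcongr
  exact (h _ (hn.le u).1).trans (by gcongr; exact (hn.le u).2)

theorem norm_nrmM_le {Q : Finset (Tor d M)} (hn : Nrm E0 Q n) (hE : ∀ ψ, 0 ≤ E0 ψ) {s : ℝ} (hs : 0 ≤ s)
    {X : Matrix (Tor d M) (Tor d M) ℝ} {c : ℝ} (hc : 0 ≤ c)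
    (h : ∀ f g, Supp f Q → Supp g Q → (g ⬝ᵥ X *ᵥ f) ^ 2 ≤ c ^ 2 * (E0 g * E0 f)) :
    ‖nrmM n s X‖ ≤ s * c := by
  refine (bd_iff_norm (by positivity)).1 fun v => ?_
  have h1 : ∀ z : B → ℝ, ∑ i, ((s • (nᵀ * X * n)) *ᵥ z) i ^ 2 ≤ s ^ 2 * (c ^ 2 * ∑ i, z i ^ 2) :=
    fun z => nrm_sq_le hn s (by positivity) fun g hg => (h _ g (hn.le z).1 hg).trans (by
      have := hE g
      calc _ ≤ c ^ 2 * (E0 g * ∑ i, z i ^ 2) := by gcongr; exact (hn.le z).2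
        _ = _ := by ring)
  rw [nrmM, nsq_real, nsq_re_im v]
  have := h1 fun j => (v j).re
  have := h1 fun j => (v j).im
  nlinarith

/-- `nrmM` is linear -/
noncomputable def nrmL (n : Matrix (Tor d M) B ℝ) (s : ℝ) :
    Matrix (Tor d M) (Tor d M) ℝ →ₗ[ℝ] Matrix B B ℂ where
  toFun := nrmM n s
  map_add' X Y := by ext i j; simp [nrmM, Matrix.mul_add, Matrix.add_mul]
  map_smul' c X := by ext i j; simp [nrmM]; ring

/-- `XM` is linear in `τ` -/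
noncomputable def XL (A : Matrix (Tor d M) (Tor d M) ℂ) (w : Tor d M → ℂ) (y : Tor d M) :
    ℂ →ₗ[ℝ] Matrix (Tor d M) (Tor d M) ℝ where
  toFun := XM A w y
  map_add' := XM_add
  map_smul' c τ := XM_smul c τ

theorem nrmM_herm (s : ℝ) {X : Matrix (Tor d M) (Tor d M) ℝ} (h : X.IsSymm) :
    (nrmM n s X)ᴴ = nrmM n s X := by
  have : (s • (nᵀ * X * n))ᵀ = s • (nᵀ * X * n) := by
    rw [transpose_smul, transpose_mul, transpose_mul, transpose_transpose, h.eq, Matrix.mul_assoc]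
  ext i j
  rw [conjTranspose_apply, nrmM, map_apply, map_apply, ← congrFun (congrFun this i) j]
  simp

theorem mon_zero (s : ℝ) (L : ℕ) (p : Tor d M) : mon n s L (0 : Rec d M) p = 0 := by
  simp [mon, nrmM]

theorem mon_addX (s : ℝ) (L : ℕ) (p y : Tor d M) (Xs : Rec d M) (v : ℝ) :
    mon n s L (addX A w Xs y v) p = mon n s L Xs p +
      if y ∈ tball p L then nrmM n s (XM A w y (tau A w y v)) else 0 := by
  simp only [mon, addX, sum_add_distrib, sum_ite_eq']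
  refine ((nrmL n s).map_add _ _).trans ?_
  congr 1
  split_ifs
  · rfl
  · exact (nrmL n s).map_zero

theorem mon_addX_of_not_mem {s : ℝ} {L : ℕ} {p y : Tor d M} (hy : y ∉ tball p L) (Xs : Rec d M) (v : ℝ) :
    mon n s L (addX A w Xs y v) p = mon n s L Xs p := by rw [mon_addX, if_neg hy, add_zero]

theorem mon_addX_of_mem {s : ℝ} {L : ℕ} {p y : Tor d M} (hy : y ∈ tball p L) (Xs : Rec d M) (v : ℝ) :
    mon n s L (addX A w Xs y v) p = mon n s L Xs p + nrmM n s (XM A w y (tau A w y v)) := by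
  rw [mon_addX, if_pos hy]

theorem van_of_supp {Q : Finset (Tor d M)} (hQ : Disjoint Q (absb d M)) {f : Tor d M → ℝ}
    (hf : Supp f Q) : Van f := fun x hx => hf x (disjoint_right.1 hQ hx)

theorem disjoint_Qp (L : ℕ) (p : Tor d M) : Disjoint (Qp L p) (absb d M) := sdiff_disjoint

/-- size of one jump -/
theorem norm_jump_le {Q T Cr : Finset (Tor d M)} {y : Tor d M} {r : Tor d M → ℝ}
    {μ a F a' F' h h1 m ι0 ι1 κ m1 m2 s : ℝ} (hn : Nrm E0 Q n) (hQ : Disjoint Q (absb d M))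
    (hR : Row A w y Q T Cr r h h1 m ι0 ι1 κ m1 m2) (hA : Adm A w) (hμ : 0 < μ)
    (hE : ∀ ψ, 0 ≤ E0 ψ) (hT : Cap E0 μ T a F) (hC : Cap E0 μ univ a' F') (ha : 0 ≤ a) (hF : 0 ≤ F)
    (ha' : 0 ≤ a') (hF' : 0 ≤ F') (hs : 0 ≤ s) (τ : ℂ) :
    ‖nrmM n s (XM A w y τ)‖ ≤ s * ‖τ‖ * lamC a F a' F' h1 m ι1 / μ := by
  have hl := hR.lam_nonneg hA ha hF ha' hF'
  have k1 : ∀ f, Supp f Q → star2 A w y f 0 ≤ lamC a F a' F' h1 m ι1 / μ * E0 f := fun f hf => by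
    rw [div_mul_eq_mul_div, le_div_iff₀ hμ, mul_comm]
    exact hR.lev hA hμ hE hT hC ha hF ha' hF' hf (van_of_supp hQ hf)
  rw [mul_assoc, mul_div_assoc, mul_div_assoc]
  refine norm_nrmM_le hn hE hs (by positivity) fun f g hf hg => (XM_sq_le hA τ g f 0 0).trans ?_
  have := star2_nonneg (A := A) (w := w) (y := y) f 0
  have := hE g
  calc _ ≤ ‖τ‖ ^ 2 * ((lamC a F a' F' h1 m ι1 / μ * E0 g) * (lamC a F a' F' h1 m ι1 / μ * E0 f)) := by
        gcongr; exacts [k1 g hg, k1 f hf]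
    _ = _ := by ring

/-- M6 is a local supermartingale for the lazy step -/
theorem mon_locA {Act T Cr : Finset (Tor d M)} {N L : ℕ} {p : Tor d M} {vv : Tor d M → ℕ → ℝ}
    {r : Tor d M → Tor d M → ℝ} {Xs : Rec d M}
    {μ a F a' F' h h1 m ι0 ι1 κ m1 m2 s dt Z Tt t ε τ1 t2 b Qn : ℝ}
    (hN : 0 < N) (hdt : 0 ≤ dt) (hZ : 0 < Z) (hTt : 0 < Tt)
    (hn : Nrm E0 (Qp L p) n) (hA : Adm A w) (hμ : 0 < μ) (hE : ∀ ψ, 0 ≤ E0 ψ)
    (hT : Cap E0 μ T a F) (hC : Cap E0 μ univ a' F') (ha : 0 ≤ a) (hF : 0 ≤ F) (ha' : 0 ≤ a')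
    (hF' : 0 ≤ F') (hs : 0 ≤ s) (hU : UB E0 A w ε) (hε : 0 ≤ ε) (hb : 0 ≤ b) (ht2 : 0 ≤ t2)
    (hτ1 : 0 ≤ τ1) (hQn : 0 ≤ Qn)
    (hR : ∀ y ∈ Act ∩ tball p L, Row A w y (Qp L p) T Cr (r y) h h1 m ι0 ι1 κ m1 m2)
    (hτ : ∀ y ∈ Act ∩ tball p L, ∀ k < N, ‖tau A w y (vv y k)‖ ≤ τ1)
    (hτ2 : ∀ y ∈ Act ∩ tball p L, avg N (fun k => ‖tau A w y (vv y k)‖ ^ 2) ≤ t2 * gam w y)
    (hβ : ∀ y ∈ Act ∩ tball p L, ‖avgV N fun k => tau A w y (vv y k)‖ ≤ b * gam w y)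
    (hr : ∀ f, Van f → ∑ y, ∑ x, r y x ^ 2 * (f x - f y) ^ 2 ≤ Qn * E0 f)
    (hJ : Z * (s * τ1 * lamC a F a' F' h1 m ι1 / μ) ≤ 1)
    (hD : s * (2 * b * (1 + ε)) ≤ 1 / (4 * Tt))
    (hV : Z * (s ^ 2 * (2 / μ) * (2 * t2 * qC a F a' F' h m ι0 ι1 κ m1 m2 * (1 + ε) +
      8 * a * τ1 ^ 2 * Qn)) ≤ 1 / (4 * Tt)) :
    LocA Act N dt (tball p L) (potM Z Tt t 0 (mon n s L Xs p))
      fun ω => potM Z Tt (t + dt) 0 (mon n s L (stepX A w vv Xs ω) p) := by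
  have hQ := disjoint_Qp L p
  set J : Tor d M → ℕ → Matrix B B ℂ := fun y k => nrmM n s (XM A w y (tau A w y (vv y k))) with hJ'
  have e : (fun ω => potM Z Tt (t + dt) 0 (mon n s L (stepX A w vv Xs ω) p)) =
      fun ω => potM Z Tt (t + dt) 0 (accUp (tball p L) (mon n s L Xs p) 0 J ω) := by
    funext ω
    rcases ω with _ | ⟨y, k⟩
    · simp [stepX, accUp]
    · simp [stepX, accUp, mon_addX, hJ']
  have hEn : ∀ f, Supp f (Qp L p) → En (Km A w) f ≤ (1 + ε) * E0 f := fun f hf =>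
    hU f (van_of_supp hQ hf)
  have hqv : ∀ v : B → ℂ, Z * ∑ y ∈ Act ∩ tball p L, avg N (fun k => nsq (J y k *ᵥ v)) ≤
      1 / (4 * Tt) * nsq v := by
    intro v
    set q := qC a F a' F' h m ι0 ι1 κ m1 m2 with hq
    set Φ : Tor d M → (B → ℝ) → ℝ := fun y z => t2 * q * (gam w y * star2 A w y (n *ᵥ z) ((n *ᵥ z) y)) +
      8 * a * τ1 ^ 2 * ∑ x, r y x ^ 2 * ((n *ᵥ z) x - (n *ᵥ z) y) ^ 2 with hΦ
    have h1 : ∀ y ∈ Act ∩ tball p L, ∀ z : B → ℝ, avg N (fun k =>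
        ∑ i, ((s • (nᵀ * XM A w y (tau A w y (vv y k)) * n)) *ᵥ z) i ^ 2) ≤
          s ^ 2 * (2 / μ) * Φ y z := by
      intro y hy z
      have hq0 : 0 ≤ q := (hR y hy).q_nonneg hA ha hF ha' hF'
      have hW := star2_nonneg (A := A) (w := w) (y := y) (n *ᵥ z) ((n *ᵥ z) y)
      set W := star2 A w y (n *ᵥ z) ((n *ᵥ z) y) with hW'
      set R := ∑ x, r y x ^ 2 * ((n *ᵥ z) x - (n *ᵥ z) y) ^ 2 with hR'
      have hR0 : 0 ≤ R := by positivity
      calc _ ≤ avg N fun k => s ^ 2 * (2 / μ) * (q * W) * ‖tau A w y (vv y k)‖ ^ 2 +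
            s ^ 2 * (2 / μ) * (8 * a * τ1 ^ 2 * R) := by
            refine avg_mono fun k hk => ?_
            refine (nrm_sq_le hn s (c := 2 / μ * (‖tau A w y (vv y k)‖ ^ 2 * (q * W + 8 * a * R)))
              (by positivity) fun g hg => ?_).trans ?_
            · have := (hR y hy).qv hA hμ hE hT hC ha hF ha' hF' (tau A w y (vv y k)) (n *ᵥ z) hg
                (van_of_supp hQ hg)
              rw [form_comm (XM_isSymm hA _)]
              refine le_of_mul_le_mul_left (this.trans (le_of_eq ?_)) hμ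
              rw [← hq, ← hW', ← hR']; field_simp
            · have h2 : ‖tau A w y (vv y k)‖ ^ 2 ≤ τ1 ^ 2 := by gcongr; exact hτ y hy k hk
              have h3 := mul_le_mul_of_nonneg_left h2
                (show 0 ≤ s ^ 2 * (2 / μ) * (8 * a * R) by positivity)
              nlinarith
        _ ≤ s ^ 2 * (2 / μ) * (q * W) * (t2 * gam w y) + s ^ 2 * (2 / μ) * (8 * a * τ1 ^ 2 * R) := by
            rw [avg_add, avg_mul, avg_const hN]
            gcongr; exact hτ2 y hy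
        _ = _ := by simp only [hΦ]; ring
    have h2 : ∀ z : B → ℝ, ∑ y ∈ Act ∩ tball p L, Φ y z ≤
        (2 * t2 * q * (1 + ε) + 8 * a * τ1 ^ 2 * Qn) * ∑ i, z i ^ 2 ∨ Act ∩ tball p L = ∅ := by
      intro z
      rcases (Act ∩ tball p L).eq_empty_or_nonempty with h0 | ⟨y, hy⟩
      · exact Or.inr h0
      left
      have hq0 : 0 ≤ q := (hR y hy).q_nonneg hA ha hF ha' hF'
      have h3 := (sum_star2_le hA (Act ∩ tball p L) (n *ᵥ z)).trans
        (mul_le_mul_of_nonneg_left (hEn _ (hn.le z).1) zero_le_two)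
      have h4 : ∑ y ∈ Act ∩ tball p L, ∑ x, r y x ^ 2 * ((n *ᵥ z) x - (n *ᵥ z) y) ^ 2 ≤
          Qn * E0 (n *ᵥ z) := le_trans
        (sum_le_sum_of_subset_of_nonneg (subset_univ _) fun _ _ _ => by positivity)
        (hr _ (van_of_supp hQ (hn.le z).1))
      simp only [hΦ, sum_add_distrib, ← mul_sum]
      calc _ ≤ t2 * q * (2 * ((1 + ε) * ∑ i, z i ^ 2)) + 8 * a * τ1 ^ 2 * (Qn * ∑ i, z i ^ 2) := by
            gcongr
            · exact h3.trans (by gcongr; exact (hn.le z).2)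
            · exact h4.trans (by gcongr; exact (hn.le z).2)
        _ = _ := by ring
    rcases (Act ∩ tball p L).eq_empty_or_nonempty with h0 | hne
    · rw [h0, sum_empty, mul_zero]; have := nsq_nonneg v; positivity
    have h3 := (h2 fun j => (v j).re).resolve_right hne.ne_empty
    have h4 := (h2 fun j => (v j).im).resolve_right hne.ne_empty
    calc _ ≤ Z * ∑ y ∈ Act ∩ tball p L, (s ^ 2 * (2 / μ) * Φ y (fun j => (v j).re) +
          s ^ 2 * (2 / μ) * Φ y fun j => (v j).im) := by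
          gcongr with y hy
          simp only [hJ', nrmM, nsq_real]
          rw [avg_add]
          exact add_le_add (h1 y hy _) (h1 y hy _)
      _ ≤ Z * (s ^ 2 * (2 / μ) * (2 * t2 * q * (1 + ε) + 8 * a * τ1 ^ 2 * Qn)) * nsq v := by
          rw [sum_add_distrib, ← mul_sum, ← mul_sum, nsq_re_im, mul_assoc Z, ← mul_add,
            mul_assoc (s ^ 2 * (2 / μ)), mul_add (_ + _)]
          gcongr
      _ ≤ _ := by have := nsq_nonneg v; gcongr
  rw [e]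
  refine potM_locA hN hdt hZ hTt (fun y hy k hk => le_trans ?_ hJ) ?_ hqv fun v => ?_
  · have := (hR y hy).lam_nonneg hA ha hF ha' hF'
    gcongr
    exact (norm_jump_le hn hQ (hR y hy) hA hμ hE hT hC ha hF ha' hF' hs _).trans
      (by gcongr; exact hτ y hy k hk)
  · have e2 : ∑ y ∈ Act ∩ tball p L, avgV N (J y) =
        nrmM n s (∑ y ∈ Act ∩ tball p L, XM A w y (avgV N fun k => tau A w y (vv y k))) := by
      refine Eq.symm ((map_sum (nrmL n s) _ _).trans (sum_congr rfl fun y _ => ?_))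
      exact Mon.map_avgV ((nrmL n s).comp (XL A w y)) N _
    rw [e2, sub_zero, zero_add, div_eq_mul_one_div dt]
    gcongr
    refine (norm_nrmM_le hn hE hs (by positivity) fun f g hf hg => ?_).trans hD
    refine (drift_le hA _ hb hβ g f).trans ?_
    have := hE g
    have : 0 ≤ En (Km A w) f := by unfold En; positivity
    calc _ ≤ (2 * b) ^ 2 * ((1 + ε) * E0 g * ((1 + ε) * E0 f)) := by
          gcongr; exacts [hEn g hg, hEn f hf]
      _ = _ := by ring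
  · simp only [hJ', nrmM_herm s (XM_isSymm hA _)]
    exact hqv v

end Crest.Agent.N334.AC.M6
end

-- ▼ part N334/AC/M6/Glue
section

/-!
# Row 334, S0520 (helper73): from the monitors M6 to the form bounds
-/

set_option autoImplicit false

open Matrix Finset
open scoped Matrix.Norms.L2Operator

namespace Crest.Agent.N334.AC.M6

variable {d M : ℕ} [NeZero M] {E0 : (Tor d M → ℝ) → ℝ} {A : Matrix (Tor d M) (Tor d M) ℂ}
  {w0 w : Tor d M → ℂ} {Xs : Rec d M} {c θ : ℝ}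

namespace Gl

section Gen

variable {ι : Type} [Fintype ι]

theorem form_congr {X : Matrix ι ι ℝ} {f f' : ι → ℝ}
    (h : ∀ a b, X a b ≠ 0 → f a = f' a ∧ f b = f' b) : f ⬝ᵥ X *ᵥ f = f' ⬝ᵥ X *ᵥ f' := by
  simp only [dotProduct, mulVec, mul_sum]
  refine sum_congr rfl fun a _ => sum_congr rfl fun b _ => ?_
  by_cases h0 : X a b = 0
  · simp [h0]
  · rw [(h a b h0).1, (h a b h0).2]

variable [DecidableEq ι]

theorem form_shift {X : Matrix ι ι ℝ} (hs : X.IsSymm) (hc : X *ᵥ (fun _ => (1 : ℝ)) = 0)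
    (f : ι → ℝ) (k : ℝ) : (fun a => f a - k) ⬝ᵥ X *ᵥ (fun a => f a - k) = f ⬝ᵥ X *ᵥ f := by
  have e1 : (fun a => f a - k) = f - k • fun _ => (1 : ℝ) := by funext a; simp
  have e2 : X *ᵥ (k • fun _ => (1 : ℝ)) = 0 := by rw [mulVec_smul, hc, smul_zero]
  rw [e1, mulVec_sub, e2, sub_zero, sub_dotProduct, form_comm hs (k • fun _ => (1 : ℝ)), e2,
    dotProduct_zero, sub_zero]

theorem form_diff {X : Matrix ι ι ℝ} (hs : X.IsSymm) (f g : ι → ℝ) :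
    f ⬝ᵥ X *ᵥ f - g ⬝ᵥ X *ᵥ g = (f - g) ⬝ᵥ X *ᵥ (f + g) := by
  rw [mulVec_add, sub_dotProduct, dotProduct_add, dotProduct_add, form_comm hs g f]
  ring

theorem form_le {Y : Matrix ι ι ℝ} {b : ℝ} (h : ‖Y.map Complex.ofReal‖ ≤ b) (z : ι → ℝ) :
    |z ⬝ᵥ Y *ᵥ z| ≤ b * ∑ u, z u ^ 2 := by
  have hb : 0 ≤ b := (norm_nonneg _).trans h
  have h1 := ((bd_iff_norm hb).2 h).dot (fun u => (z u : ℂ)) (fun u => (z u : ℂ))
  have h2 : (fun u => (z u : ℂ)) ⬝ᵥ Y.map Complex.ofReal *ᵥ (fun u => (z u : ℂ)) =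
      ((z ⬝ᵥ Y *ᵥ z : ℝ) : ℂ) := by
    simp [dotProduct, mulVec]
  have h3 : nsq (fun u => (z u : ℂ)) = ∑ u, z u ^ 2 := by simp [nsq]
  rw [h2, h3, Complex.norm_real, Real.norm_eq_abs, sq_abs] at h1
  refine abs_le_of_sq_le_sq ?_ (by positivity)
  calc _ ≤ _ := h1
    _ = _ := by ring

end Gen

theorem sum_addX (y : Tor d M) (v : ℝ) :
    ∑ z, addX A w Xs y v z = ∑ z, Xs z + XM A w y (tau A w y v) := by
  simp [addX, sum_add_distrib]

/-- the local part of the form -/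
theorem loc_le {B : Type} [Fintype B] [DecidableEq B] {n : Matrix (Tor d M) B ℝ} {s b : ℝ}
    {Q : Finset (Tor d M)} {D : Matrix (Tor d M) (Tor d M) ℝ} (hn : Nrm E0 Q n) (hs : 0 < s)
    (hb : ‖nrmM n s D‖ ≤ b) {φ : Tor d M → ℝ} (hφ : Supp φ Q) : |φ ⬝ᵥ D *ᵥ φ| ≤ b / s * E0 φ := by
  obtain ⟨z, rfl, hz⟩ := hn.ge φ hφ
  have hb0 : 0 ≤ b := (norm_nonneg _).trans hb
  have h1 := form_le hb z
  have h2 : z ⬝ᵥ (s • (nᵀ * D * n)) *ᵥ z = s * ((n *ᵥ z) ⬝ᵥ D *ᵥ (n *ᵥ z)) := by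
    rw [smul_mulVec, dotProduct_smul, smul_eq_mul, ← mulVec_mulVec, ← mulVec_mulVec,
      dotProduct_mulVec z, vecMul_transpose]
  rw [h2, abs_mul, abs_of_pos hs] at h1
  rw [div_mul_eq_mul_div, le_div_iff₀ hs, mul_comm]
  exact h1.trans (mul_le_mul_of_nonneg_left hz hb0)

/-- the cut-off error -/
theorem err_le {y : Tor d M} {X : Matrix (Tor d M) (Tor d M) ℝ} (h : Loc c θ y X) (hc : 0 ≤ c)
    (hθ : 0 < θ) {L : ℕ} {χ g : Tor d M → ℝ} (h0 : ∀ x, 0 ≤ χ x) (h1 : ∀ x, χ x ≤ 1)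
    (h2 : ∀ x, tdist x y ≤ L → χ x = 1) :
    |g ⬝ᵥ X *ᵥ g - (fun x => χ x * g x) ⬝ᵥ X *ᵥ fun x => χ x * g x| ≤
      2 * c * Real.exp (-θ * L / 2) * ∑ b, Real.exp (-θ * tdist b y) * g b ^ 2 := by
  rw [form_diff h.symm]
  set S := ∑ b, Real.exp (-θ * tdist b y) * g b ^ 2 with hS
  have hS0 : 0 ≤ S := sum_nonneg fun b _ => by positivity
  have e1 : ∑ b, Real.exp (-(2 * θ) * tdist b y) * (g - fun x => χ x * g x) b ^ 2 ≤
      Real.exp (-θ * L) * S := by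
    rw [hS, mul_sum]
    refine sum_le_sum fun b _ => ?_
    simp only [Pi.sub_apply]
    by_cases hb : tdist b y ≤ L
    · rw [h2 b hb, one_mul, sub_self]
      simp only [ne_eq, OfNat.ofNat_ne_zero, not_false_eq_true, zero_pow, mul_zero]
      positivity
    · have hb' : (L : ℝ) ≤ tdist b y := by exact_mod_cast (not_le.1 hb).le
      rw [← mul_assoc, ← Real.exp_add]
      refine mul_le_mul (Real.exp_le_exp.2 (by nlinarith)) ?_ (sq_nonneg _) (Real.exp_pos _).le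
      have e : (g b - χ b * g b) ^ 2 = (1 - χ b) ^ 2 * g b ^ 2 := by ring
      rw [e]
      refine mul_le_of_le_one_left (sq_nonneg _) ?_
      nlinarith [h0 b, h1 b]
  have e2 : ∑ b, Real.exp (-(2 * θ) * tdist b y) * (g + fun x => χ x * g x) b ^ 2 ≤ 4 * S := by
    rw [hS, mul_sum]
    refine sum_le_sum fun b _ => ?_
    simp only [Pi.add_apply]
    have hb' : (0 : ℝ) ≤ tdist b y := Nat.cast_nonneg _
    rw [mul_left_comm]
    refine mul_le_mul (Real.exp_le_exp.2 (by nlinarith)) ?_ (sq_nonneg _) (Real.exp_pos _).le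
    have e : (g b + χ b * g b) ^ 2 = (1 + χ b) ^ 2 * g b ^ 2 := by ring
    rw [e]
    refine mul_le_mul_of_nonneg_right ?_ (sq_nonneg _)
    nlinarith [h0 b, h1 b]
  refine abs_le_of_sq_le_sq ((h.le _ _).trans ?_) (by positivity)
  have e3 : Real.exp (-θ * L) = Real.exp (-θ * L / 2) ^ 2 := by
    rw [sq, ← Real.exp_add]; congr 1; ring
  calc _ ≤ c ^ 2 * ((Real.exp (-θ * L) * S) * (4 * S)) := by
        refine mul_le_mul_of_nonneg_left (mul_le_mul e1 e2 ?_ (by positivity)) (sq_nonneg _)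
        exact sum_nonneg fun b _ => by positivity
    _ = _ := by rw [e3]; ring

theorem sum_ball (F : Tor d M → ℝ) (L : ℕ) :
    ∑ p, ∑ y ∈ tball p L, F y = vol d M L * ∑ y, F y := by
  have e : ∀ p, ∑ y ∈ tball p L, F y = ∑ y, if y ∈ tball p L then F y else 0 := fun p => by
    rw [sum_ite_mem, univ_inter]
  simp only [e]
  rw [sum_comm, mul_sum]
  refine sum_congr rfl fun y _ => ?_
  rw [← sum_filter, sum_const, nsmul_eq_mul, card_filter_mem_tball]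

end Gl

open Gl

theorem Track.init (A : Matrix (Tor d M) (Tor d M) ℂ) (w : Tor d M → ℂ) (c θ : ℝ) :
    Track A w w 0 c θ := by
  refine ⟨fun _ h => h, fun _ _ => rfl, fun _ _ _ _ => rfl, fun y => ⟨isSymm_zero, zero_mulVec _,
    fun f g => ?_⟩, fun f => by simp, fun f => ⟨f, fun _ _ => rfl, by simp⟩⟩
  simp only [Pi.zero_apply, zero_mulVec, dotProduct_zero, ne_eq, OfNat.ofNat_ne_zero,
    not_false_eq_true, zero_pow]
  positivity

theorem Track.close (h : Track A w0 w Xs c θ) (hA : Adm A w) {y : Tor d M} (hy : gam w y ≠ 0) {v : ℝ}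
    (hne : 1 + ((v : ℂ) - w y) * Gm A w y y ≠ 0) {cI : ℝ}
    (hI : ∀ b, b ≠ y → gam w b * ‖Gm A w b y‖ ^ 2 ≤ cI * Real.exp (-(2 * θ) * tdist b y))
    (hcI : 0 ≤ cI) (hc : ‖tau A w y v‖ * cI ≤ c) :
    Track A w0 (Function.update w y v) (addX A w Xs y v) c θ := by
  have hp : ∀ a, gam (Function.update w y v) a ≠ 0 → a ≠ y ∧ gam w a ≠ 0 := fun a ha => by
    have : a ≠ y := fun e => ha (e ▸ gam_close_self v)
    exact ⟨this, by rwa [gam_close_ne v this] at ha⟩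
  refine ⟨fun a ha => h.ports a (hp a ha).2, fun z hz => ?_, fun z a b ha => ?_, fun z => ?_,
    fun f => ?_, fun f => ?_⟩
  · simp [addX, (hp z hz).1, h.zero z (hp z hz).2]
  · have : gam w a = 0 := by
      by_contra h1
      exact h.ports a h1 ha
    simp only [addX, Matrix.add_apply, h.supp z a b ha, zero_add]
    split_ifs
    · exact XM_apply_zero _ (Or.inr this) b
    · rfl
  · by_cases hz : z = y
    · subst hz
      have e : addX A w Xs z v z = XM A w z (tau A w z v) := by simp [addX, h.zero z hy]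
      rw [e]
      refine ⟨XM_isSymm hA _, XM_mulVec_const hA _ 1, fun f g => (XM_sq_le hA _ f g 0 0).trans ?_⟩
      have hst : ∀ f : Tor d M → ℝ, star2 A w z f 0 ≤
          cI * ∑ b, Real.exp (-(2 * θ) * tdist b z) * f b ^ 2 := fun f => by
        rw [star2, mul_sum]
        refine sum_le_sum fun b _ => ?_
        rw [sub_zero, ← mul_assoc]
        refine mul_le_mul_of_nonneg_right ?_ (sq_nonneg _)
        by_cases hb : b = z
        · rw [hb, Iy_self]; positivity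
        · exact (Iy_le hA.diss b).trans (hI b hb)
      have hn : ∀ f : Tor d M → ℝ, 0 ≤ ∑ b, Real.exp (-(2 * θ) * tdist b z) * f b ^ 2 :=
        fun f => sum_nonneg fun b _ => by positivity
      have h2 : (‖tau A w z v‖ * cI) ^ 2 ≤ c ^ 2 := pow_le_pow_left₀ (by positivity) hc 2
      calc _ ≤ ‖tau A w z v‖ ^ 2 * ((cI * ∑ b, Real.exp (-(2 * θ) * tdist b z) * f b ^ 2) *
            (cI * ∑ b, Real.exp (-(2 * θ) * tdist b z) * g b ^ 2)) :=
            mul_le_mul_of_nonneg_left (mul_le_mul (hst f) (hst g) (star2_nonneg _ _)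
              (mul_nonneg hcI (hn f))) (sq_nonneg _)
        _ = (‖tau A w z v‖ * cI) ^ 2 * ((∑ b, Real.exp (-(2 * θ) * tdist b z) * f b ^ 2) *
            ∑ b, Real.exp (-(2 * θ) * tdist b z) * g b ^ 2) := by ring
        _ ≤ _ := mul_le_mul_of_nonneg_right h2 (mul_nonneg (hn f) (hn g))
    · have e : addX A w Xs y v z = Xs z := by simp [addX, hz]
      rw [e]
      exact h.loc z
  · rw [En_close hA hne, sum_addX, add_mulVec, dotProduct_add]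
    have h1 := En_update (y := y) hA f (f y)
    rw [Function.update_eq_self] at h1
    have h2 := En_update (y := y) hA f (vm A w y f)
    have h3 := mul_le_mul_of_nonneg_left (star2_vm_le (A := A) (w := w) (y := y) f (f y)) (hA.diss y)
    have h4 := h.ub f
    linarith
  · obtain ⟨f', h1, h2⟩ := h.lb (Function.update f y (vm A w y f))
    have h3 : ∀ a, a ≠ y → gam w a ≠ 0 → f' a = f a := fun a ha ha' => by
      rw [h1 a ha', Function.update_of_ne ha]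
    refine ⟨f', fun a ha => h3 a (hp a ha).1 (hp a ha).2, ?_⟩
    rw [En_close hA hne, sum_addX, add_mulVec, dotProduct_add]
    have h4 : f' ⬝ᵥ XM A w y (tau A w y v) *ᵥ f' = f ⬝ᵥ XM A w y (tau A w y v) *ᵥ f := by
      refine form_congr fun a b h0 => ⟨?_, ?_⟩
      · exact h3 a (fun e => h0 (XM_apply_zero _ (Or.inl e) b))
          fun e => h0 (XM_apply_zero _ (Or.inr e) b)
      · exact h3 b (fun e => h0 (XM_apply_zero' _ a (Or.inl e)))
          fun e => h0 (XM_apply_zero' _ a (Or.inr e))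
    linarith

/-- error constant of the gluing -/
noncomputable def glueC (d : ℕ) (σ C : ℝ) (L : ℕ) (s b c θ : ℝ) : ℝ :=
  C * b / s + 2 * c * Real.exp (-θ * L / 2) * ((C * L / θ) ^ (d + 3) / σ ^ 2)

theorem glue {B : Type} [Fintype B] [DecidableEq B] {n : Tor d M → Matrix (Tor d M) B ℝ} {σ C s b : ℝ}
    {L : ℕ} {χ : Tor d M → Tor d M → ℝ} {cp : Tor d M → (Tor d M → ℝ) →ₗ[ℝ] ℝ}
    (hloc : ∀ y, Loc c θ y (Xs y)) (hcut : Cut E0 σ C L χ cp) (hn : ∀ p, Nrm E0 (Qp L p) (n p))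
    (hs : 0 < s) (hc : 0 ≤ c) (hθ : 0 < θ) (hθ1 : θ ≤ 1)
    (hb : ∀ p, ‖mon (n p) s L Xs p‖ ≤ b) {ψ : Tor d M → ℝ} (hψ : Van ψ) :
    |ψ ⬝ᵥ (∑ y, Xs y) *ᵥ ψ| ≤ glueC d σ C L s b c θ * E0 ψ := by
  have hv := one_le_vol (d := d) (M := M) L
  have hb0 : 0 ≤ b := (norm_nonneg _).trans (hb 0)
  have hp : ∀ p, |∑ y ∈ tball p L, ψ ⬝ᵥ Xs y *ᵥ ψ| ≤
      b / s * E0 (fun x => χ p x * (ψ x - cp p ψ)) + 2 * c * Real.exp (-θ * L / 2) *
        ∑ y ∈ tball p L, ∑ b, Real.exp (-θ * tdist b y) * (ψ b - cp p ψ) ^ 2 := by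
    intro p
    have hsupp : Supp (fun x => χ p x * (ψ x - cp p ψ)) (Qp L p) := by
      intro a ha
      by_cases h1 : a ∈ tball p (3 * L)
      · have h2 : a ∈ absb d M := by
          by_contra h2
          exact ha (mem_sdiff.2 ⟨h1, h2⟩)
        show χ p a * (ψ a - cp p ψ) = 0
        rw [hψ a h2, hcut.van p ψ hψ ⟨a, h2, mem_tball.1 h1⟩, sub_self, mul_zero]
      · show χ p a * (ψ a - cp p ψ) = 0
        rw [hcut.zero p a (not_le.1 fun h2 => h1 (mem_tball.2 h2)), zero_mul]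
    have h1 := loc_le (hn p) hs (hb p) hsupp
    rw [sum_mulVec, dotProduct_sum] at h1
    have h2 : ∀ y ∈ tball p L, |ψ ⬝ᵥ Xs y *ᵥ ψ -
        (fun x => χ p x * (ψ x - cp p ψ)) ⬝ᵥ Xs y *ᵥ fun x => χ p x * (ψ x - cp p ψ)| ≤
        2 * c * Real.exp (-θ * L / 2) * ∑ b, Real.exp (-θ * tdist b y) * (ψ b - cp p ψ) ^ 2 := by
      intro y hy
      rw [← form_shift (hloc y).symm (hloc y).const ψ (cp p ψ)]
      refine err_le (hloc y) hc hθ (hcut.nonneg p) (hcut.le_one p) fun x hx => hcut.one p x ?_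
      have := tdist_triangle x y p
      have := mem_tball.1 hy
      omega
    have h3 := (abs_sum_le_sum_abs _ _).trans (sum_le_sum h2)
    rw [sum_sub_distrib, ← mul_sum] at h3
    have h4 := abs_sub_abs_le_abs_sub (∑ y ∈ tball p L, ψ ⬝ᵥ Xs y *ᵥ ψ)
      (∑ y ∈ tball p L, (fun x => χ p x * (ψ x - cp p ψ)) ⬝ᵥ Xs y *ᵥ fun x => χ p x * (ψ x - cp p ψ))
    linarith
  have h1 := (abs_sum_le_sum_abs _ _).trans (sum_le_sum fun p (_ : p ∈ univ) => hp p)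
  rw [sum_ball, sum_add_distrib, ← mul_sum, ← mul_sum, abs_mul, abs_of_pos (by linarith)] at h1
  have h2 := mul_le_mul_of_nonneg_left (hcut.ims ψ) (div_nonneg hb0 hs.le)
  have h3 := mul_le_mul_of_nonneg_left (hcut.err θ hθ hθ1 ψ)
    (by positivity : 0 ≤ 2 * c * Real.exp (-θ * L / 2))
  rw [sum_mulVec, dotProduct_sum]
  refine le_of_mul_le_mul_left ?_ (by linarith : 0 < vol d M L)
  calc _ ≤ _ := h1
    _ ≤ _ := add_le_add h2 h3
    _ = _ := by rw [glueC]; ring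

theorem Track.LB (h : Track A w0 w Xs c θ) (habs : ∀ a ∈ absb d M, gam w a ≠ 0) {ε η : ℝ}
    (h0 : LB E0 A w0 ε) (hη : ∀ ψ, Van ψ → |ψ ⬝ᵥ (∑ y, Xs y) *ᵥ ψ| ≤ η * E0 ψ) :
    LB E0 A w (ε + η) := by
  intro f hf
  obtain ⟨f', h1, h2⟩ := h.lb f
  obtain ⟨ψ, h3, h4, h5⟩ := h0 f' fun a ha => by rw [h1 a (habs a ha), hf a ha]
  refine ⟨ψ, h3, fun a ha => by rw [h4 a (h.ports a ha), h1 a ha], ?_⟩
  have h6 : ψ ⬝ᵥ (∑ y, Xs y) *ᵥ ψ = f' ⬝ᵥ (∑ y, Xs y) *ᵥ f' := by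
    refine form_congr fun a b hab => ?_
    rw [Matrix.sum_apply] at hab
    obtain ⟨y, -, hy⟩ := exists_ne_zero_of_sum_ne_zero hab
    refine ⟨h4 a fun e => hy (h.supp y a b e), h4 b fun e => hy ?_⟩
    rw [← (h.loc y).symm.apply a b]
    exact h.supp y b a e
  have h7 := (abs_le.1 (hη ψ h3)).1
  linarith

theorem Track.UB (h : Track A w0 w Xs c θ) {ε η : ℝ}
    (h0 : UB E0 A w0 ε) (hη : ∀ ψ, Van ψ → |ψ ⬝ᵥ (∑ y, Xs y) *ᵥ ψ| ≤ η * E0 ψ) :
    UB E0 A w (ε + η) := by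
  intro ψ hψ
  have h1 := h.ub ψ
  have h2 := h0 ψ hψ
  have h3 := (abs_le.1 (hη ψ hψ)).2
  linarith

end Crest.Agent.N334.AC.M6
end

-- ▼ part N334/AC/P/FEn

/-! # S0520 part P: monitor M6 (helper73)
`fam_ghost` with `M6.Track`, `mon_locA`, `glue`, `L = ρ`, `T = f.T` (`Led.capT`, `RefOK.sepT`), core = the other open
sites (`Der.core`), `h ≈ γ z²`, `r = γ|G0|²` (`Inv.pair`, `Led.four`), relative QV `≤ C' z²`, scale `1/(P² z)`. -/

set_option autoImplicit false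

open Finset Complex
open scoped Matrix.Norms.L2Operator Matrix

namespace Crest.Agent.N334.AC.P

variable {d M : ℕ} [NeZero M] {c : Cx d M} {e : Ep} {g : Sg} {f : Ref d M}

namespace FEn

/-- near profile -/
noncomputable def pr (c : Cx d M) (e : Ep) (g : Sg) (u : Tor d M) : ℝ :=
  if (u ≠ 0 ∧ e.Rt ≤ tdist u 0) ∧ g.z ^ 2 < ‖c.G0 u 0‖ ^ 2 then 4 * c.γ * ‖c.G0 u 0‖ ^ 2 else 0

/-- scale of the monitor -/
noncomputable def sc (e : Ep) (g : Sg) : ℝ := 1 / ((e.P : ℝ) ^ 2 * g.z)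

theorem E0_nn (ψ : Tor d M → ℝ) : 0 ≤ c.E0 ψ := En_nn _ _

section Num

variable (L : Led c e g)
include L

theorem P_one : (1 : ℝ) ≤ e.P := le_trans (by norm_num) L.P_ge

theorem x_z2 : g.x ≤ g.z ^ 2 := by
  have h1 := le_mul_of_one_le_left L.x_pos.le (one_le_pow₀ (n := 3) (P_one L))
  linarith [L.X0, L.X_inc, L.X_z]

theorem z_pos : 0 < g.z := L.x_pos.trans_le L.x_le_z

theorem e'_le : g.e' ≤ 1 := by
  have h1 := L.e_x_le
  have h2 : 0 ≤ (e.P : ℝ) ^ 3 * g.z := by have := z_pos L; positivity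
  have h3 : (1 : ℝ) ≤ c.C ^ 30 := one_le_pow₀ L.ok.C1
  have h4 := L.e'_small
  have h5 : 0 ≤ g.e' := by linarith [L.e0, L.x_pos]
  nlinarith [mul_le_mul_of_nonneg_right h3 h5]

theorem z_le : g.z ≤ 1 :=
  (le_mul_of_one_le_left L.z0 (one_le_pow₀ (P_one L))).trans (L.z_small.trans (e'_le L))

theorem sc_pos : 0 < sc e g := by
  have := z_pos L
  have := P_one L
  unfold sc; positivity

theorem σ_one : 100 * c.C * c.σ ≤ 1 := by
  have h1 := L.ok.σ_le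
  have h2 : c.C ≤ c.C ^ 30 := le_self_pow₀ L.ok.C1 (by norm_num)
  have h3 := mul_le_mul_of_nonneg_right h2 L.ok.σ0.le
  have h4 : 0 ≤ c.C ^ 30 * c.σ := by have := L.ok.C1; have := L.ok.σ0; positivity
  linarith

theorem γ_σ : c.γ ≤ c.C * c.σ := by
  have h1 := σ_one L
  have h2 := L.ok.C1
  have h3 := L.ok.σ0
  refine L.ok.γ_hi.trans ?_
  gcongr
  nlinarith

theorem C_P {a : ℝ} {n : ℕ} (ha : a ≤ 10 ^ 60) (hn : n ≤ 30) : a * c.C ^ n ≤ e.P := by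
  have := L.ok.C1
  refine le_trans ?_ L.P1
  exact mul_le_mul ha (pow_le_pow_right₀ this hn) (by positivity) (by positivity)

theorem μ_ge : c.σ ^ 2 / c.C ^ 2 ≤ c.μ := M6.mu0_ge L.ok.init (by linarith [L.ok.C1])

theorem μ_pos : 0 < c.μ := by
  have := L.ok.C1
  have := L.ok.σ0
  exact lt_of_lt_of_le (by positivity) (μ_ge L)

theorem pr_nn (u : Tor d M) : 0 ≤ pr c e g u := by
  have := L.ok.γ0
  unfold pr; split_ifs <;> positivity

theorem pr_w : ∑ u, pr c e g u ^ 2 * (1 + (c.σ ^ 2 * tdist u 0) ^ 2) ≤ 16 * c.γ * g.z ^ 4 := by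
  have hγ := L.ok.γ0
  refine le_trans ?_ (mul_le_mul_of_nonneg_left L.four (by positivity : 0 ≤ 16 * c.γ))
  rw [sum_filter, mul_sum, mul_sum]
  refine sum_le_sum fun u _ => ?_
  unfold pr
  by_cases h1 : u ≠ 0 ∧ e.Rt ≤ tdist u 0
  · rw [if_pos h1]
    split_ifs
    · exact le_of_eq (by ring)
    · rw [zero_pow two_ne_zero, zero_mul]; positivity
  · rw [if_neg h1, if_neg fun h => h1 h.1]; simp

theorem pr_sq : ∑ u, pr c e g u ^ 2 ≤ 16 * c.γ * g.z ^ 4 :=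
  le_trans (sum_le_sum fun _ _ => le_mul_of_one_le_right (sq_nonneg _)
    (le_add_of_nonneg_right (sq_nonneg _))) (pr_w L)

theorem pr_sum : ∑ u, pr c e g u ≤ 4 * g.z ^ 2 := by
  have hγ := L.ok.γ0
  have hz := z_pos L
  refine le_of_mul_le_mul_right ?_ (by positivity : 0 < 4 * c.γ * g.z ^ 2)
  rw [sum_mul]
  refine le_trans (sum_le_sum fun u _ => ?_) ((pr_sq L).trans (le_of_eq (by ring)))
  unfold pr
  split_ifs with h
  · rw [sq (4 * c.γ * _)]; gcongr _ * (_ * ?_); exact h.2.le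
  · simp

theorem pr_le (u : Tor d M) : pr c e g u ≤ 4 * c.C * c.σ * g.z ^ 2 := by
  have hC := L.ok.C1
  have hσ := L.ok.σ0
  refine le_of_sq_le_sq (((single_le_sum (f := fun u => pr c e g u ^ 2) (fun _ _ => sq_nonneg _)
    (mem_univ u)).trans (pr_sq L)).trans ?_) (by positivity)
  calc _ ≤ 16 * (c.C ^ 2 * c.σ ^ 2) * g.z ^ 4 := by
        gcongr; exact L.ok.γ_hi.trans (by gcongr; exact le_self_pow₀ hC two_ne_zero)
    _ = _ := by ring

theorem pr_form (φ : Tor d M → ℝ) : ∑ y, ∑ x, pr c e g (x - y) ^ 2 * (φ x - φ y) ^ 2 ≤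
    16 * c.C ^ 2 * g.z ^ 4 * c.E0 φ := by
  have hC := L.ok.C1
  have hσ := L.ok.σ0
  have hE := E0_nn (c := c) φ
  have e2 : ∑ y, ∑ x, pr c e g (x - y) ^ 2 * (φ x - φ y) ^ 2 =
      ∑ u, pr c e g u ^ 2 * ∑ y, (φ (y + u) - φ y) ^ 2 := by
    simp only [mul_sum]
    rw [sum_comm (s := univ) (t := univ) (f := fun u y => pr c e g u ^ 2 * (φ (y + u) - φ y) ^ 2)]
    refine sum_congr rfl fun y _ => ?_
    rw [← Equiv.sum_comp (Equiv.addLeft y)]
    exact sum_congr rfl fun u _ => by rw [Equiv.coe_addLeft, add_sub_cancel_left]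
  rw [e2]
  calc _ ≤ ∑ u, pr c e g u ^ 2 * (1 + (c.σ ^ 2 * tdist u 0) ^ 2) * (c.C / c.σ ^ 2 * c.E0 φ) := by
        refine sum_le_sum fun u _ => ?_
        rw [mul_assoc]
        exact mul_le_mul_of_nonneg_left ((L.ok.init.poin φ u).trans (le_of_eq (by
          unfold Cx.E0 Cx.A; ring))) (sq_nonneg _)
    _ ≤ 16 * (c.C * c.σ ^ 2) * g.z ^ 4 * (c.C / c.σ ^ 2 * c.E0 φ) := by
        rw [← sum_mul]
        refine mul_le_mul_of_nonneg_right ((pr_w L).trans ?_) (by positivity)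
        gcongr; exact L.ok.γ_hi
    _ = _ := by field_simp

theorem capU : M6.Cap c.E0 c.μ univ 2 1 := by
  refine (M6.cap_one L.ok.init one_pos le_rfl).mono E0_nn subset_rfl (by norm_num) ?_
  have h1 := σ_one L
  have h2 := L.ok.C1
  have h3 := L.ok.σ0
  have h4 : c.σ ≤ 1 := by nlinarith
  have h5 : c.σ ^ 3 ≤ c.σ := pow_le_of_le_one h3.le h4 (by norm_num)
  have h6 : c.C * c.σ ^ 3 ≤ c.C * c.σ := by gcongr
  linarith

theorem jump_num : (e.P : ℝ) * (sc e g * (2 * c.C * c.σ) * M6.lamC 2 (c.γ * g.z ^ 2) 2 1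
    (12 * c.C * c.σ * g.z ^ 2) (2 * c.γ * g.z ^ 2) (2 * c.C) / c.μ) ≤ 1 := by
  have hC := L.ok.C1
  have hσ := L.ok.σ0
  have hγ := L.ok.γ0
  have hz := z_pos L
  have hP := P_one L
  have hs := sc_pos L
  have h1 : c.γ * g.z ^ 2 ≤ c.C * c.σ * g.z ^ 2 := by gcongr; exact γ_σ L
  have h2 : 0 ≤ c.C * c.σ * g.z ^ 2 := by positivity
  have h3 : M6.lamC 2 (c.γ * g.z ^ 2) 2 1 (12 * c.C * c.σ * g.z ^ 2) (2 * c.γ * g.z ^ 2) (2 * c.C) ≤
      64 * c.C * (c.C * c.σ * g.z ^ 2) := by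
    have h4 := mul_le_mul_of_nonneg_right hC h2
    have h5 := mul_le_mul_of_nonneg_left h1 (show 0 ≤ c.C by linarith)
    unfold M6.lamC; nlinarith
  calc _ ≤ (e.P : ℝ) * (sc e g * (2 * c.C * c.σ) * (64 * c.C * (c.C * c.σ * g.z ^ 2)) /
        (c.σ ^ 2 / c.C ^ 2)) := by gcongr; exact μ_ge L
    _ = 128 * c.C ^ 5 * g.z / e.P := by rw [sc]; field_simp; ring
    _ ≤ _ := by
      rw [div_le_one (by linarith)]
      exact (mul_le_of_le_one_right (by positivity) (z_le L)).trans (C_P L (by norm_num) (by norm_num))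

theorem drift_num : sc e g * (2 * (2 * ((e.P : ℝ) ^ 5 * e.Q * g.x ^ 2)) * (1 + 1)) ≤
    1 / (4 * e.P) := by
  have hz := z_pos L
  have hP := L.P_ge
  have hx := L.x_pos
  have h1 := L.main
  rw [le_div_iff₀ (by positivity)]
  calc _ = 32 * (e.P : ℝ) ^ 4 * e.Q * g.x * (g.x / g.z) := by rw [sc]; field_simp; ring
    _ ≤ (e.P : ℝ) ^ 11 * (e.P : ℝ) ^ 4 * e.Q * g.x * 1 := by
      gcongr
      · exact le_trans (by linarith) (le_self_pow₀ (P_one L) (by norm_num))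
      · exact (div_le_one hz).2 L.x_le_z
    _ ≤ 1 := by linarith

theorem qv_num : (e.P : ℝ) * (sc e g ^ 2 * (2 / c.μ) * (2 * (5 * c.C) *
    M6.qC 2 (c.γ * g.z ^ 2) 2 1 (8 * c.γ * g.z ^ 2) (2 * c.γ * g.z ^ 2) (1 / (4 * c.C)) (2 * c.C)
      (4 * c.C * c.γ) (4 * g.z ^ 2) (16 * c.γ * g.z ^ 4) * (1 + 1) +
    8 * 2 * (2 * c.C * c.σ) ^ 2 * (16 * c.C ^ 2 * g.z ^ 4))) ≤ 1 / (4 * e.P) := by
  have hC := L.ok.C1
  have hσ := L.ok.σ0
  have hγ := L.ok.γ0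
  have hz := z_pos L
  have hP := P_one L
  have hz4 : g.z ^ 4 ≤ g.z ^ 2 := pow_le_pow_of_le_one hz.le (z_le L) (by norm_num)
  have h1 : M6.qC 2 (c.γ * g.z ^ 2) 2 1 (8 * c.γ * g.z ^ 2) (2 * c.γ * g.z ^ 2) (1 / (4 * c.C))
      (2 * c.C) (4 * c.C * c.γ) (4 * g.z ^ 2) (16 * c.γ * g.z ^ 4) =
      54 * (c.γ * g.z ^ 2) + 258 * (c.C * (c.γ * g.z ^ 2)) + 1024 * (c.C * (c.γ * g.z ^ 4)) := by
    unfold M6.qC; field_simp; ring
  have h2 : c.γ * g.z ^ 2 ≤ c.C * (c.γ * g.z ^ 2) := le_mul_of_one_le_left (by positivity) hC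
  have h3 : c.C * (c.γ * g.z ^ 4) ≤ c.C * (c.γ * g.z ^ 2) := by gcongr
  have h4 : c.C * (c.γ * g.z ^ 2) ≤ c.C * (c.C * c.σ ^ 2 * g.z ^ 2) := by gcongr; exact L.ok.γ_hi
  rw [h1, le_div_iff₀ (by positivity)]
  calc _ ≤ (e.P : ℝ) * (sc e g ^ 2 * (2 / (c.σ ^ 2 / c.C ^ 2)) * (2 * (5 * c.C) *
        (2000 * (c.C * (c.C * c.σ ^ 2 * g.z ^ 2))) * (1 + 1) +
        8 * 2 * (2 * c.C * c.σ) ^ 2 * (16 * c.C ^ 2 * g.z ^ 2))) * (4 * e.P) := by
        gcongr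
        · exact μ_ge L
        · nlinarith [show 0 ≤ c.C * (c.γ * g.z ^ 2) by positivity]
    _ = (320000 * c.C ^ 5 + 8192 * c.C ^ 6) / (e.P : ℝ) ^ 2 := by rw [sc]; field_simp; ring
    _ ≤ 1 := by
      rw [div_le_one (by positivity)]
      have h5 := C_P L (a := 640000) (n := 5) (by norm_num) (by norm_num)
      have h6 := C_P L (a := 16384) (n := 6) (by norm_num) (by norm_num)
      have h7 : (e.P : ℝ) ≤ (e.P : ℝ) ^ 2 := le_self_pow₀ hP two_ne_zero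
      linarith

theorem glue_num : M6.glueC d c.σ c.C e.ρ (sc e g) 2 (e.Bg ^ 2) e.ϑ ≤ (e.P : ℝ) ^ 3 * g.z / 2 := by
  have hC := L.ok.C1
  have hσ := L.ok.σ0
  have hz := z_pos L
  have hP := P_one L
  have hB := L.B_ge
  have hϑ := L.ϑ0
  have hρ : (2 : ℝ) ≤ e.ρ := by exact_mod_cast L.ρ_pos
  have hd : (3 : ℝ) ≤ d := by exact_mod_cast L.ok.hd
  have h1 : (c.C * e.ρ / e.ϑ) ^ (d + 3) ≤ e.Bg := by
    have h2 : 1 ≤ c.C * e.ρ / e.ϑ := by
      rw [le_div_iff₀ hϑ]; nlinarith [L.ϑ_le]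
    refine (pow_le_pow_right₀ h2 (show d + 3 ≤ 2 * d + 6 by omega)).trans (le_trans ?_ L.B_ρ)
    gcongr
    exact le_mul_of_one_le_left (by linarith) (by linarith)
  have h2 : (c.C * e.ρ / e.ϑ) ^ (d + 3) / c.σ ^ 2 ≤ e.Bg * e.Bg := by
    rw [div_le_iff₀ (by positivity), mul_assoc]
    exact h1.trans (le_mul_of_one_le_right (by positivity) (hC.trans L.B_σ))
  have h3 : Real.exp (-e.ϑ * e.ρ / 2) ≤ Real.exp (-e.ϑ * e.ρ / 4) :=
    Real.exp_le_exp.2 (by nlinarith)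
  have h4 : 8 * e.Bg ^ 5 * Real.exp (-e.ϑ * e.ρ / 4) ≤ 1 := by
    refine le_trans ?_ L.tail
    gcongr
    calc 8 * e.Bg ^ 5 ≤ e.Bg * e.Bg ^ 5 := by gcongr; linarith
      _ = e.Bg ^ 6 := by ring
      _ ≤ _ := pow_le_pow_right₀ (by linarith) (by norm_num)
  have h5 : 1 ≤ e.Bg * ((e.P : ℝ) ^ 3 * g.z) := L.B_x'.trans (by
    gcongr; exact L.x_le_z.trans (le_mul_of_one_le_left hz.le (one_le_pow₀ hP)))
  have h6 : 2 * e.Bg ^ 2 * Real.exp (-e.ϑ * e.ρ / 4) * (e.Bg * e.Bg) ≤ (e.P : ℝ) ^ 3 * g.z / 4 := by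
    refine le_of_mul_le_mul_left ?_ (show 0 < e.Bg by linarith)
    linarith
  have h7 : c.C * 2 / sc e g ≤ (e.P : ℝ) ^ 3 * g.z / 4 := by
    have h8 := C_P L (a := 8) (n := 1) (by norm_num) (by norm_num)
    calc _ = 8 * c.C ^ 1 * ((e.P : ℝ) ^ 2 * g.z / 4) := by rw [sc]; field_simp; ring
      _ ≤ e.P * ((e.P : ℝ) ^ 2 * g.z / 4) := by gcongr
      _ = _ := by ring
  calc _ ≤ c.C * 2 / sc e g + 2 * e.Bg ^ 2 * Real.exp (-e.ϑ * e.ρ / 4) * (e.Bg * e.Bg) := by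
        unfold M6.glueC; gcongr
    _ ≤ _ := by linarith

end Num

section State

variable (L : Led c e g) (hf : RefOK c e f) {s : St d M} (hI : Inv c e f (th2 e g) s)
  (hD : Der c e g f s) {y : Tor d M} (hy : y ∈ s.ord)
include L hD

theorem gam2 (b : Tor d M) : gam s.w b ≤ 2 * c.γ := by linarith [hD.gam_le b, L.ok.γ0]

include hy

theorem τ_le {k : ℕ} (hk : k < c.N) : ‖M6.tau c.A s.w y (c.v y k)‖ ≤ 2 * c.C * c.σ := by
  have hC := L.ok.C1
  have hσ := L.ok.σ0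
  refine le_of_sq_le_sq ((hD.τ_le y hy k hk).trans ?_) (by positivity)
  calc _ ≤ 4 * c.C * (c.C * c.σ ^ 2) := by gcongr; exact L.ok.γ_hi
    _ = _ := by ring

include hI

theorem track {w0 : Tor d M → ℂ} {Xs : M6.Rec d M} (h : M6.Track c.A w0 s.w Xs (e.Bg ^ 2) e.ϑ)
    {k : ℕ} (hk : k < c.N) : M6.Track c.A w0 (cls1 s.w y (c.v y k)) (M6.addX c.A s.w Xs y (c.v y k))
      (e.Bg ^ 2) e.ϑ := by
  have hγ := L.ok.γ0
  refine h.close hI.bas.adm (hI.bas.opn y hy) (hD.den y hy k hk) (cI := e.Bg ^ 2) (fun b _ => ?_)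
    (sq_nonneg _) (mul_le_of_le_one_left (sq_nonneg _) ((τ_le L hD hy hk).trans ?_))
  · by_cases hb : gam s.w b = 0
    · rw [hb, zero_mul]; positivity
    have h1 := hD.dec b (hD.sub0 (mem_opn.2 hb)) y (hD.sub0 (mem_opn.2 (hI.bas.opn y hy)))
    have h2 : gam s.w b ≤ 1 := by
      have h3 := L.ok.γ_le
      have h4 := mul_le_mul_of_nonneg_right (one_le_pow₀ (n := 30) L.ok.C1) hγ.le
      linarith [gam2 L hD b]
    calc _ ≤ 1 * (e.Bg * Real.exp (-e.ϑ * tdist b y)) ^ 2 := by gcongr; exact h1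
      _ = _ := by rw [one_mul, mul_pow, ← Real.exp_nat_mul]; congr 2; push_cast; ring
  · have := L.ok.C1
    have := L.ok.σ0
    linarith [σ_one L, show 0 ≤ c.C * c.σ by positivity]

include hf

theorem row (p : Tor d M) : M6.Row c.A s.w y (M6.Qp e.ρ p) f.T ((opn s.w \ f.T) \ absb d M)
    (fun b => pr c e g (b - y)) (8 * c.γ * g.z ^ 2) (12 * c.C * c.σ * g.z ^ 2) (2 * c.γ * g.z ^ 2)
    (1 / (4 * c.C)) (2 * c.C) (4 * c.C * c.γ) (4 * g.z ^ 2) (16 * c.γ * g.z ^ 4) := by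
  have hC := L.ok.C1
  have hσ := L.ok.σ0
  have hγ := L.ok.γ0
  have hz := z_pos L
  have hA := hI.bas.adm
  have hyT : y ∈ f.T := hf.sub (hI.bas.sub hy)
  have hent : ∀ b ∈ f.T, b ≠ y →
      gam s.w b * ‖Gm c.A s.w b y‖ ^ 2 ≤ 8 * c.γ * g.z ^ 2 + pr c e g (b - y) := by
    intro b hb hby
    have h0 := pr_nn L (b - y)
    by_cases hg : gam s.w b = 0
    · rw [hg, zero_mul]; positivity
    have h1 : ‖Gm c.A s.w b y - c.G0 (b - y) 0‖ ≤ g.z := by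
      rw [M6.Gm_comm hA, ← show c.G0 b y = c.G0 (b - y) 0 from L.ok.init.transl b y,
        show c.G0 b y = c.G0 y b from M6.Gm_comm L.ok.init.adm b y]
      exact (hI.pair y hy b hb hg hby.symm).trans
        (L.X_z.trans (pow_le_of_le_one hz.le (z_le L) two_ne_zero))
    have h2 : ‖Gm c.A s.w b y‖ ≤ g.z + ‖c.G0 (b - y) 0‖ := by
      linarith [norm_sub_norm_le (Gm c.A s.w b y) (c.G0 (b - y) 0)]
    have h3 : ‖Gm c.A s.w b y‖ ^ 2 ≤ 2 * g.z ^ 2 + 2 * ‖c.G0 (b - y) 0‖ ^ 2 := by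
      nlinarith [pow_le_pow_left₀ (norm_nonneg _) h2 2, sq_nonneg (g.z - ‖c.G0 (b - y) 0‖)]
    refine (mul_le_mul (gam2 L hD b) h3 (sq_nonneg _) (by positivity)).trans ?_
    unfold pr
    split_ifs with h4
    · nlinarith [show 0 ≤ c.γ * g.z ^ 2 by positivity]
    · have h5 : ‖c.G0 (b - y) 0‖ ^ 2 ≤ g.z ^ 2 := not_lt.1 fun h => h4
        ⟨⟨sub_ne_zero.2 hby, by rw [tdist_sub]; exact hf.sepT b hb y hyT hby⟩, h⟩
      nlinarith [mul_le_mul_of_nonneg_left h5 hγ.le]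
  refine ⟨fun b hb _ hg => ?_, fun b _ hb hby => hent b hb hby, fun b _ hb hby =>
    (hent b hb hby).trans ?_, ?_, ?_, ?_, fun b _ hb _ => ?_, fun b => pr_nn L _, ?_, ?_,
    by positivity, by positivity, by positivity, by positivity⟩
  · by_cases hT : b ∈ f.T
    · exact Or.inl hT
    · exact Or.inr (mem_sdiff.2 ⟨mem_sdiff.2 ⟨mem_opn.2 hg, hT⟩, (mem_sdiff.1 hb).2⟩)
  · have h1 : c.γ * g.z ^ 2 ≤ c.C * c.σ * g.z ^ 2 := by gcongr; exact γ_σ L
    linarith [pr_le L (b - y)]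
  · have hB : 0 < e.Bg := lt_of_lt_of_le (by norm_num) L.B_ge
    have h1 : ∑ x ∈ (opn s.w \ f.T) \ absb d M, ‖c.G s.w y x‖ ^ 2 ≤ g.z ^ 2 :=
      le_of_mul_le_mul_left ((hD.core y hy).trans (L.B_x'.trans (by gcongr; exact x_z2 L))) hB
    calc _ ≤ ∑ b ∈ (opn s.w \ f.T) \ absb d M, gam s.w b * ‖Gm c.A s.w b y‖ ^ 2 :=
          sum_le_sum_of_subset_of_nonneg ((erase_subset _ _).trans inter_subset_right)
            fun b _ _ => mul_nonneg (hA.diss b) (sq_nonneg _)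
      _ ≤ ∑ b ∈ (opn s.w \ f.T) \ absb d M, 2 * c.γ * ‖c.G s.w y b‖ ^ 2 :=
          sum_le_sum fun b _ => by
            rw [M6.Gm_comm hA b y]
            exact mul_le_mul_of_nonneg_right (gam2 L hD b) (sq_nonneg _)
      _ ≤ _ := by rw [← mul_sum]; gcongr
  · refine (hD.iota y hy).trans (le_of_eq ?_)
    rw [← M6.ward_diag hA y, ← add_sum_erase _ _ (mem_univ y), add_sub_cancel_left]
    exact sum_congr rfl fun b _ => by rw [M6.Gm_comm hA b y]; rfl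
  · exact (le_abs_self _).trans ((abs_im_le_norm _).trans (hD.g_le y hyT (hI.bas.opn y hy)))
  · by_cases hg : gam s.w b = 0
    · rw [hg, zero_mul]; positivity
    have h1 : (Gm c.A s.w b b).im ≤ 2 * c.C :=
      (le_abs_self _).trans ((abs_im_le_norm _).trans (hD.g_le b hb hg))
    calc _ ≤ gam s.w b * (2 * c.C) := mul_le_mul_of_nonneg_left h1 (hA.diss b)
      _ ≤ 2 * c.γ * (2 * c.C) := by gcongr; exact gam2 L hD b
      _ = _ := by ring
  · exact (Equiv.sum_comp (Equiv.subRight y) (pr c e g)).le.trans (pr_sum L)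
  · exact (Equiv.sum_comp (Equiv.subRight y) fun u => pr c e g u ^ 2).le.trans (pr_sq L)

end State

end FEn

open FEn in
theorem fam_en (L : Led c e g) (hf : RefOK c e f) {s0 : CS d M} (h0 : Pre c e g f s0) :
    Fam c e g f s0 (OutEn c g) := by
  have hC := L.ok.C1
  have hσ := L.ok.σ0
  have hγ := L.ok.γ0
  have hz := z_pos L
  have hP := P_one L
  have hs := sc_pos L
  have hB : (Fintype.card (tball (0 : Tor d M) (3 * e.ρ)) : ℝ) = vol d M (3 * e.ρ) := by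
    rw [Fintype.card_coe, card_tball]
  obtain ⟨n, hn⟩ := M6.exists_Nrm L.ok.init (by linarith) hσ e.ρ (tball (0 : Tor d M) (3 * e.ρ)) hB.ge
  have hT : M6.Cap c.E0 c.μ f.T 2 (c.γ * g.z ^ 2) :=
    (L.capT f.T hf.sepT).mono E0_nn subset_rfl le_rfl L.Ft_le
  refine (fam_ghost L h0.n0 (hB.le.trans (vol_mono (by omega)))
    (fun s Xs => M6.Track c.A s0.w s.w Xs (e.Bg ^ 2) e.ϑ) (fun s Xs ω => M6.stepX c.A s.w c.v Xs ω)
    (fun Xs p => M6.mon (n p) (sc e g) e.ρ Xs p) 0 ⟨M6.Track.init _ _ _ _, fun p => M6.mon_zero _ _ _⟩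
    (fun _ _ _ h => h) fun s Xs hE _ hTr _ => ⟨fun ω hω => ?_, fun p => ?_⟩).mono
    (fun s hs ⟨Xs, hTr, hb⟩ => ?_) le_rfl
  · rcases ω with _ | ⟨y, k⟩
    · exact ⟨hTr, fun p => ⟨by simp [M6.stepX], fun _ => rfl⟩⟩
    have hy := hE.rch.sub hω.1
    refine ⟨track L hE.inv hE.der hy hTr hω.2, fun p => ⟨?_, fun hd => M6.mon_addX_of_not_mem
      (fun h => disjoint_left.1 hd (tball_mono p (by omega) h) hy) _ _⟩⟩
    by_cases hp : y ∈ tball p e.ρ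
    · rw [M6.stepX, M6.mon_addX_of_mem hp, add_sub_cancel_left]
      have hR := row L hf hE.inv hE.der hy p
      have hl := hR.lam_nonneg hE.inv.bas.adm (a := 2) (F := c.γ * g.z ^ 2) (a' := 2) (F' := 1)
        zero_le_two (by positivity) zero_le_two zero_le_one
      have hμ := μ_pos L
      refine (M6.norm_jump_le (hn p) (M6.disjoint_Qp _ p) hR hE.inv.bas.adm hμ E0_nn hT (capU L)
        zero_le_two (by positivity) zero_le_two zero_le_one hs.le _).trans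
        (le_trans ?_ ((le_mul_of_one_le_left (by positivity) hP).trans (jump_num L)))
      gcongr
      exact τ_le L hE.der hy hω.2
    · rw [M6.stepX, M6.mon_addX_of_not_mem hp, sub_self, norm_zero]; exact zero_le_one
  · have ho : ∀ y ∈ s.A ∩ tball p e.ρ, y ∈ s.ord := fun y hy => hE.rch.sub (mem_inter.1 hy).1
    have hg : ∀ y ∈ s.A ∩ tball p e.ρ, 9 / 10 * c.γ ≤ gam s.w y := fun y hy =>
      hE.der.gam_ge y (hE.inv.bas.opn y (ho y hy))
    refine LocA.mono L.ok.N0 (tball_mono p (by omega)) (M6.mon_locA (ε := 1) L.ok.N0 dt_pos.le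
      (by linarith) (by linarith) (hn p) hE.inv.bas.adm (μ_pos L) E0_nn hT (capU L) zero_le_two
      (by positivity) zero_le_two zero_le_one hs.le (M6.UB.mono hE.inv.ub E0_nn (e'_le L)) zero_le_one
      (by positivity) (by positivity) (by positivity) (by positivity)
      (fun y hy => row L hf hE.inv hE.der (ho y hy) p) (fun y hy k hk => τ_le L hE.der (ho y hy) hk)
      (fun y hy => ?_) (fun y hy => (hE.inv.bias y (ho y hy)).trans ?_) (fun φ _ => pr_form L φ)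
      (jump_num L) (drift_num L) (qv_num L))
    · refine (avg_mono (g := fun _ => 4 * c.C * c.γ) fun k hk => hE.der.τ_le y (ho y hy) k hk).trans ?_
      rw [avg_const L.ok.N0]
      nlinarith [mul_le_mul_of_nonneg_left (hg y hy) (show 0 ≤ c.C by linarith), mul_pos hγ hγ,
        show 0 ≤ c.C * c.γ by positivity]
    · have h1 : 0 ≤ (e.P : ℝ) ^ 5 * e.Q * g.x ^ 2 := by positivity
      have h2 := mul_le_mul_of_nonneg_left (show c.γ ≤ 2 * gam s.w y by linarith [hg y hy]) h1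
      exact h2.trans (le_of_eq (by ring))
  · obtain ⟨χ, cp, hcut⟩ := L.ok.init.cut e.ρ L.ρσ
    have hη : ∀ ψ, Van ψ → |ψ ⬝ᵥ (∑ y, Xs y) *ᵥ ψ| ≤ (e.P : ℝ) ^ 3 * g.z / 2 * c.E0 ψ := fun ψ hψ =>
      (M6.glue hTr.loc hcut hn (sc_pos L) (sq_nonneg _) L.ϑ0 (by linarith [L.ϑ_le]) hb hψ).trans
        (mul_le_mul_of_nonneg_right (glue_num L) (E0_nn ψ))
    exact ⟨(hTr.UB h0.inv.ub hη).mono E0_nn L.e_x_le,
      (hTr.LB (fun a ha => by rw [gam, hs.bas.abs a ha]; exact hγ.ne') h0.inv.lb hη).mono E0_nn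
        L.e_x_le⟩

end Crest.Agent.N334.AC.P
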