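import Crest.Agent.N334.AC.P.Par0
import Crest.Agent.N334.AC.P.Defs
import Crest.Agent.N334.AC.Geo

-- ▼ part N334/AC/P/Par1
section

/-! # S0520 part P: ledger of a stage, small parameters (leaf: fill the sorries, keep the statements)
`σ²/C ≤ γ ≤ Cσ²` (`h.ok.γ_lo`, `γ_hi`), `pw`-arithmetic of Par0. `alt`: `k = 0` by `e_step`, `E_le`; `k ≥ 1` by `⌈1/σ²⌉ γ ≥ 1/C`.
`F_le`: cases `J k + j ≤ 200 y0` (then `k = 0`), `k = 0` late, `k ≥ 1`. -/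

set_option autoImplicit false
set_option linter.unusedVariables false

open Finset

namespace Crest.Agent.N334.AC.P.Pa1

variable {d M : ℕ} [NeZero M] {c : Cx d M} (s : Ms d) {K : ℕ} (k j : ℕ)

lemma y1 : (1 : ℝ) ≤ s.y k := le_trans (by norm_num) (s.yR k)
lemma Pc : (s.P k : ℝ) = (s.y k : ℝ) ^ 14 := by simp [Ms.P]
lemma yP : (s.y k : ℝ) ≤ s.P k := Pc s k ▸ le_self_pow₀ (y1 s k) (by norm_num)
lemma P1 : (1 : ℝ) ≤ s.P k := (y1 s k).trans (yP s k)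
lemma Ppw {a : ℕ} (ha : 14 * a ≤ 1000) : (s.P k : ℝ) ^ a ≤ pw (s.y k / 1000) := by
  rw [Pc, ← pow_mul]; exact s.poly k ha
lemma C2 : 4 * s.C ^ 2 ≤ s.y k := by
  have h := s.C_le k
  have h2 : s.C ^ 2 ≤ s.C ^ 20 := pow_le_pow_right₀ s.hC (by norm_num)
  nlinarith [sq_nonneg s.C]
lemma C2pw : 4 * s.C ^ 2 ≤ pw (s.y k / 1000) :=
  (C2 s k).trans (by simpa using s.poly k (a := 1) (by norm_num))
lemma σ1 : s.σ ≤ 1 := by
  refine s.σ_le.trans ((pw_le ?_).trans_eq pw_zero)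
  have := y1 s 0
  rw [s.y_zero] at this
  linarith
lemma x1 : s.x k j ≤ 1 := by
  refine (s.x_le0 k j).trans ((s.x0_le k).trans ((pw_le ?_).trans_eq pw_zero))
  linarith [y1 s k]
lemma z0 : 0 ≤ s.z k := by unfold Ms.z; positivity
lemma e_le (hj : j ≤ s.n k + 1) : s.e k j ≤ 2 * s.e0 := by
  refine le_trans ?_ ((s.e_step k).trans (s.E_le _))
  have h1 : 0 ≤ (s.P k : ℝ) * (s.rp k).zr := mul_nonneg (by positivity) (pw_pos _).le
  have h2 : (j : ℝ) ≤ (s.n k + 1 : ℕ) := by exact_mod_cast hj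
  have h3 : 0 ≤ (s.P k : ℝ) ^ 3 * s.z k := mul_nonneg (by positivity) (z0 s k)
  have := mul_le_mul_of_nonneg_right h2 h3
  unfold Ms.e
  linarith
lemma P_e0 : (s.P 0 : ℝ) ^ 3 * (2 * s.e0) = 1 / 2 := by
  have := P1 s 0
  unfold Ms.e0; field_simp; norm_num
lemma ceil_le : (⌈1 / s.σ ^ 2⌉₊ : ℝ) * s.σ ^ 2 ≤ 2 := by
  have h0 := s.σ0
  have h1 : s.σ ^ 2 ≤ 1 := pow_le_one₀ h0.le (σ1 s)
  have h2 := (Nat.ceil_lt_add_one (by positivity : 0 ≤ 1 / s.σ ^ 2)).le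
  have h3 := mul_le_mul_of_nonneg_right h2 (sq_nonneg s.σ)
  rw [add_mul, one_div, inv_mul_cancel₀ (by positivity)] at h3
  rw [one_div]
  linarith
lemma le_ceil : 1 ≤ (⌈1 / s.σ ^ 2⌉₊ : ℝ) * s.σ ^ 2 := by
  have h0 := s.σ0
  exact (div_le_iff₀ (by positivity)).1 (Nat.le_ceil _)
lemma F0 (i : ℕ) : 0 ≤ s.F i := by
  have := s.σ0; have := s.hC; have := s.e0_pos; have := pw_pos (-(i : ℝ) / 4)
  unfold Ms.F; split_ifs <;> positivity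
lemma J_big (hk : 1 ≤ k) : 200 * s.y0 < s.J k := by
  rw [s.J_eq k hk]
  have h1 := s.y0_le k
  have h2 := s.y_ge k
  nlinarith
lemma x4 : s.x k j ^ 4 = pw (-(4 * s.ξ k j)) := by
  rw [Ms.x, pw_pow]; congr 1; push_cast; ring

lemma F_le {γ : ℝ} (hγ : s.σ ^ 2 ≤ s.C * γ) (h0 : 0 ≤ γ) :
    (s.P k : ℝ) ^ 6 * s.F (s.J k + j) ≤ γ * s.x k j ^ 4 := by
  have hσ := s.σ0
  have hC := s.hC
  have hy := s.yR k
  have hP := P1 s k
  rw [x4, Ms.F]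
  split_ifs with hi
  · obtain rfl : k = 0 := by
      by_contra hk
      have := J_big s k (by omega)
      omega
    have hj : j - 200 * s.y0 = 0 := by simp only [Ms.J] at hi; omega
    have h1 := mul_le_mul (mul_le_mul (Ppw s 0 (a := 9) (by norm_num)) (C2pw s 0) (by positivity)
      (pw_pos _).le) s.σ_le hσ.le (mul_pos (pw_pos _) (pw_pos _)).le
    rw [← pw_add, ← pw_add] at h1
    have h2 : pw (s.y 0 / 1000 + s.y 0 / 1000 + (1 - s.y0)) ≤ pw (-(4 * s.ξ 0 j)) := by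
      refine pw_le ?_
      rw [s.y_zero] at hy ⊢
      simp only [Ms.ξ, hj, if_true, Nat.cast_zero]
      linarith
    calc (s.P 0 : ℝ) ^ 6 * (s.C * s.σ ^ 3 / s.e0)
        = s.σ ^ 2 * (4 * (s.P 0 : ℝ) ^ 9 * s.C * s.σ) := by unfold Ms.e0; field_simp
      _ ≤ s.C * γ * (4 * (s.P 0 : ℝ) ^ 9 * s.C * s.σ) := by gcongr
      _ = γ * ((s.P 0 : ℝ) ^ 9 * (4 * s.C ^ 2) * s.σ) := by ring
      _ ≤ _ := mul_le_mul_of_nonneg_left (h1.trans h2) h0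
  · have h0' : (1 / s.σ) ^ 12 ≤ pw (12 * s.y0) := by
      have := pow_le_pow_left₀ (by positivity) s.inv_σ_le 12
      rwa [pw_pow, Nat.cast_ofNat] at this
    have h1 := mul_le_mul_of_nonneg_right (mul_le_mul (mul_le_mul (Ppw s k (a := 6) (by norm_num))
      (C2pw s k) (by positivity) (pw_pos _).le) h0' (by positivity)
      (mul_pos (pw_pos _) (pw_pos _)).le) (pw_pos (-((s.J k + j : ℕ) : ℝ) / 4)).le
    rw [← pw_add, ← pw_add, ← pw_add] at h1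
    have h2 : pw (s.y k / 1000 + s.y k / 1000 + 12 * s.y0 + -((s.J k + j : ℕ) : ℝ) / 4) ≤
        pw (-(4 * s.ξ k j)) := by
      refine pw_le ?_
      rcases Nat.eq_zero_or_pos k with rfl | hk
      · have hj : 200 * s.y0 ≤ j := by simp only [Ms.J] at hi; omega
        rw [s.y_zero] at hy ⊢
        simp only [Ms.ξ, if_true, Ms.J, Nat.cast_sub hj]
        push_cast
        linarith
      · have h3 : (s.y0 : ℝ) ≤ s.y k := by exact_mod_cast s.y0_le k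
        simp only [Ms.ξ, hk.ne', if_false, s.J_eq k hk]
        push_cast
        nlinarith
    have h3 := pw_pos (-((s.J k + j : ℕ) : ℝ) / 4)
    calc (s.P k : ℝ) ^ 6 * (s.C / s.σ ^ 10 * pw (-((s.J k + j : ℕ) : ℝ) / 4))
        = s.σ ^ 2 * ((s.P k : ℝ) ^ 6 * s.C * (1 / s.σ) ^ 12 * pw (-((s.J k + j : ℕ) : ℝ) / 4)) := by
          field_simp
      _ ≤ 4 * (s.C * γ) * ((s.P k : ℝ) ^ 6 * s.C * (1 / s.σ) ^ 12 *
            pw (-((s.J k + j : ℕ) : ℝ) / 4)) := by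
          refine mul_le_mul_of_nonneg_right ?_ (by positivity)
          nlinarith [mul_nonneg (zero_le_one.trans hC) h0]
      _ = γ * ((s.P k : ℝ) ^ 6 * (4 * s.C ^ 2) * (1 / s.σ) ^ 12 *
            pw (-((s.J k + j : ℕ) : ℝ) / 4)) := by ring
      _ ≤ _ := mul_le_mul_of_nonneg_left (h1.trans h2) h0

lemma γ_lo (h : On c s K) : s.σ ^ 2 ≤ s.C * c.γ := by rw [← h.C, ← h.σ]; exact h.ok.γ_lo
lemma γ_hi (h : On c s K) : c.γ ≤ s.C * s.σ ^ 2 := by rw [← h.C, ← h.σ]; exact h.ok.γ_hi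
lemma κ_le (h : On c s K) : c.κ ≤ s.y k := by rw [Cx.κ, h.C]; exact s.κ_le k
lemma Q1 : (1 : ℝ) ≤ s.Q k := by
  have h : ((s.P k ^ 6 : ℕ) : ℝ) ≤ s.Q k := by exact_mod_cast s.Q_ge k
  push_cast at h
  exact (one_le_pow₀ (P1 s k)).trans h

end Crest.Agent.N334.AC.P.Pa1

namespace Crest.Agent.N334.AC.P.On

open Pa1

variable {d M : ℕ} [NeZero M] {c : Cx d M} {s : Ms d} {K k j : ℕ}

lemma l_P_lo (h : On c s K) (hk : k ≤ K) (hj : j ≤ s.n k) :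
    c.κ ≤ (s.ep c.γ K k).P := 
  (κ_le s k h).trans (yP s k)
lemma l_Q_lo (h : On c s K) (hk : k ≤ K) (hj : j ≤ s.n k) :
    (s.ep c.γ K k).P ^ 6 ≤ (s.ep c.γ K k).Q := 
  s.Q_ge k
lemma l_q0 (h : On c s K) (hk : k ≤ K) (hj : j ≤ s.n k) :
    0 < (s.ep c.γ K k).q := 
  Real.sqrt_pos.2 (mul_pos (zero_lt_one.trans_le (Q1 s k)) h.ok.γ0)
lemma l_q_sq (h : On c s K) (hk : k ≤ K) (hj : j ≤ s.n k) :
    (s.ep c.γ K k).q ^ 2 = (s.ep c.γ K k).Q * c.γ := 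
  Real.sq_sqrt (mul_nonneg (Nat.cast_nonneg _) h.ok.γ0.le)
lemma l_q_hi (h : On c s K) (hk : k ≤ K) (hj : j ≤ s.n k) :
    (s.ep c.γ K k).Q * c.γ ≤ ((s.ep c.γ K k).P : ℝ) ^ 7 := by
  change (s.Q k : ℝ) * c.γ ≤ (s.P k : ℝ) ^ 7
  have h1 := γ_hi s h
  have h2 : 2 * s.C ≤ s.P k := by nlinarith [C2 s k, yP s k, s.hC]
  have h3 : s.σ ^ 2 ≤ 1 := pow_le_one₀ s.σ0.le (σ1 s)
  have hP := P1 s k
  have hC := s.hC
  rw [pow_succ _ 6, Ms.Q]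
  split_ifs <;> push_cast
  · exact mul_le_mul_of_nonneg_left (by nlinarith) (by positivity)
  · rw [mul_assoc]
    refine mul_le_mul_of_nonneg_left ?_ (by positivity)
    have h4 := mul_le_mul_of_nonneg_left h1 (Nat.cast_nonneg (α := ℝ) ⌈1 / s.σ ^ 2⌉₊)
    nlinarith [ceil_le s]
lemma l_alt (h : On c s K) (hk : k ≤ K) (hj : j ≤ s.n k) :
    ((s.ep c.γ K k).P : ℝ) ^ 3 * (s.sg k j).e' ≤ 1 ∨ ((s.ep c.γ K k).P : ℝ) ^ 5 ≤ (s.ep c.γ K k).Q * c.γ := by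
  change (s.P k : ℝ) ^ 3 * s.e k (j + 1) ≤ 1 ∨ (s.P k : ℝ) ^ 5 ≤ s.Q k * c.γ
  have hP := P1 s k
  rcases Nat.eq_zero_or_pos k with rfl | h0
  · refine Or.inl ((mul_le_mul_of_nonneg_left (e_le s 0 _ (by omega)) (by positivity)).trans ?_)
    rw [P_e0]; norm_num
  · right
    rw [Ms.Q, if_neg h0.ne']
    push_cast
    rw [pow_succ _ 5, mul_assoc, mul_assoc]
    refine le_mul_of_one_le_right (by positivity) ?_
    have h1 := mul_le_mul_of_nonneg_left (γ_lo s h) (Nat.cast_nonneg (α := ℝ) ⌈1 / s.σ ^ 2⌉₊)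
    have h2 : s.C ≤ s.P k := by nlinarith [C2 s k, yP s k, s.hC]
    have h3 := mul_le_mul_of_nonneg_right h2
      (mul_nonneg (Nat.cast_nonneg (α := ℝ) ⌈1 / s.σ ^ 2⌉₊) h.ok.γ0.le)
    nlinarith [le_ceil s]
lemma l_x0 (h : On c s K) (hk : k ≤ K) (hj : j ≤ s.n k) :
    0 < (s.sg k j).x' := 
  s.x_pos _ _
lemma l_x_le (h : On c s K) (hk : k ≤ K) (hj : j ≤ s.n k) :
    (s.sg k j).x' ≤ (s.sg k j).x := 
  s.x_anti _ _
lemma l_x_ge (h : On c s K) (hk : k ≤ K) (hj : j ≤ s.n k) :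
    (s.sg k j).x ^ 4 ≤ 2 * (s.sg k j).x' ^ 4 := by
  change s.x k j ^ 4 ≤ 2 * s.x k (j + 1) ^ 4
  have e2 : (2 : ℝ) = pw 1 := by simpa using (pw_nat 1).symm
  rw [x4, x4, e2, ← pw_add]
  refine pw_le ?_
  unfold Ms.ξ
  split_ifs
  · have : ((j + 1 - 200 * s.y0 : ℕ) : ℝ) ≤ ((j - 200 * s.y0 + 1 : ℕ) : ℝ) := by
      exact_mod_cast (by omega)
    push_cast at this
    linarith
  · push_cast; linarith
lemma l_main (h : On c s K) (hk : k ≤ K) (hj : j ≤ s.n k) :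
    ((s.ep c.γ K k).P : ℝ) ^ 15 * (s.ep c.γ K k).Q * (s.sg k j).x ≤ 1 := by
  change (s.P k : ℝ) ^ 15 * s.Q k * s.x k j ≤ 1
  have hP := P1 s k
  have h1 := mul_le_mul (mul_le_mul (Ppw s k (a := 12) (by norm_num)) (s.PQ_le k) (by positivity)
    (pw_pos _).le) ((s.x_le0 k j).trans (s.x0_le k)) (s.x_pos k j).le
    (mul_pos (pw_pos _) (pw_pos _)).le
  rw [← pw_add, ← pw_add] at h1
  calc _ = (s.P k : ℝ) ^ 12 * ((s.P k : ℝ) ^ 3 * s.Q k) * s.x k j := by ring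
    _ ≤ _ := h1.trans ((pw_le (by linarith [y1 s k])).trans_eq pw_zero)
lemma l_X0 (h : On c s K) (hk : k ≤ K) (hj : j ≤ s.n k) :
    0 ≤ (s.sg k j).X := by
  have := s.x_pos k 0
  change 0 ≤ s.X k j
  unfold Ms.X; positivity
lemma l_X_inc (h : On c s K) (hk : k ≤ K) (hj : j ≤ s.n k) :
    (s.sg k j).X + ((s.ep c.γ K k).P : ℝ) ^ 3 * (s.sg k j).x ≤ (s.sg k j).X' := by
  change s.X k j + (s.P k : ℝ) ^ 3 * s.x k j ≤ s.X k (j + 1)
  have := mul_le_mul_of_nonneg_left (s.x_le0 k j) (by positivity : (0 : ℝ) ≤ (s.P k : ℝ) ^ 3)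
  unfold Ms.X; push_cast; linarith
lemma l_z0 (h : On c s K) (hk : k ≤ K) (hj : j ≤ s.n k) :
    0 ≤ (s.sg k j).z := 
  z0 s k
lemma l_X_z (h : On c s K) (hk : k ≤ K) (hj : j ≤ s.n k) :
    (s.sg k j).X' ≤ (s.sg k j).z ^ 2 := by
  change s.X k (j + 1) ≤ s.z k ^ 2
  have h0 := s.x_pos k 0
  have h1 := x1 s k 0
  have hP := P1 s k
  have h2 : ((j + 1 : ℕ) : ℝ) + 3 ≤ s.P k := by
    have a1 : ((s.n k + 2 : ℕ) : ℝ) ≤ ((2 * s.y k ^ 4 : ℕ) : ℝ) := by exact_mod_cast s.n_lt k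
    have a2 : (j : ℝ) ≤ s.n k := by exact_mod_cast hj
    have a3 := s.ypow k (show 4 < 14 by norm_num)
    have a4 := one_le_pow₀ (n := 4) (y1 s k)
    rw [Pc]
    push_cast at a1 ⊢
    linarith
  have h3 : s.x k 0 ≤ (s.P k : ℝ) ^ 3 := h1.trans (one_le_pow₀ hP)
  rw [Ms.z, mul_pow, Real.sq_sqrt h0.le, Ms.X]
  have h4 := mul_le_mul_of_nonneg_right h2 (by positivity : 0 ≤ (s.P k : ℝ) ^ 3 * s.x k 0)
  nlinarith [mul_le_mul_of_nonneg_right h3 h0.le]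
lemma l_e0 (h : On c s K) (hk : k ≤ K) (hj : j ≤ s.n k) :
    0 ≤ (s.sg k j).e := by
  change 0 ≤ s.e k j
  have h1 := s.e0_pos.le.trans (s.e0_le_E k)
  have h2 := z0 s k
  unfold Ms.e; positivity
lemma l_e_inc (h : On c s K) (hk : k ≤ K) (hj : j ≤ s.n k) :
    (s.sg k j).e + ((s.ep c.γ K k).P : ℝ) ^ 3 * (s.sg k j).z ≤ (s.sg k j).e' := by
  change s.e k j + (s.P k : ℝ) ^ 3 * s.z k ≤ s.e k (j + 1)
  unfold Ms.e; push_cast; linarith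
lemma l_e_hi (h : On c s K) (hk : k ≤ K) (hj : j ≤ s.n k) :
    c.κ * (s.sg k j).e' ≤ 1 := by
  change c.κ * s.e k (j + 1) ≤ 1
  have h1 : c.κ ≤ (s.P 0 : ℝ) ^ 3 :=
    ((κ_le s 0 h).trans (yP s 0)).trans (le_self_pow₀ (P1 s 0) (by norm_num))
  have h2 : 0 ≤ c.κ := by have := h.ok.C1; unfold Cx.κ; positivity
  have h3 := mul_le_mul_of_nonneg_left (e_le s k (j + 1) (by omega)) h2
  have h4 := mul_le_mul_of_nonneg_right h1 (by linarith [s.e0_pos] : 0 ≤ 2 * s.e0)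
  linarith [P_e0 s]
lemma l_D1 (h : On c s K) (hk : k ≤ K) (hj : j ≤ s.n k) :
    1 ≤ (s.sg k j).D := by
  change 1 ≤ s.D k j
  have h0 := s.σ0
  have h1 : 1 ≤ s.C / s.σ ^ 2 :=
    (one_le_div (by positivity)).2 ((pow_le_one₀ h0.le (σ1 s)).trans s.hC)
  exact one_le_mul_of_one_le_of_one_le (one_le_mul_of_one_le_of_one_le (P1 s k) h1)
    (one_le_pow₀ (one_le_mul_of_one_le_of_one_le (one_le_pow₀ (P1 s k)) (Q1 s k)))
lemma l_R1 (h : On c s K) (hk : k ≤ K) (hj : j ≤ s.n k) :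
    1 ≤ (s.sg k j).R := 
  Nat.one_le_two_pow
lemma l_Rρ (h : On c s K) (hk : k ≤ K) (hj : j ≤ s.n k) :
    2 * (s.sg k j).R ≤ (s.ep c.γ K k).ρ := by
  change 2 * 2 ^ (s.J k + j) ≤ 2 ^ s.y k ^ 6
  rw [← pow_succ']
  refine Nat.pow_le_pow_right (by norm_num) ?_
  have h1 := s.J_add_n k
  have h2 : s.J (k + 1) = s.y k ^ 4 := rfl
  have h3 : s.y k ^ 4 < s.y k ^ 6 :=
    Nat.pow_lt_pow_right (lt_of_lt_of_le (by norm_num) (s.y_ge k)) (by norm_num)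
  omega
lemma l_F0 (h : On c s K) (hk : k ≤ K) (hj : j ≤ s.n k) :
    0 ≤ (s.sg k j).F := 
  F0 s _
lemma l_F_le (h : On c s K) (hk : k ≤ K) (hj : j ≤ s.n k) :
    ((s.ep c.γ K k).P : ℝ) ^ 6 * (s.sg k j).F ≤ c.γ * (s.sg k j).x ^ 4 := 
  F_le s k j (γ_lo s h) h.ok.γ0.le
lemma l_Ft0 (h : On c s K) (hk : k ≤ K) (hj : j ≤ s.n k) :
    0 ≤ (s.ep c.γ K k).Ft := 
  F0 s _
lemma l_Ft_le (h : On c s K) (hk : k ≤ K) (hj : j ≤ s.n k) :
    (s.ep c.γ K k).Ft ≤ c.γ * (s.sg k j).z ^ 2 := by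
  change s.F (s.J k) ≤ c.γ * s.z k ^ 2
  have h0 := s.x_pos k 0
  have h1 := F_le s k 0 (γ_lo s h) h.ok.γ0.le
  rw [Nat.add_zero] at h1
  have h2 : s.x k 0 ^ 4 ≤ s.x k 0 := pow_le_of_le_one h0.le (x1 s k 0) (by norm_num)
  have hP := P1 s k
  rw [Ms.z, mul_pow, Real.sq_sqrt h0.le]
  refine (le_mul_of_one_le_left (F0 s _) (one_le_pow₀ hP)).trans (h1.trans ?_)
  refine mul_le_mul_of_nonneg_left (h2.trans (le_mul_of_one_le_left h0.le ?_)) h.ok.γ0.le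
  exact one_le_pow₀ (one_le_pow₀ hP)

end Crest.Agent.N334.AC.P.On
end

-- ▼ part N334/AC/P/ParA
section

/-! # S0520 part P: the analytic fields (`cap`, `capT`, `four`) of the ledger (helper24) -/

set_option autoImplicit false

open Finset Complex

namespace Crest.Agent.N334.AC.P.ParA

variable {d M : ℕ} [NeZero M] {c : Cx d M}

lemma E0_nonneg (ψ : Tor d M → ℝ) : 0 ≤ c.E0 ψ := by
  unfold Cx.E0 En
  positivity

lemma capR_mono {R R' : ℕ} {a a' F F' : ℝ} (h : c.CapR R a F) (hR : R ≤ R') (ha : a ≤ a')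
    (hF : F ≤ F') : c.CapR R' a' F' := by
  intro S hS l ψ h1 h2
  refine (h S (hS.mono hR le_rfl) l ψ h1 h2).trans ?_
  have := E0_nonneg (c := c) ψ
  have h3 : 0 ≤ ∑ x, l x ^ 2 := by positivity
  gcongr

lemma capR1 (h : Init d M c.C c.σ c.E c.w0) {ε a F : ℝ} (h0 : 0 < ε) (h1 : ε ≤ 1)
    (ha : 1 + ε ≤ a) (hF : c.C * c.σ ^ 3 / ε ≤ F) (R : ℕ) : c.CapR R a F := by
  refine capR_mono (R := 0) (a := 1 + ε) (F := c.C * c.σ ^ 3 / ε) ?_ (Nat.zero_le _) ha hF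
  intro S _ l ψ _ h2
  exact h.cap1 ε h0 h1 l ψ h2

lemma capR2 (h : Init d M c.C c.σ c.E c.w0) {R : ℕ} {a F : ℝ} (hR : R ≤ 2 * M) (h0 : 0 < F)
    (hC : c.C ≤ c.σ ^ 40 * R * F ^ 4) (ha : 1 + c.C * c.σ ^ 2 ≤ a) : c.CapR R a F := by
  refine capR_mono (R := R) (a := 1 + c.C * c.σ ^ 2) (F := F) ?_ le_rfl ha le_rfl
  intro S hS l ψ h1 h2
  exact h.cap2 R F hR h0 hC S l ψ hS h1 h2

lemma γ_le (h : Init d M c.C c.σ c.E c.w0) : c.γ ≤ c.C * c.σ ^ 2 :=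
  (neg_le_abs _).trans ((Complex.abs_im_le_norm _).trans h.w_le)

lemma γ_ge (h : Init d M c.C c.σ c.E c.w0) : c.σ ^ 2 / c.C ≤ c.γ := h.gam_lo

/-- the far part of the weighted fourth moment -/
lemma four_tail (h : Init d M c.C c.σ c.E c.w0) (hC : 1 ≤ c.C) (h0 : 0 < c.σ) (h1 : c.σ ≤ 1)
    (D : ℕ) : ∑ u ∈ univ.filter (fun u : Tor d M => D < tdist u 0),
      ‖c.G0 u 0‖ ^ 4 * (1 + (c.σ ^ 2 * tdist u 0) ^ 2) ≤
      3 * c.C ^ 2 * (c.C / c.σ ^ 2) ^ 4 *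
        (Real.exp (-(c.σ ^ 2 / c.C) * D / 2) * (6 * d / (c.σ ^ 2 / c.C)) ^ d) := by
  have hθ0 : 0 < c.σ ^ 2 / c.C := by positivity
  have hθ1 : c.σ ^ 2 / c.C ≤ 1 := by
    rw [div_le_one (by positivity)]
    nlinarith
  refine le_trans ?_ (mul_le_mul_of_nonneg_left (sum_exp_tail_le hθ0 hθ1 (0 : Tor d M) D) (by positivity))
  rw [mul_sum]
  refine sum_le_sum fun u _ => ?_
  set θ := c.σ ^ 2 / c.C with hθ
  set t : ℝ := ((tdist u 0 : ℕ) : ℝ) with ht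
  have ht0 : 0 ≤ t := by positivity
  have hG : ‖c.G0 u 0‖ ≤ c.C / c.σ ^ 2 * Real.exp (-θ * t) := h.decay u 0
  have e1 : c.σ ^ 2 * t = c.C * (θ * t) := by
    rw [hθ]; field_simp
  have h2 : (θ * t) ^ 2 / 2 ≤ Real.exp (θ * t) := by
    have := Real.quadratic_le_exp_of_nonneg (x := θ * t) (by positivity)
    have : 0 ≤ θ * t := by positivity
    linarith
  have h3 : 1 ≤ Real.exp (θ * t) := Real.one_le_exp (by positivity)
  have hC2 : 1 ≤ c.C ^ 2 := one_le_pow₀ hC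
  have h4 : 1 + (c.σ ^ 2 * t) ^ 2 ≤ 3 * c.C ^ 2 * Real.exp (θ * t) := by
    rw [e1, mul_pow]
    nlinarith
  have h5 : Real.exp (-θ * t) * Real.exp (θ * t) = 1 := by
    rw [← Real.exp_add]; simp
  have h6 : Real.exp (-θ * t) ≤ 1 := Real.exp_le_one_iff.2 (by nlinarith [mul_nonneg hθ0.le ht0])
  have h7 := Real.exp_pos (-θ * t)
  calc ‖c.G0 u 0‖ ^ 4 * (1 + (c.σ ^ 2 * t) ^ 2)
      ≤ (c.C / c.σ ^ 2 * Real.exp (-θ * t)) ^ 4 * (3 * c.C ^ 2 * Real.exp (θ * t)) := by gcongr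
    _ = 3 * c.C ^ 2 * (c.C / c.σ ^ 2) ^ 4 * Real.exp (-θ * t) *
        (Real.exp (-θ * t) ^ 2 * (Real.exp (-θ * t) * Real.exp (θ * t))) := by ring
    _ ≤ 3 * c.C ^ 2 * (c.C / c.σ ^ 2) ^ 4 * Real.exp (-θ * t) * 1 := by
        gcongr
        rw [h5, mul_one]
        exact pow_le_one₀ h7.le h6
    _ = _ := mul_one _

/-- `four` field when the separation is large -/
lemma four_far (h : Init d M c.C c.σ c.E c.w0) (hC : 1 ≤ c.C) (h0 : 0 < c.σ) (h1 : c.σ ≤ 1)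
    {D Rt : ℕ} (hD : D < Rt) :
    c.γ * ∑ u ∈ univ.filter (fun u : Tor d M => u ≠ 0 ∧ Rt ≤ tdist u 0),
      ‖c.G0 u 0‖ ^ 4 * (1 + (c.σ ^ 2 * tdist u 0) ^ 2) ≤
      c.C * c.σ ^ 2 * (3 * c.C ^ 2 * (c.C / c.σ ^ 2) ^ 4 *
        (Real.exp (-(c.σ ^ 2 / c.C) * D / 2) * (6 * d / (c.σ ^ 2 / c.C)) ^ d)) := by
  refine mul_le_mul (γ_le h) (le_trans ?_ (four_tail h hC h0 h1 D))
    (sum_nonneg fun _ _ => by positivity) (by positivity)
  refine sum_le_sum_of_subset_of_nonneg (fun u hu => ?_) fun _ _ _ => by positivity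
  simp only [mem_filter, mem_univ, true_and] at hu ⊢
  omega

/-- `four` field in general -/
lemma four_all (h : Init d M c.C c.σ c.E c.w0) (hC : 1 ≤ c.C) (h0 : 0 < c.σ) (h1 : c.σ ≤ 1)
    (D Rt : ℕ) :
    c.γ * ∑ u ∈ univ.filter (fun u : Tor d M => u ≠ 0 ∧ Rt ≤ tdist u 0),
      ‖c.G0 u 0‖ ^ 4 * (1 + (c.σ ^ 2 * tdist u 0) ^ 2) ≤
      c.C * c.σ ^ 2 * ((1 + (c.σ ^ 2 * D) ^ 2) * (c.C / c.σ) +
        3 * c.C ^ 2 * (c.C / c.σ ^ 2) ^ 4 *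
        (Real.exp (-(c.σ ^ 2 / c.C) * D / 2) * (6 * d / (c.σ ^ 2 / c.C)) ^ d)) := by
  refine mul_le_mul (γ_le h) ?_ (sum_nonneg fun _ _ => by positivity) (by positivity)
  refine le_trans (sum_le_sum_of_subset_of_nonneg (subset_univ _) fun _ _ _ => by positivity) ?_
  rw [← sum_filter_add_sum_filter_not univ (fun u : Tor d M => D < tdist u 0), add_comm]
  refine add_le_add ?_ (four_tail h hC h0 h1 D)
  calc _ ≤ ∑ u ∈ univ.filter (fun u : Tor d M => ¬ D < tdist u 0),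
        (1 + (c.σ ^ 2 * D) ^ 2) * ‖c.G0 u 0‖ ^ 4 := by
        refine sum_le_sum fun u hu => ?_
        simp only [mem_filter, mem_univ, true_and, not_lt] at hu
        rw [mul_comm]
        gcongr
    _ ≤ ∑ u : Tor d M, (1 + (c.σ ^ 2 * D) ^ 2) * ‖c.G0 u 0‖ ^ 4 :=
        sum_le_sum_of_subset_of_nonneg (subset_univ _) fun _ _ _ => by positivity
    _ ≤ _ := by
        rw [← mul_sum]
        gcongr
        exact h.four

end Crest.Agent.N334.AC.P.ParA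
end

-- ▼ part N334/AC/P/Par2
section

/-! # S0520 part P: ledger of a stage, free-lattice input (leaf: fill the sorries, keep the statements)
`cap`: `M6.cap_one` with `e0 ≤ e'` (`Cap.mono`), or `M6.cap_two` (`σ^40 R F⁴ = C⁴`, `Cσ² ≤ e0`, `R ≤ M`). `four`: `z⁴ = P⁸ x0²`;
`k = 0`: split at `D0 = ⌈C y0²/σ²⌉`, `Init.four` near, `Init.decay` + `sum_exp_tail_le` far; `k ≥ 1`: only the tail, `D0 = 2^J - 1`. -/

set_option autoImplicit false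

open Finset

namespace Crest.Agent.N334.AC.P.Pa2

variable {d M : ℕ} [NeZero M] {c : Cx d M} (s : Ms d) {K : ℕ} (k : ℕ)

lemma y1 : (1000000 : ℝ) ≤ s.y k := le_trans (by norm_num) (s.yR k)


lemma σ1 : s.σ ≤ 1 := by
  have h := y1 s 0
  rw [s.y_zero] at h
  exact s.σ_le.trans ((pw_le (by linarith)).trans_eq pw_zero)

lemma Cp {i : ℕ} (hi : i ≤ 20) : 100 * s.C ^ i ≤ s.y k := by
  have h1 := s.hC
  exact le_trans (mul_le_mul (by norm_num) (pow_le_pow_right₀ h1 hi) (by positivity)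
    (by positivity)) (s.C_le k)

lemma inv_σ : 1 / s.σ ≤ pw (s.y k) := s.inv_σ_le.trans (pw_le (by exact_mod_cast s.y0_le k))

lemma P1 : (1 : ℝ) ≤ s.P k := by
  rw [Ms.P, Nat.cast_pow]
  exact one_le_pow₀ (by linarith [y1 s k])

lemma e0_le : s.e0 ≤ 1 := by
  have h := one_le_pow₀ (n := 3) (P1 s 0)
  rw [Ms.e0, div_le_one (by positivity)]
  linarith

lemma Cσ : s.C * s.σ ^ 2 ≤ s.e0 := by
  have hy := y1 s 0
  have h0 := s.σ0
  have h1 : s.σ ≤ pw (1 - s.y 0) := by rw [s.y_zero]; exact s.σ_le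
  have h2 : 4 * s.C ≤ s.y 0 := by
    have := Cp s 0 (by norm_num : 1 ≤ 20)
    have := s.hC
    nlinarith
  have h3 := P1 s 0
  rw [Ms.e0, le_div_iff₀ (by positivity), Ms.P, Nat.cast_pow]
  calc s.C * s.σ ^ 2 * (4 * ((s.y 0 : ℝ) ^ 14) ^ 3) = 4 * s.C * (s.y 0 : ℝ) ^ 42 * s.σ ^ 2 := by ring
    _ ≤ s.y 0 * (s.y 0 : ℝ) ^ 42 * pw (1 - s.y 0) ^ 2 := by gcongr
    _ = (s.y 0 : ℝ) ^ 43 * pw (1 - s.y 0) ^ 2 := by ring
    _ ≤ pw (s.y 0 / 1000) * pw (1 - s.y 0) ^ 2 :=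
        mul_le_mul_of_nonneg_right (s.poly 0 (by norm_num)) (by positivity)
    _ ≤ pw 0 := by
        rw [pw_pow, ← pw_add]
        refine pw_le ?_
        push_cast
        linarith
    _ = 1 := pw_zero

lemma capF {s : Ms d} (h : On c s K) {i : ℕ} (hi : i ≤ s.J (K + 1)) {a : ℝ} (ha : 1 + s.e0 ≤ a) :
    c.CapR (2 ^ i) a (s.F i) := by
  have h0 := s.σ0
  have hC := s.hC
  rw [Ms.F]
  split_ifs with h1
  · exact ParA.capR1 h.init s.e0_pos (e0_le s) ha (by rw [h.C, h.σ]) _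
  · have h2 := pw_pos (-(i : ℝ) / 4)
    refine ParA.capR2 h.init ?_ (by positivity) ?_ ?_
    · rw [h.hM]
      have := Nat.pow_le_pow_right (by norm_num : 0 < 2) hi
      omega
    · have h3 : ((2 ^ i : ℕ) : ℝ) * pw (-(i : ℝ) / 4) ^ 4 = 1 := by
        rw [pw_pow, Nat.cast_pow, Nat.cast_ofNat, ← pw_nat, ← pw_add, ← pw_zero]
        congr 1
        push_cast
        ring
      rw [h.C, h.σ]
      calc s.C ≤ s.C ^ 4 * (((2 ^ i : ℕ) : ℝ) * pw (-(i : ℝ) / 4) ^ 4) := by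
            rw [h3, mul_one]
            exact le_self_pow₀ hC (by norm_num)
        _ = _ := by field_simp
    · rw [h.C, h.σ]
      linarith [Cσ s]

/-- cut-off distance -/
noncomputable def D0 : ℕ := ⌈(s.y k : ℝ) ^ 2 / (s.σ ^ 2 / s.C)⌉₊

lemma σD0 : s.σ ^ 2 * D0 s k ≤ 2 * s.C * (s.y k : ℝ) ^ 2 := by
  have h0 := s.σ0
  have hC := s.hC
  have hy := y1 s k
  have h1 : (D0 s k : ℝ) ≤ (s.y k : ℝ) ^ 2 / (s.σ ^ 2 / s.C) + 1 :=
    (Nat.ceil_lt_add_one (by positivity)).le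
  have h2 : s.σ ^ 2 ≤ 1 := pow_le_one₀ h0.le (σ1 s)
  have h3 : 1 ≤ s.C * (s.y k : ℝ) ^ 2 := one_le_mul_of_one_le_of_one_le hC (by nlinarith)
  calc s.σ ^ 2 * D0 s k ≤ s.σ ^ 2 * ((s.y k : ℝ) ^ 2 / (s.σ ^ 2 / s.C) + 1) := by gcongr
    _ = s.C * (s.y k : ℝ) ^ 2 + s.σ ^ 2 := by field_simp
    _ ≤ _ := by linarith

lemma D0_lt : D0 s k < 2 ^ s.y k ^ 2 := by
  have h0 := s.σ0
  have hC := s.hC
  have hy := y1 s k
  have h1 : 2 * s.C ≤ s.y k := by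
    have := Cp s k (by norm_num : 1 ≤ 20)
    nlinarith
  have h2 : (D0 s k : ℝ) ≤ pw ((s.y k : ℝ) ^ 2 - 1) :=
    calc (D0 s k : ℝ) = s.σ ^ 2 * D0 s k * (1 / s.σ) ^ 2 := by field_simp
      _ ≤ 2 * s.C * (s.y k : ℝ) ^ 2 * pw (s.y k) ^ 2 :=
          mul_le_mul (σD0 s k) (pow_le_pow_left₀ (by positivity) (inv_σ s k) 2) (by positivity)
            (by positivity)
      _ ≤ s.y k * (s.y k : ℝ) ^ 2 * pw (s.y k) ^ 2 := by gcongr
      _ = (s.y k : ℝ) ^ 3 * pw (s.y k) ^ 2 := by ring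
      _ ≤ pw (s.y k / 1000) * pw (s.y k) ^ 2 :=
          mul_le_mul_of_nonneg_right (s.poly k (by norm_num)) (by positivity)
      _ ≤ _ := by
          rw [pw_pow, ← pw_add]
          refine pw_le ?_
          push_cast
          nlinarith
  have h3 : pw ((s.y k : ℝ) ^ 2 - 1) * 2 = ((2 ^ s.y k ^ 2 : ℕ) : ℝ) := by
    have h4 : pw 1 = 2 := by simpa using pw_nat 1
    rw [← h4, ← pw_add, Nat.cast_pow, Nat.cast_ofNat, ← pw_nat]
    congr 1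
    push_cast
    ring
  have h4 := pw_pos ((s.y k : ℝ) ^ 2 - 1)
  have h5 : (D0 s k : ℝ) < ((2 ^ s.y k ^ 2 : ℕ) : ℝ) := by linarith
  exact_mod_cast h5

lemma tail : s.C * s.σ ^ 2 * (3 * s.C ^ 2 * (s.C / s.σ ^ 2) ^ 4 *
    (Real.exp (-(s.σ ^ 2 / s.C) * D0 s k / 2) * (6 * d / (s.σ ^ 2 / s.C)) ^ d)) ≤
    pw (-(s.y k : ℝ) ^ 2 / 4) := by
  have h0 := s.σ0
  have hC := s.hC
  have hy := y1 s k
  have hd : (3 : ℝ) ≤ d := by exact_mod_cast s.hd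
  have hd' : 10 ^ 6 * (d : ℝ) ≤ s.y k := by exact_mod_cast s.d_le k
  have h1 : (s.y k : ℝ) ^ 2 ≤ s.σ ^ 2 / s.C * D0 s k := by
    rw [← div_le_iff₀' (by positivity)]
    exact Nat.le_ceil _
  have h2 : Real.exp (-(s.σ ^ 2 / s.C) * D0 s k / 2) ≤ pw (-(s.y k : ℝ) ^ 2 / 2) :=
    (Real.exp_le_exp.2 (by linarith)).trans (exp_le_pw (by nlinarith))
  have h3 : (6 * d * s.C) ^ d ≤ (s.y k : ℝ) := by
    refine le_trans ?_ (s.κ_le k)
    have h4 : 1 ≤ d * s.C := one_le_mul_of_one_le_of_one_le (by linarith) hC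
    exact (pow_le_pow_left₀ (by positivity) (by linarith) d).trans
      (pow_le_pow_right₀ (by linarith) (by omega))
  have h4 : 3 * s.C ^ 7 ≤ s.y k := by
    have := Cp s k (by norm_num : 7 ≤ 20)
    have : 0 ≤ s.C ^ 7 := by positivity
    linarith
  have h5 : s.σ ^ 2 ≤ 1 := pow_le_one₀ h0.le (σ1 s)
  have h6 := inv_σ s k
  have h7 := pw_pos (-(s.y k : ℝ) ^ 2 / 2)
  have h8 := pw_pos (s.y k)
  have e1 : 6 * d / (s.σ ^ 2 / s.C) = 6 * d * s.C * (1 / s.σ) ^ 2 := by field_simp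
  have e2 : s.C / s.σ ^ 2 = s.C * (1 / s.σ) ^ 2 := by field_simp
  rw [e1, e2, mul_pow (6 * d * s.C), ← pow_mul]
  calc _ = s.σ ^ 2 * (3 * s.C ^ 7) * (6 * d * s.C) ^ d * ((1 / s.σ) ^ 8 * (1 / s.σ) ^ (2 * d) *
        Real.exp (-(s.σ ^ 2 / s.C) * D0 s k / 2)) := by ring
    _ ≤ 1 * s.y k * s.y k * (pw (s.y k) ^ 8 * pw (s.y k) ^ (2 * d) *
        pw (-(s.y k : ℝ) ^ 2 / 2)) := by gcongr
    _ = (s.y k : ℝ) ^ 2 * (pw (s.y k) ^ 8 * pw (s.y k) ^ (2 * d) *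
        pw (-(s.y k : ℝ) ^ 2 / 2)) := by ring
    _ ≤ pw (s.y k / 1000) * (pw (s.y k) ^ 8 * pw (s.y k) ^ (2 * d) *
        pw (-(s.y k : ℝ) ^ 2 / 2)) :=
        mul_le_mul_of_nonneg_right (s.poly k (by norm_num)) (by positivity)
    _ ≤ _ := by
        rw [pw_pow, pw_pow, ← pw_add, ← pw_add, ← pw_add]
        refine pw_le ?_
        push_cast
        nlinarith

lemma z4 : s.z k ^ 4 = (s.P k : ℝ) ^ 8 * pw (-(2 * s.ξ k 0)) := by
  have h1 : Real.sqrt (s.x k 0) ^ 4 = s.x k 0 ^ 2 := by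
    rw [show 4 = 2 * 2 from rfl, pow_mul, Real.sq_sqrt (s.x_pos k 0).le]
  rw [Ms.z, mul_pow, h1, ← pow_mul, Ms.x, pw_pow]
  congr 2
  push_cast
  ring

lemma near : s.C * s.σ ^ 2 * ((1 + (s.σ ^ 2 * D0 s 0) ^ 2) * (s.C / s.σ)) ≤
    pw (-(s.y 0 : ℝ) / 2) := by
  have h0 := s.σ0
  have hC := s.hC
  have hy := y1 s 0
  have h1 : s.σ ≤ pw (1 - s.y 0) := by rw [s.y_zero]; exact s.σ_le
  have h2 := σD0 s 0
  have h3 : 1 ≤ s.C * (s.y 0 : ℝ) ^ 2 := one_le_mul_of_one_le_of_one_le hC (by nlinarith)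
  have h4 : 1 + (s.σ ^ 2 * D0 s 0) ^ 2 ≤ 5 * (s.C * (s.y 0 : ℝ) ^ 2) ^ 2 := by
    have := pow_le_pow_left₀ (by positivity) h2 2
    nlinarith
  have h5 : 5 * s.C ^ 4 ≤ s.y 0 := by
    have := Cp s 0 (by norm_num : 4 ≤ 20)
    have : 0 ≤ s.C ^ 4 := by positivity
    linarith
  have h6 := pw_pos (1 - (s.y 0 : ℝ))
  calc _ ≤ s.C * s.σ ^ 2 * (5 * (s.C * (s.y 0 : ℝ) ^ 2) ^ 2 * (s.C / s.σ)) := by gcongr
    _ = 5 * s.C ^ 4 * (s.y 0 : ℝ) ^ 4 * s.σ := by field_simp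
    _ ≤ s.y 0 * (s.y 0 : ℝ) ^ 4 * pw (1 - s.y 0) := by gcongr
    _ = (s.y 0 : ℝ) ^ 5 * pw (1 - s.y 0) := by ring
    _ ≤ pw (s.y 0 / 1000) * pw (1 - s.y 0) :=
        mul_le_mul_of_nonneg_right (s.poly 0 (by norm_num)) h6.le
    _ ≤ _ := by
        rw [← pw_add]
        exact pw_le (by linarith)

end Crest.Agent.N334.AC.P.Pa2

namespace Crest.Agent.N334.AC.P.On

variable {d M : ℕ} [NeZero M] {c : Cx d M} {s : Ms d} {K k j : ℕ}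

lemma l_cap (h : On c s K) (hk : k ≤ K) (hj : j ≤ s.n k) :
    c.CapR (s.sg k j).R (1 + (s.sg k j).e') (s.sg k j).F := by
  refine Pa2.capF h ?_ ?_
  · have h1 := s.J_add_n k
    have h2 := s.J_mono (Nat.succ_le_succ hk)
    simp only [Nat.succ_eq_add_one] at h2
    omega
  · have h1 := s.e0_le_E k
    have h2 : 0 ≤ ((j + 1 : ℕ) : ℝ) * ((s.P k : ℝ) ^ 3 * s.z k) := by
      rw [Ms.z]
      positivity
    change 1 + s.e0 ≤ 1 + (s.E k + _)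
    linarith
lemma l_capT (h : On c s K) (hk : k ≤ K) (hj : j ≤ s.n k) :
    c.CapR (s.ep c.γ K k).Rt 2 (s.ep c.γ K k).Ft :=
  Pa2.capF h (s.J_mono (hk.trans (Nat.le_succ K))) (by linarith [Pa2.e0_le s])
lemma l_four (h : On c s K) (hk : k ≤ K) (hj : j ≤ s.n k) :
    c.γ * ∑ u ∈ univ.filter (fun u : Tor d M => u ≠ 0 ∧ (s.ep c.γ K k).Rt ≤ tdist u 0),
    ‖c.G0 u 0‖ ^ 4 * (1 + (c.σ ^ 2 * tdist u 0) ^ 2) ≤ (s.sg k j).z ^ 4 := by
  have hC : 1 ≤ c.C := h.C ▸ s.hC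
  have h0 : 0 < c.σ := h.σ ▸ s.σ0
  have h1 : c.σ ≤ 1 := h.σ ▸ Pa2.σ1 s
  have hy := Pa2.y1 s k
  have hP := Pa2.P1 s k
  change _ ≤ s.z k ^ 4
  rw [Pa2.z4]
  rcases Nat.eq_zero_or_pos k with rfl | hk0
  · refine (ParA.four_all h.init hC h0 h1 (Pa2.D0 s 0) _).trans ?_
    rw [mul_add, h.C, h.σ]
    refine (add_le_add (Pa2.near s) (Pa2.tail s 0)).trans ?_
    have h2 : s.ξ 0 0 = (s.y 0 : ℝ) / 5 := by simp [Ms.ξ, s.y_zero]
    have h3 : pw (-(s.y 0 : ℝ) / 2) ≤ pw (-(2 * s.ξ 0 0)) := pw_le (by rw [h2]; linarith)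
    have h4 : pw (-(s.y 0 : ℝ) ^ 2 / 4) ≤ pw (-(2 * s.ξ 0 0)) := pw_le (by rw [h2]; nlinarith)
    have h5 : (2 : ℝ) ≤ (s.P 0 : ℝ) ^ 8 := by
      refine le_trans ?_ (le_self_pow₀ hP (by norm_num))
      rw [Ms.P, Nat.cast_pow]
      exact le_trans (by linarith) (le_self_pow₀ (by linarith) (by norm_num))
    have h6 := mul_le_mul_of_nonneg_right h5 (pw_pos (-(2 * s.ξ 0 0))).le
    linarith
  · have h2 : Pa2.D0 s k < (s.ep c.γ K k).Rt := by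
      change _ < 2 ^ s.J k
      rw [s.J_eq k hk0]
      exact Pa2.D0_lt s k
    refine (ParA.four_far h.init hC h0 h1 h2).trans ?_
    rw [h.C, h.σ]
    refine (Pa2.tail s k).trans (le_trans (pw_le ?_)
      (le_mul_of_one_le_left (pw_pos _).le (one_le_pow₀ hP)))
    rw [Ms.ξ, if_neg hk0.ne', s.J_eq k hk0]
    push_cast
    nlinarith

end Crest.Agent.N334.AC.P.On
end

-- ▼ part N334/AC/P/Par3
section

/-! # S0520 part P: ledger of a stage, large parameters (leaf: fill the sorries, keep the statements)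
`D' = s.D k (j+1) ≤ pw y⁵`, `inv_θ0_le`, `polyd`, `dypow`. -/

set_option autoImplicit false
set_option linter.unusedVariables false

open Finset

namespace Crest.Agent.N334.AC.P.Pa3

variable {d : ℕ} (s : Ms d) (k j : ℕ)

lemma one_le_pw {a : ℝ} (h : 0 ≤ a) : 1 ≤ pw a := pw_zero ▸ pw_le h
lemma pw_le_one {a : ℝ} (h : a ≤ 0) : pw a ≤ 1 := pw_zero ▸ pw_le h
lemma Y1 : (1 : ℝ) ≤ s.y k := le_trans (by norm_num) (s.yR k)
lemma Y100 : (100 : ℝ) ≤ s.y k := le_trans (by norm_num) (s.yR k)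
lemma Ymono {a b : ℕ} (h : a ≤ b) : (s.y k : ℝ) ^ a ≤ (s.y k : ℝ) ^ b :=
  pow_le_pow_right₀ (Y1 s k) h
lemma Yle {b : ℕ} (h : 1 ≤ b) : (s.y k : ℝ) ≤ (s.y k : ℝ) ^ b := by
  simpa using Ymono s k h
lemma ϑ_eq : s.ϑ k = pw (-(3 * (s.y k : ℝ) ^ 5)) := by
  rw [pw_neg, Ms.ϑ, ← pw_nat, one_div]; push_cast; rfl
lemma Bg_eq : s.Bg k = pw ((s.y k : ℝ) ^ 15) := by
  rw [Ms.Bg, ← pw_nat]; push_cast; rfl
lemma ρ_eq : (s.ρ k : ℝ) = pw ((s.y k : ℝ) ^ 6) := by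
  rw [Ms.ρ, Nat.cast_pow, Nat.cast_ofNat, ← pw_nat]; push_cast; rfl
lemma P_eq : (s.P k : ℝ) = (s.y k : ℝ) ^ 14 := by rw [Ms.P]; push_cast; rfl
lemma C_le_Y : s.C ≤ s.y k := by
  have h1 := s.C_le k
  have h2 : s.C ≤ s.C ^ 20 := le_self_pow₀ s.hC (by norm_num)
  have h3 : 0 ≤ s.C ^ 20 := le_trans (by linarith [s.hC]) h2
  linarith
lemma inv_σ2 : 1 / s.σ ^ 2 ≤ pw (2 * s.y k) := by
  have h1 : 1 / s.σ ≤ pw (s.y k) := s.inv_σ_le.trans (pw_le (by exact_mod_cast s.y0_le k))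
  have h2 := s.σ0
  calc 1 / s.σ ^ 2 = (1 / s.σ) ^ 2 := by rw [one_div_pow]
    _ ≤ pw (s.y k) ^ 2 := by gcongr
    _ = _ := by rw [pw_pow]; norm_num
/-- `100 C / σ² ≤ 2^{3y}` -/
lemma Cσ : 100 * (s.C / s.σ ^ 2) ≤ pw (3 * s.y k) := by
  have h1 := inv_σ2 s k
  have h2 := s.poly k (a := 2) (by norm_num)
  have h3 := C_le_Y s k
  have h4 := Y100 s k
  have h5 := s.hC
  have h6 := s.σ0
  have h7 : 100 * s.C ≤ pw (s.y k) :=
    le_trans (by nlinarith) (h2.trans (pw_le (by linarith)))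
  calc 100 * (s.C / s.σ ^ 2) = 100 * s.C * (1 / s.σ ^ 2) := by ring
    _ ≤ pw (s.y k) * pw (2 * s.y k) := mul_le_mul h7 h1 (by positivity) (pw_pos _).le
    _ = _ := by rw [← pw_add]; congr 1; ring
lemma Cσ' : s.C / s.σ ^ 2 ≤ pw (3 * s.y k) := by
  have h1 := Cσ s k
  have h5 := s.hC
  have h6 := s.σ0
  have : 0 ≤ s.C / s.σ ^ 2 := by positivity
  linarith
lemma D'_eq (γ : ℝ) (K : ℕ) : D' (s.ep γ K k) (s.sg k j) = s.D k (j + 1) := by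
  simp only [D', Ms.ep, Ms.sg, Ms.D]; ring
lemma D_nonneg : 0 ≤ s.D k j := by
  have h5 := s.hC
  have h6 := s.σ0
  unfold Ms.D; positivity
lemma PD (hj : j ≤ s.n k) :
    1 + (s.P k : ℝ) ^ 4 * s.D k (j + 1) ≤ pw (1 + s.y k + (s.y k : ℝ) ^ 5) := by
  have h1 := s.D_le k (j + 1) (by omega)
  have h0 := Y1 s k
  have h2 : (s.P k : ℝ) ^ 4 ≤ pw (s.y k) := by
    rw [P_eq, ← pow_mul]
    exact (s.poly k (by norm_num)).trans (pw_le (by linarith))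
  have h3 : (s.P k : ℝ) ^ 4 * s.D k (j + 1) ≤ pw (s.y k + (s.y k : ℝ) ^ 5) := by
    rw [pw_add]; exact mul_le_mul h2 h1 (D_nonneg s k _) (pw_pos _).le
  have h4 : 1 ≤ pw (s.y k + (s.y k : ℝ) ^ 5) := one_le_pw (by positivity)
  have h5 : pw 1 = 2 := by simpa using pw_nat 1
  rw [add_assoc, pw_add, h5]
  linarith
/-- `ϑ ρ` beats every polynomial -/
lemma ϑρ {a : ℕ} (ha : a ≤ 1000) : (s.y k : ℝ) ^ a ≤ s.ϑ k * s.ρ k := by
  rw [ϑ_eq, ρ_eq, ← pw_add]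
  refine (s.poly k ha).trans (pw_le ?_)
  have h1 := s.ypow k (a := 5) (b := 6) (by norm_num)
  have h2 := Yle s k (b := 5) (by norm_num)
  have h0 := Y1 s k
  linarith

end Crest.Agent.N334.AC.P.Pa3

namespace Crest.Agent.N334.AC.P.On

open Pa3

variable {d M : ℕ} [NeZero M] {c : Cx d M} {s : Ms d} {K k j : ℕ}

lemma l_A00 (h : On c s K) (hk : k ≤ K) (hj : j ≤ s.n k) :
    0 ≤ (s.ep c.γ K k).A0 := by
  have h5 := s.hC
  have h6 := s.σ0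
  show 0 ≤ 6 * s.C / s.σ ^ 2
  positivity
lemma l_ϑ0 (h : On c s K) (hk : k ≤ K) (hj : j ≤ s.n k) :
    0 < (s.ep c.γ K k).ϑ := by
  show 0 < s.ϑ k
  rw [ϑ_eq]; exact pw_pos _
lemma l_ϑ1 (h : On c s K) (hk : k ≤ K) (hj : j ≤ s.n k) :
    4 * (s.ep c.γ K k).ϑ ≤ (s.ep c.γ K k).θ0 := by
  show 4 * s.ϑ k ≤ s.θ0 k
  have h1 := s.inv_θ0_le k
  have h2 := s.θ0_pos k
  rw [one_div, inv_le_comm₀ h2 (pw_pos _), ← pw_neg] at h1
  have h3 : pw 2 = 4 := by have := pw_nat 2; norm_num at this; exact this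
  rw [ϑ_eq, ← h3, ← pw_add]
  refine (pw_le ?_).trans h1
  have h4 := s.ypow k (a := 3) (b := 5) (by norm_num)
  have h5 := Yle s k (b := 3) (by norm_num)
  have h0 := Y1 s k
  linarith
lemma l_θ1 (h : On c s K) (hk : k ≤ K) (hj : j ≤ s.n k) :
    (s.ep c.γ K k).θ0 ≤ 1 := by
  show s.θ0 k ≤ 1
  cases k with
  | zero =>
    have h1 : s.σ ≤ 1 := s.σ_le.trans (pw_le_one (by
      have := Y1 s 0; rw [s.y_zero] at this; linarith))
    have h2 := s.σ0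
    have h3 := s.hC
    rw [Ms.θ0, div_le_one (by linarith)]
    nlinarith
  | succ k =>
    have h0 := Y1 s k
    have h1 : (1 : ℝ) ≤ s.m k := by rw [Ms.m]; push_cast; exact one_le_pow₀ h0
    have h2 : (1 : ℝ) ≤ s.R k := by
      rw [Ms.R, Nat.cast_pow, ρ_eq]; exact one_le_pow₀ (one_le_pw (by positivity))
    have h3 : 1 / 2 ≤ Real.log (s.Bg k) := by
      rw [Ms.Bg, Real.log_pow]
      have h4 : (1 : ℝ) ≤ ((s.y k ^ 15 : ℕ) : ℝ) := by push_cast; exact one_le_pow₀ h0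
      have := Real.log_two_gt_d9
      nlinarith
    have h4 : 100 * 1 * 1 * (1 / 2) ≤ 100 * (s.m k : ℝ) * s.R k * Real.log (s.Bg k) := by gcongr
    rw [Ms.θ0, div_le_one (by linarith)]
    linarith
lemma l_ϑG (h : On c s K) (hk : k ≤ K) (hj : j ≤ s.n k) :
    (s.ep c.γ K k).ϑ ≤ c.σ ^ 2 / c.C := by
  show s.ϑ k ≤ c.σ ^ 2 / c.C
  rw [h.C, h.σ, ϑ_eq]
  have h5 := s.hC
  have h6 := s.σ0
  have h1 := Cσ' s k
  have h2 := Yle s k (b := 5) (by norm_num)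
  rw [← inv_div, pw_neg]
  exact inv_anti₀ (by positivity) (h1.trans (pw_le (by linarith)))
lemma l_ct (h : On c s K) (hk : k ≤ K) (hj : j ≤ s.n k) :
    8 * (s.ep c.γ K k).A0 * ((s.ep c.γ K k).ϑ / (s.ep c.γ K k).θ0) * (12 * d / (s.ep c.γ K k).θ0) ^ d * (1 + ((s.ep c.γ K k).P : ℝ) ^ 4 * D' (s.ep c.γ K k) (s.sg k j)) ≤ 1 := by
  rw [D'_eq]
  show 8 * (6 * s.C / s.σ ^ 2) * (s.ϑ k / s.θ0 k) * (12 * d / s.θ0 k) ^ d *
    (1 + (s.P k : ℝ) ^ 4 * s.D k (j + 1)) ≤ 1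
  have h5 := s.hC
  have h6 := s.σ0
  have h0 := Y1 s k
  have hθ := s.θ0_pos k
  have hi := s.inv_θ0_le k
  have hD := D_nonneg s k (j + 1)
  have hϑ : 0 < s.ϑ k := by rw [ϑ_eq]; exact pw_pos _
  have a1 : 8 * (6 * s.C / s.σ ^ 2) ≤ pw (3 * s.y k) := by
    have h1 := Cσ s k
    have : 0 ≤ s.C / s.σ ^ 2 := by positivity
    rw [mul_div_assoc]; linarith
  have a2 : s.ϑ k / s.θ0 k ≤ pw (-(3 * (s.y k : ℝ) ^ 5) + 3 * (s.y k : ℝ) ^ 3) := by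
    rw [pw_add, ← ϑ_eq, div_eq_mul_one_div]; gcongr
  have a3 : (12 * d / s.θ0 k) ^ d ≤ pw (s.y k / 1000 + d * (3 * (s.y k : ℝ) ^ 3)) := by
    have b1 : (12 * d : ℝ) ≤ (s.y k : ℝ) ^ 1 := by
      have b2 : ((10 ^ 6 * d : ℕ) : ℝ) ≤ s.y k := by exact_mod_cast s.d_le k
      push_cast at b2
      have : (0 : ℝ) ≤ d := by positivity
      linarith
    rw [pw_add, ← pw_pow, div_eq_mul_one_div, mul_pow]
    refine mul_le_mul (le_trans ?_ (s.polyd k (a := 1) (by norm_num))) ?_ (by positivity)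
      (pw_pos _).le <;> gcongr
  have a4 := PD s k j hj
  have p1 := pw_pos (3 * s.y k)
  have p2 := pw_pos (-(3 * (s.y k : ℝ) ^ 5) + 3 * (s.y k : ℝ) ^ 3)
  have p3 := pw_pos (s.y k / 1000 + d * (3 * (s.y k : ℝ) ^ 3))
  calc _ ≤ pw (3 * s.y k) * pw (-(3 * (s.y k : ℝ) ^ 5) + 3 * (s.y k : ℝ) ^ 3) *
        pw (s.y k / 1000 + d * (3 * (s.y k : ℝ) ^ 3)) * pw (1 + s.y k + (s.y k : ℝ) ^ 5) := by
        gcongr
    _ ≤ 1 := by
      rw [← pw_add, ← pw_add, ← pw_add]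
      refine pw_le_one ?_
      have b1 := s.dypow k (a := 3) (b := 5) (by norm_num)
      have b2 := s.ypow k (a := 3) (b := 5) (by norm_num)
      have b3 := Yle s k (b := 3) (by norm_num)
      linarith
lemma l_B_K (h : On c s K) (hk : k ≤ K) (hj : j ≤ s.n k) :
    8 * (1 + ((s.ep c.γ K k).P : ℝ) ^ 4 * D' (s.ep c.γ K k) (s.sg k j)) / c.γ ≤ (s.ep c.γ K k).Bg := by
  rw [D'_eq]
  show 8 * (1 + (s.P k : ℝ) ^ 4 * s.D k (j + 1)) / c.γ ≤ s.Bg k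
  have h5 := s.hC
  have h6 := s.σ0
  have h0 := Y1 s k
  have hγ := h.ok.γ0
  have hl := h.ok.γ_lo
  rw [h.C, h.σ] at hl
  have a1 : 8 / c.γ ≤ pw (3 * s.y k) := by
    have h1 := Cσ s k
    have h2 : 1 / c.γ ≤ s.C / s.σ ^ 2 := by
      rw [div_le_div_iff₀ hγ (by positivity)]; linarith
    have : 0 ≤ s.C / s.σ ^ 2 := by positivity
    rw [div_eq_mul_one_div]; linarith
  have a4 := PD s k j hj
  have hD := D_nonneg s k (j + 1)
  calc _ = 8 / c.γ * (1 + (s.P k : ℝ) ^ 4 * s.D k (j + 1)) := by ring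
    _ ≤ pw (3 * s.y k) * pw (1 + s.y k + (s.y k : ℝ) ^ 5) :=
      mul_le_mul a1 a4 (by positivity) (pw_pos _).le
    _ ≤ _ := by
      rw [← pw_add, Bg_eq]
      refine pw_le ?_
      have b2 := s.ypow k (a := 5) (b := 15) (by norm_num)
      have b3 := Yle s k (b := 5) (by norm_num)
      linarith
lemma l_B_x (h : On c s K) (hk : k ≤ K) (hj : j ≤ s.n k) :
    1 ≤ (s.ep c.γ K k).Bg * (s.sg k j).x' := by
  show 1 ≤ s.Bg k * s.x k (j + 1)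
  have h1 := s.x_ge k (j + 1) (by omega)
  have h2 := Ymono s k (a := 4) (b := 15) (by norm_num)
  rw [Bg_eq]
  refine le_trans ?_ (mul_le_mul_of_nonneg_left h1 (pw_pos _).le)
  rw [← pw_add]
  exact one_le_pw (by linarith)
lemma l_B_σ (h : On c s K) (hk : k ≤ K) (hj : j ≤ s.n k) :
    c.C ≤ (s.ep c.γ K k).Bg * c.σ ^ 2 := by
  show c.C ≤ s.Bg k * c.σ ^ 2
  have h6 := s.σ0
  rw [h.C, h.σ, ← div_le_iff₀ (by positivity), Bg_eq]
  refine (Cσ' s k).trans (pw_le ?_)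
  have b2 := s.ypow k (a := 1) (b := 15) (by norm_num)
  have h0 := Y1 s k
  linarith
lemma l_B_ρ (h : On c s K) (hk : k ≤ K) (hj : j ≤ s.n k) :
    (100 * d * c.C * (s.ep c.γ K k).ρ / (s.ep c.γ K k).ϑ) ^ (2 * d + 6) ≤ (s.ep c.γ K k).Bg := by
  show (100 * d * c.C * (s.ρ k : ℝ) / s.ϑ k) ^ (2 * d + 6) ≤ s.Bg k
  rw [h.C]
  have h5 := s.hC
  have h0 := Y1 s k
  have hd : (3 : ℝ) ≤ d := by exact_mod_cast s.hd
  have a0 : 1 ≤ 100 * d * s.C := by nlinarith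
  have a1 : 100 * d * s.C ≤ pw (s.y k) := by
    have b1 : 100 * d * s.C ≤ (100 * d * s.C) ^ (10 * d) :=
      le_self_pow₀ a0 (by have := s.hd; omega)
    have b2 := s.poly k (a := 1) (by norm_num)
    rw [pow_one] at b2
    exact b1.trans ((s.κ_le k).trans (b2.trans (pw_le (by linarith))))
  have a2 : 100 * d * s.C * (s.ρ k : ℝ) / s.ϑ k ≤ pw (5 * (s.y k : ℝ) ^ 6) := by
    rw [ϑ_eq, ρ_eq, pw_neg, div_inv_eq_mul, mul_assoc (100 * d * s.C), ← pw_add]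
    refine (mul_le_mul_of_nonneg_right a1 (pw_pos _).le).trans ?_
    rw [← pw_add]
    refine pw_le ?_
    have b2 := Ymono s k (a := 5) (b := 6) (by norm_num)
    have b3 := Yle s k (b := 6) (by norm_num)
    linarith
  have hϑ : 0 < s.ϑ k := by rw [ϑ_eq]; exact pw_pos _
  refine (pow_le_pow_left₀ (by positivity) a2 _).trans ?_
  rw [pw_pow, Bg_eq]
  refine pw_le ?_
  have b1 := s.dypow k (a := 6) (b := 15) (by norm_num)
  have b2 : 3 * (s.y k : ℝ) ^ 6 ≤ d * (s.y k : ℝ) ^ 6 := by gcongr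
  have b3 : 0 ≤ (s.y k : ℝ) ^ 6 := by positivity
  push_cast
  linarith
lemma l_ρσ (h : On c s K) (hk : k ≤ K) (hj : j ≤ s.n k) :
    1 ≤ c.σ ^ 2 * (s.ep c.γ K k).ρ := by
  show 1 ≤ c.σ ^ 2 * (s.ρ k : ℝ)
  have h6 := s.σ0
  rw [h.σ, ← div_le_iff₀' (by positivity), ρ_eq]
  refine (inv_σ2 s k).trans (pw_le ?_)
  have b2 := s.ypow k (a := 1) (b := 6) (by norm_num)
  have h0 := Y1 s k
  linarith
lemma l_tail (h : On c s K) (hk : k ≤ K) (hj : j ≤ s.n k) :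
    (s.ep c.γ K k).Bg ^ 40 * Real.exp (-(s.ep c.γ K k).ϑ * (s.ep c.γ K k).ρ / 4) ≤ 1 := by
  show s.Bg k ^ 40 * Real.exp (-s.ϑ k * (s.ρ k : ℝ) / 4) ≤ 1
  have h1 := ϑρ s k (a := 16) (by norm_num)
  have h2 := s.ypow k (a := 15) (b := 16) (by norm_num)
  have h3 : 0 ≤ (s.y k : ℝ) ^ 15 := by positivity
  have h4 := exp_le_pw (a := -s.ϑ k * (s.ρ k : ℝ) / 4) (by linarith)
  rw [Bg_eq, pw_pow]
  refine (mul_le_mul_of_nonneg_left h4 (pw_pos _).le).trans ?_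
  rw [← pw_add]
  exact pw_le_one (by push_cast; linarith)
lemma l_τ0 (h : On c s K) (hk : k ≤ K) (hj : j ≤ s.n k) :
    0 ≤ (s.ep c.γ K k).τ := by
  show 0 ≤ s.τ k
  cases k with
  | zero => exact le_rfl
  | succ k => rw [Ms.τ]; positivity
lemma l_τ_le (h : On c s K) (hk : k ≤ K) (hj : j ≤ s.n k) :
    (s.ep c.γ K k).Bg ^ 5 * (s.ep c.γ K k).τ ≤ 1 := by
  show s.Bg k ^ 5 * s.τ k ≤ 1
  cases k with
  | zero => simp [Ms.τ]
  | succ k =>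
    have h1 := ϑρ s k (a := 31) (by norm_num)
    have h2 := s.ypow k (a := 30) (b := 31) (by norm_num)
    have h3 : 0 ≤ (s.y k : ℝ) ^ 15 := by positivity
    have h5 := Ymono s k (a := 15) (b := 30) (by norm_num)
    have h4 := exp_le_pw (a := -s.ϑ k * (s.ρ k : ℝ) / 2) (by linarith)
    rw [Ms.τ, Bg_eq, Bg_eq, pw_pow, pw_pow, ← mul_assoc, ← pw_add, s.y_succ]
    refine (mul_le_mul_of_nonneg_left h4 (pw_pos _).le).trans ?_
    rw [← pw_add]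
    refine pw_le_one ?_
    push_cast
    rw [← pow_mul]
    norm_num
    linarith
lemma l_logv (h : On c s K) (hk : k ≤ K) (hj : j ≤ s.n k) :
    (10 * (s.ep c.γ K k).P ^ 4 * (s.ep c.γ K k).ρ) ^ d ≤ 2 ^ (s.ep c.γ K k).P := by
  show (10 * s.P k ^ 4 * s.ρ k) ^ d ≤ 2 ^ s.P k
  have h0 := Y100 s k
  have key : (10 * (s.P k : ℝ) ^ 4 * s.ρ k) ^ d ≤ pw (s.P k) := by
    have a1 : 10 * (s.P k : ℝ) ^ 4 ≤ (s.y k : ℝ) ^ 57 := by
      have := s.ypow k (a := 56) (b := 57) (by norm_num)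
      have h3 : 0 ≤ (s.y k : ℝ) ^ 56 := by positivity
      rw [P_eq, ← pow_mul]; norm_num; linarith
    calc _ ≤ ((s.y k : ℝ) ^ 57 * s.ρ k) ^ d := by gcongr
      _ = ((s.y k : ℝ) ^ 57) ^ d * pw (d * (s.y k : ℝ) ^ 6) := by rw [mul_pow, ρ_eq, pw_pow]
      _ ≤ pw (s.y k / 1000) * pw (d * (s.y k : ℝ) ^ 6) :=
        mul_le_mul_of_nonneg_right (s.polyd k (by norm_num)) (pw_pos _).le
      _ ≤ _ := by
        rw [← pw_add, P_eq]
        refine pw_le ?_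
        have b1 := s.dypow k (a := 6) (b := 14) (by norm_num)
        have b3 := Yle s k (b := 14) (by norm_num)
        linarith
  rw [pw_nat] at key
  exact_mod_cast key
lemma l_mult (h : On c s K) (hk : k ≤ K) (hj : j ≤ s.n k) :
    (100 * ((s.ep c.γ K k).P : ℝ) ^ 3 * (s.ep c.γ K k).Q * (s.ep c.γ K k).ρ) ^ d ≤ Real.exp ((s.ep c.γ K k).P / 8) := by
  show (100 * (s.P k : ℝ) ^ 3 * s.Q k * s.ρ k) ^ d ≤ Real.exp (s.P k / 8)
  have h0 := Y100 s k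
  have b3 := Yle s k (b := 6) (by norm_num)
  have a1 : 100 * (s.P k : ℝ) ^ 3 * s.Q k * s.ρ k ≤ pw (3 * (s.y k : ℝ) ^ 6) := by
    have b1 := s.PQ_le k
    have b2 : (100 : ℝ) ≤ pw 7 := by have := pw_nat 7; norm_num at this; linarith
    calc _ = 100 * ((s.P k : ℝ) ^ 3 * s.Q k) * pw ((s.y k : ℝ) ^ 6) := by rw [ρ_eq]; ring
      _ ≤ pw 7 * pw (s.y k / 100) * pw ((s.y k : ℝ) ^ 6) :=
        mul_le_mul_of_nonneg_right (mul_le_mul b2 b1 (by positivity) (pw_pos _).le) (pw_pos _).le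
      _ ≤ _ := by rw [← pw_add, ← pw_add]; exact pw_le (by linarith)
  refine (pow_le_pow_left₀ (by positivity) a1 _).trans ?_
  rw [pw_pow]
  refine (pw_le_exp (by positivity)).trans (Real.exp_le_exp.2 ?_)
  have b1 := s.dypow k (a := 6) (b := 14) (by norm_num)
  have b2 : 0 ≤ d * (s.y k : ℝ) ^ 6 := by positivity
  rw [P_eq]
  linarith

end Crest.Agent.N334.AC.P.On
end

-- ▼ part N334/AC/P/Par4

/-! # S0520 part P: ledger of the release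
`x` at the virtual stage: `x² ≤ pw (-y⁴/8 + 25 y²)`; `1/q ≤ C/σ`; `vol_le`, `r_le_pw`, `sf_le`. -/

set_option autoImplicit false
set_option linter.unusedVariables false

open Finset

namespace Crest.Agent.N334.AC.P.On

variable {d M : ℕ} [NeZero M] {c : Cx d M} {s : Ms d} {K k j : ℕ}

namespace R4

/-- the elementary inequalities between the powers of `y` -/
lemma pows (s : Ms d) (k : ℕ) : 10 ^ 6 ≤ (s.y k : ℝ) ∧ 10 ^ 6 * (s.y k : ℝ) ≤ (s.y k : ℝ) ^ 2 ∧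
    10 ^ 6 * (s.y k : ℝ) ^ 2 ≤ (s.y k : ℝ) ^ 3 ∧ 10 ^ 6 * (s.y k : ℝ) ^ 3 ≤ (s.y k : ℝ) ^ 4 ∧
    10 ^ 6 * (s.y k : ℝ) ^ 4 ≤ (s.y k : ℝ) ^ 5 ∧ 10 ^ 6 * (s.y k : ℝ) ^ 5 ≤ (s.y k : ℝ) ^ 6 := by
  have h1 := s.ypow k (a := 0) (b := 1) (by norm_num)
  have h2 := s.ypow k (a := 1) (b := 2) (by norm_num)
  rw [pow_zero, mul_one, pow_one] at h1
  rw [pow_one] at h2
  exact ⟨h1, h2, s.ypow k (by norm_num), s.ypow k (by norm_num), s.ypow k (by norm_num),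
    s.ypow k (by norm_num)⟩

lemma y0R (s : Ms d) (k : ℕ) : (s.y0 : ℝ) ≤ s.y k := by exact_mod_cast s.y0_le k

lemma C_pw (s : Ms d) (k : ℕ) : s.C ≤ pw (s.y k / 1000) := by
  have h1 := s.C_le k
  have h2 := s.poly k (a := 1) (by norm_num)
  have h3 : s.C ≤ s.C ^ 20 := le_self_pow₀ s.hC (by norm_num)
  have h4 : 0 ≤ s.C ^ 20 := by have := s.hC; positivity
  rw [pow_one] at h2
  linarith

lemma iσ_pw (s : Ms d) (k : ℕ) : 1 / s.σ ≤ pw (s.y k) := s.inv_σ_le.trans (pw_le (y0R s k))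

lemma Cσ_pw (s : Ms d) (k i : ℕ) : s.C / s.σ ^ i ≤ pw ((i + 1) * s.y k) := by
  have h0 := s.σ0
  have h1 := (pows s k).1
  calc s.C / s.σ ^ i = s.C * (1 / s.σ) ^ i := by rw [one_div, inv_pow, div_eq_mul_inv]
    _ ≤ pw (s.y k / 1000) * pw (s.y k) ^ i := by
        have := pw_pos (s.y k / 1000)
        gcongr
        exacts [C_pw s k, iσ_pw s k]
    _ = pw (s.y k / 1000 + i * s.y k) := by rw [pw_pow, pw_add]
    _ ≤ _ := pw_le (by linarith)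

lemma θ_pw (s : Ms d) (k : ℕ) : pw (-(3 * s.y k)) ≤ s.σ ^ 2 / s.C := by
  have h0 := s.σ0
  have hC := s.hC
  have h1 := Cσ_pw s k 2
  rw [pw_neg, inv_le_comm₀ (pw_pos _) (by positivity), inv_div]
  norm_num at h1
  exact h1

lemma γ_lo (h : On c s K) : s.σ ^ 2 / s.C ≤ c.γ := by
  have := ParA.γ_ge h.init
  rwa [h.C, h.σ] at this

lemma γ_pw (h : On c s K) (k : ℕ) : pw (-(3 * s.y k)) ≤ c.γ := (θ_pw s k).trans (γ_lo h)

lemma γ_pos (h : On c s K) : 0 < c.γ := (pw_pos _).trans_le (γ_pw h 0)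

lemma γ_one (h : On c s K) : c.γ ≤ 1 := by
  have h1 := h.ok.γ_le
  have h2 : 1 ≤ c.C ^ 30 := one_le_pow₀ h.ok.C1
  have := γ_pos h
  nlinarith

lemma γC (h : On c s K) : 1 ≤ c.γ * (s.C / s.σ ^ 2) := by
  have h0 := s.σ0
  have hC := s.hC
  calc (1 : ℝ) = s.σ ^ 2 / s.C * (s.C / s.σ ^ 2) := by field_simp
    _ ≤ _ := by gcongr; exact γ_lo h

lemma Jn (s : Ms d) (k : ℕ) : s.J k + s.n k = s.y k ^ 4 := s.J_add_n k

lemma x_virt (s : Ms d) (k : ℕ) :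
    s.x k (s.n k) ≤ pw (-(s.y k : ℝ) ^ 4 / 16 + 13 * (s.y k : ℝ) ^ 2) := by
  obtain ⟨h1, h2, -⟩ := pows s k
  refine pw_le ?_
  have h3 : (s.J k : ℝ) + s.n k = (s.y k : ℝ) ^ 4 := by exact_mod_cast Jn s k
  unfold Ms.ξ
  split_ifs with hk
  · subst hk
    have h4 : (s.J 0 : ℝ) = 0 := by simp [Ms.J]
    have h5 : (s.n 0 : ℝ) ≤ ((s.n 0 - 200 * s.y0 : ℕ) : ℝ) + 200 * s.y0 := by
      have : s.n 0 ≤ (s.n 0 - 200 * s.y0) + 200 * s.y0 := by omega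
      exact_mod_cast this
    have h6 := y0R s 0
    have h7 : (0 : ℝ) ≤ s.y0 := by positivity
    linarith
  · have h4 : (s.J k : ℝ) = (s.y k : ℝ) ^ 2 := by exact_mod_cast s.J_eq k (by omega)
    linarith

lemma x_next (s : Ms d) (k : ℕ) : s.x (k + 1) 0 = pw (-(s.y k : ℝ) ^ 4 / 200) := by
  unfold Ms.x Ms.ξ
  rw [if_neg (by omega)]
  congr 1
  simp [Ms.J]
  ring

lemma J_hi (s : Ms d) (k : ℕ) : ((2 ^ (s.y k ^ 4 / 32) : ℕ) : ℝ) ≤ pw ((s.y k : ℝ) ^ 4 / 32) := by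
  rw [Nat.cast_pow, Nat.cast_ofNat, ← pw_nat]
  refine pw_le ?_
  have := Nat.cast_div_le (α := ℝ) (m := s.y k ^ 4) (n := 32)
  push_cast at this
  exact this

lemma J_lo (s : Ms d) (k : ℕ) :
    pw ((s.y k : ℝ) ^ 4 / 32 - 1) ≤ ((2 ^ (s.y k ^ 4 / 32) : ℕ) : ℝ) := by
  rw [Nat.cast_pow, Nat.cast_ofNat, ← pw_nat]
  refine pw_le ?_
  have h1 : s.y k ^ 4 ≤ 32 * (s.y k ^ 4 / 32) + 32 := by omega
  have h2 : (s.y k : ℝ) ^ 4 ≤ 32 * ((s.y k ^ 4 / 32 : ℕ) : ℝ) + 32 := by exact_mod_cast h1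
  linarith

lemma Bg_eq (s : Ms d) (k : ℕ) : s.Bg k = pw ((s.y k : ℝ) ^ 15) := by
  unfold Ms.Bg
  rw [← pw_nat]
  push_cast
  rfl

lemma two_eq : (2 : ℝ) = pw 1 := by simpa using (pw_nat 1).symm

lemma Q_pos (s : Ms d) (k : ℕ) : 1 ≤ s.Q k := by
  refine le_trans ?_ (s.Q_ge k)
  have := s.y_ge k
  exact Nat.one_le_pow _ _ (Nat.pow_pos (by omega))

lemma P_one (s : Ms d) (k : ℕ) : (1 : ℝ) ≤ s.P k := by
  have := s.y_ge k
  have : 1 ≤ s.P k := Nat.one_le_pow _ _ (by omega)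
  exact_mod_cast this

lemma P_cast (s : Ms d) (k : ℕ) : (s.P k : ℝ) = (s.y k : ℝ) ^ 14 := by simp [Ms.P]

end R4

open R4


lemma r_m1 (h : On c s K) (hk : k < K) :
    1 ≤ s.rad.m ((s.rp k).k + 1) := by
  have := s.y_ge k
  exact Nat.one_le_pow _ _ (show 0 < s.y k by omega)
lemma r_R_lo (h : On c s K) (hk : k < K) :
    2 * s.rad.r (s.rp k).k + 1 ≤ 10 * (s.rp k).R := by
  have h1 := s.r_le_ρ k
  have h2 : 1 ≤ s.ρ k := Nat.one_le_two_pow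
  change 2 * s.r k + 1 ≤ 10 * s.ρ k ^ 2
  nlinarith
lemma r_Rc (h : On c s K) (hk : k < K) :
    30 * s.rad.m ((s.rp k).k + 1) * (s.rp k).R ≤ s.rad.Rc ((s.rp k).k + 1) := le_rfl
lemma r_R_ge (h : On c s K) (hk : k < K) :
    (s.ep c.γ K k).s + (s.rp k).J * (s.ep c.γ K k).ρ + 3 * (s.ep c.γ K k).ρ ≤ (s.rp k).R := by
  have h1 := (s.sf_le k).trans (s.r_le_ρ k)
  have h2 : 2 ^ (s.y k ^ 4 / 32) + 4 ≤ s.ρ k := by
    have h3 := s.y_ge k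
    have h4 : s.y k ^ 4 / 32 + 3 ≤ s.y k ^ 6 := by
      have h5 : 1 ≤ s.y k ^ 4 := Nat.one_le_pow _ _ (by omega)
      have h6 : 4 ≤ s.y k ^ 2 := by nlinarith
      have h7 : s.y k ^ 4 * 4 ≤ s.y k ^ 6 := by
        calc s.y k ^ 4 * 4 ≤ s.y k ^ 4 * s.y k ^ 2 := Nat.mul_le_mul_left _ h6
          _ = _ := by ring
      omega
    have h5 : 1 ≤ 2 ^ (s.y k ^ 4 / 32) := Nat.one_le_two_pow
    calc 2 ^ (s.y k ^ 4 / 32) + 4 ≤ 2 ^ (s.y k ^ 4 / 32 + 3) := by rw [pow_add]; omega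
      _ ≤ _ := Nat.pow_le_pow_right (by norm_num) h4
  change s.sf k + 2 ^ (s.y k ^ 4 / 32) * s.ρ k + 3 * s.ρ k ≤ s.ρ k ^ 2
  calc _ ≤ (2 ^ (s.y k ^ 4 / 32) + 4) * s.ρ k := by rw [add_mul]; omega
    _ ≤ s.ρ k * s.ρ k := Nat.mul_le_mul_right _ h2
    _ = _ := (sq _).symm
lemma r_s2 (h : On c s K) (hk : k < K) :
    40 * s.rad.m ((s.rp k).k + 1) * (s.rp k).R ≤ (s.ep c.γ K (k + 1)).s := le_rfl
lemma r_N_eq (h : On c s K) (hk : k < K) :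
    ∃ W, (s.ep c.γ K k).a ≤ W ∧ c.N = 2 ^ W :=
  ⟨s.a K 0, sum_le_sum_of_subset (Ico_subset_Ico (Nat.zero_le _) le_rfl), h.N⟩
lemma r_a2 (h : On c s K) (hk : k < K) :
    (s.ep c.γ K (k + 1)).a + (s.ep c.γ K k).P = (s.ep c.γ K k).a := by
  change s.a K (k + 1) + s.P k = s.a K k
  unfold Ms.a
  rw [sum_eq_sum_Ico_succ_bot (show k < K + 1 by omega), add_comm]
lemma r_B_η (h : On c s K) (hk : k < K) :
    (c.N : ℝ) ≤ (s.ep c.γ K k).Bg * (c.σ * 2 ^ (s.ep c.γ K (k + 1)).a) := by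
  have h1 : s.a K 0 = ∑ i ∈ Ico 0 (k + 1), s.P i + s.a K (k + 1) :=
    (sum_Ico_consecutive _ (Nat.zero_le _) (by omega)).symm
  have h2 : ∑ i ∈ Ico 0 (k + 1), s.P i ≤ (k + 1) * s.P k := by
    refine (sum_le_card_nsmul _ _ (s.P k) fun i hi => s.P_mono ?_).trans (by simp)
    have := (mem_Ico.1 hi).2
    omega
  have h3 : 2 * (k + 1) ≤ s.y k := by
    have h4 := s.two_pow_le_y k
    have h5 : k < 2 ^ k := Nat.lt_two_pow_self
    rw [pow_add] at h4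
    omega
  have h4 : ∑ i ∈ Ico 0 (k + 1), s.P i + s.y0 ≤ s.y k ^ 15 := by
    have h5 := s.y0_le k
    have h6 := s.y_ge k
    have h7 : 2 ≤ s.P k := by
      have : s.y k ≤ s.y k ^ 14 := Nat.le_self_pow (by norm_num) _
      change 2 ≤ s.y k ^ 14
      omega
    have h8 : s.y k ^ 15 = s.y k * s.P k := by unfold Ms.P; ring
    nlinarith
  have h5 : (2 : ℝ) ^ (∑ i ∈ Ico 0 (k + 1), s.P i + s.y0) ≤ s.Bg k :=
    pow_le_pow_right₀ (by norm_num) h4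
  have h6 := s.lo
  have h7 := s.σ0
  change (c.N : ℝ) ≤ s.Bg k * (c.σ * 2 ^ s.a K (k + 1))
  rw [h.N, h.σ, h1]
  push_cast
  calc (2 : ℝ) ^ (∑ i ∈ Ico 0 (k + 1), s.P i + s.a K (k + 1))
      ≤ 2 ^ (∑ i ∈ Ico 0 (k + 1), s.P i + s.a K (k + 1)) * (s.σ * 2 ^ s.y0) :=
        le_mul_of_one_le_right (by positivity) h6
    _ = 2 ^ (∑ i ∈ Ico 0 (k + 1), s.P i + s.y0) * (s.σ * 2 ^ s.a K (k + 1)) := by
        rw [pow_add, pow_add]; ring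
    _ ≤ _ := by gcongr
lemma r_B_R (h : On c s K) (hk : k < K) :
    (100 * d * s.rad.m ((s.rp k).k + 1) * (s.rp k).R / (s.ep c.γ K k).ϑ) ^ (2 * d + 6) ≤ (s.ep c.γ K k).Bg := by
  obtain ⟨h1, h2, h3, h4, h5, h6⟩ := pows s k
  have e1 : ((s.R k : ℕ) : ℝ) = pw (2 * (s.y k : ℝ) ^ 6) := by
    unfold Ms.R Ms.ρ
    push_cast
    rw [← pw_nat, pw_pow]
    push_cast
    rfl
  have e2 : s.ϑ k = (pw (3 * (s.y k : ℝ) ^ 5))⁻¹ := by
    unfold Ms.ϑ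
    rw [← pw_nat, one_div]
    push_cast
    rfl
  have h7 : 100 * d * ((s.m k : ℕ) : ℝ) ≤ pw (s.y k / 1000) := by
    have h8 := s.dypow k (a := 8) (b := 9) (by norm_num)
    have h9 := s.poly k (a := 9) (by norm_num)
    have h10 : (0 : ℝ) ≤ d * (s.y k : ℝ) ^ 8 := by positivity
    unfold Ms.m
    push_cast
    nlinarith
  have h8 := s.dypow k (a := 6) (b := 15) (by norm_num)
  have h9 : (3 : ℝ) ≤ d := by exact_mod_cast s.hd
  have h10 : (0 : ℝ) ≤ (s.y k : ℝ) ^ 6 := by positivity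
  change (100 * d * ((s.m k : ℕ) : ℝ) * ((s.R k : ℕ) : ℝ) / s.ϑ k) ^ (2 * d + 6) ≤ s.Bg k
  rw [e1, e2, Bg_eq, div_inv_eq_mul]
  have := pw_pos (2 * (s.y k : ℝ) ^ 6)
  have := pw_pos (3 * (s.y k : ℝ) ^ 5)
  calc _ ≤ (pw (s.y k / 1000) * pw (2 * (s.y k : ℝ) ^ 6) * pw (3 * (s.y k : ℝ) ^ 5)) ^ (2 * d + 6) := by
        gcongr
    _ = pw (s.y k / 1000 + 2 * (s.y k : ℝ) ^ 6 + 3 * (s.y k : ℝ) ^ 5) ^ (2 * d + 6) := by
        rw [pw_add, pw_add]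
    _ ≤ pw (3 * (s.y k : ℝ) ^ 6) ^ (2 * d + 6) := by
        have := pw_pos (s.y k / 1000 + 2 * (s.y k : ℝ) ^ 6 + 3 * (s.y k : ℝ) ^ 5)
        gcongr
        exact pw_le (by linarith)
    _ ≤ _ := by
        rw [pw_pow]
        refine pw_le ?_
        push_cast
        nlinarith
lemma r_ε0 (h : On c s K) (hk : k < K) :
    1 ≤ (s.ep c.γ K k).Bg * (s.rp k).ε := by
  have h1 := s.ypow k (a := 4) (b := 15) (by norm_num)
  have h2 : (0 : ℝ) ≤ (s.y k : ℝ) ^ 4 := by positivity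
  change 1 ≤ s.Bg k * pw (-(s.y k : ℝ) ^ 4 / 40)
  rw [Bg_eq, ← pw_add, ← pw_zero]
  exact pw_le (by linarith)
lemma r_J_lo (h : On c s K) (hk : k < K) :
    60 * (s.rad.m ((s.rp k).k + 1) * vol d M (2 * s.rad.r (s.rp k).k + (s.ep c.γ K k).s)) * Real.log (s.ep c.γ K k).Bg < (s.rp k).ε * (s.rp k).J := by
  obtain ⟨h1, h2, h3, h4, -⟩ := pows s k
  have h5 : vol d M (2 * s.r k + s.sf k) ≤ pw (d * (3 * (s.y k : ℝ) ^ 3 + 3)) := by
    refine (vol_le _).trans ?_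
    rw [← pw_pow]
    have h6 := s.r_le_pw k
    have h7 : (s.sf k : ℝ) ≤ s.r k := by exact_mod_cast s.sf_le k
    have h8 : 1 ≤ pw (3 * (s.y k : ℝ) ^ 3) := by
      rw [← pw_zero]; exact pw_le (by positivity)
    have h9 : pw 3 = 8 := by
      have := pw_nat 3
      norm_num at this
      exact this
    gcongr
    rw [pw_add, h9]
    push_cast
    linarith
  have h6 : Real.log (s.Bg k) ≤ (s.y k : ℝ) ^ 15 := by
    unfold Ms.Bg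
    rw [Real.log_pow]
    have : Real.log 2 ≤ 1 := by linarith [Real.log_two_lt_d9]
    push_cast
    exact mul_le_of_le_one_right (by positivity) this
  have h7 : 60 * (s.y k : ℝ) ^ 23 ≤ pw (s.y k / 1000) := by
    have h8 := s.ypow k (a := 23) (b := 24) (by norm_num)
    have h9 := s.poly k (a := 24) (by norm_num)
    have : (0 : ℝ) ≤ (s.y k : ℝ) ^ 23 := by positivity
    linarith
  have h8 := s.dypow k (a := 3) (b := 4) (by norm_num)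
  have h9 : (d : ℝ) ≤ d * (s.y k : ℝ) ^ 3 :=
    le_mul_of_one_le_right (by positivity) (by linarith)
  change 60 * (((s.m k : ℕ) : ℝ) * vol d M (2 * s.r k + s.sf k)) * Real.log (s.Bg k) <
    pw (-(s.y k : ℝ) ^ 4 / 40) * ((2 ^ (s.y k ^ 4 / 32) : ℕ) : ℝ)
  have h10 := pw_pos (d * (3 * (s.y k : ℝ) ^ 3 + 3))
  have h11 : 0 ≤ vol d M (2 * s.r k + s.sf k) := zero_le_one.trans (one_le_vol _)
  calc _ ≤ 60 * (((s.m k : ℕ) : ℝ) * pw (d * (3 * (s.y k : ℝ) ^ 3 + 3))) * (s.y k : ℝ) ^ 15 := by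
        refine le_trans (mul_le_mul_of_nonneg_left h6 (by positivity)) ?_
        gcongr
    _ = 60 * (s.y k : ℝ) ^ 23 * pw (d * (3 * (s.y k : ℝ) ^ 3 + 3)) := by
        unfold Ms.m
        push_cast
        ring
    _ ≤ pw (s.y k / 1000) * pw (d * (3 * (s.y k : ℝ) ^ 3 + 3)) := by gcongr
    _ ≤ pw ((s.y k : ℝ) ^ 4 / 160 - 2) := by
        rw [← pw_add]
        exact pw_le (by linarith)
    _ < pw ((s.y k : ℝ) ^ 4 / 160 - 2) * pw 1 := by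
        rw [← two_eq]
        linarith [pw_pos ((s.y k : ℝ) ^ 4 / 160 - 2)]
    _ = pw (-(s.y k : ℝ) ^ 4 / 40) * pw ((s.y k : ℝ) ^ 4 / 32 - 1) := by
        rw [← pw_add, ← pw_add]; congr 1; ring
    _ ≤ _ := mul_le_mul_of_nonneg_left (J_lo s k) (pw_pos _).le
lemma r_J_hi (h : On c s K) (hk : k < K) :
    ((s.ep c.γ K k).P : ℝ) ^ 2 * ((s.rp k).J : ℝ) ^ 2 * ((s.sg k (s.n k)).x ^ 2 / (s.ep c.γ K k).q) ≤ (s.rp k).ε ^ 2 := by
  obtain ⟨h1, h2, h3, h4, -⟩ := pows s k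
  have h5 : pw (-(2 * s.y k)) ≤ Real.sqrt (s.Q k * c.γ) := by
    refine Real.le_sqrt_of_sq_le ?_
    have h6 : (1 : ℝ) ≤ s.Q k := by exact_mod_cast Q_pos s k
    rw [pw_pow]
    refine le_trans (pw_le ?_) ((γ_pw h k).trans (le_mul_of_one_le_left (γ_pos h).le h6))
    push_cast
    linarith
  have h6 : (s.P k : ℝ) ^ 2 ≤ pw (s.y k / 1000) := by
    rw [P_cast, ← pow_mul]
    exact s.poly k (by norm_num)
  have h7 := J_hi s k
  have h8 := x_virt s k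
  have h9 := s.x_pos k (s.n k)
  change (s.P k : ℝ) ^ 2 * ((2 ^ (s.y k ^ 4 / 32) : ℕ) : ℝ) ^ 2 *
    (s.x k (s.n k) ^ 2 / Real.sqrt (s.Q k * c.γ)) ≤ pw (-(s.y k : ℝ) ^ 4 / 40) ^ 2
  have := pw_pos (-(2 * s.y k))
  have := pw_pos (s.y k / 1000)
  calc _ ≤ pw (s.y k / 1000) * pw ((s.y k : ℝ) ^ 4 / 32) ^ 2 *
        (pw (-(s.y k : ℝ) ^ 4 / 16 + 13 * (s.y k : ℝ) ^ 2) ^ 2 / pw (-(2 * s.y k))) := by gcongr
    _ ≤ _ := by
        rw [pw_neg, div_inv_eq_mul, pw_pow, pw_pow, pw_pow, ← pw_add, ← pw_add, ← pw_add]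
        refine pw_le ?_
        push_cast
        linarith
lemma r_J_P (h : On c s K) (hk : k < K) :
    ((s.rp k).J : ℝ) ≤ Real.exp ((s.ep c.γ K k).P / 8) := by
  have h1 := s.ypow k (a := 4) (b := 14) (by norm_num)
  have h2 : (0 : ℝ) ≤ (s.y k : ℝ) ^ 4 := by positivity
  change ((2 ^ (s.y k ^ 4 / 32) : ℕ) : ℝ) ≤ Real.exp ((s.P k : ℝ) / 8)
  refine (J_hi s k).trans ((pw_le_exp (by positivity)).trans (Real.exp_le_exp.2 ?_))
  rw [P_cast]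
  linarith
lemma r_zr0 (h : On c s K) (hk : k < K) :
    0 ≤ (s.rp k).zr := (pw_pos _).le
lemma r_zr (h : On c s K) (hk : k < K) :
    (100 * s.rad.m ((s.rp k).k + 1) : ℝ) ^ d * ((s.rp k).ε + (s.sg k (s.n k)).F * (s.rp k).J) ≤ c.γ ^ 2 * (s.rp k).zr ^ 2 := by
  obtain ⟨h1, h2, h3, h4, -⟩ := pows s k
  have h5 : (100 * ((s.m k : ℕ) : ℝ)) ^ d ≤ pw (s.y k / 1000) := by
    refine le_trans ?_ (s.polyd k (a := 9) (by norm_num))
    have h6 := s.ypow k (a := 8) (b := 9) (by norm_num)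
    have : (0 : ℝ) ≤ (s.y k : ℝ) ^ 8 := by positivity
    unfold Ms.m
    push_cast
    gcongr
    linarith
  have h6 : s.F (s.J k + s.n k) ≤ pw (11 * s.y k + -(s.y k : ℝ) ^ 4 / 4) := by
    have h7 : ¬ s.y k ^ 4 ≤ 200 * s.y0 := by
      intro h8
      have h9 : (s.y k : ℝ) ^ 4 ≤ 200 * s.y0 := by exact_mod_cast h8
      linarith [y0R s k]
    rw [Jn, Ms.F, if_neg h7, pw_add]
    have h8 := Cσ_pw s k 10
    norm_num at h8
    push_cast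
    exact mul_le_mul_of_nonneg_right h8 (pw_pos _).le
  have h7 : s.F (s.J k + s.n k) * ((2 ^ (s.y k ^ 4 / 32) : ℕ) : ℝ) ≤ pw (-(s.y k : ℝ) ^ 4 / 40) := by
    refine (mul_le_mul h6 (J_hi s k) (by positivity) (pw_pos _).le).trans ?_
    rw [← pw_add]
    exact pw_le (by linarith)
  change (100 * ((s.m k : ℕ) : ℝ)) ^ d * (pw (-(s.y k : ℝ) ^ 4 / 40) +
    s.F (s.J k + s.n k) * ((2 ^ (s.y k ^ 4 / 32) : ℕ) : ℝ)) ≤
    c.γ ^ 2 * pw (-(s.y k : ℝ) ^ 4 / 100) ^ 2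
  have h8 := pw_pos (-(s.y k : ℝ) ^ 4 / 40)
  have h9 := pw_pos (-(3 * s.y k))
  calc _ ≤ (100 * ((s.m k : ℕ) : ℝ)) ^ d * (pw 1 * pw (-(s.y k : ℝ) ^ 4 / 40)) := by
        rw [← two_eq]
        gcongr
        linarith
    _ ≤ pw (s.y k / 1000) * (pw 1 * pw (-(s.y k : ℝ) ^ 4 / 40)) := by
        have := pw_pos 1
        gcongr
    _ ≤ pw (-(3 * s.y k)) ^ 2 * pw (-(s.y k : ℝ) ^ 4 / 100) ^ 2 := by
        rw [pw_pow, pw_pow, ← pw_add, ← pw_add, ← pw_add]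
        refine pw_le ?_
        push_cast
        linarith
    _ ≤ _ := by
        gcongr
        exact γ_pw h k
lemma r_e_inc (h : On c s K) (hk : k < K) :
    (s.sg k (s.n k)).e + (s.ep c.γ K k).P * (s.rp k).zr ≤ (s.sg (k + 1) 0).e := by
  have h1 := s.e_step k
  have h2 : 0 ≤ (s.P k : ℝ) ^ 3 * s.z k := by unfold Ms.z; positivity
  change s.e k (s.n k) + s.P k * (s.rp k).zr ≤ s.e (k + 1) 0
  unfold Ms.e at h1 ⊢
  push_cast at h1 ⊢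
  nlinarith
lemma r_e2_hi (h : On c s K) (hk : k < K) :
    c.κ * (s.sg (k + 1) 0).e ≤ 1 := by
  have h1 := s.E_le (k + 1)
  have h2 := s.κ_le 0
  have h3 := (pows s 0).1
  have h4 : (s.y 0 : ℝ) ≤ (s.P 0 : ℝ) ^ 3 := by
    rw [P_cast, ← pow_mul]
    exact le_self_pow₀ (by linarith) (by norm_num)
  have h5 : c.κ ≤ (s.P 0 : ℝ) ^ 3 := by
    unfold Cx.κ
    rw [h.C]
    exact h2.trans h4
  have h6 : 0 ≤ c.κ := by
    unfold Cx.κ
    have := h.ok.C1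
    positivity
  have h7 : (s.P 0 : ℝ) ^ 3 * s.e0 = 1 / 4 := by
    have := P_one s 0
    unfold Ms.e0
    field_simp
  have h8 := s.e0_pos
  change c.κ * s.e (k + 1) 0 ≤ 1
  unfold Ms.e
  rw [Nat.cast_zero, zero_mul, add_zero]
  calc c.κ * s.E (k + 1) ≤ c.κ * (2 * s.e0) := by gcongr
    _ ≤ (s.P 0 : ℝ) ^ 3 * (2 * s.e0) := by gcongr
    _ ≤ 1 := by linarith
lemma r_ε_x (h : On c s K) (hk : k < K) :
    (s.ep c.γ K k).P * (s.rp k).ε ≤ c.γ ^ 2 * (s.sg (k + 1) 0).x ^ 4 := by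
  obtain ⟨h1, h2, h3, h4, -⟩ := pows s k
  have h5 : (s.P k : ℝ) ≤ pw (s.y k / 1000) := by
    rw [P_cast]
    exact s.poly k (by norm_num)
  change (s.P k : ℝ) * pw (-(s.y k : ℝ) ^ 4 / 40) ≤ c.γ ^ 2 * s.x (k + 1) 0 ^ 4
  have h9 := pw_pos (-(3 * s.y k))
  rw [x_next]
  calc _ ≤ pw (s.y k / 1000) * pw (-(s.y k : ℝ) ^ 4 / 40) :=
        mul_le_mul_of_nonneg_right h5 (pw_pos _).le
    _ ≤ pw (-(3 * s.y k)) ^ 2 * pw (-(s.y k : ℝ) ^ 4 / 200) ^ 4 := by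
        rw [pw_pow, pw_pow, ← pw_add, ← pw_add]
        refine pw_le ?_
        push_cast
        linarith
    _ ≤ _ := by
        gcongr
        exact γ_pw h k
lemma r_x2 (h : On c s K) (hk : k < K) :
    2 * (s.sg k (s.n k)).x ≤ (s.sg (k + 1) 0).x := by
  obtain ⟨h1, h2, h3, h4, -⟩ := pows s k
  change 2 * s.x k (s.n k) ≤ s.x (k + 1) 0
  rw [x_next]
  refine (mul_le_mul_of_nonneg_left (x_virt s k) zero_le_two).trans ?_
  rw [two_eq, ← pw_add]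
  exact pw_le (by linarith)
lemma r_x21 (h : On c s K) (hk : k < K) :
    (s.sg (k + 1) 0).x ≤ 1 := by
  change s.x (k + 1) 0 ≤ 1
  have : (0 : ℝ) ≤ (s.y k : ℝ) ^ 4 := by positivity
  rw [x_next, ← pw_zero]
  exact pw_le (by linarith)
lemma r_q2 (h : On c s K) (hk : k < K) :
    0 < (s.ep c.γ K (k + 1)).q := by
  have h6 : (1 : ℝ) ≤ s.Q (k + 1) := by exact_mod_cast Q_pos s (k + 1)
  have := γ_pos h
  exact Real.sqrt_pos.2 (show 0 < (s.Q (k + 1) : ℝ) * c.γ by positivity)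
lemma r_x2q (h : On c s K) (hk : k < K) :
    10 * (s.ep c.γ K (k + 1)).q * (s.sg (k + 1) 0).x ^ 2 ≤ 1 := by
  obtain ⟨h1, h2, h3, h4, -⟩ := pows s k
  have h5 : Real.sqrt (s.Q (k + 1) * c.γ) ≤ pw ((s.y k : ℝ) ^ 2 / 100 / 2) := by
    rw [← sqrt_pw]
    refine Real.sqrt_le_sqrt ?_
    have h6 := s.PQ_le (k + 1)
    rw [s.y_succ] at h6
    push_cast at h6
    have h7 : (1 : ℝ) ≤ (s.P (k + 1) : ℝ) ^ 3 := one_le_pow₀ (P_one s _)
    refine le_trans ?_ h6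
    rw [mul_comm]
    exact mul_le_mul_of_nonneg_right ((γ_one h).trans h7) (by positivity)
  have h6 : (10 : ℝ) ≤ pw 4 := by
    have := pw_nat 4
    norm_num at this
    linarith
  change 10 * Real.sqrt (s.Q (k + 1) * c.γ) * s.x (k + 1) 0 ^ 2 ≤ 1
  rw [x_next]
  calc _ ≤ pw 4 * pw ((s.y k : ℝ) ^ 2 / 100 / 2) * pw (-(s.y k : ℝ) ^ 4 / 200) ^ 2 := by
        have := pw_pos 4
        gcongr
    _ ≤ pw 0 := by
        rw [pw_pow, ← pw_add, ← pw_add]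
        refine pw_le ?_
        push_cast
        linarith
    _ = 1 := pw_zero
lemma r_G0x (h : On c s K) (hk : k < K) :
    c.C / c.σ ^ 2 * Real.exp (-(c.σ ^ 2 / c.C) * (s.sg k (s.n k)).R) ≤ (s.sg (k + 1) 0).x ^ 2 := by
  obtain ⟨h1, h2, h3, h4, h5, -⟩ := pows s k
  have h6 : (s.y k : ℝ) ^ 5 ≤ s.σ ^ 2 / s.C * ((2 ^ (s.J k + s.n k) : ℕ) : ℝ) := by
    rw [Jn, Nat.cast_pow, Nat.cast_ofNat, ← pw_nat]
    refine (s.poly k (by norm_num)).trans (le_trans ?_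
      (mul_le_mul_of_nonneg_right (θ_pw s k) (pw_pos _).le))
    rw [← pw_add]
    refine pw_le ?_
    push_cast
    linarith
  have h7 := Cσ_pw s k 2
  change c.C / c.σ ^ 2 * Real.exp (-(c.σ ^ 2 / c.C) * ((2 ^ (s.J k + s.n k) : ℕ) : ℝ)) ≤
    s.x (k + 1) 0 ^ 2
  rw [x_next, h.C, h.σ]
  calc _ ≤ pw (((2 : ℕ) + 1) * s.y k) * pw (-(s.y k : ℝ) ^ 5) := by
        refine mul_le_mul h7 (le_trans (Real.exp_le_exp.2 ?_) (exp_le_pw (by linarith)))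
          (Real.exp_pos _).le (pw_pos _).le
        linarith
    _ ≤ _ := by
        rw [pw_pow, ← pw_add]
        refine pw_le ?_
        push_cast
        linarith
lemma r_X2 (h : On c s K) (hk : k < K) :
    3 * (s.sg (k + 1) 0).x ^ 2 ≤ (s.sg (k + 1) 0).X := by
  change 3 * s.x (k + 1) 0 ^ 2 ≤ s.X (k + 1) 0
  unfold Ms.X
  simp
lemma r_P2 (h : On c s K) (hk : k < K) :
    (s.ep c.γ K k).P ≤ (s.ep c.γ K (k + 1)).P := s.P_mono (Nat.le_succ k)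
lemma r_Q2 (h : On c s K) (hk : k < K) :
    (s.ep c.γ K k).Q ≤ (s.ep c.γ K (k + 1)).Q := s.Q_mono (Nat.le_succ k)
lemma r_D2 (h : On c s K) (hk : k < K) :
    (s.ep c.γ K k).P ≤ c.γ * (s.sg (k + 1) 0).D := by
  have h1 : (s.P k : ℝ) ≤ s.P (k + 1) := by exact_mod_cast s.P_mono (Nat.le_succ k)
  have h2 := γC h
  have h3 := P_one s (k + 1)
  change (s.P k : ℝ) ≤ c.γ * s.D (k + 1) 0
  unfold Ms.D
  rw [pow_zero, mul_one]
  nlinarith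
lemma r_R2 (h : On c s K) (hk : k < K) :
    (s.sg (k + 1) 0).R = (s.sg k (s.n k)).R := by
  change 2 ^ (s.J (k + 1) + 0) = 2 ^ (s.J k + s.n k)
  rw [s.J_add_n, add_zero]
lemma r_Rt2 (h : On c s K) (hk : k < K) :
    (s.ep c.γ K (k + 1)).Rt = (s.sg k (s.n k)).R := by
  change 2 ^ s.J (k + 1) = 2 ^ (s.J k + s.n k)
  rw [s.J_add_n]
lemma r_A2 (h : On c s K) (hk : k < K) :
    6 ≤ c.γ * (s.ep c.γ K (k + 1)).A0 := by
  have h2 := γC h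
  change 6 ≤ c.γ * (6 * s.C / s.σ ^ 2)
  rw [mul_div_assoc]
  linarith
lemma r_θ20 (h : On c s K) (hk : k < K) :
    0 ≤ (s.ep c.γ K (k + 1)).θ0 := (s.θ0_pos (k + 1)).le
lemma r_θ2 (h : On c s K) (hk : k < K) :
    (s.ep c.γ K (k + 1)).θ0 * (100 * s.rad.m ((s.rp k).k + 1) * (s.rp k).R * Real.log (s.ep c.γ K k).Bg) ≤ 1 := by
  change 1 / (100 * ((s.m k : ℕ) : ℝ) * ((s.R k : ℕ) : ℝ) * Real.log (s.Bg k)) *
    (100 * ((s.m k : ℕ) : ℝ) * ((s.R k : ℕ) : ℝ) * Real.log (s.Bg k)) ≤ 1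
  rw [one_div]
  exact inv_mul_le_one
lemma r_τ2 (h : On c s K) (hk : k < K) :
    (s.ep c.γ K k).Bg ^ 30 * Real.exp (-(s.ep c.γ K k).ϑ * (s.ep c.γ K k).ρ / 2) ≤ (s.ep c.γ K (k + 1)).τ := le_rfl

end Crest.Agent.N334.AC.P.On
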