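import Crest.Agent.N334.AC.P.Newt
import Crest.Agent.N334.AC.P.FDw_Mg
import Crest.Agent.N334.AC.P.FNs
import Crest.Agent.N334.AC.P.FEn_Mg
import Crest.Agent.N334.AC.P.Par0
import Crest.Agent.N334.AC.P.Par4_Mg
import Crest.Agent.N334.AC.P.Num
import Crest.Agent.N334.AC.P.Ends_Mg

-- ▼ part N334/AC/P/Stage
section

/-! # S0520 part P: one stage (leaf; fill the sorries, keep the statements)
`newton`, `select`, `engine` with the product of the ten families; `12 e^{-P/3} ≤ e^{-P/4}`. -/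

set_option autoImplicit false

open Finset Complex
open scoped Matrix.Norms.L2Operator Matrix

namespace Crest.Agent.N334.AC.P

variable {d M : ℕ} [NeZero M] {c : Cx d M} {e : Ep} {g : Sg} {f : Ref d M}

namespace Stg

theorem fol_trans {X : Finset (Tor d M)} {s s' s'' : St d M} (h : Fol e X s s')
    (h' : Fol e X s' s'') : Fol e X s s'' :=
  ⟨h.1.trans h'.1, fun x hx hs => (h.2 x hx hs).elim (h'.2 x hx)
    fun k => Or.inr (nbhd_mono' h'.1 le_rfl k)⟩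

theorem num {P : ℝ} (hP : 10 ^ 60 ≤ P) :
    11 * Real.exp (-P / 3) + Real.exp (-P) ≤ Real.exp (-P / 4) := by
  have h1 : Real.exp (-P) ≤ Real.exp (-P / 3) := Real.exp_le_exp.2 (by linarith)
  have h2 : Real.exp (-P / 4) = Real.exp (P / 12) * Real.exp (-P / 3) := by
    rw [← Real.exp_add]; congr 1; ring
  have h3 := Real.add_one_le_exp (P / 12)
  have h4 := Real.exp_pos (-P / 3)
  nlinarith

end Stg

theorem stage (L : Led c e g) (hf : RefOK c e f) {s : St d M} (h : Inv c e f (th0 e g) s)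
    {X : Finset (Tor d M)} (hX : Sep (10 * e.ρ) X) {rr : ℕ}
    {W : (Tor d M → ℕ × ℕ) → (Tor d M → ℝ) → Prop} (G : Game c.N rr W) (hr : 3 * e.ρ ≤ rr) {β : ℝ}
    (hβ : 0 ≤ β) (post : ∀ s' : St d M, Inv c e f (th3 e g) s' → Fol e X s s' → W s'.S (sd s'.PS β)) :
    W s.S (sd s.PS (β + Real.exp (-(e.P : ℝ) / 4))) := by
  obtain ⟨w', h1⟩ := newton L hf h
  have hN := L.ok.N0
  have hε := Real.exp_pos (-(e.P : ℝ) / 3)
  have hε' := Real.exp_pos (-(e.P : ℝ))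
  have h2 := select L hf h1 hX G hr
    (β := β + 10 * Real.exp (-(e.P : ℝ) / 3) + Real.exp (-(e.P : ℝ))) (by positivity)
    fun s0 h0 hF hD => by
      have F := (((((((((FamOK.and hN (fam_p1 L hf h0) (fam_p2 L hf h0)).and hN
        (fam_dg L hf h0)).and hN (fam_ly L hf h0)).and hN (fam_dw L hf h0)).and hN
        (fam_na L hf h0)).and hN (fam_ns L hf h0)).and hN (fam_nr L hf h0)).and hN
        (fam_hd L hf h0)).and hN (fam_en L hf h0)).mono (fun _ _ k => k)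
        (β' := 10 * Real.exp (-(e.P : ℝ) / 3)) (le_of_eq (by ring))
      refine engine hN G hr F h0.rch h0.n0 (fun t ht k => ?_)
        (fun t ω ht hr hω => ht.next L hf hr hω) (fun t F ht => ht.frz F)
        (fun t ht => ⟨ht.sub, fun y hy => ht.bas.full y (ht.sub hy), ht.bas.g3⟩) hβ
        fun t ht hA => ?_
      · obtain ⟨⟨⟨⟨⟨⟨⟨⟨⟨k1, k2⟩, k3⟩, k4⟩, k5⟩, k6⟩, k7⟩, k8⟩, k9⟩, k10⟩ := k
        exact env_of L hf h0 ht k1 k2 k3 k4 k5 k6 k7 k8 k9 k10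
      · obtain ⟨k1, k2⟩ := ht.post L hf h0 hA hD
        exact post t.toSt k1 (Stg.fol_trans (s' := s0.toSt) hF k2)
  refine G.mono h2 (fun p => ?_) fun p => ?_
  · unfold sd; split_ifs <;> positivity
  · have := Stg.num L.P_ge
    unfold sd; split_ifs <;> linarith

end Crest.Agent.N334.AC.P
end

-- ▼ part N334/AC/P/Par5
section

/-! # S0520 part P: ledger of the start and of the probabilities (leaf: fill the sorries, keep the statements) -/

set_option autoImplicit false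

open Finset

namespace Crest.Agent.N334.AC.P

variable {d M : ℕ} [NeZero M] {c : Cx d M} {s : Ms d} {K : ℕ}

namespace Pa5

lemma x4 (s : Ms d) : (s.sg 0 0).x ^ 4 = pw (-(4 / 5) * s.y 0) := by
  change pw (-s.ξ 0 0) ^ 4 = _
  rw [pw_pow, Ms.ξ, if_pos rfl, Nat.zero_sub, s.y_zero]
  congr 1
  push_cast
  ring

/-- `σ ≤ 2 · 2^{-y}` -/
lemma σ_le (s : Ms d) : s.σ ≤ 2 * pw (-s.y 0) := by
  have h := s.σ_le
  have h1 : pw 1 = 2 := by simpa using pw_nat 1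
  rwa [sub_eq_add_neg, pw_add, h1, ← s.y_zero] at h

lemma free (s : Ms d) {a : ℕ} (ha : a ≤ 1000) :
    (s.y 0 : ℝ) ^ a * pw (-s.y 0) ≤ pw (-(4 / 5) * s.y 0) := by
  refine (mul_le_mul_of_nonneg_right (s.poly 0 ha) (pw_pos _).le).trans ?_
  rw [← pw_add]
  exact pw_le (by linarith [(Nat.cast_nonneg (s.y 0) : (0 : ℝ) ≤ _)])

lemma C5 (s : Ms d) : 8 * s.C ^ 5 ≤ s.y 0 := by
  have h1 : s.C ^ 5 ≤ s.C ^ 20 := pow_le_pow_right₀ s.hC (by norm_num)
  have h2 : 0 ≤ s.C ^ 5 := pow_nonneg (zero_le_one.trans s.hC) 5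
  linarith [s.C_le 0]

lemma term (s : Ms d) (k M : ℕ) [NeZero M] :
    vol d M (s.r (k + 1)) * (2 * s.b k) ≤ Real.exp (-(s.y k : ℝ) ^ 7 / 10) := by
  rcases k with _ | k
  · rw [Ms.b, mul_zero, mul_zero]
    exact (Real.exp_pos _).le
  have hy := s.yR (k + 1)
  have h1 := s.r_le_pw (k + 1 + 1)
  have h2 := s.dypow (k + 1) (show 6 < 7 by norm_num)
  have h3 : (s.P k : ℝ) = (s.y (k + 1) : ℝ) ^ 7 := by
    rw [Ms.P, s.y_succ]; push_cast; ring
  rw [s.y_succ (k + 1)] at h1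
  rw [Ms.b, h3]
  generalize s.y (k + 1) = y at *
  have h4 : (1 : ℝ) ≤ (y : ℝ) ^ 6 := one_le_pow₀ (by linarith)
  have hd : (3 : ℝ) ≤ d := by exact_mod_cast s.hd
  have h5 : pw (3 * ((y ^ 2 : ℕ) : ℝ) ^ 3) = pw (3 * (y : ℝ) ^ 6) := by
    congr 1; push_cast; ring
  have h6 : pw 0 ≤ pw (3 * (y : ℝ) ^ 6) := pw_le (by positivity)
  have h7 : pw (3 * (y : ℝ) ^ 6 + (2 : ℕ)) ≤ pw (5 * (y : ℝ) ^ 6) := pw_le (by push_cast; linarith)
  rw [pw_add, pw_nat] at h7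
  rw [pw_zero] at h6
  have h8 : vol d M (s.r (k + 1 + 1)) ≤ pw (5 * (y : ℝ) ^ 6) ^ d :=
    (vol_le _).trans (pow_le_pow_left₀ (by positivity) (by linarith) d)
  rw [pw_pow] at h8
  have h9 := h8.trans (pw_le_exp (by positivity))
  have h10 : (2 : ℝ) ≤ Real.exp 1 := by linarith [Real.add_one_le_exp 1]
  calc _ ≤ Real.exp (7 / 10 * (d * (5 * (y : ℝ) ^ 6))) *
        (Real.exp 1 * Real.exp (-(y : ℝ) ^ 7 / 5)) := by gcongr
    _ ≤ _ := by
      rw [← Real.exp_add, ← Real.exp_add]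
      exact Real.exp_le_exp.2 (by nlinarith)

end Pa5

open Pa5

namespace On

lemma z_N_eq (h : On c s K) : ∃ W, (s.ep c.γ K 0).a ≤ W ∧ c.N = 2 ^ W := ⟨_, le_rfl, h.N⟩
lemma z_R1 (h : On c s K) : (s.sg 0 0).R = 1 := rfl
lemma z_Rt1 (h : On c s K) : (s.ep c.γ K 0).Rt = 1 := rfl
lemma z_h_lo (h : On c s K) : c.C ^ 2 ≤ (s.sg 0 0).x ^ 2 / (s.ep c.γ K 0).q := by
  have hγ := h.ok.γ0
  have h1 := h.ok.γ_hi
  have hy := s.yR 0
  have hC := s.hC
  have hQ : (s.Q 0 : ℝ) = (s.y 0 : ℝ) ^ 84 := by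
    rw [Ms.Q, if_pos rfl, Ms.P]; push_cast; ring
  have h0 : 0 < s.Q 0 * c.γ := by rw [hQ]; positivity
  change _ ≤ _ / √(s.Q 0 * c.γ)
  rw [le_div_iff₀ (Real.sqrt_pos.2 h0)]
  refine (abs_le_of_sq_le_sq' ?_ (sq_nonneg _)).2
  rw [mul_pow, Real.sq_sqrt h0.le, ← pow_mul, ← pow_mul, x4, hQ, h.C]
  rw [h.C, h.σ] at h1
  have h2 := pow_le_pow_left₀ s.σ0.le (σ_le s) 2
  have h3 : pw (-s.y 0) ≤ 1 := (pw_le (by linarith)).trans_eq pw_zero
  have h4 := pw_pos (-s.y 0)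
  refine le_trans ?_ (free s (a := 85) (by norm_num))
  calc s.C ^ (2 * 2) * ((s.y 0 : ℝ) ^ 84 * c.γ)
      ≤ s.C ^ (2 * 2) * ((s.y 0 : ℝ) ^ 84 * (s.C * (2 * pw (-s.y 0)) ^ 2)) := by
        gcongr
        exact h1.trans (by gcongr)
    _ = 4 * s.C ^ 5 * pw (-s.y 0) * ((s.y 0 : ℝ) ^ 84 * pw (-s.y 0)) := by ring
    _ ≤ s.y 0 * 1 * ((s.y 0 : ℝ) ^ 84 * pw (-s.y 0)) := by
        gcongr
        linarith [C5 s, pow_nonneg (zero_le_one.trans hC) 5]
    _ = _ := by ring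
lemma z_θ_lo (h : On c s K) : c.C ^ 2 * c.σ ≤ (s.sg 0 0).x ^ 4 := by
  rw [x4, h.C, h.σ]
  refine le_trans ?_ (free s (a := 1) (by norm_num))
  have h1 : s.C ^ 2 ≤ s.C ^ 5 := pow_le_pow_right₀ s.hC (by norm_num)
  have h2 := mul_le_mul_of_nonneg_left (σ_le s) (sq_nonneg s.C)
  have h3 : 2 * s.C ^ 2 ≤ s.y 0 := by linarith [C5 s, sq_nonneg s.C]
  have h4 := mul_le_mul_of_nonneg_right h3 (pw_pos (-s.y 0)).le
  rw [pow_one]
  linarith
lemma z_e_lo (h : On c s K) : c.κ * c.σ ≤ (s.sg 0 0).e := by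
  have hy := s.yR 0
  have e1 : (s.sg 0 0).e = 1 / (4 * (s.y 0 : ℝ) ^ 42) := by
    change s.e 0 0 = _
    rw [Ms.e, Ms.E, Ms.e0, Ms.P]
    push_cast
    ring
  rw [e1, Cx.κ, h.C, h.σ, le_div_iff₀ (by positivity)]
  refine le_trans ?_ ((free s (a := 44) (by norm_num)).trans
    ((pw_le (by linarith)).trans_eq pw_zero))
  have h1 := pw_pos (-s.y 0)
  calc _ ≤ s.y 0 * (2 * pw (-s.y 0)) * (4 * (s.y 0 : ℝ) ^ 42) := by
        gcongr
        exacts [s.σ0.le, s.κ_le 0, σ_le s]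
    _ = 8 * ((s.y 0 : ℝ) ^ 43 * pw (-s.y 0)) := by ring
    _ ≤ s.y 0 * ((s.y 0 : ℝ) ^ 43 * pw (-s.y 0)) := by
        gcongr
        linarith
    _ = _ := by ring
lemma z_D_lo (h : On c s K) : c.C ≤ c.γ * (s.sg 0 0).D := by
  have h1 := h.ok.γ_lo
  have h2 := s.σ0
  have hy := s.yR 0
  have h3 : s.C ≤ s.P 0 := by
    have h4 : s.C ≤ s.C ^ 5 := le_self_pow₀ s.hC (by norm_num)
    have h5 : (s.y 0 : ℝ) ≤ (s.y 0 : ℝ) ^ 14 := le_self_pow₀ (by linarith) (by norm_num)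
    rw [Ms.P]
    push_cast
    linarith [C5 s, s.hC]
  change _ ≤ _ * s.D 0 0
  rw [h.C, h.σ] at h1
  rw [h.C, Ms.D, pow_zero, mul_one, ← mul_div_assoc, ← mul_div_assoc, le_div_iff₀ (by positivity)]
  calc s.C * s.σ ^ 2 ≤ s.P 0 * (s.C * c.γ) := by gcongr
    _ = _ := by ring
lemma z_A_lo (h : On c s K) : c.C / c.σ ^ 2 ≤ (s.ep c.γ K 0).A0 := by
  rw [h.C, h.σ]
  exact div_le_div_of_nonneg_right (by linarith [s.hC]) (sq_nonneg _)
lemma z_θ0_le (h : On c s K) : (s.ep c.γ K 0).θ0 ≤ c.σ ^ 2 / c.C := by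
  rw [h.C, h.σ]
  exact le_rfl

end On

namespace Ms

variable (s) (γ : ℝ) (K k j : ℕ)

lemma nxt : th3 (s.ep γ K k) (s.sg k j) = th0 (s.ep γ K k) (s.sg k (j + 1)) := by
  have h1 : 2 * (s.sg k j).R = (s.sg k (j + 1)).R := by
    change 2 * 2 ^ (s.J k + j) = 2 ^ (s.J k + j + 1)
    ring
  have h2 : D' (s.ep γ K k) (s.sg k j) = (s.sg k (j + 1)).D := by
    change (s.P k : ℝ) ^ 3 * s.Q k * s.D k j = s.D k (j + 1)
    rw [D, D]
    ring
  rw [th3, h1, h2]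
  rfl
lemma ρ_le : 10 * (s.ep γ K k).ρ ≤ s.rad.r (k + 1) := by
  change 10 * s.ρ k ≤ 100 * s.m k * s.ρ k ^ 2
  have h1 : 1 ≤ s.m k := Nat.one_le_pow _ _ (lt_of_lt_of_le (by norm_num) (s.y_ge k))
  exact Nat.mul_le_mul (by omega) (Nat.le_self_pow two_ne_zero _)
lemma s_le : (s.ep γ K k).s ≤ s.rad.r (k + 1) := (s.sf_le k).trans (s.r_mono (Nat.le_succ k))
lemma b0 : 0 ≤ s.b k := by
  cases k
  exacts [le_rfl, (Real.exp_pos _).le]
lemma bud : (s.n k + 1 : ℝ) * Real.exp (-((s.ep γ K k).P : ℝ) / 4) ≤ s.b (k + 1) := by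
  have h1 : (s.n k : ℝ) + 2 ≤ 2 * (s.y k : ℝ) ^ 4 := by exact_mod_cast s.n_lt k
  have h2 := s.ypow k (show 4 < 14 by norm_num)
  have h3 : (s.P k : ℝ) = (s.y k : ℝ) ^ 14 := by rw [P]; push_cast; rfl
  have h4 : (s.n k + 1 : ℝ) ≤ Real.exp (s.P k / 20) := by
    linarith [Real.add_one_le_exp ((s.P k : ℝ) / 20), pow_nonneg (Nat.cast_nonneg (s.y k) : (0 : ℝ) ≤ _) 4]
  refine (mul_le_mul_of_nonneg_right h4 (Real.exp_pos _).le).trans (le_of_eq ?_)
  rw [← Real.exp_add, b]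
  change Real.exp (_ + -(s.P k : ℝ) / 4) = _
  congr 1
  ring
lemma hrec (M : ℕ) [NeZero M] :
    (vol d M (s.rad.Rc (k + 1)) * (2 * s.b k)) ^ s.rad.m (k + 1) ≤ s.b (k + 1) := by
  have h0 := s.b0 k
  have h1 : vol d M (s.Rc (k + 1)) * (2 * s.b k) ≤ Real.exp (-(s.y k : ℝ) ^ 7 / 10) :=
    (mul_le_mul_of_nonneg_right (vol_mono (le_of_add_le_left (s.Rc_le k))) (by positivity)).trans
      (term s k M)
  refine (pow_le_pow_left₀ (mul_nonneg (zero_le_one.trans (one_le_vol _)) (by positivity)) h1 _).trans ?_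
  rw [← Real.exp_nat_mul, b]
  change Real.exp ((s.m k : ℝ) * _) ≤ _
  rw [m, P]
  push_cast
  refine Real.exp_le_exp.2 ?_
  linarith [s.ypow k (show 14 < 15 by norm_num), pow_nonneg (Nat.cast_nonneg (s.y k) : (0 : ℝ) ≤ _) 14]
lemma term_le (M : ℕ) [NeZero M] : vol d M (s.rad.r (k + 1)) * (2 * s.b k) ≤ (1 / 2) ^ (k + 2) := by
  have hy := s.yR k
  have h1 : (s.y k : ℝ) ≤ (s.y k : ℝ) ^ 7 := le_self_pow₀ (by linarith) (by norm_num)
  have h2 : 10 * (k + 2) ≤ s.y k := by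
    have h := s.two_pow_le_y k
    have := Nat.lt_two_pow_self (n := k)
    rw [pow_add] at h
    omega
  have h3 : 10 * ((k + 2 : ℕ) : ℝ) ≤ s.y k := by exact_mod_cast h2
  refine (term s k M).trans ((exp_le_pw (by linarith)).trans
    ((pw_le (b := -((k + 2 : ℕ) : ℝ)) (by linarith)).trans_eq ?_))
  rw [pw_neg, pw_nat, one_div, inv_pow]
lemma hlow (M : ℕ) [NeZero M] (k1 : ℕ) :
    ∑ k ∈ range k1, vol d M (s.rad.r (k + 1)) * (2 * s.b k) ≤ 1 / 2 := by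
  refine (sum_le_sum fun k _ => s.term_le k M).trans ?_
  have h := geom_sum_Ico_le_of_lt_one (x := (1 / 2 : ℝ)) (m := 0) (n := k1) (by norm_num) (by norm_num)
  simp only [pow_add, ← sum_mul, range_eq_Ico]
  linarith
lemma hhigh (M : ℕ) [NeZero M] (k1 : ℕ) :
    ∑ k ∈ Ico (k1 - 1) (K + 2), vol d M (s.rad.r (k + 1)) * (2 * s.b k) ≤ (1 / 2) ^ k1 := by
  refine (sum_le_sum fun k _ => s.term_le k M).trans ?_
  have h := geom_sum_Ico_le_of_lt_one (x := (1 / 2 : ℝ)) (m := k1 - 1) (n := K + 2) (by norm_num)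
    (by norm_num)
  have h1 : (1 / 2 : ℝ) ^ (k1 - 1 + 1) ≤ (1 / 2) ^ k1 :=
    pow_le_pow_of_le_one (by norm_num) (by norm_num) (by omega)
  simp only [pow_add, ← sum_mul] at h1 ⊢
  norm_num at h h1 ⊢
  linarith
lemma last : 2 ^ s.J (K + 1) < 2 * (s.sg K (s.n K)).R := by
  change _ < 2 * 2 ^ (s.J K + s.n K)
  rw [s.J_add_n]
  have := Nat.two_pow_pos (s.J (K + 1))
  omega
lemma r_ge : 2 ^ s.J (K + 1) ≤ s.rad.r (K + 1) := by
  change 2 ^ s.y K ^ 4 ≤ 100 * s.m K * (2 ^ s.y K ^ 6) ^ 2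
  have h0 : 0 < s.y K := lt_of_lt_of_le (by norm_num) (s.y_ge K)
  have h1 : 1 ≤ s.m K := Nat.one_le_pow _ _ h0
  exact ((Nat.pow_le_pow_right two_pos (Nat.pow_le_pow_right h0 (by norm_num))).trans
    (Nat.le_self_pow two_ne_zero _)).trans (Nat.le_mul_of_pos_left _ (by omega))
lemma le_M : K ≤ 2 ^ s.J (K + 1) := by
  change K ≤ 2 ^ s.y K ^ 4
  have h1 := s.two_pow_le_y K
  have h2 := Nat.lt_two_pow_self (n := K)
  have h3 := Nat.le_self_pow (n := 4) (by norm_num) (s.y K)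
  have h4 := Nat.lt_two_pow_self (n := s.y K ^ 4)
  rw [pow_add] at h1
  omega

end Ms

lemma exists_obs_par {ε : ℝ} (hε : 0 < ε) :
    ∃ k1 nX : ℕ, (1 / 2 : ℝ) ^ nX + nX * (1 / 2 : ℝ) ^ k1 ≤ ε ∧ 1 ≤ nX := by
  obtain ⟨n, hn⟩ := exists_pow_lt_of_lt_one hε (show (1 / 2 : ℝ) < 1 by norm_num)
  obtain ⟨k, hk⟩ := exists_pow_lt_of_lt_one (show 0 < ε / 2 / (n + 1) by positivity)
    (show (1 / 2 : ℝ) < 1 by norm_num)
  refine ⟨k, n + 1, ?_, by omega⟩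
  rw [lt_div_iff₀ (by positivity)] at hk
  push_cast
  rw [pow_succ]
  linarith

end Crest.Agent.N334.AC.P
end

-- ▼ part N334/AC/P/Par
section

/-! # S0520 part P: existence of the schedule (leaf; fill the sorries, keep the statements)
`u = 1/σ`, `y_0 = ⌈log₂ u⌉`, `y_{k+1} = y_k²`, `J_0 = 0`, `J_{k+1} = y_k⁴`, `n k = J_{k+1} - J_k`, `M = 2^{J_{K+1}}`, `R = 2^{J_k+j}`,
`P = y^14`, `Q = P⁶` (`k = 0`), `P⁶⌈u²⌉`, `q = √(Qγ)`, `ρ = 2^{y⁶}`, `ϑ = 2^{-3y⁵}`, `Bg = 2^{y^15}`, `A0 = 6C u²`, `θ0 = σ²/C` then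
`1/(100 m R log Bg)` of the previous epoch, `τ = 0` then `Bg^30 e^{-ϑρ/2}` of the previous epoch, `a_{k+1} = a_k - P_k`,
`N = 2^{a_0}`, `a_0 = ∑_{k ≤ K} P_k`; `x⁴ = σ^{0.9} min(1, 2^{-(j - 200 y_0)/4})` (`k = 0`), `2^{-J_k/50 - j/4}`;
`F = Cσ³/σ^{1/20}` (`cap1`, `j ≤ 200 y_0`), else `C σ^{-10} 2^{-J/4}` (`cap2`); `X` and `e` are partial sums, `z² = ` final `X`,
`e_0 = σ^{1/20}`, `D = P C u² (P³Q)^j`; release: `R = ρ²`, `m(k+1) = y_k⁸`, `Rc(k+1) = 30 m R`, `r(k+1) = 100 m R`, `r 0 = 0`,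
`s_{k+1} = 40 m R`, `s_0 = 0`, `ε = 2^{-y⁴/40}`, `zr = 2^{-y⁴/100}`, `b 0 = 0`, `b (k+1) = e^{-P_k/5}`.
Any other choice that proves the statement is fine. -/

set_option autoImplicit false

open Finset Complex
open scoped Matrix.Norms.L2Operator Matrix

namespace Crest.Agent.N334.AC.P

variable {d M : ℕ} [NeZero M] {c : Cx d M} {e : Ep} {g : Sg} {f : Ref d M}

theorem On.led {s : Ms d} {K k j : ℕ} (h : On c s K) (hk : k ≤ K) (hj : j ≤ s.n k) :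
    Led c (s.ep c.γ K k) (s.sg k j) where
  ok := h.ok
  P_lo := h.l_P_lo hk hj
  Q_lo := h.l_Q_lo hk hj
  q0 := h.l_q0 hk hj
  q_sq := h.l_q_sq hk hj
  q_hi := h.l_q_hi hk hj
  alt := h.l_alt hk hj
  x0 := h.l_x0 hk hj
  x_le := h.l_x_le hk hj
  x_ge := h.l_x_ge hk hj
  main := h.l_main hk hj
  X0 := h.l_X0 hk hj
  X_inc := h.l_X_inc hk hj
  z0 := h.l_z0 hk hj
  X_z := h.l_X_z hk hj
  e0 := h.l_e0 hk hj
  e_inc := h.l_e_inc hk hj
  e_hi := h.l_e_hi hk hj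
  D1 := h.l_D1 hk hj
  R1 := h.l_R1 hk hj
  Rρ := h.l_Rρ hk hj
  F0 := h.l_F0 hk hj
  F_le := h.l_F_le hk hj
  cap := h.l_cap hk hj
  Ft0 := h.l_Ft0 hk hj
  Ft_le := h.l_Ft_le hk hj
  capT := h.l_capT hk hj
  four := h.l_four hk hj
  A00 := h.l_A00 hk hj
  ϑ0 := h.l_ϑ0 hk hj
  ϑ1 := h.l_ϑ1 hk hj
  θ1 := h.l_θ1 hk hj
  ϑG := h.l_ϑG hk hj
  ct := h.l_ct hk hj
  B_K := h.l_B_K hk hj
  B_x := h.l_B_x hk hj
  B_σ := h.l_B_σ hk hj
  B_ρ := h.l_B_ρ hk hj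
  ρσ := h.l_ρσ hk hj
  tail := h.l_tail hk hj
  τ0 := h.l_τ0 hk hj
  τ_le := h.l_τ_le hk hj
  logv := h.l_logv hk hj
  mult := h.l_mult hk hj

theorem On.ledR {s : Ms d} {K k : ℕ} (h : On c s K) (hk : k < K) :
    LedR c s.rad (s.ep c.γ K k) (s.sg k (s.n k)) (s.rp k) (s.ep c.γ K (k + 1)) (s.sg (k + 1) 0) where
  led := h.led hk.le le_rfl
  m1 := h.r_m1 hk
  R_lo := h.r_R_lo hk
  Rc := h.r_Rc hk
  R_ge := h.r_R_ge hk
  s2 := h.r_s2 hk
  N_eq := h.r_N_eq hk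
  a2 := h.r_a2 hk
  B_η := h.r_B_η hk
  B_R := h.r_B_R hk
  ε0 := h.r_ε0 hk
  J_lo := h.r_J_lo hk
  J_hi := h.r_J_hi hk
  J_P := h.r_J_P hk
  zr0 := h.r_zr0 hk
  zr := h.r_zr hk
  e_inc := h.r_e_inc hk
  e2_hi := h.r_e2_hi hk
  ε_x := h.r_ε_x hk
  x2 := h.r_x2 hk
  x21 := h.r_x21 hk
  q2 := h.r_q2 hk
  x2q := h.r_x2q hk
  G0x := h.r_G0x hk
  X2 := h.r_X2 hk
  P2 := h.r_P2 hk
  Q2 := h.r_Q2 hk
  D2 := h.r_D2 hk
  R2 := h.r_R2 hk
  Rt2 := h.r_Rt2 hk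
  A2 := h.r_A2 hk
  θ20 := h.r_θ20 hk
  θ2 := h.r_θ2 hk
  τ2 := h.r_τ2 hk

theorem On.led0 {s : Ms d} {K : ℕ} (h : On c s K) : Led0 c (s.ep c.γ K 0) (s.sg 0 0) where
  led := h.led (Nat.zero_le _) (Nat.zero_le _)
  N_eq := h.z_N_eq
  R1 := h.z_R1
  Rt1 := h.z_Rt1
  h_lo := h.z_h_lo
  θ_lo := h.z_θ_lo
  e_lo := h.z_e_lo
  D_lo := h.z_D_lo
  A_lo := h.z_A_lo
  θ0_le := h.z_θ0_le

theorem On.sched {s : Ms d} {K k1 : ℕ} (h : On c s K) (hk : k1 ≤ K) :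
    Sched c s.rad k1 K (s.ep c.γ K) s.n s.sg s.rp s.b ((1 / 2) ^ k1) where
  led0 := h.led0
  led := fun _ hk _ hj => h.led hk hj
  nxt := fun k _ j _ => s.nxt _ _ k j
  rel := fun _ hk => ⟨h.ledR hk, rfl⟩
  ρ_le := s.ρ_le _ _
  s_le := s.s_le _ _
  b0 := s.b0
  bud := fun k _ => s.bud _ _ k
  hrec := fun k => s.hrec k M
  hlow := s.hlow M k1
  hhigh := s.hhigh K M k1
  k1_le := hk
  last := h.hM.trans_lt (s.last K)
  r_ge := h.hM.trans_le (s.r_ge K)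

theorem exists_sched (d : ℕ) (hd : 3 ≤ d) (C : ℝ) (hC : 1 ≤ C) : ∃ c₀ > (0 : ℝ), ∀ σ : ℝ, 0 < σ → σ < c₀ →
    ∀ ε > (0 : ℝ), ∃ (ρ : Rad) (k1 nX : ℕ) (τ : ℝ), (1 / 2) ^ nX + nX * τ ≤ ε ∧ 1 ≤ nX ∧
      ∀ M₀ : ℕ, ∃ M N : ℕ, M₀ ≤ M ∧ 0 < M ∧ 0 < N ∧ 4 * (nX * (4 * ρ.r k1 + 1)) ≤ M ∧
        ∀ [NeZero M] (c : Cx d M), c.C = C → c.σ = σ → c.N = N → (∀ x, 0 ≤ c.r x ∧ c.r x ≤ 1) →
          Init d M C σ c.E c.w0 → ∃ K ep n sg rp b, Sched c ρ k1 K ep n sg rp b τ := by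
  obtain ⟨c₀, h0, h1⟩ := Ms.exists_ms d hd C hC
  refine ⟨c₀, h0, fun σ hσ hσ' ε hε => ?_⟩
  obtain ⟨s, rfl, rfl⟩ := h1 σ hσ hσ'
  obtain ⟨k1, nX, h2, h3⟩ := exists_obs_par hε
  refine ⟨s.rad, k1, nX, (1 / 2) ^ k1, h2, h3, fun M₀ => ?_⟩
  set K := k1 + M₀ + 4 * (nX * (4 * s.rad.r k1 + 1)) with hK
  have h4 := s.le_M K
  refine ⟨2 ^ s.J (K + 1), 2 ^ s.a K 0, by omega, by positivity, by positivity, by omega, ?_⟩
  intro _ c e1 e2 e3 e4 e5
  have h : On c s K := ⟨e1, e2, e3, rfl, e4, by rw [e1, e2]; exact e5⟩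
  exact ⟨K, _, _, _, _, _, h.sched (by omega)⟩

end Crest.Agent.N334.AC.P
end

-- ▼ part N334/AC/P/Game
section

/-! # S0520 part P: the game of `badFrac` against `Psi` (leaf; fill the sorries, keep the statements)
`badFrac = cavg` (rfl), `cavg_close`, `cavg_refine`, `Psi_mem` with `exists_clsA`, `exists_clsB`, `LocA.ex_le`,
`exA_mono`, `LocB.ex_le`, `Psi_mono`. `lazy`: `exA` of `ω ↦ badFrac (celA S ω)` equals `badFrac S`. -/

set_option autoImplicit false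

open Finset Complex
open scoped Matrix.Norms.L2Operator Matrix

namespace Crest.Agent.N334.AC.P

variable {d M : ℕ} [NeZero M] {c : Cx d M} {e : Ep} {g : Sg} {f : Ref d M}

/-- `badFrac ≤ Ψ` when the level `cut` carries the potential `π` -/
def Wn (c : Cx d M) (κ0 : ℝ) (R0 : ℕ) (ρ : Rad) (X : Finset (Tor d M)) (k1 K cut : ℕ)
    (base : ℕ → Tor d M → ℝ) (S : Tor d M → ℕ × ℕ) (π : Tor d M → ℝ) : Prop :=
  badFrac c.σ c.E c.w0 κ0 R0 c.N c.r (fun x => cel (S x)) ≤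
    Psi ρ X k1 K cut (Function.update base cut π)

namespace GameH

omit [NeZero M] in
theorem upd_nonneg {base : ℕ → Tor d M → ℝ} (h0 : ∀ k p, 0 ≤ base k p) (cut : ℕ)
    {π : Tor d M → ℝ} (h : ∀ p, 0 ≤ π p) (k : ℕ) (p : Tor d M) :
    0 ≤ Function.update base cut π k p := by
  rcases eq_or_ne k cut with rfl | hk
  · rw [Function.update_self]; exact h p
  · rw [Function.update_of_ne hk]; exact h0 k p

theorem psi_mem {Ω : Type} (C : Cls (Tor d M) Ω) (ρ : Rad) {X : Finset (Tor d M)} {k1 : ℕ}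
    (K cut : ℕ) (hX : Sep (4 * ρ.r k1 + 1) X) {base : ℕ → Tor d M → ℝ} (h0 : ∀ k p, 0 ≤ base k p)
    {π : Tor d M → ℝ} {π' : Ω → Tor d M → ℝ}
    (h : ∀ p, C.mem (tball p (ρ.r cut)) (π p) fun ω => π' ω p) :
    C.mem univ (Psi ρ X k1 K cut (Function.update base cut π))
      fun ω => Psi ρ X k1 K cut (Function.update base cut (π' ω)) :=
  Psi_mem C ρ hX (base' := fun ω => Function.update base cut (π' ω))
    (upd_nonneg h0 cut fun p => (C.nonneg (h p)).1)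
    (fun ω k hk => by rw [Function.update_of_ne hk, Function.update_of_ne hk])
    fun p => by simpa only [Function.update_self] using h p

theorem exA_cel {N : ℕ} (hN : 0 < N) (t : ℝ) {S : Tor d M → ℕ × ℕ} {A : Finset (Tor d M)}
    (hA : ∀ y ∈ A, S y = (0, N)) (F : (Tor d M → ℕ) → ℝ) :
    exA A N t (fun ω => cavg (fun x => cel (celA S ω x)) F) = cavg (fun x => cel (S x)) F := by
  have h : ∀ y ∈ A, (avg N fun k => cavg (fun x => cel (celA S (some (y, k)) x)) F)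
      = cavg (fun x => cel (S x)) F := fun y hy => by
    rw [cavg_close (S := fun x => cel (S x)) (y := y) hN (by simp [cel, hA y hy])]
    congr 2 with k
    congr 1
    funext x
    rcases eq_or_ne x y with rfl | hx
    · simp [celA, cel]
    · simp [celA, Function.update_of_ne hx]
  rw [exA, sum_congr rfl h, sum_const, nsmul_eq_mul, celA]
  ring

end GameH

open GameH

theorem game_psi (hN : 0 < c.N) (κ0 : ℝ) (R0 : ℕ) (ρ : Rad) {X : Finset (Tor d M)} {k1 : ℕ} (K cut : ℕ)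
    (hX : Sep (4 * ρ.r k1 + 1) X) {base : ℕ → Tor d M → ℝ} (h0 : ∀ k p, 0 ≤ base k p) :
    Game c.N (ρ.r cut) (Wn c κ0 R0 ρ X k1 K cut base) := by
  have hc : (0 : ℝ) < Fintype.card (Tor d M) := by exact_mod_cast Fintype.card_pos
  have mark : ∀ {π} {π' : (Tor d M → ℕ) → Tor d M → ℝ} (m : Tor d M → ℕ), (∀ x, 0 < m x) →
      (∀ p, LocB m (tball p (ρ.r cut)) (π p) fun ξ => π' ξ p) →
      (avgP m fun ξ => Psi ρ X k1 K cut (Function.update base cut (π' ξ)))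
        ≤ Psi ρ X k1 K cut (Function.update base cut π) := fun m hm h => by
    obtain ⟨C, -, hC⟩ := exists_clsB m hm
    exact LocB.ex_le hm (hC ▸ psi_mem C ρ K cut hX h0 (hC ▸ h))
  refine ⟨fun {S π π'} h h1 h2 => h.trans (Psi_mono ρ X k1 K cut (upd_nonneg h0 cut h1)
    fun k p => ?_), fun {S π π'} A hA h1 h2 => ?_, fun {S π π'} m hm h1 h2 => ?_,
    fun {S π π'} m len hm hl hS h1 h2 => ?_⟩
  · rcases eq_or_ne k cut with rfl | hk
    · rw [Function.update_self, Function.update_self]; exact h2 p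
    · rw [Function.update_of_ne hk, Function.update_of_ne hk]
  · have t0 : 0 ≤ dt d M := by unfold dt; positivity
    have t1 : dt d M * A.card ≤ 1 := by
      rw [dt, one_div, inv_mul_le_iff₀ hc, mul_one]
      exact_mod_cast card_le_univ A
    obtain ⟨C, -, hC⟩ := exists_clsA A c.N hN t0
    exact ((exA_cel hN _ hA _).symm.trans_le (exA_mono t0 t1 h2)).trans
      (LocA.ex_le hN t0 t1 (hC ▸ psi_mem C ρ K cut hX h0 (hC ▸ h1)))
  · exact ((avgP_const hm _).symm.trans_le (avgP_mono h2)).trans (mark m hm h1)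
  · refine le_trans ?_ ((avgP_mono h2).trans (mark m hm h1))
    have e : (fun x => cel (S x)) = fun x => Ico (S x).1 ((S x).1 + m x * len x) :=
      funext fun x => by rw [cel, hS]
    rw [e]
    exact (cavg_refine (fun x => (S x).1) m len hm hl _).le

theorem badFrac_le_one (κ0 : ℝ) (R0 : ℕ) (S : Tor d M → Finset ℕ) :
    badFrac c.σ c.E c.w0 κ0 R0 c.N c.r S ≤ 1 :=
  cavg_le_one fun _ => by split_ifs; exacts [zero_le_one, le_rfl]

end Crest.Agent.N334.AC.P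
end

-- ▼ part N334/AC/P/Top

/-! # S0520 part P (helper50): epoch induction -/

set_option autoImplicit false

open Finset Complex
open scoped Matrix.Norms.L2Operator Matrix

namespace Crest.Agent.N334.AC.P

variable {d M : ℕ} [NeZero M] {c : Cx d M} {f : Ref d M}

theorem Fol.refl (e : Ep) (X : Finset (Tor d M)) (s : St d M) : Fol e X s s :=
  ⟨subset_rfl, fun _ _ h => Or.inl h⟩

theorem Fol.trans {e : Ep} {X : Finset (Tor d M)} {s s' s'' : St d M} (h : Fol e X s s')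
    (h' : Fol e X s' s'') : Fol e X s s'' :=
  ⟨h.1.trans h'.1, fun x hx hs => (h.2 x hx hs).elim (h'.2 x hx)
    fun h3 => Or.inr (nbhd_mono' h'.1 le_rfl h3)⟩

theorem Fol.frz (e : Ep) (X F : Finset (Tor d M)) (s : St d M) : Fol e X s (s.frz (3 * e.ρ) F) := by
  refine ⟨subset_union_left, fun x _ hs => ?_⟩
  by_cases h : x ∈ nbhd F (3 * e.ρ)
  · exact Or.inr (nbhd_mono' subset_union_right le_rfl h)
  · exact Or.inl (mem_sdiff.2 ⟨hs, h⟩)

theorem sd_nonneg (PS : Finset (Tor d M)) {β : ℝ} (h : 0 ≤ β) (p : Tor d M) : 0 ≤ sd PS β p := by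
  unfold sd; split_ifs; exacts [zero_le_one, h]

theorem sd_mono (PS : Finset (Tor d M)) {β β' : ℝ} (h : β ≤ β') (p : Tor d M) :
    sd PS β p ≤ sd PS β' p := by
  unfold sd; split_ifs; exacts [le_rfl, h]

theorem sd_mem {PS : Finset (Tor d M)} (β : ℝ) {p : Tor d M} (h : p ∈ PS) : sd PS β p = 1 := if_pos h

theorem Rad.Rc_le_r (ρ : Rad) (k : ℕ) : ρ.Rc (k + 1) ≤ ρ.r (k + 1) := by
  have := ρ.le k; omega

variable {ρ : Rad} {k1 K : ℕ} {ep : ℕ → Ep} {n : ℕ → ℕ} {sg : ℕ → ℕ → Sg} {rp : ℕ → Rp} {b : ℕ → ℝ}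
  {τ : ℝ}

/-- all remaining stages of an epoch -/
theorem stages (S : Sched c ρ k1 K ep n sg rp b τ) {k : ℕ} (hk : k ≤ K) (hf : RefOK c (ep k) f)
    {X : Finset (Tor d M)} (hX : Sep (10 * (ep k).ρ) X)
    {W : (Tor d M → ℕ × ℕ) → (Tor d M → ℝ) → Prop} (G : Game c.N (ρ.r (k + 1)) W) {β : ℝ}
    (hβ : 0 ≤ β) (i : ℕ) : ∀ j, j + i = n k → ∀ s : St d M, Inv c (ep k) f (th0 (ep k) (sg k j)) s →
      (∀ s' : St d M, Inv c (ep k) f (th0 (ep k) (sg k (n k))) s' → Fol (ep k) X s s' →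
        W s'.S (sd s'.PS β)) →
      W s.S (sd s.PS (β + i * Real.exp (-((ep k).P : ℝ) / 4))) := by
  induction i with
  | zero =>
    intro j hj s hs post
    obtain rfl : j = n k := by omega
    simpa using post s hs (Fol.refl _ _ _)
  | succ i ih =>
    intro j hj s hs post
    have h1 := stage (S.led k hk j (by omega)) hf hs hX G (by have := S.ρ_le k; omega)
      (β := β + i * Real.exp (-((ep k).P : ℝ) / 4)) (by positivity) fun s' hs' hF =>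
        ih (j + 1) (by omega) s' (S.nxt k hk j (by omega) ▸ hs') fun s'' h2 h3 =>
          post s'' h2 (hF.trans h3)
    convert h1 using 2
    push_cast
    ring

open Classical in
/-- one epoch, started with the crowded seeds -/
theorem epoch (S : Sched c ρ k1 K ep n sg rp b τ) {k : ℕ} (hk : k ≤ K) (hf : RefOK c (ep k) f)
    {s : St d M} (hs : Inv c (ep k) f (th0 (ep k) (sg k 0)) s) (hPS : s.PS = ∅)
    {X : Finset (Tor d M)} (hX : Sep (10 * (ep k).ρ) X)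
    {W : (Tor d M → ℕ × ℕ) → (Tor d M → ℝ) → Prop} (G : Game c.N (ρ.r (k + 1)) W)
    (post : ∀ s' : St d M, Inv c (ep k) f (th0 (ep k) (sg k (n k))) s' → Fol (ep k) X s s' →
      (∀ p ∈ f.P, Crowded ρ k f.P p → p ∈ s'.PS) →
      W s'.S (sd s'.PS (Real.exp (-((ep k).P : ℝ) / 4)))) :
    W s.S (sd (f.P.filter (Crowded ρ k f.P)) (b (k + 1))) := by
  have h1 := stages S hk hf hX G (Real.exp_pos _).le (n k) 0 (by omega) _
    (hs.frz S.led0.led.ok.γ0.le (f.P.filter (Crowded ρ k f.P))) fun s' h2 h3 =>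
      post s' h2 ((Fol.frz _ _ _ _).trans h3) fun p hp hc =>
        h3.1 (mem_union_right _ (mem_filter.2 ⟨hp, hc⟩))
  have e1 : (s.frz (3 * (ep k).ρ) (f.P.filter (Crowded ρ k f.P))).PS = f.P.filter (Crowded ρ k f.P) := by
    simp [St.frz, hPS]
  rw [e1] at h1
  refine G.mono h1 (sd_nonneg _ (by positivity)) (sd_mono _ ?_)
  have := S.bud k hk
  linarith

open Classical in
/-- one epoch and its release -/
theorem epoch' (S : Sched c ρ k1 K ep n sg rp b τ) {k : ℕ} (hk : k < K) (hf : RefOK c (ep k) f)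
    {s : St d M} (hs : Inv c (ep k) f (th0 (ep k) (sg k 0)) s) (hPS : s.PS = ∅)
    {X : Finset (Tor d M)} (hX : Sep (10 * (ep k).ρ) X)
    {W : (Tor d M → ℕ × ℕ) → (Tor d M → ℝ) → Prop} (G : Game c.N (ρ.r (k + 1)) W)
    (post : ∀ (f2 : Ref d M) (s2 : St d M), RefOK c (ep (k + 1)) f2 →
      Inv c (ep (k + 1)) f2 (th0 (ep (k + 1)) (sg (k + 1) 0)) s2 → s2.PS = ∅ →
      (∀ x ∈ X, x ∈ s.ord → x ∈ s2.ord ∨ x ∈ nbhd f2.P (ρ.r (k + 2)) ∨ x ∈ nbhd f.P (ρ.r (k + 1))) →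
      W s2.S (sd f2.P 0)) :
    W s.S (sd (f.P.filter (Crowded ρ k f.P)) (b (k + 1))) := by
  obtain ⟨L, hu⟩ := S.rel k hk
  refine epoch S hk.le hf hs hPS hX G fun s' h2 h3 h4 => ?_
  have h5 := release L hf h2 (by rwa [hu]) (W := W) (by rwa [hu]) le_rfl fun f2 s2 r1 r2 r3 r4 r5 =>
    post f2 s2 r1 r2 r3 fun x hx hxs => by
      rcases h3.2 x hx hxs with h | h
      · rcases r5 x h with h | h | h
        · exact Or.inl h
        · exact Or.inr (Or.inl (nbhd_mono' subset_rfl (S.s_le (k + 1)) h))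
        · refine Or.inr (Or.inr (nbhd_mono' subset_rfl ?_ h))
          have a1 := L.Rc
          have a2 := L.m1
          have a3 := Rad.Rc_le_r ρ k
          rw [hu] at a1 a2
          nlinarith
      · refine Or.inr (Or.inl (nbhd_mono' r4 ?_ h))
        have a1 := S.ρ_le k
        have a2 : ρ.r (k + 1) ≤ ρ.r (k + 2) := ρ.mono (by omega)
        omega
  refine G.mono h5 (sd_nonneg _ (by positivity)) (sd_mono _ ?_)
  rw [zero_add]
  refine Real.exp_le_exp.2 ?_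
  have : (0 : ℝ) ≤ (ep k).P := Nat.cast_nonneg _
  linarith

/-- captured at a low level -/
def Low (ρ : Rad) (k1 k : ℕ) (base : ℕ → Tor d M → ℝ) (x : Tor d M) : Prop :=
  ∃ k' < k1, k' ≤ k ∧ ∃ p, tdist p x ≤ ρ.r (k' + 1) ∧ 1 ≤ base k' p

omit [NeZero M] in
theorem upd_nonneg {base : ℕ → Tor d M → ℝ} (h0 : ∀ k p, 0 ≤ base k p) (l : ℕ) {π : Tor d M → ℝ}
    (h : ∀ p, 0 ≤ π p) (k : ℕ) (p : Tor d M) : 0 ≤ Function.update base l π k p := by
  by_cases hk : k = l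
  · subst hk; rw [Function.update_self]; exact h p
  · rw [Function.update_of_ne hk]; exact h0 k p

theorem from_epoch (S : Sched c ρ k1 K ep n sg rp b τ) {R0 : ℕ} {X : Finset (Tor d M)}
    (hX : Sep (4 * ρ.r k1 + 1) X) (hX0 : X ⊆ tball 0 R0) (i : ℕ) : ∀ k, k + i = K →
    ∀ (f : Ref d M) (s : St d M) (base : ℕ → Tor d M → ℝ), RefOK c (ep k) f →
      Inv c (ep k) f (th0 (ep k) (sg k 0)) s → s.PS = ∅ → (∀ k p, 0 ≤ base k p) →
      (∀ k' p, k < k' → base k' p = b k') → (∀ p ∈ f.P, 1 ≤ base k p) →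
      ((∀ x ∈ X, x ∈ s.ord ∨ Low ρ k1 k base x) ∨ (k1 ≤ k ∧ ∃ x ∈ X, x ∈ s.ord)) →
      badFrac c.σ c.E c.w0 (c.σ ^ 2 / (10 * c.C ^ 2)) R0 c.N c.r (fun x => cel (s.S x)) ≤
        Psi ρ X k1 (K + 1) k base := by
  classical
  have hN : 0 < c.N := S.led0.led.ok.N0
  -- reduction to the game of the level `k+1`
  have red : ∀ k (f : Ref d M) (s : St d M) (base : ℕ → Tor d M → ℝ), (∀ k p, 0 ≤ base k p) →
      (∀ k' p, k < k' → base k' p = b k') → (∀ p ∈ f.P, 1 ≤ base k p) →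
      Wn c (c.σ ^ 2 / (10 * c.C ^ 2)) R0 ρ X k1 (K + 1) (k + 1) base s.S
        (sd (f.P.filter (Crowded ρ k f.P)) (b (k + 1))) →
      badFrac c.σ c.E c.w0 (c.σ ^ 2 / (10 * c.C ^ 2)) R0 c.N c.r (fun x => cel (s.S x)) ≤
        Psi ρ X k1 (K + 1) k base := by
    intro k f s base h0 h1 h2 hW
    refine le_trans hW (Psi_next ρ X k1 (K + 1) k (P := f.P)
      (upd_nonneg h0 _ (sd_nonneg _ (S.b0 _))) h2
      (fun k' p hk' => by rw [Function.update_of_ne hk']) (fun p => ?_) (h0 _))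
    rw [Function.update_self]
    by_cases hp : p ∈ f.P.filter (Crowded ρ k f.P)
    · exact Or.inr ⟨(mem_filter.1 hp).2, (sd_mem _ hp).le⟩
    · left
      rw [h1 _ _ (Nat.lt_succ_self k)]
      exact (if_neg hp).le
  have low : ∀ k (s : St d M) (base : ℕ → Tor d M → ℝ), (∀ k p, 0 ≤ base k p) →
      (∀ x ∈ X, x ∈ s.ord ∨ Low ρ k1 k base x) → (¬ ∃ x ∈ X, x ∈ s.ord) →
      badFrac c.σ c.E c.w0 (c.σ ^ 2 / (10 * c.C ^ 2)) R0 c.N c.r (fun x => cel (s.S x)) ≤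
        Psi ρ X k1 (K + 1) k base := by
    intro k s base h0 h1 h2
    refine (badFrac_le_one _ _ _).trans (one_le_Psi_low ρ h0 fun x hx => ?_)
    obtain ⟨k', a1, -, a2⟩ := (h1 x hx).resolve_left fun h => h2 ⟨x, hx, h⟩
    exact ⟨k', a1, a2⟩
  have sep1 : ∀ (R : ℕ) (x : Tor d M), Sep R {x} := fun R x a ha a' ha' hne =>
    absurd ((mem_singleton.1 ha).trans (mem_singleton.1 ha').symm) hne
  induction i with
  | zero =>
    intro k hk f s base hf hs hPS h0 h1 h2 hO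
    obtain rfl : k = K := by omega
    by_cases hx : ∃ x ∈ X, x ∈ s.ord
    swap
    · exact low k s base h0 (hO.resolve_right fun h => hx h.2) hx
    obtain ⟨x, hx, hxs⟩ := hx
    refine red k f s base h0 h1 h2 (epoch S le_rfl hf hs hPS (sep1 _ x)
      (game_psi hN _ R0 ρ (k + 1) (k + 1) hX h0) fun s' h3 h4 _ => ?_)
    have hb := upd_nonneg h0 (k + 1) (sd_nonneg s'.PS (Real.exp_pos (-((ep k).P : ℝ) / 4)).le)
    have hM : ∀ p : Tor d M, tdist p x ≤ ρ.r (k + 1) := fun p => by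
      have := two_tdist_le p x
      have := S.r_ge
      omega
    have hk1 := S.k1_le
    rcases s'.PS.eq_empty_or_nonempty with e1 | ⟨p, hp⟩
    · rcases f.P.eq_empty_or_nonempty with e2 | ⟨p, hp⟩
      · have hx' : x ∈ s'.ord := (h4.2 x (mem_singleton_self x) hxs).resolve_right fun h => by
          rw [e1] at h
          obtain ⟨q, hq, -⟩ := mem_nbhd.1 h
          exact absurd hq (notMem_empty q)
        unfold Wn
        rw [final (S.led k le_rfl _ le_rfl) hf h3 e2 e1 S.last hx' (hX0 hx)]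
        exact Psi_nonneg ρ X _ _ _ hb
      · refine (badFrac_le_one _ _ _).trans
          (one_le_Psi_high ρ hb hx (k := k) (by omega) (by omega) (hM p) ?_)
        rw [Function.update_of_ne (by omega)]
        exact h2 p hp
    · refine (badFrac_le_one _ _ _).trans
        (one_le_Psi_high ρ hb hx (k := k + 1) (by omega) le_rfl
          ((hM p).trans (ρ.mono (by omega))) ?_)
      rw [Function.update_self, sd_mem _ hp]
  | succ i ih =>
    intro k hk f s base hf hs hPS h0 h1 h2 hO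
    have G := game_psi hN (c.σ ^ 2 / (10 * c.C ^ 2)) R0 ρ (K + 1) (k + 1) hX h0
    have nx : ∀ (f2 : Ref d M) (s2 : St d M), RefOK c (ep (k + 1)) f2 →
        Inv c (ep (k + 1)) f2 (th0 (ep (k + 1)) (sg (k + 1) 0)) s2 → s2.PS = ∅ →
        ((∀ x ∈ X, x ∈ s2.ord ∨ Low ρ k1 (k + 1) (Function.update base (k + 1) (sd f2.P 0)) x) ∨
          (k1 ≤ k + 1 ∧ ∃ x ∈ X, x ∈ s2.ord)) →
        Wn c (c.σ ^ 2 / (10 * c.C ^ 2)) R0 ρ X k1 (K + 1) (k + 1) base s2.S (sd f2.P 0) :=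
      fun f2 s2 r1 r2 r3 r4 => ih (k + 1) (by omega) f2 s2 _ r1 r2 r3
        (upd_nonneg h0 _ (sd_nonneg _ le_rfl))
        (fun k' p hk' => by rw [Function.update_of_ne (by omega), h1 _ _ (by omega)])
        (fun p hp => by rw [Function.update_self, sd_mem _ hp]) r4
    by_cases hl : k + 1 < k1
    · have hO' := hO.resolve_right fun h => by omega
      have hsep : Sep (10 * (ep k).ρ) X := hX.mono (by
        have a1 := S.ρ_le k
        have a2 : ρ.r (k + 1) ≤ ρ.r k1 := ρ.mono hl.le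
        omega) subset_rfl
      refine red k f s base h0 h1 h2 (epoch' S (by omega) hf hs hPS hsep G
        fun f2 s2 r1 r2 r3 r4 => nx f2 s2 r1 r2 r3 (Or.inl fun x hx => ?_))
      rcases hO' x hx with h | ⟨k', a1, a2, p, a3, a4⟩
      · rcases r4 x hx h with h | h | h
        · exact Or.inl h
        · obtain ⟨p, hp, h⟩ := mem_nbhd.1 h
          exact Or.inr ⟨k + 1, hl, le_rfl, p, by rwa [tdist_comm],
            by rw [Function.update_self, sd_mem _ hp]⟩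
        · obtain ⟨p, hp, h⟩ := mem_nbhd.1 h
          exact Or.inr ⟨k, by omega, by omega, p, by rwa [tdist_comm],
            by rw [Function.update_of_ne (by omega)]; exact h2 p hp⟩
      · exact Or.inr ⟨k', a1, by omega, p, a3, by rwa [Function.update_of_ne (by omega)]⟩
    · by_cases hx : ∃ x ∈ X, x ∈ s.ord
      swap
      · exact low k s base h0 (hO.resolve_right fun h => hx h.2) hx
      obtain ⟨x, hx, hxs⟩ := hx
      refine red k f s base h0 h1 h2 (epoch' S (by omega) hf hs hPS (sep1 _ x) G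
        fun f2 s2 r1 r2 r3 r4 => ?_)
      have hb := upd_nonneg h0 (k + 1) (sd_nonneg f2.P le_rfl)
      rcases r4 x (mem_singleton_self x) hxs with h | h | h
      · exact nx f2 s2 r1 r2 r3 (Or.inr ⟨by omega, x, hx, h⟩)
      · obtain ⟨p, hp, h⟩ := mem_nbhd.1 h
        refine (badFrac_le_one _ _ _).trans (one_le_Psi_high ρ hb hx (k := k + 1) (p := p) (by omega)
          (by omega) (by rwa [tdist_comm]) ?_)
        rw [Function.update_self, sd_mem _ hp]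
      · obtain ⟨p, hp, h⟩ := mem_nbhd.1 h
        refine (badFrac_le_one _ _ _).trans (one_le_Psi_high ρ hb hx (k := k) (p := p) (by omega)
          (by omega) (by rwa [tdist_comm]) ?_)
        rw [Function.update_of_ne (by omega)]
        exact h2 p hp

theorem bad_le (S : Sched c ρ k1 K ep n sg rp b τ) {R0 : ℕ} {X : Finset (Tor d M)}
    (hX : Sep (4 * ρ.r k1 + 1) X) (hX0 : X ⊆ tball 0 R0) (hX1 : Disjoint X (absb d M)) :
    badFrac c.σ c.E c.w0 (c.σ ^ 2 / (10 * c.C ^ 2)) R0 c.N c.r (fun _ => range c.N) ≤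
      (1 / 2) ^ X.card + X.card * τ := by
  obtain ⟨h1, h2⟩ := init0 S.led0
  have h3 := from_epoch S hX hX0 K 0 (by omega) _ _ (fun k _ => b k) h1 h2 rfl (fun k _ => S.b0 k)
    (fun _ _ _ => rfl) (fun p hp => absurd hp (notMem_empty p))
    (Or.inl fun x hx => Or.inl (mem_compl.2 (disjoint_left.1 hX1 hx)))
  have e : (fun x => cel ((st0 c).S x)) = fun _ : Tor d M => range c.N := by
    funext x
    simp [cel, st0]
  rw [e] at h3
  exact h3.trans (Psi_init ρ X k1 (K + 1) (fun k _ => S.b0 k) (fun _ _ => le_rfl) S.hrec S.hlow S.hhigh)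

theorem proc : ProcStmt := by
  intro hI d hd
  obtain ⟨C, hC, c1, hc1, hI⟩ := hI d hd
  obtain ⟨c2, hc2, hS⟩ := exists_sched d hd C hC
  refine ⟨min c1 (min c2 (1 / C)), by positivity, fun σ hσ hσc => ?_⟩
  simp only [lt_min_iff] at hσc
  obtain ⟨M1, hI⟩ := hI σ hσ hσc.1
  refine ⟨σ ^ 2 / (10 * C ^ 2), by positivity, fun ε hε => ?_⟩
  obtain ⟨ρ, k1, nX, τ, h1, h2, hS⟩ := hS σ hσ hσc.2.1 ε hε
  refine ⟨nX * (4 * ρ.r k1 + 1), fun E₀ hE₀ M₀ => ?_⟩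
  obtain ⟨M, N, a1, a2, a3, a4, hS⟩ := hS (max M₀ M1)
  have : NeZero M := ⟨a2.ne'⟩
  obtain ⟨w0, hw⟩ := hI M (le_trans (le_max_right _ _) a1) E₀ hE₀
  have hw0 := hw E₀ hE₀ (by simp; positivity)
  have hσC : C * σ ≤ 1 := by
    have := hσc.2.2
    rw [lt_div_iff₀ (by positivity)] at this
    linarith
  refine ⟨M, inferInstance, le_trans (le_max_left _ _) a1, w0, hw0.w_le.trans (by nlinarith), ?_, N, a3,
    fun E hE hE' r hr => ?_⟩
  · refine le_trans ?_ hw0.gam_lo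
    gcongr
    nlinarith
  obtain ⟨X, x1, x2, x3, x4⟩ := exists_obs (M := M) (by omega : 1 ≤ d) nX (4 * ρ.r k1 + 1) (by omega) a4
  obtain ⟨K, ep, n, sg, rp, b, S⟩ := hS ⟨C, σ, E, w0, N, r⟩ rfl rfl rfl hr (hw E hE hE')
  have := bad_le S x2 x3 x4
  rw [x1] at this
  exact this.trans h1

end Crest.Agent.N334.AC.P
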